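import Vale.Agent.P028.Full.Defs
import Vale.Agent.P028.SameWindow.Factors

/-!
Anatomy of the coincidence factor: two classes which come from rational approximations of the
two shifts can only coincide at the primes of one small integer, the lifted form `anatZ / anatL`.
No bound on the sizes of the moduli or of the deficiencies enters, only their lift multiplier.
-/

noncomputable section

namespace Vale.Agent.P028.Full

open Finset LoHi

/-- The cross form of a coincidence number with two nodes `u / (P b)` and `u' / (P' b')`. -/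
def anatZ (n : ℤ) (P P' b b' r s : ℕ) (u u' : ℤ) : ℤ :=
  n * (P * b * (P' * b') : ℕ) + u * (r * P' * b' : ℕ) - u' * (s * P * b : ℕ)

/-- The common divisor of the coefficients of `anatZ`. -/
def anatL (b b' r s : ℕ) : ℕ := Nat.gcd (b * b') (Nat.gcd (r * b') (s * b))

theorem anatL_dvd_anatZ (n : ℤ) (P P' b b' r s : ℕ) (u u' : ℤ) :
    (anatL b b' r s : ℤ) ∣ anatZ n P P' b b' r s u u' := by
  have h1 : anatL b b' r s ∣ P * b * (P' * b') :=
    (Nat.gcd_dvd_left _ _).trans ⟨P * P', by ring⟩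
  have h2 : anatL b b' r s ∣ r * P' * b' :=
    ((Nat.gcd_dvd_right _ _).trans (Nat.gcd_dvd_left _ _)).trans ⟨P', by ring⟩
  have h3 : anatL b b' r s ∣ s * P * b :=
    ((Nat.gcd_dvd_right _ _).trans (Nat.gcd_dvd_right _ _)).trans ⟨P, by ring⟩
  exact dvd_sub (dvd_add ((Int.natCast_dvd_natCast.2 h1).mul_left n)
    ((Int.natCast_dvd_natCast.2 h2).mul_left u)) ((Int.natCast_dvd_natCast.2 h3).mul_left u')

/-- The size of the cross form. `r` and `s` stand for `r'` and `q'`. -/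
theorem abs_anatZ_le {γ f f' D T T' : ℝ} {n u u' : ℤ} {P P' b b' r s : ℕ}
    (hn : |(n : ℝ) + γ * ((r : ℝ) - s)| ≤ 2 * D) (hT : 0 ≤ T) (hT' : 0 ≤ T')
    (hP : (P : ℝ) ≤ T) (hP' : (P' : ℝ) ≤ T')
    (hu : |(P : ℝ) * (γ * b) - u| ≤ f * b * T)
    (hu' : |(P' : ℝ) * (γ * b') - u'| ≤ f' * b' * T')
    (hfr : f * r ≤ D) (hfs : f' * s ≤ D) :
    |(anatZ n P P' b b' r s u u' : ℝ)| ≤ 4 * T * T' * (D * (b * b')) := by
  have hD : 0 ≤ D := by linarith [abs_nonneg ((n : ℝ) + γ * ((r : ℝ) - s))]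
  have hbb : (0 : ℝ) ≤ b * b' := by positivity
  have e : (anatZ n P P' b b' r s u u' : ℝ) =
      ((n : ℝ) + γ * ((r : ℝ) - s)) * ((P : ℝ) * P' * (b * b')) -
        ((P : ℝ) * (γ * b) - u) * ((r : ℝ) * P' * b') +
        ((P' : ℝ) * (γ * b') - u') * ((s : ℝ) * P * b) := by
    simp only [anatZ]
    push_cast
    ring
  have t1 : |((n : ℝ) + γ * ((r : ℝ) - s)) * ((P : ℝ) * P' * (b * b'))| ≤
      2 * D * (T * T' * (b * b')) := by
    rw [abs_mul, abs_of_nonneg (by positivity : (0 : ℝ) ≤ (P : ℝ) * P' * (b * b'))]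
    gcongr
  have t2 : |((P : ℝ) * (γ * b) - u) * ((r : ℝ) * P' * b')| ≤ D * (T * T' * (b * b')) := by
    rw [abs_mul, abs_of_nonneg (by positivity : (0 : ℝ) ≤ (r : ℝ) * P' * b')]
    refine (mul_le_mul_of_nonneg_right hu (by positivity)).trans ?_
    calc f * b * T * ((r : ℝ) * P' * b') = f * r * (T * P' * (b * b')) := by ring
      _ ≤ D * (T * P' * (b * b')) := mul_le_mul_of_nonneg_right hfr (by positivity)
      _ ≤ D * (T * T' * (b * b')) := by gcongr
  have t3 : |((P' : ℝ) * (γ * b') - u') * ((s : ℝ) * P * b)| ≤ D * (T * T' * (b * b')) := by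
    rw [abs_mul, abs_of_nonneg (by positivity : (0 : ℝ) ≤ (s : ℝ) * P * b)]
    refine (mul_le_mul_of_nonneg_right hu' (by positivity)).trans ?_
    calc f' * b' * T' * ((s : ℝ) * P * b) = f' * s * (P * T' * (b * b')) := by ring
      _ ≤ D * (P * T' * (b * b')) := mul_le_mul_of_nonneg_right hfs (by positivity)
      _ ≤ D * (T * T' * (b * b')) := by gcongr
  rw [e]
  calc _ ≤ 2 * D * (T * T' * (b * b')) + D * (T * T' * (b * b')) + D * (T * T' * (b * b')) :=
        (abs_add_le _ _).trans (add_le_add ((abs_sub _ _).trans (add_le_add t1 t2)) t3)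
    _ = _ := by ring

/-- The lifted form is at most `4 T T' D M`, `M = b b' / anatL`. -/
theorem abs_anatZ_div_le {γ f f' D T T' : ℝ} {n u u' : ℤ} {P P' b b' r s : ℕ}
    (hn : |(n : ℝ) + γ * ((r : ℝ) - s)| ≤ 2 * D) (hT : 0 ≤ T) (hT' : 0 ≤ T')
    (hP : (P : ℝ) ≤ T) (hP' : (P' : ℝ) ≤ T')
    (hu : |(P : ℝ) * (γ * b) - u| ≤ f * b * T)
    (hu' : |(P' : ℝ) * (γ * b') - u'| ≤ f' * b' * T')
    (hfr : f * r ≤ D) (hfs : f' * s ≤ D) (hb : 0 < b) (hb' : 0 < b') :
    |((anatZ n P P' b b' r s u u' / (anatL b b' r s : ℤ) : ℤ) : ℝ)| ≤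
      4 * T * T' * (D * ((b * b' / anatL b b' r s : ℕ) : ℝ)) := by
  have hL : 0 < anatL b b' r s := Nat.gcd_pos_of_pos_left _ (Nat.mul_pos hb hb')
  have hL' : (0 : ℝ) < anatL b b' r s := by exact_mod_cast hL
  have hdl : anatL b b' r s ∣ b * b' := Nat.gcd_dvd_left _ _
  rw [Int.cast_div (anatL_dvd_anatZ ..) (by exact_mod_cast hL.ne'),
    Nat.cast_div hdl hL'.ne', abs_div]
  push_cast
  rw [abs_of_pos hL', div_le_iff₀ hL']
  refine (abs_anatZ_le hn hT hT' hP hP' hu hu' hfr hfs).trans (le_of_eq ?_)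
  field_simp

/-- An exact pair: the cross form of a near coincidence vanishes when the lifted level is small. -/
theorem anatZ_eq_zero {γ f f' D T T' : ℝ} {n u u' : ℤ} {P P' b b' r s : ℕ}
    (hn : |(n : ℝ) + γ * ((r : ℝ) - s)| ≤ 2 * D) (hT : 0 ≤ T) (hT' : 0 ≤ T')
    (hP : (P : ℝ) ≤ T) (hP' : (P' : ℝ) ≤ T')
    (hu : |(P : ℝ) * (γ * b) - u| ≤ f * b * T)
    (hu' : |(P' : ℝ) * (γ * b') - u'| ≤ f' * b' * T')
    (hfr : f * r ≤ D) (hfs : f' * s ≤ D) (hb : 0 < b) (hb' : 0 < b')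
    (hsmall : 4 * T * T' * (D * ((b * b' / anatL b b' r s : ℕ) : ℝ)) < 1) :
    anatZ n P P' b b' r s u u' = 0 := by
  have h := (abs_anatZ_div_le hn hT hT' hP hP' hu hu' hfr hfs hb hb').trans_lt hsmall
  rw [← Int.cast_abs, ← Int.cast_one, Int.cast_lt, Int.abs_lt_one_iff] at h
  have hd := anatL_dvd_anatZ n P P' b b' r s u u'
  rw [← Int.ediv_mul_cancel hd, h, zero_mul]

/-- A prime at which the two classes coincide divides the lifted form. -/
theorem dvd_anatZ_div {p : ℕ} (hp : p.Prime) {n u u' k k' : ℤ} {P P' b b' r s : ℕ}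
    (hPb : ¬ p ∣ P * b) (hPb' : ¬ p ∣ P' * b')
    (hk : (p : ℤ) ∣ k * (P * b : ℕ) + u) (hk' : (p : ℤ) ∣ k' * (P' * b' : ℕ) + u')
    (hn : (p : ℤ) ∣ n - (k * (r : ℤ) - k' * (s : ℤ))) :
    (p : ℤ) ∣ anatZ n P P' b b' r s u u' / (anatL b b' r s : ℤ) := by
  have e : anatZ n P P' b b' r s u u' =
      (n - (k * (r : ℤ) - k' * (s : ℤ))) * (P * b * (P' * b') : ℕ) +
        (k * (P * b : ℕ) + u) * (r * P' * b' : ℕ) -
        (k' * (P' * b' : ℕ) + u') * (s * P * b : ℕ) := by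
    simp only [anatZ]
    push_cast
    ring
  have hZ : (p : ℤ) ∣ anatZ n P P' b b' r s u u' := by
    rw [e]
    exact dvd_sub (dvd_add (hn.mul_right _) (hk.mul_right _)) (hk'.mul_right _)
  have hd := anatL_dvd_anatZ n P P' b b' r s u u'
  rw [← Int.ediv_mul_cancel hd] at hZ
  refine ((Nat.prime_iff_prime_int.1 hp).dvd_or_dvd hZ).resolve_right fun hL => ?_
  have hL' : p ∣ b * b' := (Int.natCast_dvd_natCast.1 hL).trans (Nat.gcd_dvd_left _ _)
  rcases hp.dvd_mul.1 hL' with h | h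
  · exact hPb (h.mul_left P)
  · exact hPb' (h.mul_left P')

/-- The primes above `y` of a nonzero integer have a small product of ratios. -/
theorem prod_ratio_of_dvd_le {N : ℤ} (hN : N ≠ 0) {y : ℝ} (hy : 1 ≤ y) (S : Finset ℕ)
    (hS : ∀ p ∈ S, p.Prime ∧ (p : ℤ) ∣ N ∧ y < (p : ℝ)) :
    ∏ p ∈ S, ratio p ≤ Real.exp (4 * Real.log |(N : ℝ)| / y) := by
  have hy0 : 0 < y := by linarith
  have hdvd : (∏ p ∈ S, p) ∣ N.natAbs :=
    Finset.prod_primes_dvd _ (fun p hp => (hS p hp).1.prime)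
      (fun p hp => Int.natCast_dvd.1 (hS p hp).2.1)
  have h2 : 2 ^ S.card ≤ N.natAbs :=
    (pow_card_le_prod S (fun p => p) 2 fun p hp => (hS p hp).1.two_le).trans
      (Nat.le_of_dvd (Int.natAbs_pos.2 hN) hdvd)
  have hlog : (S.card : ℝ) * Real.log 2 ≤ Real.log |(N : ℝ)| := by
    have h : ((2 : ℝ) ^ S.card) ≤ |(N : ℝ)| := by
      rw [← Int.cast_abs, ← Int.natCast_natAbs, Int.cast_natCast]
      exact_mod_cast h2
    calc (S.card : ℝ) * Real.log 2 = Real.log ((2 : ℝ) ^ S.card) := (Real.log_pow _ _).symm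
      _ ≤ _ := Real.log_le_log (by positivity) h
  have hterm : ∀ p ∈ S, ratio p ≤ Real.exp (2 / y) := by
    intro p hp
    obtain ⟨hpp, -, hpy⟩ := hS p hp
    have hp2 : (2 : ℝ) ≤ p := by exact_mod_cast hpp.two_le
    have h1 : ratio p ≤ 2 / y + 1 := by
      have h' : (p : ℝ) / ((p : ℝ) - 1) ≤ 2 / (p : ℝ) + 1 := by
        rw [div_add_one (by linarith), div_le_div_iff₀ (by linarith) (by linarith)]
        nlinarith
      have h'' : 2 / (p : ℝ) ≤ 2 / y := div_le_div_of_nonneg_left (by norm_num) hy0 hpy.le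
      rw [ratio]
      linarith
    exact h1.trans (Real.add_one_le_exp _)
  calc ∏ p ∈ S, ratio p ≤ ∏ _p ∈ S, Real.exp (2 / y) :=
        prod_le_prod (fun p hp => div_nonneg (Nat.cast_nonneg p) (by
          have : (2 : ℝ) ≤ p := by exact_mod_cast (hS p hp).1.two_le
          linarith)) hterm
    _ = Real.exp ((S.card : ℝ) * (2 / y)) := by
        rw [prod_const, ← Real.exp_nat_mul]
    _ ≤ _ := by
        refine Real.exp_le_exp.2 ?_
        have := Real.log_two_gt_d9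
        have hc : 2 * (S.card : ℝ) ≤ 4 * Real.log |(N : ℝ)| := by nlinarith [Nat.cast_nonneg (α := ℝ) S.card]
        calc (S.card : ℝ) * (2 / y) = 2 * (S.card : ℝ) / y := by ring
          _ ≤ _ := div_le_div_of_nonneg_right hc hy0.le

/-- The coincidence factor of two systems of classes given by nodes is controlled by the lifted
form, unless the pair is exact. -/
theorem wCoin_le {γ f f' D T T' y : ℝ} {n u u' : ℤ} {P P' b b' q r : ℕ} (K : Classes)
    (hn : |(n : ℝ) + γ * mdiff q r| ≤ 2 * D) (hT : 0 ≤ T) (hT' : 0 ≤ T')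
    (hP : (P : ℝ) ≤ T) (hP' : (P' : ℝ) ≤ T')
    (hu : |(P : ℝ) * (γ * b) - u| ≤ f * b * T)
    (hu' : |(P' : ℝ) * (γ * b') - u'| ≤ f' * b' * T')
    (hfr : f * (qd r q : ℝ) ≤ D) (hfs : f' * (qd q r : ℝ) ≤ D) (hb : 0 < b) (hb' : 0 < b')
    (hy : 1 ≤ y)
    (hdet : ∀ p ∈ K.det q, y < (p : ℝ) ∧ ¬ p ∣ P * b ∧ (p : ℤ) ∣ K.cls q p * (P * b : ℕ) + u)
    (hdet' : ∀ p ∈ K.det r, ¬ p ∣ P' * b' ∧ (p : ℤ) ∣ K.cls r p * (P' * b' : ℕ) + u')
    (hZ : anatZ n P P' b b' (qd r q) (qd q r) u u' ≠ 0) :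
    wCoin K q r n ≤
      Real.exp (4 * Real.log (4 * T * T' *
        (D * ((b * b' / anatL b b' (qd r q) (qd q r) : ℕ) : ℝ))) / y) := by
  have hn' : |(n : ℝ) + γ * ((qd r q : ℝ) - qd q r)| ≤ 2 * D := by
    simpa [mdiff] using hn
  set N := anatZ n P P' b b' (qd r q) (qd q r) u u' / (anatL b b' (qd r q) (qd q r) : ℤ) with hN
  have hN0 : N ≠ 0 := fun h => hZ (by
    rw [← Int.ediv_mul_cancel (anatL_dvd_anatZ n P P' b b' (qd r q) (qd q r) u u'), ← hN, h,
      zero_mul])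
  refine (prod_ratio_of_dvd_le hN0 hy _ fun p hp => ?_).trans ?_
  · obtain ⟨hm, -, hdvd⟩ := mem_filter.1 hp
    obtain ⟨hq', hr'⟩ := mem_inter.1 hm
    obtain ⟨h1, h2, h3⟩ := hdet p hq'
    obtain ⟨h2', h3'⟩ := hdet' p hr'
    have hpp := Nat.prime_of_mem_primeFactors (K.det_sub q hq')
    exact ⟨hpp, dvd_anatZ_div hpp h2 h2' h3 h3' hdvd, h1⟩
  · have hpos : 0 < |(N : ℝ)| := abs_pos.2 (by exact_mod_cast hN0)
    refine Real.exp_le_exp.2 (div_le_div_of_nonneg_right ?_ (by linarith))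
    exact mul_le_mul_of_nonneg_left (Real.log_le_log hpos
      (abs_anatZ_div_le hn' hT hT' hP hP' hu hu' hfr hfs hb hb')) (by norm_num)

/-- The product of the ratios of all primes up to `z`. -/
theorem prod_ratio_le_of_le (S : Finset ℕ) {z : ℝ} (hz : 0 ≤ z)
    (hS : ∀ p ∈ S, p.Prime ∧ (p : ℝ) ≤ z) : ∏ p ∈ S, ratio p ≤ z + 1 := by
  have h2 : ∀ p ∈ S, 2 ≤ p := fun p hp => (hS p hp).1.two_le
  have hone : ∀ i : ℕ, 1 ≤ ratio (i + 2) := fun i => one_le_ratio (by omega)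
  calc ∏ p ∈ S, ratio p = ∏ i ∈ S.image (fun p => p - 2), ratio (i + 2) := by
        rw [prod_image fun a ha b hb h => by have := h2 a ha; have := h2 b hb; omega]
        exact prod_congr rfl fun p hp => by rw [Nat.sub_add_cancel (h2 p hp)]
    _ ≤ ∏ i ∈ range ⌊z⌋₊, ratio (i + 2) := by
        refine prod_le_prod_of_subset_of_one_le (fun i hi => ?_)
          (fun i _ => zero_le_one.trans (hone i)) (fun i _ _ => hone i)
        obtain ⟨p, hp, rfl⟩ := mem_image.1 hi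
        have := Nat.le_floor (hS p hp).2
        have := h2 p hp
        exact mem_range.2 (by omega)
    _ = (⌊z⌋₊ : ℝ) + 1 := prod_range_ratio _
    _ ≤ _ := by linarith [Nat.floor_le hz]

/-- The coincidence factor when the threshold of the deleted primes is at least `log (T T')`:
only the logarithm of the lifted level `Λ ≥ log (D M)` remains. -/
theorem wCoin_le_log {γ f f' D T T' y Λ : ℝ} {n u u' : ℤ} {P P' b b' q r : ℕ} (K : Classes)
    (hn : |(n : ℝ) + γ * mdiff q r| ≤ 2 * D) (hD : 0 < D) (hT : 1 ≤ T) (hT' : 1 ≤ T')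
    (hP : (P : ℝ) ≤ T) (hP' : (P' : ℝ) ≤ T')
    (hu : |(P : ℝ) * (γ * b) - u| ≤ f * b * T)
    (hu' : |(P' : ℝ) * (γ * b') - u'| ≤ f' * b' * T')
    (hfr : f * (qd r q : ℝ) ≤ D) (hfs : f' * (qd q r : ℝ) ≤ D) (hb : 0 < b) (hb' : 0 < b')
    (hy : 1 ≤ y) (hyT : Real.log (T * T') ≤ y) (hΛ0 : 0 ≤ Λ)
    (hΛ : Real.log (D * ((b * b' / anatL b b' (qd r q) (qd q r) : ℕ) : ℝ)) ≤ Λ)
    (hdet : ∀ p ∈ K.det q, y < (p : ℝ) ∧ ¬ p ∣ P * b ∧ (p : ℤ) ∣ K.cls q p * (P * b : ℕ) + u)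
    (hdet' : ∀ p ∈ K.det r, ¬ p ∣ P' * b' ∧ (p : ℤ) ∣ K.cls r p * (P' * b' : ℕ) + u')
    (hZ : anatZ n P P' b b' (qd r q) (qd q r) u u' ≠ 0) :
    wCoin K q r n ≤ (Λ + 1) * Real.exp 16 := by
  have hn' : |(n : ℝ) + γ * ((qd r q : ℝ) - qd q r)| ≤ 2 * D := by
    simpa [mdiff] using hn
  set N := anatZ n P P' b b' (qd r q) (qd q r) u u' / (anatL b b' (qd r q) (qd q r) : ℤ) with hN
  have hN0 : N ≠ 0 := fun h => hZ (by
    rw [← Int.ediv_mul_cancel (anatL_dvd_anatZ n P P' b b' (qd r q) (qd q r) u u'), ← hN, h,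
      zero_mul])
  set z := max y Λ with hz
  have hz1 : 1 ≤ z := hy.trans (le_max_left _ _)
  set S := (K.det q ∩ K.det r).filter (fun p => ¬ p ∣ qd q r * qd r q ∧
      (p : ℤ) ∣ n - (K.cls q p * (qd r q : ℤ) - K.cls r p * (qd q r : ℤ))) with hSdef
  have hprime : ∀ p ∈ S, p.Prime := fun p hp =>
    Nat.prime_of_mem_primeFactors (K.det_sub q (mem_inter.1 (mem_filter.1 hp).1).1)
  have hlow : ∏ p ∈ S.filter (fun p : ℕ => (p : ℝ) ≤ z), ratio p ≤ Λ + 1 := by
    rcases le_total Λ y with h | h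
    · rw [filter_false_of_mem, prod_empty]
      · linarith
      · intro p hp hpz
        have := (hdet p (mem_inter.1 (mem_filter.1 hp).1).1).1
        rw [hz, max_eq_left h] at hpz
        linarith
    · refine prod_ratio_le_of_le _ hΛ0 fun p hp => ⟨hprime p (mem_filter.1 hp).1, ?_⟩
      have := (mem_filter.1 hp).2
      rwa [hz, max_eq_right h] at this
  have hhigh : ∏ p ∈ S.filter (fun p : ℕ => ¬ (p : ℝ) ≤ z), ratio p ≤ Real.exp 16 := by
    refine (prod_ratio_of_dvd_le hN0 hz1 _ fun p hp => ?_).trans (Real.exp_le_exp.2 ?_)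
    · obtain ⟨hp1, hpz⟩ := mem_filter.1 hp
      obtain ⟨hm, -, hdvd⟩ := mem_filter.1 hp1
      obtain ⟨hq', hr'⟩ := mem_inter.1 hm
      obtain ⟨-, h2, h3⟩ := hdet p hq'
      obtain ⟨h2', h3'⟩ := hdet' p hr'
      exact ⟨hprime p hp1, dvd_anatZ_div (hprime p hp1) h2 h2' h3 h3' hdvd, not_le.1 hpz⟩
    · have hpos : 0 < |(N : ℝ)| := abs_pos.2 (by exact_mod_cast hN0)
      have hTT : 0 < T * T' := by positivity
      set M := ((b * b' / anatL b b' (qd r q) (qd q r) : ℕ) : ℝ) with hM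
      have hM0 : 0 < M := by
        rw [hM, Nat.cast_pos]
        have hd : anatL b b' (qd r q) (qd q r) ∣ b * b' := Nat.gcd_dvd_left _ _
        exact Nat.div_pos (Nat.le_of_dvd (Nat.mul_pos hb hb') hd)
          (Nat.pos_of_dvd_of_pos hd (Nat.mul_pos hb hb'))
      have hle := Real.log_le_log hpos (abs_anatZ_div_le hn' (by linarith) (by linarith) hP hP'
        hu hu' hfr hfs hb hb')
      rw [show 4 * T * T' * (D * M) = 4 * (T * T' * (D * M)) by ring,
        Real.log_mul (by norm_num) (by positivity), Real.log_mul hTT.ne' (by positivity)] at hle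
      have h4 : Real.log 4 ≤ 2 := by
        rw [show (4 : ℝ) = 2 ^ 2 by norm_num, Real.log_pow]
        have := Real.log_two_lt_d9
        push_cast
        linarith
      have := le_max_left y Λ
      have := le_max_right y Λ
      rw [div_le_iff₀ (by linarith)]
      linarith
  show ∏ p ∈ S, ratio p ≤ _
  rw [← prod_filter_mul_prod_filter_not S (fun p : ℕ => (p : ℝ) ≤ z)]
  refine mul_le_mul hlow hhigh (prod_nonneg fun p hp => ?_) (by linarith)
  exact zero_le_one.trans (one_le_ratio (hprime p (mem_filter.1 hp).1).two_le)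

/-- Exact pairs: a deleted prime of the first node which divides `q'` kills the coincidence,
unless it divides the second node's denominator. -/
theorem not_exact_of_det {p : ℕ} (hp : p.Prime) {n u u' k : ℤ} {P P' b b' r s : ℕ}
    (hPb' : ¬ p ∣ P' * b') (hPb : ¬ p ∣ P * b) (hs : p ∣ s)
    (hk : (p : ℤ) ∣ k * (P * b : ℕ) + u) (hn : ¬ (p : ℤ) ∣ n - k * (r : ℤ)) :
    anatZ n P P' b b' r s u u' ≠ 0 := by
  intro h
  have e : anatZ n P P' b b' r s u u' =
      (n - k * (r : ℤ)) * (P * b * (P' * b') : ℕ) +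
        (k * (P * b : ℕ) + u) * (r * P' * b' : ℕ) - u' * (s * P * b : ℕ) := by
    simp only [anatZ]
    push_cast
    ring
  have h3 : (p : ℤ) ∣ u' * (s * P * b : ℕ) :=
    (Int.natCast_dvd_natCast.2 ((hs.mul_right P).mul_right b)).mul_left u'
  have hp0 : (p : ℤ) ∣ (n - k * (r : ℤ)) * (P * b * (P' * b') : ℕ) := by
    have := (dvd_zero (p : ℤ))
    rw [← h, e, dvd_sub_left h3, dvd_add_left (hk.mul_right _)] at this
    exact this
  rcases (Nat.prime_iff_prime_int.1 hp).dvd_or_dvd hp0 with h1 | h1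
  · exact hn h1
  · exact ((hp.dvd_mul.1 (Int.natCast_dvd_natCast.1 h1)).elim hPb hPb')

end Vale.Agent.P028.Full
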