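import Vale.Agent.P028.Full.Defs
import Vale.Agent.P028.NumberLemmas
import Vale.Agent.P028.Overlap.Factors

/-!
Exact averaging over the coincidence number: the deleted classes at primes whose product is at most
the length of the interval cost a bounded factor, whatever the classes are.
-/

noncomputable section

namespace Vale.Agent.P028.Full

open Finset

/-- The factor `pC`, restricted to the primes in `T`. -/
def pCOn (K : Classes) (T : Finset ℕ) (q r : ℕ) : ℝ :=
  (∏ p ∈ T, if p ∈ K.det q ∧ p ∣ qd q r then ratio p else 1) *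
    ∏ p ∈ T, if p ∈ K.det r ∧ p ∣ qd r q then ratio p else 1

/-- The factor `wCoin`, restricted to the primes in `T`. -/
def wCoinOn (K : Classes) (T : Finset ℕ) (q r : ℕ) (n : ℤ) : ℝ :=
  ∏ p ∈ T, if p ∈ K.det q ∩ K.det r ∧ ¬ p ∣ qd q r * qd r q ∧
      (p : ℤ) ∣ n - (K.cls q p * (qd r q : ℤ) - K.cls r p * (qd q r : ℤ)) then ratio p else 1

theorem ratio_nonneg (p : ℕ) : 0 ≤ ratio p := by
  rcases p with _ | p
  · simp [ratio]
  · unfold ratio
    push_cast
    exact div_nonneg (by positivity) (by linarith [Nat.cast_nonneg (α := ℝ) p])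

/-- The local factor of the residue `i` of the coincidence number. -/
def locC (K : Classes) (q r p i : ℕ) : ℝ :=
  if p ∈ K.det q ∧ p ∣ qd q r then
    (if (p : ℤ) ∣ (i : ℤ) - K.cls q p * (qd r q : ℤ) then 0 else ratio p)
  else if p ∈ K.det r ∧ p ∣ qd r q then
    (if (p : ℤ) ∣ (i : ℤ) + K.cls r p * (qd q r : ℤ) then 0 else ratio p)
  else if p ∈ K.det q ∩ K.det r ∧ ¬ p ∣ qd q r * qd r q then
    (if (p : ℤ) ∣ (i : ℤ) - (K.cls q p * (qd r q : ℤ) - K.cls r p * (qd q r : ℤ))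
      then ratio p else 1)
  else 1

theorem locC_nonneg (K : Classes) (q r p i : ℕ) : 0 ≤ locC K q r p i := by
  have := ratio_nonneg p
  unfold locC
  split_ifs <;> linarith

theorem sum_root_ite {p : ℕ} (hp : p.Prime) (c : ℤ) (a b : ℝ) :
    (∑ i ∈ range p, if (p : ℤ) ∣ (i : ℤ) + c then a else b) = a + ((p : ℝ) - 1) * b := by
  have h1 := card_root hp (u := (1 : ℤ)) (fun h => hp.not_dvd_one (by exact_mod_cast h)) c
  simp only [one_mul] at h1
  rw [sum_ite, sum_const, sum_const, h1, filter_not, card_sdiff_of_subset (filter_subset _ _),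
    h1, card_range, one_smul, nsmul_eq_mul, Nat.cast_sub hp.one_le, Nat.cast_one]

theorem avg_locC_le (K : Classes) (q r : ℕ) {p : ℕ} (hp : p.Prime) :
    (∑ i ∈ range p, locC K q r p i) / p ≤ 1 + 1 / ((p : ℝ) * ((p : ℝ) - 1)) := by
  have h2 : (2 : ℝ) ≤ p := by exact_mod_cast hp.two_le
  have hp0 : (0 : ℝ) < p := by linarith
  have hp1 : (0 : ℝ) < (p : ℝ) - 1 := by linarith
  have hpos : 0 ≤ 1 / ((p : ℝ) * ((p : ℝ) - 1)) := by positivity
  unfold locC
  split_ifs with ha hb hc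
  · simp only [sub_eq_add_neg (_ : ℤ) (_ * _)]
    rw [sum_root_ite hp, zero_add, ratio, mul_div_cancel₀ _ hp1.ne', div_self hp0.ne']
    linarith
  · rw [sum_root_ite hp, zero_add, ratio, mul_div_cancel₀ _ hp1.ne', div_self hp0.ne']
    linarith
  · simp only [sub_eq_add_neg (_ : ℤ) (K.cls q p * (qd r q : ℤ) - _)]
    rw [sum_root_ite hp, ratio, div_le_iff₀ hp0]
    rw [le_iff_lt_or_eq]
    right
    field_simp
    ring
  · rw [sum_const, card_range, nsmul_one, div_self hp0.ne']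
    linarith

theorem sum_inv_mul_pred_le (T : Finset ℕ) (hT : ∀ p ∈ T, 2 ≤ p) :
    ∑ p ∈ T, 1 / ((p : ℝ) * ((p : ℝ) - 1)) ≤ 1 := by
  have htel : ∀ N : ℕ, ∑ i ∈ range N, 1 / (((i : ℝ) + 2) * ((i : ℝ) + 1)) ≤ 1 := by
    intro N
    have e : ∑ i ∈ range N, 1 / (((i : ℝ) + 2) * ((i : ℝ) + 1)) = 1 - 1 / ((N : ℝ) + 1) := by
      induction N with
      | zero => simp
      | succ N ih =>
        rw [sum_range_succ, ih]
        push_cast
        field_simp
        ring
    rw [e]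
    have : (0 : ℝ) ≤ 1 / ((N : ℝ) + 1) := by positivity
    linarith
  calc ∑ p ∈ T, 1 / ((p : ℝ) * ((p : ℝ) - 1)) =
        ∑ i ∈ T.image (fun p : ℕ => p - 2), 1 / (((i : ℝ) + 2) * ((i : ℝ) + 1)) := by
        rw [sum_image fun a ha b hb h => by have := hT a ha; have := hT b hb; omega]
        refine sum_congr rfl fun p hp => ?_
        rw [Nat.cast_sub (hT p hp)]
        push_cast
        ring_nf
    _ ≤ ∑ i ∈ range (T.sup id + 1), 1 / (((i : ℝ) + 2) * ((i : ℝ) + 1)) := by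
        refine sum_le_sum_of_subset_of_nonneg (fun i hi => ?_) fun i _ _ => by positivity
        obtain ⟨p, hp, rfl⟩ := mem_image.1 hi
        have : p ≤ T.sup id := Finset.le_sup (f := id) hp
        exact mem_range.2 (by omega)
    _ ≤ 1 := htel _

theorem factor_le_locC (K : Classes) {q r : ℕ} (hq : 0 < q) (γ : ℝ) (ψ : ℕ → ℝ) {n : ℤ}
    (hn : n ∈ admN γ ψ K q r) (T : Finset ℕ) (hT : ∀ p ∈ T, p.Prime) :
    pCOn K T q r * wCoinOn K T q r n ≤ ∏ p ∈ T, locC K q r p (n % (p : ℤ)).toNat := by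
  obtain ⟨-, ha, hb⟩ := mem_filter.1 hn
  rw [pCOn, wCoinOn, ← prod_mul_distrib, ← prod_mul_distrib]
  refine (prod_congr rfl fun p hp => ?_).le
  have hpp := hT p hp
  have hi : ((n % (p : ℤ)).toNat : ℤ) = n % (p : ℤ) :=
    Int.toNat_of_nonneg (Int.emod_nonneg _ (by exact_mod_cast hpp.ne_zero))
  have key : ∀ c : ℤ, (p : ℤ) ∣ ((n % (p : ℤ)).toNat : ℤ) - c ↔ (p : ℤ) ∣ n - c := fun c => by
    rw [hi, Int.dvd_iff_emod_eq_zero, Int.dvd_iff_emod_eq_zero, Int.emod_sub_emod]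
  unfold locC
  by_cases h1 : p ∈ K.det q ∧ p ∣ qd q r
  · have h2 : ¬ (p ∈ K.det r ∧ p ∣ qd r q) := fun h => not_dvd_both hpp hq h1.2 h.2
    rw [if_pos h1, if_neg h2, if_neg fun h => h.2.1 (h1.2.mul_right _), if_pos h1,
      if_neg fun h => ha p h1.1 h1.2 ((key _).1 h), mul_one, mul_one]
  by_cases h2 : p ∈ K.det r ∧ p ∣ qd r q
  · have key' : ¬ (p : ℤ) ∣ ((n % (p : ℤ)).toNat : ℤ) + K.cls r p * (qd q r : ℤ) := fun h => by
      rw [← sub_neg_eq_add, key, sub_neg_eq_add] at h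
      exact hb p h2.1 h2.2 h
    rw [if_neg h1, if_pos h2, if_neg fun h => h.2.1 (h2.2.mul_left _), if_neg h1, if_pos h2,
      if_neg key', one_mul, mul_one]
  rw [if_neg h1, if_neg h2, one_mul, one_mul, if_neg h1, if_neg h2]
  by_cases h3 : p ∈ K.det q ∩ K.det r ∧ ¬ p ∣ qd q r * qd r q
  · rw [if_pos h3]
    simp only [h3.1, h3.2, not_false_eq_true, true_and, key]
  · rw [if_neg h3, if_neg fun h => h3 ⟨h.1, h.2.1⟩]

/-- Summed over the admissible coincidence numbers, the factors at the primes of `T` cost at most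
`e` times the length of the interval plus `∏ T`. -/
theorem sum_factor_le (γ : ℝ) (ψ : ℕ → ℝ) (K : Classes) {q r : ℕ} (hq : 0 < q)
    (hD : 0 ≤ dist2 ψ q r) (T : Finset ℕ) (hT : ∀ p ∈ T, p.Prime) :
    ∑ n ∈ admN γ ψ K q r, pCOn K T q r * wCoinOn K T q r n ≤
      (4 * dist2 ψ q r + 3 + ∏ p ∈ T, (p : ℝ)) * Real.exp 1 := by
  set u := ⌊-(γ * mdiff q r) - 2 * dist2 ψ q r⌋ with hu
  set v := ⌈-(γ * mdiff q r) + 2 * dist2 ψ q r⌉ with hv
  refine (sum_le_sum fun n hn => factor_le_locC K hq γ ψ hn T hT).trans ?_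
  refine (sum_le_sum_of_subset_of_nonneg ((filter_subset _ _).trans (filter_subset _ _))
    fun n _ _ => prod_nonneg fun p _ => locC_nonneg K q r p _).trans ?_
  refine (sum_Icc_prod_mod_le T hT (locC K q r) (locC_nonneg K q r) u v).trans ?_
  have hv0 : (0 : ℝ) ≤ ∏ p ∈ T, (p : ℝ) := prod_nonneg fun p _ => Nat.cast_nonneg p
  refine mul_le_mul ?_ ?_ (prod_nonneg fun p hp =>
    div_nonneg (sum_nonneg fun i _ => locC_nonneg K q r p i) (Nat.cast_nonneg p)) (by linarith)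
  · have h1 := Int.sub_one_lt_floor (-(γ * mdiff q r) - 2 * dist2 ψ q r)
    have h2 := Int.ceil_lt_add_one (-(γ * mdiff q r) + 2 * dist2 ψ q r)
    rw [← hu] at h1
    rw [← hv] at h2
    have : max ((v : ℝ) - u + 1) 0 ≤ 4 * dist2 ψ q r + 3 := max_le (by linarith) (by linarith)
    linarith
  · calc ∏ p ∈ T, (∑ i ∈ range p, locC K q r p i) / p ≤
          ∏ p ∈ T, Real.exp (1 / ((p : ℝ) * ((p : ℝ) - 1))) :=
          prod_le_prod (fun p hp => div_nonneg (sum_nonneg fun i _ => locC_nonneg K q r p i)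
            (Nat.cast_nonneg p)) fun p hp => (avg_locC_le K q r (hT p hp)).trans
              (by linarith [Real.add_one_le_exp (1 / ((p : ℝ) * ((p : ℝ) - 1)))])
      _ = Real.exp (∑ p ∈ T, 1 / ((p : ℝ) * ((p : ℝ) - 1))) := (Real.exp_sum _ _).symm
      _ ≤ Real.exp 1 := Real.exp_le_exp.2 (sum_inv_mul_pred_le T fun p hp => (hT p hp).two_le)

end Vale.Agent.P028.Full
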