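import Vale.Agent.P028.Full.Anatomy
import Vale.Agent.P028.Full.AnatomyAvg
import Vale.Agent.P028.SameWindow.Big

/-!
Levels `D ≍ x ≥ 1 / 8` for arbitrary deleted classes: the primes up to `log x` average exactly, the
large primes of `q' r'` are paid by the high moment, and the coincidences at large primes enter only
through a pointwise bound `W` (see `Full.wCoin_le_log`). Nothing about the sizes of the moduli is
used, and the level is unbounded.
-/

noncomputable section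

namespace Vale.Agent.P028.Full

open Finset

/-- The coincidence factor of the primes above `y`. -/
def wCoinHi (K : Classes) (y q r : ℕ) (n : ℤ) : ℝ :=
  ∏ p ∈ ((K.det q ∩ K.det r).filter (fun p => ¬ p ∣ qd q r * qd r q ∧
      (p : ℤ) ∣ n - (K.cls q p * (qd r q : ℤ) - K.cls r p * (qd q r : ℤ)))).filter
    (fun p => y < p), ratio p

/-- The small primes. -/
def loPrimes (y : ℕ) : Finset ℕ := (range (y + 1)).filter Nat.Prime

theorem wCoin_le_lo_mul_hi (K : Classes) (y q r : ℕ) (n : ℤ) :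
    wCoin K q r n ≤ wCoinOn K (loPrimes y) q r n * wCoinHi K y q r n := by
  refine le_of_eq ?_
  rw [wCoin, wCoinHi, wCoinOn, ← prod_filter_mul_prod_filter_not _ (fun p => p ≤ y)]
  congr 1
  · rw [← prod_filter]
    refine prod_congr ?_ fun _ _ => rfl
    ext p
    simp only [mem_filter, loPrimes, mem_range]
    constructor
    · rintro ⟨⟨h1, h2⟩, h3⟩
      exact ⟨⟨by omega, Nat.prime_of_mem_primeFactors (K.det_sub q (mem_inter.1 h1).1)⟩, h1, h2⟩
    · rintro ⟨⟨h1, -⟩, h2, h3⟩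
      exact ⟨⟨h2, h3⟩, by omega⟩
  · simp only [not_le]

theorem pC_le_lo_mul_hFac (K : Classes) {q r : ℕ} (hq : 0 < q) (hr : 0 < r) (y : ℕ) :
    pC K q r ≤ pCOn K (loPrimes y) q r * hFac y (qd q r * qd r q) := by
  set A := (K.det q).filter (fun p => p ∣ qd q r) with hA
  set B := (K.det r).filter (fun p => p ∣ qd r q) with hB
  have hAp : ∀ p ∈ A, p.Prime := fun p hp =>
    Nat.prime_of_mem_primeFactors (K.det_sub q (mem_filter.1 hp).1)
  have hBp : ∀ p ∈ B, p.Prime := fun p hp =>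
    Nat.prime_of_mem_primeFactors (K.det_sub r (mem_filter.1 hp).1)
  have hdis : Disjoint A B := disjoint_left.2 fun p hp hp' =>
    not_dvd_both (hAp p hp) hq (mem_filter.1 hp).2 (mem_filter.1 hp').2
  have hlo : pCOn K (loPrimes y) q r = ∏ p ∈ (A ∪ B).filter (fun p => p ≤ y), ratio p := by
    rw [filter_union, prod_union (disjoint_filter_filter hdis), pCOn, ← prod_filter, ← prod_filter]
    congr 1 <;>
    · refine prod_congr ?_ fun _ _ => rfl
      ext p
      simp only [mem_filter, loPrimes, mem_range, hA, hB]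
      constructor
      · rintro ⟨⟨h1, -⟩, h2, h3⟩
        exact ⟨⟨h2, h3⟩, by omega⟩
      · rintro ⟨⟨h2, h3⟩, h1⟩
        exact ⟨⟨by omega, Nat.prime_of_mem_primeFactors (K.det_sub _ h2)⟩, h2, h3⟩
  have hne : qd q r * qd r q ≠ 0 := (Nat.mul_pos (qd_pos hq) (qd_pos hr)).ne'
  rw [pC, ← prod_union hdis, ← prod_filter_mul_prod_filter_not (A ∪ B) (fun p => p ≤ y), ← hlo]
  refine mul_le_mul_of_nonneg_left ?_ ?_
  · refine prod_le_prod_of_subset_of_one_le (fun p hp => ?_) (fun p hp => ratio_nonneg p)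
      (fun p hp _ => BilinearAux.one_le_ratio
        (Nat.prime_of_mem_primeFactors (mem_filter.1 hp).1))
    obtain ⟨hp1, hp2⟩ := mem_filter.1 hp
    refine mem_filter.2 ⟨?_, not_le.1 hp2⟩
    rcases mem_union.1 hp1 with h | h
    · exact Nat.mem_primeFactors.2 ⟨hAp p h, (mem_filter.1 h).2.mul_right _, hne⟩
    · exact Nat.mem_primeFactors.2 ⟨hBp p h, (mem_filter.1 h).2.mul_left _, hne⟩
  · exact mul_nonneg (prod_nonneg fun p _ => by split_ifs <;> first | exact ratio_nonneg p | norm_num)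
      (prod_nonneg fun p _ => by split_ifs <;> first | exact ratio_nonneg p | norm_num)

theorem hFac_le_three_add (y n : ℕ) :
    hFac y n ≤ 3 + Real.exp (-(6 * ((y : ℝ) + 1))) * hFac y n ^ (6 * (y + 1) + 1) := by
  have h1 := BilinearAux.one_le_hFac y n
  set h := hFac y n
  set s := 6 * (y + 1) with hs
  have h0 : 0 ≤ h := by linarith
  have hpos : 0 ≤ Real.exp (-(6 * ((y : ℝ) + 1))) * h ^ (s + 1) :=
    mul_nonneg (Real.exp_pos _).le (pow_nonneg h0 _)
  by_cases hsmall : h ≤ 3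
  · linarith
  rw [not_le] at hsmall
  have hexp : Real.exp (6 * ((y : ℝ) + 1)) ≤ h ^ s := by
    rw [show (6 : ℝ) * ((y : ℝ) + 1) = ((s : ℕ) : ℝ) * 1 by rw [hs]; push_cast; ring,
      Real.exp_nat_mul]
    exact pow_le_pow_left₀ (Real.exp_pos 1).le (by linarith [Real.exp_one_lt_three]) s
  have key : h ≤ Real.exp (-(6 * ((y : ℝ) + 1))) * h ^ (s + 1) := by
    rw [Real.exp_neg, ← div_eq_inv_mul, le_div_iff₀ (Real.exp_pos _), pow_succ']
    exact mul_le_mul_of_nonneg_left hexp h0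
  linarith

/-- The coincidences at large primes are bounded as soon as the logarithm of the lifted form is
`O` of the larger of the cut and the threshold of the deleted primes. -/
theorem wCoinHi_le {γ f f' D T T' t κ : ℝ} {n u u' : ℤ} {P P' b b' q r y : ℕ} (K : Classes)
    (hn : |(n : ℝ) + γ * mdiff q r| ≤ 2 * D) (hT : 0 ≤ T) (hT' : 0 ≤ T')
    (hP : (P : ℝ) ≤ T) (hP' : (P' : ℝ) ≤ T')
    (hu : |(P : ℝ) * (γ * b) - u| ≤ f * b * T)
    (hu' : |(P' : ℝ) * (γ * b') - u'| ≤ f' * b' * T')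
    (hfr : f * (qd r q : ℝ) ≤ D) (hfs : f' * (qd q r : ℝ) ≤ D) (hb : 0 < b) (hb' : 0 < b')
    (hdet : ∀ p ∈ K.det q, t < (p : ℝ) ∧ ¬ p ∣ P * b ∧ (p : ℤ) ∣ K.cls q p * (P * b : ℕ) + u)
    (hdet' : ∀ p ∈ K.det r, ¬ p ∣ P' * b' ∧ (p : ℤ) ∣ K.cls r p * (P' * b' : ℕ) + u')
    (hκ : Real.log (4 * T * T' *
        (D * ((b * b' / anatL b b' (qd r q) (qd q r) : ℕ) : ℝ))) ≤ κ * max (max (y : ℝ) 1) t)
    (hZ : anatZ n P P' b b' (qd r q) (qd q r) u u' ≠ 0) :
    wCoinHi K y q r n ≤ Real.exp (4 * κ) := by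
  have hn' : |(n : ℝ) + γ * ((qd r q : ℝ) - qd q r)| ≤ 2 * D := by
    simpa [mdiff] using hn
  set N := anatZ n P P' b b' (qd r q) (qd q r) u u' / (anatL b b' (qd r q) (qd q r) : ℤ) with hN
  have hN0 : N ≠ 0 := fun h => hZ (by
    rw [← Int.ediv_mul_cancel (anatL_dvd_anatZ n P P' b b' (qd r q) (qd q r) u u'), ← hN, h,
      zero_mul])
  set z := max (max (y : ℝ) 1) t with hz
  have hz1 : 1 ≤ z := (le_max_right _ _).trans (le_max_left _ _)
  refine (prod_ratio_of_dvd_le hN0 hz1 _ fun p hp => ?_).trans (Real.exp_le_exp.2 ?_)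
  · obtain ⟨hp1, hpy⟩ := mem_filter.1 hp
    obtain ⟨hm, -, hdvd⟩ := mem_filter.1 hp1
    obtain ⟨hq', hr'⟩ := mem_inter.1 hm
    obtain ⟨h1, h2, h3⟩ := hdet p hq'
    obtain ⟨h2', h3'⟩ := hdet' p hr'
    have hpp := Nat.prime_of_mem_primeFactors (K.det_sub q hq')
    refine ⟨hpp, dvd_anatZ_div hpp h2 h2' h3 h3' hdvd, max_lt (max_lt ?_ ?_) h1⟩
    · exact_mod_cast hpy
    · exact_mod_cast hpp.one_lt
  · rw [div_le_iff₀ (by linarith)]
    have hle := (Real.log_le_log (abs_pos.2 (by exact_mod_cast hN0))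
      (abs_anatZ_div_le hn' hT hT' hP hP' hu hu' hfr hfs hb hb')).trans hκ
    linarith

/-- The level `D ≍ x ≥ 1 / 8` costs `O(W)` times the mass of its pairs, plus a gain. -/
theorem exists_level_avg_le :
    ∃ C : ℝ, 0 ≤ C ∧ ∀ (γ : ℝ) (ψ : ℕ → ℝ) (K : Classes) (S : Finset ℕ) (x W : ℝ),
      (∀ q ∈ S, 0 < q) → (∀ q, 0 ≤ ψ q) → 1 / 8 ≤ x → 0 ≤ W →
      (∀ q ∈ S, ∀ r ∈ S, x < dist2 ψ q r → dist2 ψ q r ≤ 2 * x → ∀ n ∈ admN γ ψ K q r,
        wCoinHi K (Nat.log 4 ⌊8 * x⌋₊) q r n ≤ W) →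
      ∑ q ∈ S, ∑ r ∈ S.filter (fun r => q ≠ r ∧ x < dist2 ψ q r ∧ dist2 ψ q r ≤ 2 * x),
          wt ψ q * wt ψ r / dist2 ψ q r * ∑ n ∈ admN γ ψ K q r, pC K q r * wCoin K q r n ≤
        C * W * (∑ q ∈ S, ∑ r ∈ S.filter (fun r => q ≠ r ∧ x < dist2 ψ q r ∧ dist2 ψ q r ≤ 2 * x),
            wt ψ q * wt ψ r) +
          C * W * (mass ψ S + mass ψ S ^ 2) * x ^ (-(1 / 100) : ℝ) := by
  obtain ⟨Cm, hmom⟩ := exists_moment_le 7 (by norm_num)
  refine ⟨324 * (1 + max Cm 0), by positivity, ?_⟩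
  intro γ ψ K S x W hS hψ hx hW0 hW
  set y := Nat.log 4 ⌊8 * x⌋₊ with hy
  have hfl : 1 ≤ ⌊8 * x⌋₊ := Nat.le_floor (by push_cast; linarith)
  have hy1 : (4 : ℝ) ^ y ≤ 8 * x :=
    le_trans (by exact_mod_cast Nat.pow_log_le_self 4 (show ⌊8 * x⌋₊ ≠ 0 by omega))
      (Nat.floor_le (by linarith))
  have hy2 : 8 * x < (4 : ℝ) ^ (y + 1) :=
    lt_of_lt_of_le (Nat.lt_floor_add_one _)
      (by exact_mod_cast Nat.lt_pow_succ_log_self (show 1 < 4 by norm_num) ⌊8 * x⌋₊)
  have hxz : Real.log x ≤ 2 * ((y : ℝ) + 1) := by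
    have h := Real.log_le_log (by linarith : 0 < x) (by linarith : x ≤ (4 : ℝ) ^ (y + 1))
    rw [Real.log_pow] at h
    push_cast at h
    have hl4 : Real.log 4 ≤ 2 := by
      rw [show (4 : ℝ) = 2 ^ 2 by norm_num, Real.log_pow]
      have := Real.log_two_lt_d9
      push_cast
      linarith
    exact h.trans (by nlinarith [Nat.cast_nonneg (α := ℝ) y])
  have hTp : ∀ p ∈ loPrimes y, p.Prime := fun p hp => (mem_filter.1 hp).2
  have hTprod : ∏ p ∈ loPrimes y, (p : ℝ) ≤ 8 * x := by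
    have h1 : ((primorial y : ℕ) : ℝ) ≤ (4 : ℝ) ^ y := by exact_mod_cast primorial_le_four_pow y
    have h2 : ∏ p ∈ loPrimes y, (p : ℝ) = ((primorial y : ℕ) : ℝ) := by
      simp [loPrimes, primorial]
    linarith
  set u := 6 * (y + 1) + 1 with hu
  set k := Real.exp (-(6 * ((y : ℝ) + 1))) with hk
  have hk0 : 0 ≤ k := (Real.exp_pos _).le
  have hM0 : 0 ≤ mass ψ S + mass ψ S ^ 2 := by
    have : 0 ≤ mass ψ S := sum_nonneg fun q _ => mul_nonneg (by positivity) (hψ q)
    positivity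
  have hpair : ∀ q ∈ S, ∀ r ∈ S.filter (fun r => q ≠ r ∧ x < dist2 ψ q r ∧ dist2 ψ q r ≤ 2 * x),
      wt ψ q * wt ψ r / dist2 ψ q r * ∑ n ∈ admN γ ψ K q r, pC K q r * wCoin K q r n ≤
        324 * W * (wt ψ q * wt ψ r) +
          324 * W * (k * (wt ψ q * wt ψ r * hFac y (qd q r * qd r q) ^ u)) := by
    intro q hq r hr
    obtain ⟨hrS, -, hxD, hDx⟩ := mem_filter.1 hr
    have hD0 : 0 < dist2 ψ q r := by linarith
    set h := hFac y (qd q r * qd r q) with hh
    have hh0 : 0 ≤ h := zero_le_one.trans (BilinearAux.one_le_hFac _ _)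
    have hWW : 0 ≤ wt ψ q * wt ψ r :=
      mul_nonneg (mul_nonneg (by positivity) (hψ q)) (mul_nonneg (by positivity) (hψ r))
    have h30 : 0 ≤ 3 + k * h ^ u := by positivity
    have hsum : ∑ n ∈ admN γ ψ K q r, pC K q r * wCoin K q r n ≤
        (3 + k * h ^ u) * W * ((4 * dist2 ψ q r + 3 + 8 * x) * Real.exp 1) := by
      calc ∑ n ∈ admN γ ψ K q r, pC K q r * wCoin K q r n ≤
          ∑ n ∈ admN γ ψ K q r, (3 + k * h ^ u) * W *
            (pCOn K (loPrimes y) q r * wCoinOn K (loPrimes y) q r n) := by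
            refine sum_le_sum fun n hn => ?_
            have h1 := pC_le_lo_mul_hFac K (hS q hq) (hS r hrS) y
            have h2 := wCoin_le_lo_mul_hi K y q r n
            have hlo : 0 ≤ pCOn K (loPrimes y) q r := mul_nonneg
              (prod_nonneg fun p _ => by split_ifs <;> first | exact ratio_nonneg p | norm_num)
              (prod_nonneg fun p _ => by split_ifs <;> first | exact ratio_nonneg p | norm_num)
            have hlo' : 0 ≤ wCoinOn K (loPrimes y) q r n :=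
              prod_nonneg fun p _ => by split_ifs <;> first | exact ratio_nonneg p | norm_num
            have hwc : 0 ≤ wCoin K q r n := prod_nonneg fun p _ => ratio_nonneg p
            calc pC K q r * wCoin K q r n ≤ (pCOn K (loPrimes y) q r * h) *
                  (wCoinOn K (loPrimes y) q r n * wCoinHi K y q r n) :=
                  mul_le_mul h1 h2 hwc (mul_nonneg hlo hh0)
              _ ≤ (pCOn K (loPrimes y) q r * (3 + k * h ^ u)) *
                  (wCoinOn K (loPrimes y) q r n * W) := by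
                  refine mul_le_mul (mul_le_mul_of_nonneg_left (hFac_le_three_add _ _) hlo)
                    (mul_le_mul_of_nonneg_left (hW q hq r hrS hxD hDx n hn) hlo')
                    (mul_nonneg hlo' (prod_nonneg fun p _ => ratio_nonneg p))
                    (mul_nonneg hlo h30)
              _ = _ := by ring
        _ ≤ _ := by
            rw [← mul_sum]
            refine mul_le_mul_of_nonneg_left ((sum_factor_le γ ψ K (hS q hq) hD0.le _ hTp).trans ?_)
              (mul_nonneg h30 hW0)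
            exact mul_le_mul_of_nonneg_right (by linarith) (Real.exp_pos _).le
    calc wt ψ q * wt ψ r / dist2 ψ q r * ∑ n ∈ admN γ ψ K q r, pC K q r * wCoin K q r n
        ≤ wt ψ q * wt ψ r / dist2 ψ q r *
            ((3 + k * h ^ u) * W * (108 * dist2 ψ q r)) := by
          refine mul_le_mul_of_nonneg_left (hsum.trans (mul_le_mul_of_nonneg_left ?_
            (mul_nonneg h30 hW0))) (div_nonneg hWW hD0.le)
          exact (mul_le_mul (show 4 * dist2 ψ q r + 3 + 8 * x ≤ 36 * dist2 ψ q r by linarith)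
            Real.exp_one_lt_three.le (Real.exp_pos _).le (by linarith)).trans_eq (by ring)
      _ = 324 * W * (wt ψ q * wt ψ r) + 108 * W * (k * (wt ψ q * wt ψ r * h ^ u)) := by
          field_simp
          ring
      _ ≤ _ := by
          have : 0 ≤ W * (k * (wt ψ q * wt ψ r * h ^ u)) := by positivity
          linarith
  refine (sum_le_sum fun q hq => sum_le_sum (hpair q hq)).trans ?_
  have esplit : ∀ (f g : ℕ → ℕ → ℝ) (a b : ℝ) (U : ℕ → Finset ℕ),
      ∑ q ∈ S, ∑ r ∈ U q, (a * f q r + b * g q r) =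
        a * ∑ q ∈ S, ∑ r ∈ U q, f q r + b * ∑ q ∈ S, ∑ r ∈ U q, g q r := by
    intro f g a b U
    simp only [sum_add_distrib, mul_sum]
  rw [esplit (fun q r => wt ψ q * wt ψ r) (fun q r => k * (wt ψ q * wt ψ r *
    hFac y (qd q r * qd r q) ^ u))]
  rw [show ∀ (f : ℕ → ℕ → ℝ) (U : ℕ → Finset ℕ), ∑ q ∈ S, ∑ r ∈ U q, k * f q r =
    k * ∑ q ∈ S, ∑ r ∈ U q, f q r from fun f U => by simp only [mul_sum]]
  have hP : ∑ q ∈ S, ∑ r ∈ S.filter (fun r => q ≠ r ∧ x < dist2 ψ q r ∧ dist2 ψ q r ≤ 2 * x),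
      wt ψ q * wt ψ r * hFac y (qd q r * qd r q) ^ u ≤
        max Cm 0 * (mass ψ S + mass ψ S ^ 2) * (2 * x) ^ (993 / 1000 : ℝ) := by
    have h := hmom ψ S (2 * x) y u hS hψ (by linarith)
      (by rw [hu]; push_cast; linarith [Nat.cast_nonneg (α := ℝ) y])
    refine le_trans (sum_le_sum fun q hq => sum_le_sum_of_subset_of_nonneg (fun r hr => ?_)
      fun r _ _ => ?_) (h.trans ?_)
    · obtain ⟨hrS, hne, -, h2⟩ := mem_filter.1 hr
      exact mem_filter.2 ⟨hrS, hne, h2⟩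
    · exact mul_nonneg (mul_nonneg (mul_nonneg (by positivity) (hψ q))
        (mul_nonneg (by positivity) (hψ r)))
        (pow_nonneg (zero_le_one.trans (BilinearAux.one_le_hFac _ _)) _)
    · exact mul_le_mul_of_nonneg_right (mul_le_mul_of_nonneg_right (le_max_left _ _) hM0)
        (Real.rpow_nonneg (by linarith) _)
  obtain ⟨hn1, -, -⟩ := big_numeric (le_refl (0 : ℝ))
    (le_add_of_nonneg_left (Nat.cast_nonneg y)) (by linarith : (0 : ℝ) < x) hxz
  have hk1 : k * (2 * x) ^ (993 / 1000 : ℝ) ≤ x ^ (-(1 / 100) : ℝ) := by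
    refine le_trans ?_ hn1
    rw [← hk]
    refine mul_le_mul_of_nonneg_right (le_mul_of_one_le_left hk0 ?_)
      (Real.rpow_nonneg (by linarith) _)
    exact le_add_of_nonneg_left (Nat.cast_nonneg y)
  have hL : 0 ≤ ∑ q ∈ S, ∑ r ∈ S.filter (fun r => q ≠ r ∧ x < dist2 ψ q r ∧ dist2 ψ q r ≤ 2 * x),
      wt ψ q * wt ψ r := sum_nonneg fun q _ => sum_nonneg fun r _ =>
        mul_nonneg (mul_nonneg (by positivity) (hψ q)) (mul_nonneg (by positivity) (hψ r))
  have hX : 0 ≤ x ^ (-(1 / 100) : ℝ) := Real.rpow_nonneg (by linarith) _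
  have hC0 : (0 : ℝ) ≤ max Cm 0 := le_max_right _ _
  have e2 := mul_le_mul_of_nonneg_left hP (mul_nonneg (mul_nonneg (by norm_num : (0:ℝ) ≤ 324) hW0) hk0)
  have e3 := mul_le_mul_of_nonneg_left hk1
    (mul_nonneg (mul_nonneg (mul_nonneg (by norm_num : (0:ℝ) ≤ 324) hW0) hC0) hM0)
  nlinarith [mul_nonneg (mul_nonneg hW0 hC0) hL, mul_nonneg (mul_nonneg hW0 hM0) hX]

/-- At levels below `1 / 8` every moment of `pC` costs `x ^ (-7/1000)` only, for any classes and
moduli of any size. -/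
theorem exists_pC_moment_small_le (u : ℕ) :
    ∃ C : ℝ, 0 ≤ C ∧ ∀ (γ : ℝ) (ψ : ℕ → ℝ) (K : Classes) (S : Finset ℕ) (x : ℝ),
      (∀ q ∈ S, 0 < q) → (∀ q, 0 ≤ ψ q) → 0 < x → x ≤ 1 / 8 →
      ∑ q ∈ S, ∑ r ∈ S.filter (fun r => q ≠ r ∧ x < dist2 ψ q r ∧ dist2 ψ q r ≤ 2 * x),
          wt ψ q * wt ψ r / dist2 ψ q r * ∑ _n ∈ admN γ ψ K q r, pC K q r ^ u ≤
        C * (mass ψ S + mass ψ S ^ 2) * x ^ (-(7 / 1000) : ℝ) := by
  obtain ⟨Cm, hmom⟩ := exists_moment_le u (Nat.cast_nonneg u)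
  refine ⟨2 * max Cm 0, by positivity, ?_⟩
  intro γ ψ K S x hS hψ hx hx8
  have hM0 : 0 ≤ mass ψ S + mass ψ S ^ 2 := by
    have : 0 ≤ mass ψ S := sum_nonneg fun q _ => mul_nonneg (by positivity) (hψ q)
    positivity
  have hWW : ∀ q r, 0 ≤ wt ψ q * wt ψ r := fun q r =>
    mul_nonneg (mul_nonneg (by positivity) (hψ q)) (mul_nonneg (by positivity) (hψ r))
  have hh : ∀ n, 0 ≤ hFac 0 n := fun n => zero_le_one.trans (BilinearAux.one_le_hFac _ _)
  have hpair : ∀ q ∈ S, ∀ r ∈ S.filter (fun r => q ≠ r ∧ x < dist2 ψ q r ∧ dist2 ψ q r ≤ 2 * x),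
      wt ψ q * wt ψ r / dist2 ψ q r * ∑ _n ∈ admN γ ψ K q r, pC K q r ^ u ≤
        1 / x * (wt ψ q * wt ψ r * hFac 0 (qd q r * qd r q) ^ u) := by
    intro q hq r hr
    obtain ⟨hrS, -, hxD, hDx⟩ := mem_filter.1 hr
    have hcard : ((admN γ ψ K q r).card : ℝ) ≤ 1 := by
      have hle : (admN γ ψ K q r).card ≤ 1 := by
        refine card_le_one.2 fun a ha b hb => ?_
        have ha' := (mem_filter.1 (mem_filter.1 ha).1).2
        have hb' := (mem_filter.1 (mem_filter.1 hb).1).2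
        have : |(a : ℝ) - b| < 1 := by
          calc |(a : ℝ) - b| = |((a : ℝ) + γ * mdiff q r) - (b + γ * mdiff q r)| := by ring_nf
            _ ≤ |(a : ℝ) + γ * mdiff q r| + |(b : ℝ) + γ * mdiff q r| := abs_sub _ _
            _ < 1 := by linarith
        rw [← Int.cast_sub, ← Int.cast_abs, ← Int.cast_one, Int.cast_lt, Int.abs_lt_one_iff] at this
        linarith
      exact_mod_cast hle
    have hp0 : 0 ≤ pC K q r := mul_nonneg (prod_nonneg fun p _ => ratio_nonneg p)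
      (prod_nonneg fun p _ => ratio_nonneg p)
    have hpC : pC K q r ≤ hFac 0 (qd q r * qd r q) := by
      have h := pC_le_lo_mul_hFac K (hS q hq) (hS r hrS) 0
      have e : loPrimes 0 = ∅ := filter_false_of_mem fun p hp => by
        rw [mem_range] at hp
        obtain rfl : p = 0 := by omega
        exact Nat.not_prime_zero
      simpa [pCOn, e] using h
    rw [sum_const, nsmul_eq_mul]
    calc wt ψ q * wt ψ r / dist2 ψ q r * ((admN γ ψ K q r).card * pC K q r ^ u) ≤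
        wt ψ q * wt ψ r / x * (1 * hFac 0 (qd q r * qd r q) ^ u) := by
          refine mul_le_mul (div_le_div_of_nonneg_left (hWW q r) hx hxD.le)
            (mul_le_mul hcard (pow_le_pow_left₀ hp0 hpC u) (pow_nonneg hp0 u) zero_le_one)
            (mul_nonneg (Nat.cast_nonneg _) (pow_nonneg hp0 u)) (div_nonneg (hWW q r) hx.le)
      _ = _ := by ring
  refine (sum_le_sum fun q hq => sum_le_sum (hpair q hq)).trans ?_
  simp only [← mul_sum (a := 1 / x)]
  have h := hmom ψ S (2 * x) 0 u hS hψ (by linarith) (by simp)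
  refine (mul_le_mul_of_nonneg_left ((sum_le_sum fun q hq => sum_le_sum_of_subset_of_nonneg
    (fun r hr => ?_) fun r _ _ => mul_nonneg (hWW q r) (pow_nonneg (hh _) u)).trans h)
      (by positivity)).trans ?_
  · obtain ⟨hrS, hne, -, h2⟩ := mem_filter.1 hr
    exact mem_filter.2 ⟨hrS, hne, h2⟩
  · have e : x ^ (-(7 / 1000) : ℝ) = x ^ (993 / 1000 : ℝ) / x := by
      rw [show (-(7 / 1000) : ℝ) = 993 / 1000 - 1 by norm_num, Real.rpow_sub hx, Real.rpow_one]
    rw [e, Real.mul_rpow zero_le_two hx.le]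
    have h2 : (2 : ℝ) ^ (993 / 1000 : ℝ) ≤ 2 :=
      Real.rpow_le_self_of_one_le one_le_two (by norm_num)
    calc 1 / x * (Cm * (mass ψ S + mass ψ S ^ 2) *
          ((2 : ℝ) ^ (993 / 1000 : ℝ) * x ^ (993 / 1000 : ℝ))) ≤
        1 / x * (max Cm 0 * (mass ψ S + mass ψ S ^ 2) * (2 * x ^ (993 / 1000 : ℝ))) := by
          refine mul_le_mul_of_nonneg_left (mul_le_mul (mul_le_mul_of_nonneg_right (le_max_left _ _)
            hM0) (mul_le_mul_of_nonneg_right h2 (Real.rpow_nonneg hx.le _))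
            (mul_nonneg (Real.rpow_nonneg zero_le_two _) (Real.rpow_nonneg hx.le _))
            (mul_nonneg (le_max_right _ _) hM0)) (by positivity)
      _ = _ := by ring

end Vale.Agent.P028.Full
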