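import Vale.Agent.P028.Full.Cells

/-!
Bands, nodes and the owners of the primes.

The bands are `Z_j = 2 ^ 2 ^ j` with rough thresholds `Y_j = Z_{j+1} ^ M`, which are powers of two.
At band `j` a modulus `v` has the deficiency `b_j(v)` above `Y_j`, the radius `η_j = ψ(v) b_j(v)`,
the shift `γ b_j(v)` and its node.  A node claims the dyadic blocks of primes `2 ^ s ≤ p < 2 ^ (s+1)`
with `(log T*) ^ (3/2) ≤ 2 ^ s` below `Y_j`; a prime is owned by the shallowest claiming band at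
which the fibre of `v` is light.
-/

noncomputable section

namespace Vale.Agent.P028.Full

open Finset

/-- The constants of the rule: the rough exponent and the lightness exponent. -/
structure Par where
  M : ℕ
  c : ℝ

/-- `Z_j = 2 ^ 2 ^ j`. -/
def bandZ (j : ℕ) : ℕ := 2 ^ (2 ^ j)

/-- `Y_j = Z_{j+1} ^ M`. -/
def Par.thr (P : Par) (j : ℕ) : ℕ := bandZ (j + 1) ^ P.M

/-- The least band `j` with `X ≤ Z_{j+1}`. -/
def bandOf (X : ℝ) : ℕ := sInf {j : ℕ | X ≤ (bandZ (j + 1) : ℝ)}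

/-- `u / P` is a node of `β` at the scale `η`. -/
def IsNode (β η : ℝ) (u : ℤ) (P : ℕ) : Prop :=
  0 < P ∧ IsCoprime u (P : ℤ) ∧ (η * P) ^ 2 < η / 64 ∧ ((P : ℝ) * β - u) ^ 2 < η / 64

/-- The scale `max 2 (P) (err / η)` of a node. -/
def nodeScale (β η : ℝ) (u : ℤ) (P : ℕ) : ℝ := max 2 (max (P : ℝ) (|(P : ℝ) * β - u| / η))

open Classical in
/-- The node, `(0, 0)` if there is none. -/
def nodeOf (β η : ℝ) : ℤ × ℕ :=
  if h : ∃ z : ℤ × ℕ, IsNode β η z.1 z.2 then h.choose else (0, 0)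

/-- Everything the rule depends on. -/
structure Ctx where
  par : Par
  γ : ℝ
  ψ : ℕ → ℝ
  S : Finset ℕ
  k : ℕ → ℕ → ℕ

variable (C : Ctx)

/-- `b_j(v)`. -/
def Ctx.def' (j v : ℕ) : ℕ := kDef C.k C.S (C.par.thr j) v

/-- `η_j(v) = ψ(v) b_j(v)`. -/
def Ctx.rad (j v : ℕ) : ℝ := C.ψ v * C.def' j v

/-- The probability of the deficiency of `v` at band `j`. -/
def Ctx.prob (j v : ℕ) : ℝ := kProb C.k C.S (C.par.thr j) v

/-- The node of `v` at band `j`. -/
def Ctx.node (j v : ℕ) : ℤ × ℕ := nodeOf (C.γ * C.def' j v) (C.rad j v)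

/-- `T*` of the node of `v` at band `j`. -/
def Ctx.scale (j v : ℕ) : ℝ :=
  nodeScale (C.γ * C.def' j v) (C.rad j v) (C.node j v).1 (C.node j v).2

/-- The radius of `v` at band `j` is in the range of the band. -/
def Ctx.Active (j v : ℕ) : Prop :=
  ((bandZ (j + 1) : ℝ) ^ 3)⁻¹ ≤ C.rad j v ∧ C.rad j v * Real.sqrt (bandZ j) ≤ 1

/-- The fibre of `v` has at most `η ^ (-c)` times its expected share of the cell. -/
def Ctx.Light (j v : ℕ) : Prop :=
  mass C.ψ (kFibre C.k C.S (C.par.thr j) v) ≤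
    max 1 (C.rad j v ^ (-C.par.c)) * mass C.ψ (kCell C.k C.S (C.par.thr j) v) * C.prob j v

/-- The node of `v` at band `j` claims the block of `p`. -/
def Ctx.Claims (j v p : ℕ) : Prop :=
  0 < (C.node j v).2 ∧ C.rad j v * Real.sqrt (bandZ j) ≤ 1 ∧ p ≤ C.par.thr j ∧
    Real.log (C.scale j v) ^ (3 / 2 : ℝ) ≤ ((2 ^ Nat.log 2 p : ℕ) : ℝ)

/-- The owner of `p`: the shallowest claiming band with a light fibre. -/
def Ctx.owner (v p : ℕ) : ℕ := sInf {j : ℕ | C.Claims j v p ∧ C.Light j v}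

/-- `P b` of the owner of `p`. -/
def Ctx.den (v p : ℕ) : ℕ := (C.node (C.owner v p) v).2 * C.def' (C.owner v p) v

open Classical in
/-- The deleted classes: `-u / (P b)` modulo `p` for the node of the owner. -/
def Ctx.classes : Classes where
  det v := v.primeFactors.filter
    (fun p => (∃ j, C.Claims j v p ∧ C.Light j v) ∧ ¬ p ∣ C.den v p)
  cls v p := -(C.node (C.owner v p) v).1 * Int.gcdA (C.den v p : ℤ) p
  det_sub _ := Finset.filter_subset _ _

/-- The contribution of a pair to the second moment. -/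
def Ctx.term (q r : ℕ) : ℝ :=
  wt C.ψ q * wt C.ψ r / dist2 C.ψ q r *
    ∑ n ∈ admN C.γ C.ψ C.classes q r, pC C.classes q r * wCoin C.classes q r n

/-- The band of a pair, from its level. -/
def Ctx.pairBand (q r : ℕ) : ℕ := bandOf (dist2 C.ψ q r)⁻¹

end Vale.Agent.P028.Full
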