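import Vale.Agent.P028.Full.AnatomyLevel
import Vale.Agent.P028.Full.Rule

/-!
The average over the coincidence number of a middle range of primes: expanded over the sets of
coincident primes, each set only costs the reciprocal of its product, so a range of primes costs a
constant as soon as the product of its ratios is at most the length of the interval.
-/

noncomputable section

namespace Vale.Agent.P028.Full

open Finset

/-- The primes of `(y, Y]`. -/
def midPrimes (y Y : ℕ) : Finset ℕ := (Finset.Ioc y Y).filter Nat.Prime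

/-- Summed over the admissible coincidence numbers, the factors at the primes of `T` and the
coincidences at the primes of `U` cost a constant times the length of the interval plus
`(∏ T) (∏ U ratio)`. -/
theorem sum_factor_mid_le (γ : ℝ) (ψ : ℕ → ℝ) (K : Classes) {q r : ℕ} (hq : 0 < q)
    (hD : 0 ≤ dist2 ψ q r) (T U : Finset ℕ) (hT : ∀ p ∈ T, p.Prime) (hU : ∀ p ∈ U, p.Prime)
    (hTU : Disjoint T U) :
    ∑ n ∈ admN γ ψ K q r, pCOn K T q r * wCoinOn K T q r n * wCoinOn K U q r n ≤
      ((4 * dist2 ψ q r + 3) * Real.exp 1 + (∏ p ∈ T, (p : ℝ)) * ∏ p ∈ U, ratio p) *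
        Real.exp 1 := by
  classical
  set a := ⌊-(γ * mdiff q r) - 2 * dist2 ψ q r⌋ with ha
  set b := ⌈-(γ * mdiff q r) + 2 * dist2 ψ q r⌉ with hb
  set len := 4 * dist2 ψ q r + 3 with hlen
  set c : ℕ → ℤ := fun p => K.cls q p * (qd r q : ℤ) - K.cls r p * (qd q r : ℤ) with hc
  set ε : ℕ → ℝ := fun p => 1 / ((p : ℝ) - 1) with hε
  have hε0 : ∀ p ∈ U, 0 ≤ ε p := fun p hp => by
    have : (2 : ℝ) ≤ p := by exact_mod_cast (hU p hp).two_le
    exact div_nonneg zero_le_one (by linarith)
  have hr1 : ∀ p ∈ U, ratio p = 1 + ε p := fun p hp => by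
    have : (2 : ℝ) ≤ p := by exact_mod_cast (hU p hp).two_le
    have h1 : (p : ℝ) - 1 ≠ 0 := by linarith
    simp only [hε, ratio]
    field_simp
    ring
  set ind : ℕ → ℤ → ℝ := fun p n => if (p : ℤ) ∣ n - c p then 1 else 0 with hind
  have hind0 : ∀ p n, 0 ≤ ind p n := fun p n => by simp only [hind]; split_ifs <;> norm_num
  -- the middle factor is expanded
  have hmid : ∀ n, wCoinOn K U q r n ≤ ∑ d ∈ U.powerset, (∏ p ∈ d, ε p) * ∏ p ∈ d, ind p n := by
    intro n
    rw [wCoinOn]
    refine le_of_le_of_eq (prod_le_prod (g := fun p => 1 + ε p * ind p n) ?_ ?_) ?_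
    · intro p hp
      split_ifs
      · exact ratio_nonneg p
      · exact zero_le_one
    · intro p hp
      split_ifs with h
      · have e : ind p n = 1 := if_pos h.2.2
        rw [e, mul_one]
        exact (hr1 p hp).le
      · exact le_add_of_nonneg_right (mul_nonneg (hε0 p hp) (hind0 p n))
    · rw [prod_one_add]
      exact sum_congr rfl fun d _ => prod_mul_distrib
  -- one set of coincident primes
  have hone : ∀ d ∈ U.powerset,
      ∑ n ∈ admN γ ψ K q r, pCOn K T q r * wCoinOn K T q r n * ∏ p ∈ d, ind p n ≤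
        (len / (∏ p ∈ d, (p : ℝ)) + ∏ p ∈ T, (p : ℝ)) * Real.exp 1 := by
    intro d hd
    rw [mem_powerset] at hd
    have hdis : Disjoint T d := hTU.mono_right hd
    have hp' : ∀ p ∈ T ∪ d, p.Prime := fun p hp =>
      (mem_union.1 hp).elim (hT p) fun h => hU p (hd h)
    set h : ℕ → ℕ → ℝ := fun p i =>
      if p ∈ T then locC K q r p i else if (p : ℤ) ∣ (i : ℤ) - c p then 1 else 0 with hh
    have h0 : ∀ p i, 0 ≤ h p i := fun p i => by
      simp only [hh]
      split_ifs
      exacts [locC_nonneg K q r p i, zero_le_one, le_rfl]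
    have hterm : ∀ n ∈ admN γ ψ K q r,
        pCOn K T q r * wCoinOn K T q r n * ∏ p ∈ d, ind p n ≤
          ∏ p ∈ T ∪ d, h p (n % (p : ℤ)).toNat := by
      intro n hn
      rw [prod_union hdis]
      refine mul_le_mul (le_of_le_of_eq (factor_le_locC K hq γ ψ hn T hT)
        (prod_congr rfl fun p hp => by simp only [hh, if_pos hp])) (le_of_eq ?_)
        (prod_nonneg fun p _ => hind0 p n) (prod_nonneg fun p _ => h0 p _)
      refine prod_congr rfl fun p hp => ?_
      have hpp := hU p (hd hp)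
      have hi : ((n % (p : ℤ)).toNat : ℤ) = n % (p : ℤ) :=
        Int.toNat_of_nonneg (Int.emod_nonneg _ (by exact_mod_cast hpp.ne_zero))
      simp only [hh, hind, if_neg (disjoint_right.1 hdis hp), hi, Int.dvd_iff_emod_eq_zero,
        Int.emod_sub_emod]
    refine (sum_le_sum hterm).trans ?_
    refine (sum_le_sum_of_subset_of_nonneg ((filter_subset _ _).trans (filter_subset _ _))
      fun n _ _ => prod_nonneg fun p _ => h0 p _).trans ?_
    refine (sum_Icc_prod_mod_le (T ∪ d) hp' h h0 a b).trans ?_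
    have hd0 : (0 : ℝ) < ∏ p ∈ d, (p : ℝ) :=
      prod_pos fun p hp => by exact_mod_cast (hU p (hd hp)).pos
    have havg : ∏ p ∈ T ∪ d, ((∑ i ∈ range p, h p i) / p) ≤
        Real.exp 1 / ∏ p ∈ d, (p : ℝ) := by
      rw [prod_union hdis, div_eq_mul_inv, ← prod_inv_distrib]
      refine mul_le_mul ?_ (le_of_eq (prod_congr rfl fun p hp => ?_))
        (prod_nonneg fun p _ => div_nonneg (sum_nonneg fun i _ => h0 p i) (Nat.cast_nonneg p))
        (Real.exp_pos _).le
      · refine (prod_le_prod (g := fun p : ℕ => Real.exp (1 / ((p : ℝ) * ((p : ℝ) - 1))))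
          (fun p hp => div_nonneg (sum_nonneg fun i _ => h0 p i) (Nat.cast_nonneg p))
          fun p hp => ?_).trans ?_
        · simp only [hh, if_pos hp]
          exact (avg_locC_le K q r (hT p hp)).trans
            (by linarith [Real.add_one_le_exp (1 / ((p : ℝ) * ((p : ℝ) - 1)))])
        · rw [← Real.exp_sum]
          exact Real.exp_le_exp.2 (sum_inv_mul_pred_le T fun p hp => (hT p hp).two_le)
      · simp only [hh, if_neg (disjoint_right.1 hdis hp), sub_eq_add_neg (_ : ℤ) (c p)]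
        rw [sum_root_ite (hU p (hd hp)), mul_zero, add_zero, one_div]
    have hv : max ((b : ℝ) - a + 1) 0 ≤ len := by
      have h1 := Int.sub_one_lt_floor (-(γ * mdiff q r) - 2 * dist2 ψ q r)
      have h2 := Int.ceil_lt_add_one (-(γ * mdiff q r) + 2 * dist2 ψ q r)
      rw [← ha] at h1
      rw [← hb] at h2
      rw [hlen]
      exact max_le (by linarith) (by linarith)
    have hT0 : (0 : ℝ) ≤ ∏ p ∈ T, (p : ℝ) := prod_nonneg fun p _ => Nat.cast_nonneg p
    calc (max ((b : ℝ) - a + 1) 0 + ∏ p ∈ T ∪ d, (p : ℝ)) *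
          ∏ p ∈ T ∪ d, ((∑ i ∈ range p, h p i) / p) ≤
        (len + (∏ p ∈ T, (p : ℝ)) * ∏ p ∈ d, (p : ℝ)) * (Real.exp 1 / ∏ p ∈ d, (p : ℝ)) := by
          rw [prod_union hdis]
          refine mul_le_mul (by linarith) havg (prod_nonneg fun p _ =>
            div_nonneg (sum_nonneg fun i _ => h0 p i) (Nat.cast_nonneg p)) ?_
          have : 0 ≤ len := le_trans (le_max_right _ _) hv
          have := mul_nonneg hT0 hd0.le
          linarith
      _ = _ := by field_simp
  -- all sets
  have hlen0 : 0 ≤ len := by rw [hlen]; linarith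
  calc ∑ n ∈ admN γ ψ K q r, pCOn K T q r * wCoinOn K T q r n * wCoinOn K U q r n ≤
      ∑ n ∈ admN γ ψ K q r, pCOn K T q r * wCoinOn K T q r n *
        ∑ d ∈ U.powerset, (∏ p ∈ d, ε p) * ∏ p ∈ d, ind p n := by
        refine sum_le_sum fun n _ => mul_le_mul_of_nonneg_left (hmid n) ?_
        refine mul_nonneg (mul_nonneg ?_ ?_) ?_ <;> refine prod_nonneg fun p _ => ?_ <;>
          split_ifs <;> first | exact ratio_nonneg p | norm_num
    _ = ∑ d ∈ U.powerset, (∏ p ∈ d, ε p) *
        ∑ n ∈ admN γ ψ K q r, pCOn K T q r * wCoinOn K T q r n * ∏ p ∈ d, ind p n := by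
        simp only [mul_sum]
        rw [sum_comm]
        exact sum_congr rfl fun d _ => sum_congr rfl fun n _ => by ring
    _ ≤ ∑ d ∈ U.powerset, (∏ p ∈ d, ε p) *
        ((len / (∏ p ∈ d, (p : ℝ)) + ∏ p ∈ T, (p : ℝ)) * Real.exp 1) :=
        sum_le_sum fun d hd => mul_le_mul_of_nonneg_left (hone d hd)
          (prod_nonneg fun p hp => hε0 p ((mem_powerset.1 hd) hp))
    _ = (len * (∏ p ∈ U, (1 + ε p / p)) + (∏ p ∈ T, (p : ℝ)) * ∏ p ∈ U, ratio p) *
          Real.exp 1 := by
        rw [prod_one_add, prod_congr rfl hr1, prod_one_add, mul_sum, mul_sum, ← sum_add_distrib,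
          sum_mul]
        refine sum_congr rfl fun d _ => ?_
        rw [show ∏ x ∈ d, ε x / (x : ℝ) = (∏ x ∈ d, ε x) / ∏ x ∈ d, (x : ℝ) from
          prod_div_distrib _ _]
        ring
    _ ≤ _ := by
        refine mul_le_mul_of_nonneg_right (add_le_add (mul_le_mul_of_nonneg_left ?_ hlen0) le_rfl)
          (Real.exp_pos _).le
        refine (prod_le_prod (g := fun p : ℕ => Real.exp (1 / ((p : ℝ) * ((p : ℝ) - 1))))
          (fun p hp => add_nonneg zero_le_one (div_nonneg (hε0 p hp) (Nat.cast_nonneg p)))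
          fun p hp => ?_).trans ?_
        · refine le_trans ?_ (Real.add_one_le_exp _)
          rw [hε, div_div, mul_comm ((p : ℝ) - 1)]
          linarith
        · rw [← Real.exp_sum]
          exact Real.exp_le_exp.2 (sum_inv_mul_pred_le U fun p hp => (hU p hp).two_le)

/-- The least band above `X` has `Z` at most `4 X ^ 2`. -/
theorem bandOf_spec {X : ℝ} (hX : 1 ≤ X) :
    X ≤ (bandZ (bandOf X + 1) : ℝ) ∧ (bandZ (bandOf X + 1) : ℝ) ≤ 4 * X ^ 2 := by
  have hne : {j : ℕ | X ≤ (bandZ (j + 1) : ℝ)}.Nonempty := by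
    refine ⟨⌈X⌉₊, (Nat.le_ceil X).trans ?_⟩
    exact_mod_cast ((Nat.lt_two_pow_self (n := ⌈X⌉₊)).le.trans
      ((pow_le_pow_right₀ one_le_two (Nat.le_succ _)).trans (Nat.lt_two_pow_self).le))
  refine ⟨Nat.sInf_mem hne, ?_⟩
  rcases Nat.eq_zero_or_pos (bandOf X) with h | h
  · rw [h]
    have : (1 : ℝ) ≤ X ^ 2 := one_le_pow₀ hX
    rw [show (bandZ (0 + 1) : ℝ) = 4 by norm_num [bandZ]]
    linarith
  · obtain ⟨j, hj⟩ : ∃ j, bandOf X = j + 1 := ⟨bandOf X - 1, by omega⟩
    have hnot : ¬ X ≤ (bandZ (j + 1) : ℝ) :=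
      Nat.notMem_of_lt_sInf (show j < sInf {j : ℕ | X ≤ (bandZ (j + 1) : ℝ)} from by
        have : bandOf X = sInf {j : ℕ | X ≤ (bandZ (j + 1) : ℝ)} := rfl
        omega)
    rw [hj, show bandZ (j + 1 + 1) = bandZ (j + 1) ^ 2 by
      rw [bandZ, bandZ, ← pow_mul, ← pow_succ]]
    push_cast
    nlinarith [Nat.cast_nonneg (α := ℝ) (bandZ (j + 1))]

/-- The primes below the threshold of the band of `X` cost an arbitrarily small power of `X`. -/
theorem exists_prod_ratio_thr_le (M : ℕ) (δ : ℝ) (hδ : 0 < δ) :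
    ∃ L : ℝ, 1 ≤ L ∧ ∀ (P : Par) (X : ℝ) (S : Finset ℕ), P.M = M → 1 ≤ X →
      (∀ p ∈ S, p.Prime ∧ p ≤ P.thr (bandOf X)) → ∏ p ∈ S, ratio p ≤ L * X ^ δ := by
  obtain ⟨C, hC0, hC⟩ := exists_prod_one_add_inv_prime_le
  set n := ⌈C⌉₊ + 1 with hn
  set e : ℝ := δ / n with he
  have he0 : 0 < e := div_pos hδ (by exact_mod_cast Nat.succ_pos _)
  set A : ℝ := (3 + 3 * M) * (1 + 1 / e) with hA
  have hA1 : 1 ≤ A := by
    have h1 : (1 : ℝ) ≤ 3 + 3 * M := by linarith [Nat.cast_nonneg (α := ℝ) M]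
    have h2 : (1 : ℝ) ≤ 1 + 1 / e := le_add_of_nonneg_right (div_nonneg zero_le_one he0.le)
    exact one_le_mul_of_one_le_of_one_le h1 h2
  refine ⟨Real.exp (1 + C) * A ^ n,
    one_le_mul_of_one_le_of_one_le (Real.one_le_exp (by linarith)) (one_le_pow₀ hA1), ?_⟩
  intro P X S hPM hX hS
  set N := max 3 (P.thr (bandOf X)) with hN
  have hN3 : 3 ≤ N := le_max_left _ _
  have hsum : ∑ p ∈ S, 1 / ((p : ℝ) - 1) ≤ 1 + C * (1 + Real.log (Real.log N)) := by
    have hsub : S ⊆ (Finset.range (N + 1)).filter Nat.Prime := fun p hp =>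
      mem_filter.2 ⟨mem_range.2 (Nat.lt_succ_of_le ((hS p hp).2.trans (le_max_right _ _))),
        (hS p hp).1⟩
    calc ∑ p ∈ S, 1 / ((p : ℝ) - 1) =
        ∑ p ∈ S, 1 / ((p : ℝ) * ((p : ℝ) - 1)) + ∑ p ∈ S, 1 / (p : ℝ) := by
          rw [← sum_add_distrib]
          refine sum_congr rfl fun p hp => ?_
          have : (2 : ℝ) ≤ p := by exact_mod_cast (hS p hp).1.two_le
          have h1 : (p : ℝ) - 1 ≠ 0 := by linarith
          field_simp
          ring
      _ ≤ _ := add_le_add (sum_inv_mul_pred_le S fun p hp => (hS p hp).1.two_le)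
          ((sum_le_sum_of_subset_of_nonneg hsub fun p _ _ => by positivity).trans (hC N hN3))
  have hlN1 : 1 ≤ Real.log N := by
    rw [Real.le_log_iff_exp_le (by exact_mod_cast (by omega : 0 < N))]
    have h3 : (3 : ℝ) ≤ N := by exact_mod_cast hN3
    linarith [Real.exp_one_lt_d9]
  have hlogX : 0 ≤ Real.log X := Real.log_nonneg hX
  have hl4 : Real.log 4 ≤ 3 / 2 := by
    rw [show (4 : ℝ) = 2 ^ 2 by norm_num, Real.log_pow]
    have := Real.log_two_lt_d9
    push_cast
    linarith
  have hlN : Real.log N ≤ (3 + 3 * M) * (1 + Real.log X) := by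
    have hh : (3 + 3 * (M : ℝ)) * (1 + Real.log X) ≥ 3 + 3 * M := by nlinarith
    rcases le_total 3 (P.thr (bandOf X)) with h | h
    · rw [hN, max_eq_right h]
      have hb := (bandOf_spec hX).2
      have hpos : (0 : ℝ) < bandZ (bandOf X + 1) := by
        exact_mod_cast (pow_pos two_pos _ : 0 < bandZ (bandOf X + 1))
      have h1 : Real.log (bandZ (bandOf X + 1) : ℝ) ≤ 3 / 2 + 2 * Real.log X := by
        refine (Real.log_le_log hpos hb).trans ?_
        rw [Real.log_mul (by norm_num) (by positivity), Real.log_pow]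
        push_cast
        linarith
      rw [Par.thr, Nat.cast_pow, Real.log_pow, hPM]
      calc (M : ℝ) * Real.log (bandZ (bandOf X + 1) : ℝ) ≤ M * (3 / 2 + 2 * Real.log X) :=
            mul_le_mul_of_nonneg_left h1 (Nat.cast_nonneg M)
        _ ≤ _ := by nlinarith [Nat.cast_nonneg (α := ℝ) M]
    · rw [hN, max_eq_left h]
      have h3 : Real.log ((3 : ℕ) : ℝ) ≤ 2 := by
        push_cast
        linarith [Real.log_le_sub_one_of_pos (show (0 : ℝ) < 3 by norm_num)]
      linarith [Nat.cast_nonneg (α := ℝ) M]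
  have hlNA : Real.log N ≤ A * X ^ e := by
    refine hlN.trans ?_
    rw [hA, mul_assoc]
    refine mul_le_mul_of_nonneg_left ?_ (by positivity)
    have h1 := Real.log_le_rpow_div (by linarith : 0 ≤ X) he0
    have h2 : 1 ≤ X ^ e := Real.one_le_rpow hX he0.le
    rw [add_mul, one_mul, div_mul_eq_mul_div, one_mul]
    linarith
  calc ∏ p ∈ S, ratio p ≤ ∏ p ∈ S, Real.exp (1 / ((p : ℝ) - 1)) := by
        refine prod_le_prod (fun p _ => ratio_nonneg p) fun p hp => ?_
        have : (2 : ℝ) ≤ p := by exact_mod_cast (hS p hp).1.two_le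
        refine le_of_eq_of_le ?_ (Real.add_one_le_exp _)
        have h1 : (p : ℝ) - 1 ≠ 0 := by linarith
        rw [ratio]
        field_simp
        ring
    _ = Real.exp (∑ p ∈ S, 1 / ((p : ℝ) - 1)) := (Real.exp_sum _ _).symm
    _ ≤ Real.exp (1 + C) * Real.exp (C * Real.log (Real.log N)) := by
        rw [← Real.exp_add]
        exact Real.exp_le_exp.2 (by linarith)
    _ ≤ Real.exp (1 + C) * (A * X ^ e) ^ n := by
        refine mul_le_mul_of_nonneg_left ?_ (Real.exp_pos _).le
        have h1 : Real.log N ^ (n : ℝ) ≤ (A * X ^ e) ^ (n : ℝ) :=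
          Real.rpow_le_rpow (by linarith) hlNA (Nat.cast_nonneg n)
        rw [Real.rpow_natCast, Real.rpow_natCast] at h1
        refine le_trans ?_ h1
        rw [← Real.rpow_natCast, Real.rpow_def_of_pos (by linarith), Real.exp_le_exp,
          mul_comm C]
        refine mul_le_mul_of_nonneg_left ?_ (Real.log_nonneg hlN1)
        rw [hn]
        push_cast
        linarith [Nat.le_ceil C]
    _ = _ := by
        rw [mul_pow, ← Real.rpow_natCast (X ^ e), ← Real.rpow_mul (by linarith), he,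
          div_mul_cancel₀ _ (by rw [hn]; exact_mod_cast Nat.succ_ne_zero ⌈C⌉₊)]
        ring

end Vale.Agent.P028.Full
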