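import Vale.Agent.P028.Defs

/-!
Deleted classes which depend on the modulus and on the prime, and the parameters of the bilinear
bound, for the proof of the weak inhomogeneous Duffin-Schaeffer statement.
-/

noncomputable section

namespace Vale.Agent.P028.Full

open Finset

/-- A system of deleted classes: at the primes of `det q` the class `cls q p` is deleted; the other
primes of `q` only contribute their average. -/
structure Classes where
  det : ℕ → Finset ℕ
  cls : ℕ → ℕ → ℤ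
  det_sub : ∀ q, det q ⊆ q.primeFactors

/-- The weight which replaces deletion. -/
def wC (K : Classes) (q : ℕ) : ℝ := ∏ p ∈ q.primeFactors \ K.det q, (1 - 1 / (p : ℝ))

/-- The residues `a < q` outside the deleted classes. -/
def admC (K : Classes) (q : ℕ) : Finset ℕ :=
  (Finset.range q).filter (fun a : ℕ => ∀ p ∈ K.det q, ¬ (p : ℤ) ∣ (a : ℤ) - K.cls q p)

/-- The weighted sub-indicator of `{x : ‖q x - γ‖ < ψ q}`. -/
def bumpC (γ : ℝ) (ψ : ℕ → ℝ) (K : Classes) (q : ℕ) (x : ℝ) : ℝ :=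
  wC K q * ∑ a ∈ admC K q,
    (Set.Ioo (((a : ℝ) + γ - ψ q) / q) (((a : ℝ) + γ + ψ q) / q)).indicator (fun _ => (1 : ℝ)) x

/-- The coincidence numbers `n = a r' - b q'` which no deletion forbids. -/
def admN (γ : ℝ) (ψ : ℕ → ℝ) (K : Classes) (q r : ℕ) : Finset ℤ :=
  (nearSet γ ψ q r).filter (fun n : ℤ =>
    (∀ p ∈ K.det q, p ∣ qd q r → ¬ (p : ℤ) ∣ n - K.cls q p * (qd r q : ℤ)) ∧
      ∀ p ∈ K.det r, p ∣ qd r q → ¬ (p : ℤ) ∣ n + K.cls r p * (qd q r : ℤ))

/-- The factor from the deleted primes of `q'` and `r'`. -/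
def pC (K : Classes) (q r : ℕ) : ℝ :=
  (∏ p ∈ (K.det q).filter (fun p => p ∣ qd q r), ratio p) *
    ∏ p ∈ (K.det r).filter (fun p => p ∣ qd r q), ratio p

/-- The factor from the common primes at which the two deleted classes coincide. -/
def wCoin (K : Classes) (q r : ℕ) (n : ℤ) : ℝ :=
  ∏ p ∈ (K.det q ∩ K.det r).filter (fun p => ¬ p ∣ qd q r * qd r q ∧
      (p : ℤ) ∣ n - (K.cls q p * (qd r q : ℤ) - K.cls r p * (qd q r : ℤ))), ratio p

/-- The exponent of the product of the two masses. -/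
def thetaX (ξ : ℝ) : ℝ := 1 / 2 + 3 * ξ / 7

/-- The exponent of a separated prime. -/
def alphaX (ξ : ℝ) : ℝ := 1 / 2 - 4 * ξ / 7

/-- The mass factor of the bilinear bound, homogeneous of degree `1 + ξ`. -/
def massFac (ξ m m' : ℝ) : ℝ := (m + m') ^ (ξ / 7) * (m * m') ^ thetaX ξ

/-- `max (f v * r') (f' w * q')`. -/
def dist2' (f f' : ℕ → ℝ) (v w : ℕ) : ℝ := max (f v * (qd w v : ℝ)) (f' w * (qd v w : ℝ))

end Vale.Agent.P028.Full
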