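import Vale.Agent.P028.Bilinear
import Vale.Agent.P028.Full.Defs

/-!
The estimate in a final state for two families with their own radii and free exponents.
-/

noncomputable section

namespace Vale.Agent.P028.Full

open Finset BilinearAux

/-- `φ(w)/w * f w` in a final state is at most `x` over `Q` and the deviations. -/
theorem wt_le_of_finState {P S U V W : Finset ℕ} {i j k : ℕ → ℕ} (h : FinState P S U V W i j)
    {f g : ℕ → ℝ} (hg : ∀ q, 0 ≤ g q) {x : ℝ} {v w : ℕ} (hv : v ∈ V) (hw : w ∈ W)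
    (hk : NoCoDev U k v w) (hd : dist2' f g v w ≤ x) :
    wt g w ≤ x / (fixedPart (P \ U) i j : ℝ) *
      ((Nat.totient (centre U k) : ℝ) / centre U k / Nat.totient (downDev U k w) /
        upDev U k v) := by
  have hU := h.prime_U
  have hw0 := h.pos_of_mem w (h.W_sub hw)
  have hcp : 0 < centre U k := prodPow_pos hU k
  have hdp := downDev_pos hU k w
  have hsub : (centre U k).primeFactors ⊆ w.primeFactors ∪ (downDev U k w).primeFactors := by
    intro p hp
    rw [← Nat.support_factorization, Finsupp.mem_support_iff, centre,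
      factorization_prodPow hU] at hp
    obtain ⟨hpU, hkp⟩ := ite_ne_right_iff.1 hp
    rw [Finset.mem_union, ← Nat.support_factorization, ← Nat.support_factorization,
      Finsupp.mem_support_iff, Finsupp.mem_support_iff, downDev, factorization_prodPow hU,
      if_pos hpU]
    omega
  have h1 := totient_div_le hcp hw0 hdp hsub
  have h2 : g w * ((fixedPart (P \ U) i j : ℝ) * ((upDev U k v : ℝ) * downDev U k w)) ≤ x := by
    refine le_trans (le_of_eq ?_) (le_trans (le_max_right _ _) hd)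
    rw [(qd_eq_of_finState h hv hw hk).1]
    push_cast
    ring
  have hQ : (0 : ℝ) < fixedPart (P \ U) i j := by
    exact_mod_cast fixedPart_pos h.prime_sdiff i j
  have hau : (0 : ℝ) < upDev U k v := by exact_mod_cast upDev_pos hU k v
  have hdd : (0 : ℝ) < downDev U k w := by exact_mod_cast hdp
  have hφd : (0 : ℝ) < Nat.totient (downDev U k w) := by exact_mod_cast Nat.totient_pos.2 hdp
  rw [← le_div_iff₀ (by positivity)] at h2
  refine le_trans (mul_le_mul h1 h2 (hg w) (by positivity)) (le_of_eq ?_)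
  field_simp

theorem dist2'_comm (f g : ℕ → ℝ) (v w : ℕ) : dist2' g f w v = dist2' f g v w := max_comm _ _

/-- A weighted sum over deviations with a test function of the upward deviation. -/
theorem sum_side_le {P S U V W : Finset ℕ} {i j k : ℕ → ℕ} (h : FinState P S U V W i j)
    (W' T : Finset ℕ) (hsub : W' ⊆ W) (hT : ∀ w ∈ W', upDev U k w ∈ T) (Fc : ℕ → ℝ)
    (hFc : ∀ c, 0 ≤ Fc c) {B D : ℝ} (hB : ∑ c ∈ T, Fc c ≤ B) (hD0 : 0 ≤ D)
    (hD : ∀ N : ℕ, 0 < N →
      (Nat.totient N : ℝ) / N * ∑ d ∈ N.divisors, 1 / (Nat.totient d : ℝ) ≤ D) :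
    ∑ w ∈ W', (Nat.totient (centre U k) : ℝ) / centre U k / Nat.totient (downDev U k w) *
      Fc (upDev U k w) ≤ D * B := by
  have hU := h.prime_U
  have hcp : 0 < centre U k := prodPow_pos hU k
  set Ω : ℝ := (Nat.totient (centre U k) : ℝ) / centre U k
  have hdd : ∀ w, downDev U k w ∈ (centre U k).divisors := by
    intro w
    refine Nat.mem_divisors.2 ⟨?_, hcp.ne'⟩
    refine (Nat.factorization_le_iff_dvd (downDev_pos hU k w).ne' hcp.ne').1 fun p => ?_
    rw [downDev, centre, factorization_prodPow hU, factorization_prodPow hU]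
    split_ifs <;> omega
  calc ∑ w ∈ W', Ω / Nat.totient (downDev U k w) * Fc (upDev U k w)
      = ∑ q ∈ W'.image (fun w => (upDev U k w, downDev U k w)),
          Ω / Nat.totient q.2 * Fc q.1 := by
        rw [Finset.sum_image ((dev_injOn h).2.mono (by exact_mod_cast hsub))]
    _ ≤ ∑ q ∈ T ×ˢ (centre U k).divisors, Ω / Nat.totient q.2 * Fc q.1 := by
        refine Finset.sum_le_sum_of_subset_of_nonneg ?_ fun q _ _ =>
          mul_nonneg (div_nonneg (by positivity) (Nat.cast_nonneg _)) (hFc _)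
        intro q hq
        obtain ⟨w, hw, rfl⟩ := Finset.mem_image.1 hq
        exact Finset.mem_product.2 ⟨hT w hw, hdd w⟩
    _ = (Ω * ∑ d ∈ (centre U k).divisors, 1 / (Nat.totient d : ℝ)) * ∑ c ∈ T, Fc c := by
        rw [Finset.sum_product, Finset.mul_sum]
        refine Finset.sum_congr rfl fun c _ => ?_
        rw [Finset.mul_sum, Finset.sum_mul]
        exact Finset.sum_congr rfl fun d _ => by ring
    _ ≤ D * B := mul_le_mul (hD _ hcp) hB (Finset.sum_nonneg fun c _ => hFc c) hD0

/-- The estimate in a final state for the pairs with `c ≤ a`, two radii and free exponents. -/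
theorem exists_final_pair_le (a1 a2 : ℝ) (ha2 : 0 < a2) (h12 : a2 < a1) (ha : a1 + a2 < 1) :
    ∃ C : ℝ, 0 ≤ C ∧ ∀ (f g : ℕ → ℝ) (P S U V W : Finset ℕ) (i j k : ℕ → ℕ) (x : ℝ)
      (K : ℕ → ℕ → ℝ), FinState P S U V W i j → (∀ q, 0 ≤ f q) → (∀ q, 0 ≤ g q) → 0 < x →
      (∀ v w, 0 ≤ K v w) → (∀ v w, K v w ≤ 1) →
      (∀ v w, K v w ≠ 0 → NoCoDev U k v w ∧ dist2' f g v w ≤ x ∧ upDev U k w ≤ upDev U k v) →
      ∑ v ∈ V, ∑ w ∈ W, K v w * (wt f v * wt g w) ≤
        C * x ^ (a1 + a2) * (mass f V ^ (1 - a2) * mass g W ^ (1 - a1)) /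
          ((fixedPart (P \ U) i j : ℝ) ^ a1 * (fixedPart (P \ U) j i : ℝ) ^ a2) := by
  have ha1 : 0 < a1 := by linarith
  have hs : 0 < a1 + a2 := by linarith
  set s : ℝ := 2 * a2 / (a1 + a2) with hsd
  set t : ℝ := 2 * a1 / (a1 + a2) with htd
  have hs0 : 0 < s := by positivity
  have hs1 : s < 1 := by rw [hsd, div_lt_one hs]; linarith
  have ht1 : 1 < t := by rw [htd, one_lt_div hs]; linarith
  obtain ⟨D₀, hD₀⟩ := exists_centre_sum_le
  set D := max D₀ 0 with hDd
  set Cs : ℝ := max (1 / (1 - s)) (1 + 1 / (t - 1)) with hCs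
  have hCs0 : 0 ≤ Cs := le_trans (div_nonneg zero_le_one (by linarith)) (le_max_left _ _)
  have hD0 : 0 ≤ D := le_max_right _ _
  have hD : ∀ N : ℕ, 0 < N →
      (Nat.totient N : ℝ) / N * ∑ d ∈ N.divisors, 1 / (Nat.totient d : ℝ) ≤ D :=
    fun N hN => (hD₀ N hN).trans (le_max_left _ _)
  set G := D * Cs with hGd
  have hG0 : 0 ≤ G := mul_nonneg hD0 hCs0
  refine ⟨G ^ a1 * G ^ a2, by positivity, ?_⟩
  intro f g P S U V W i j k x K h hf hg hx hK0 hK1 hsupp
  classical
  set Q1 : ℝ := (fixedPart (P \ U) i j : ℝ) with hQ1d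
  set Q2 : ℝ := (fixedPart (P \ U) j i : ℝ) with hQ2d
  have hQ1 : 0 < Q1 := by rw [hQ1d]; exact_mod_cast fixedPart_pos h.prime_sdiff i j
  have hQ2 : 0 < Q2 := by rw [hQ2d]; exact_mod_cast fixedPart_pos h.prime_sdiff j i
  have hU := h.prime_U
  have hF : ∀ q, 0 ≤ wt f q := BilinearAux.wt_nonneg hf
  have hF' : ∀ q, 0 ≤ wt g q := BilinearAux.wt_nonneg hg
  set T := V ×ˢ W with hT
  set g1 : ℕ × ℕ → ℝ := fun q => if K q.1 q.2 = 0 then 0 else
    wt f q.1 * wt g q.2 * ((upDev U k q.1 : ℝ) / upDev U k q.2) ^ s with hg1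
  set g2 : ℕ × ℕ → ℝ := fun q => if K q.1 q.2 = 0 then 0 else
    wt f q.1 * wt g q.2 * ((upDev U k q.2 : ℝ) / upDev U k q.1) ^ t with hg2
  have hg10 : ∀ q ∈ T, 0 ≤ g1 q := fun q _ => by
    simp only [hg1]; split_ifs
    · exact le_rfl
    · exact mul_nonneg (mul_nonneg (hF _) (hF' _)) (Real.rpow_nonneg (by positivity) _)
  have hg20 : ∀ q ∈ T, 0 ≤ g2 q := fun q _ => by
    simp only [hg2]; split_ifs
    · exact le_rfl
    · exact mul_nonneg (mul_nonneg (hF _) (hF' _)) (Real.rpow_nonneg (by positivity) _)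
  have hpoint : ∀ q ∈ T, K q.1 q.2 * (wt f q.1 * wt g q.2) ≤
      (wt f q.1 * wt g q.2) ^ (1 - a1 - a2) * g1 q ^ a1 * g2 q ^ a2 := by
    intro q hq
    have hFF : 0 ≤ wt f q.1 * wt g q.2 := mul_nonneg (hF _) (hF' _)
    by_cases h0 : K q.1 q.2 = 0
    · rw [h0, zero_mul]
      exact mul_nonneg (mul_nonneg (Real.rpow_nonneg hFF _) (Real.rpow_nonneg (hg10 q hq) _))
        (Real.rpow_nonneg (hg20 q hq) _)
    refine le_trans (mul_le_of_le_one_left hFF (hK1 _ _)) (le_of_eq ?_)
    simp only [hg1, hg2, if_neg h0]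
    set a : ℝ := (upDev U k q.1 : ℝ) with hau
    set c : ℝ := (upDev U k q.2 : ℝ) with hcu
    have ha' : 0 < a := by rw [hau]; exact_mod_cast upDev_pos hU k q.1
    have hc : 0 < c := by rw [hcu]; exact_mod_cast upDev_pos hU k q.2
    rw [Real.mul_rpow hFF (Real.rpow_nonneg (by positivity) _),
      Real.mul_rpow hFF (Real.rpow_nonneg (by positivity) _), ← Real.rpow_mul (by positivity),
      ← Real.rpow_mul (by positivity)]
    have e1 : s * a1 = t * a2 := by rw [hsd, htd]; ring
    have e2 : (a / c) ^ (s * a1) * (c / a) ^ (t * a2) = 1 := by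
      rw [← e1, ← Real.mul_rpow (by positivity) (by positivity), div_mul_div_cancel₀ hc.ne',
        div_self ha'.ne', Real.one_rpow]
    have e3 : (wt f q.1 * wt g q.2) ^ (1 - a1 - a2) * (wt f q.1 * wt g q.2) ^ a1 *
        (wt f q.1 * wt g q.2) ^ a2 = wt f q.1 * wt g q.2 := by
      rcases hFF.eq_or_lt with e | e
      · rw [← e, Real.zero_rpow ha1.ne']; simp
      · rw [← Real.rpow_add e, ← Real.rpow_add e,
          show 1 - a1 - a2 + a1 + a2 = 1 by ring, Real.rpow_one]
    calc wt f q.1 * wt g q.2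
        = ((wt f q.1 * wt g q.2) ^ (1 - a1 - a2) * (wt f q.1 * wt g q.2) ^ a1 *
            (wt f q.1 * wt g q.2) ^ a2) * ((a / c) ^ (s * a1) * (c / a) ^ (t * a2)) := by
          rw [e2, e3, mul_one]
      _ = _ := by ring
  have h1sum : ∑ q ∈ T, g1 q ≤ mass f V * (x / Q1 * G) := by
    rw [hT, Finset.sum_product, mass, Finset.sum_mul]
    refine Finset.sum_le_sum fun v hv => ?_
    set a : ℕ := upDev U k v with had
    have hap : 0 < a := upDev_pos hU k v
    have hap' : (0 : ℝ) < a := by exact_mod_cast hap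
    have hside : ∑ w ∈ W.filter (fun w => K v w ≠ 0),
        (Nat.totient (centre U k) : ℝ) / centre U k / Nat.totient (downDev U k w) *
          (((a : ℝ) / upDev U k w) ^ s / a) ≤ D * Cs := by
      refine sum_side_le h _ (Finset.Icc 1 a) (Finset.filter_subset _ _) (fun w hw =>
        Finset.mem_Icc.2 ⟨upDev_pos hU k w, (hsupp v w (Finset.mem_filter.1 hw).2).2.2⟩)
        (fun c => ((a : ℝ) / c) ^ s / a) (fun c => div_nonneg (Real.rpow_nonneg (by positivity) _)
          hap'.le) ?_ hD0 hD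
      rw [← Finset.sum_div, div_le_iff₀ hap']
      refine (sum_small_le hs0 hs1 hap' _ fun c hc => ⟨(Finset.mem_Icc.1 hc).1,
        by exact_mod_cast (Finset.mem_Icc.1 hc).2⟩).trans ?_
      rw [← one_div_mul_eq_div]
      exact mul_le_mul_of_nonneg_right (le_max_left _ _) hap'.le
    refine le_trans ?_ (mul_le_mul_of_nonneg_left
      (mul_le_mul_of_nonneg_left hside (div_nonneg hx.le hQ1.le)) (hF v))
    rw [Finset.mul_sum, Finset.mul_sum, Finset.sum_filter]
    refine Finset.sum_le_sum fun w hw => ?_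
    simp only [hg1]
    by_cases h0 : K v w = 0
    · simp [h0]
    rw [if_neg h0, if_pos h0]
    obtain ⟨hk, hd, _⟩ := hsupp v w h0
    refine le_trans (mul_le_mul_of_nonneg_right
      (mul_le_mul_of_nonneg_left (wt_le_of_finState h hg hv hw hk hd) (hF v))
      (Real.rpow_nonneg (by positivity) _)) (le_of_eq ?_)
    rw [hQ1d, had]
    ring
  have h2sum : ∑ q ∈ T, g2 q ≤ mass g W * (x / Q2 * G) := by
    rw [hT, Finset.sum_product_right, mass, Finset.sum_mul]
    refine Finset.sum_le_sum fun w hw => ?_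
    set a : ℕ := upDev U k w with had
    have hap : 0 < a := upDev_pos hU k w
    have hap' : (0 : ℝ) < a := by exact_mod_cast hap
    have hside : ∑ v ∈ V.filter (fun v => K v w ≠ 0),
        (Nat.totient (centre U k) : ℝ) / centre U k / Nat.totient (downDev U k v) *
          (((a : ℝ) / upDev U k v) ^ t / a) ≤ D * Cs := by
      refine sum_side_le h.symm _ (Finset.Icc a (V.sup (upDev U k))) (Finset.filter_subset _ _)
        (fun v hv => Finset.mem_Icc.2 ⟨(hsupp v w (Finset.mem_filter.1 hv).2).2.2,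
          Finset.le_sup (Finset.mem_filter.1 hv).1⟩)
        (fun c => ((a : ℝ) / c) ^ t / a) (fun c => div_nonneg (Real.rpow_nonneg (by positivity) _)
          hap'.le) ?_ hD0 hD
      rw [← Finset.sum_div, div_le_iff₀ hap']
      refine (sum_tail_le ht1 hap' _ fun c hc => ⟨le_trans hap (Finset.mem_Icc.1 hc).1,
        by exact_mod_cast (Finset.mem_Icc.1 hc).1⟩).trans ?_
      exact mul_le_mul_of_nonneg_right (le_max_right _ _) hap'.le
    refine le_trans ?_ (mul_le_mul_of_nonneg_left
      (mul_le_mul_of_nonneg_left hside (div_nonneg hx.le hQ2.le)) (hF' w))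
    rw [Finset.mul_sum, Finset.mul_sum, Finset.sum_filter]
    refine Finset.sum_le_sum fun v hv => ?_
    simp only [hg2]
    by_cases h0 : K v w = 0
    · simp [h0]
    rw [if_neg h0, if_pos h0]
    obtain ⟨hk, hd, _⟩ := hsupp v w h0
    refine le_trans (mul_le_mul_of_nonneg_right (mul_le_mul_of_nonneg_right
      (wt_le_of_finState (x := x) (f := g) h.symm hf hw hv (fun p hp => (hk p hp).symm)
        (by rwa [dist2'_comm])) (hF' w))
      (Real.rpow_nonneg (by positivity) _)) (le_of_eq ?_)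
    rw [hQ2d, had]
    ring
  have hsum0 : ∑ q ∈ T, wt f q.1 * wt g q.2 = mass f V * mass g W := by
    rw [hT, Finset.sum_product, mass, mass, Finset.sum_mul_sum]
  have hmV := BilinearAux.mass_nonneg hf V
  have hmW := BilinearAux.mass_nonneg hg W
  calc ∑ v ∈ V, ∑ w ∈ W, K v w * (wt f v * wt g w)
      = ∑ q ∈ T, K q.1 q.2 * (wt f q.1 * wt g q.2) := by rw [hT, Finset.sum_product]
    _ ≤ _ := Finset.sum_le_sum hpoint
    _ ≤ _ := sum_rpow3_le T _ _ _ (by linarith) ha1 ha2 (by ring)
        (fun q _ => mul_nonneg (hF _) (hF' _)) hg10 hg20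
    _ ≤ (mass f V * mass g W) ^ (1 - a1 - a2) * (mass f V * (x / Q1 * G)) ^ a1 *
          (mass g W * (x / Q2 * G)) ^ a2 := by
        rw [hsum0]
        have n1 := Finset.sum_nonneg hg10
        have n2 := Finset.sum_nonneg hg20
        gcongr
    _ = _ := by
        rw [Real.mul_rpow (x := mass f V) (y := x / Q1 * G) hmV (by positivity),
          Real.mul_rpow (x := mass g W) (y := x / Q2 * G) hmW (by positivity),
          Real.mul_rpow (x := x / Q1) (y := G) (by positivity) hG0,
          Real.mul_rpow (x := x / Q2) (y := G) (by positivity) hG0,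
          Real.div_rpow hx.le hQ1.le, Real.div_rpow hx.le hQ2.le, Real.rpow_add hx,
          Real.mul_rpow hmV hmW]
        have eV : mass f V ^ (1 - a2) = mass f V ^ (1 - a1 - a2) * mass f V ^ a1 := by
          rw [← Real.rpow_add' hmV (by linarith)]
          ring_nf
        have eW : mass g W ^ (1 - a1) = mass g W ^ (1 - a1 - a2) * mass g W ^ a2 := by
          rw [← Real.rpow_add' hmW (by linarith)]
          ring_nf
        rw [eV, eW]
        ring

end Vale.Agent.P028.Full
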