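import Vale.Agent.P028.Full.Tree
import Vale.Agent.P028.Full.BilFinal

/-!
The bilinear bound for two families with their own radii, with every exponent near `1 / 2`.
-/

noncomputable section

namespace Vale.Agent.P028.Full

open Finset

/-- `f` on `V`, zero elsewhere. -/
def restr (V : Finset ℕ) (f : ℕ → ℝ) (q : ℕ) : ℝ := if q ∈ V then f q else 0

theorem restr_nonneg {V : Finset ℕ} {f : ℕ → ℝ} (hf : ∀ q, 0 ≤ f q) (q : ℕ) :
    0 ≤ restr V f q := by
  rw [restr]; split
  · exact hf q
  · exact le_rfl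

theorem restr_le {V : Finset ℕ} {f : ℕ → ℝ} (hf : ∀ q, 0 ≤ f q) (q : ℕ) : restr V f q ≤ f q := by
  rw [restr]; split
  · exact le_rfl
  · exact hf q

theorem mass_restr {V S : Finset ℕ} (h : V ⊆ S) (f : ℕ → ℝ) :
    mass (restr V f) S = mass f V := by
  rw [mass, mass, ← Finset.sum_subset h fun q _ hq => by simp [wt, restr, hq]]
  exact Finset.sum_congr rfl fun q hq => by simp [wt, restr, hq]

open Classical in
/-- Pairs of level at most `x` weigh at most `x ^ (1 - ξ)` times the mass factor; a prime at which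
the valuations are fixed saves the power `alphaX ξ` for each unit of their distance. -/
theorem exists_bilinear_le (ξ : ℝ) (hξ : 0 < ξ) (hξ1 : ξ ≤ 1 / 100) :
    ∃ C : ℝ, ∀ (f f' : ℕ → ℝ) (V W : Finset ℕ) (x : ℝ) (p i j : ℕ), 0 < x → p.Prime →
      (∀ v ∈ V, 0 < v ∧ v.factorization p = i) → (∀ w ∈ W, 0 < w ∧ w.factorization p = j) →
      (∀ v, 0 ≤ f v) → (∀ w, 0 ≤ f' w) →
      ∑ v ∈ V, ∑ w ∈ W.filter (fun w => dist2' f f' v w ≤ x), wt f v * wt f' w ≤
        C * x ^ (1 - ξ) * (p : ℝ) ^ (-(alphaX ξ * (Nat.dist i j : ℝ))) *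
          massFac ξ (mass f V) (mass f' W) := by
  set θ := thetaX ξ with hθd
  set β := alphaX ξ with hβd
  set a1 : ℝ := 1 / 2 - 3 * ξ / 7 with ha1d
  have hθe : θ = 1 / 2 + 3 * ξ / 7 := rfl
  have hβe : β = 1 / 2 - 4 * ξ / 7 := rfl
  have hθ : 1 / 2 < θ := by rw [hθe]; linarith
  have hθ1 : θ < 1 := by rw [hθe]; linarith
  have hβ : 0 < β := by rw [hβe]; linarith
  have h12 : β < a1 := by rw [hβe, ha1d]; linarith
  have hsum : a1 + β = 1 - ξ := by rw [hβe, ha1d]; ring
  have he2 : 1 - a1 = θ := by rw [hθe, ha1d]; ring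
  have he1 : 1 - β = ξ / 7 + θ := by rw [hθe, hβe]; ring
  have hexp : 1 < 2 * θ * (β / (1 - θ)) := by
    rw [← mul_div_assoc, one_lt_div (by linarith), hθe, hβe]
    nlinarith
  obtain ⟨Cr, hCr⟩ := exists_split_bound2 θ β hθ hθ1 hβ hexp
  obtain ⟨Cf, hCf0, hCf⟩ := exists_final_pair_le a1 β hβ h12 (by linarith)
  refine ⟨max Cr 0 * (2 * Cf), ?_⟩
  intro f f' V₀ W₀ x p i₀ j₀ hx hp hV₀ hW₀ hf hf'
  set S := V₀ ∪ W₀ with hS
  set P := insert p (S.biUnion Nat.primeFactors) with hP
  have hpos : ∀ q ∈ S, 0 < q := fun q hq =>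
    (Finset.mem_union.1 hq).elim (fun h => (hV₀ q h).1) fun h => (hW₀ q h).1
  have hPp : ∀ r ∈ P, r.Prime := by
    intro r hr
    rcases Finset.mem_insert.1 hr with rfl | hr
    · exact hp
    · obtain ⟨q, _, hq⟩ := Finset.mem_biUnion.1 hr
      exact Nat.prime_of_mem_primeFactors hq
  have hfac : ∀ q ∈ S, q.primeFactors ⊆ P := fun q hq r hr =>
    Finset.mem_insert_of_mem (Finset.mem_biUnion.2 ⟨q, hq, hr⟩)
  set g := restr V₀ f with hg
  set g' := restr W₀ f' with hg'
  have hg0 : ∀ q, 0 ≤ g q := restr_nonneg hf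
  have hg0' : ∀ q, 0 ≤ g' q := restr_nonneg hf'
  set K : ℕ → ℕ → ℝ := fun v w => if dist2' g g' v w ≤ x then 1 else 0 with hK
  have hK0 : ∀ v w, 0 ≤ K v w := fun v w => by simp only [hK]; split <;> norm_num
  have hK1 : ∀ v w, K v w ≤ 1 := fun v w => by simp only [hK]; split <;> norm_num
  set mA := mass f V₀ with hmA
  set mB := mass f' W₀ with hmB
  have hA0 : 0 ≤ mA := BilinearAux.mass_nonneg hf _
  have hB0 : 0 ≤ mB := BilinearAux.mass_nonneg hf' _
  set G := 2 * Cf * (x ^ (1 - ξ) * (mA + mB) ^ (ξ / 7)) with hGd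
  have hG0 : 0 ≤ G := by positivity
  have hfinal : FinalBound2 θ β G P S (fun q => wt g q) (fun q => wt g' q) K := by
    intro U V W i j k hU hV hW hi hj K' hK'0 hK'le hK'supp
    have h : FinState P S U V W i j := ⟨hPp, hpos, hfac, hU, hV, hW, hi, hj⟩
    have hd : ∀ v w, K' v w ≠ 0 → dist2' g g' v w ≤ x := fun v w hne => by
      by_contra hc
      have := hK'le v w
      simp only [hK, if_neg hc] at this
      exact hne (le_antisymm this (hK'0 v w))
    have hle1 : ∀ v w, K' v w ≤ 1 := fun v w => (hK'le v w).trans (hK1 v w)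
    have h1 := hCf g g' P S U V W i j k x
      (fun v w => if upDev U k w ≤ upDev U k v then K' v w else 0) h hg0 hg0' hx
      (fun v w => by split_ifs; exacts [hK'0 v w, le_rfl])
      (fun v w => by split_ifs; exacts [hle1 v w, zero_le_one])
      (fun v w hne => by
        obtain ⟨hle, hne'⟩ := ite_ne_right_iff.1 hne
        exact ⟨hK'supp v w hne', hd v w hne', hle⟩)
    have h2 := hCf g' g P S U W V j i k x
      (fun w v => if upDev U k v ≤ upDev U k w then K' v w else 0) h.symm hg0' hg0 hx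
      (fun w v => by split_ifs; exacts [hK'0 v w, le_rfl])
      (fun w v => by split_ifs; exacts [hle1 v w, zero_le_one])
      (fun w v hne => by
        obtain ⟨hle, hne'⟩ := ite_ne_right_iff.1 hne
        exact ⟨fun r hr => (hK'supp v w hne' r hr).symm,
          by rw [dist2'_comm]; exact hd v w hne', hle⟩)
    rw [Finset.sum_comm] at h2
    set Q1 : ℕ := fixedPart (P \ U) i j with hQ1d
    set Q2 : ℕ := fixedPart (P \ U) j i with hQ2d
    have hQ1 : (1 : ℝ) ≤ Q1 := by exact_mod_cast fixedPart_pos h.prime_sdiff i j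
    have hQ2 : (1 : ℝ) ≤ Q2 := by exact_mod_cast fixedPart_pos h.prime_sdiff j i
    have hmV : mass g V ≤ mA + mB := by
      refine (BilinearAux.mass_mono hg0 hV).trans ?_
      rw [hg, mass_restr Finset.subset_union_left]; linarith
    have hmW : mass g' W ≤ mA + mB := by
      refine (BilinearAux.mass_mono hg0' hW).trans ?_
      rw [hg', mass_restr Finset.subset_union_right]; linarith
    have hV0 := BilinearAux.mass_nonneg hg0 V
    have hW0 := BilinearAux.mass_nonneg hg0' W
    have hone : ∀ {a b : ℝ}, 0 ≤ a → 0 ≤ b → a ≤ mA + mB →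
        ∀ {Qa Qb : ℕ}, (1 : ℝ) ≤ Qa → (1 : ℝ) ≤ Qb →
        Cf * x ^ (a1 + β) * (a ^ (1 - β) * b ^ (1 - a1)) / ((Qa : ℝ) ^ a1 * (Qb : ℝ) ^ β) ≤
          Cf * (x ^ (1 - ξ) * (mA + mB) ^ (ξ / 7)) * (a * b) ^ θ / ((Qa * Qb : ℕ) : ℝ) ^ β := by
      intro a b ha hb hab Qa Qb hQa hQb
      rw [hsum, he1, he2, Real.rpow_add' ha (by linarith), Real.mul_rpow ha hb, Nat.cast_mul,
        Real.mul_rpow (x := (Qa : ℝ)) (y := (Qb : ℝ)) (by linarith) (by linarith)]
      calc Cf * x ^ (1 - ξ) * (a ^ (ξ / 7) * a ^ θ * b ^ θ) / ((Qa : ℝ) ^ a1 * (Qb : ℝ) ^ β)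
          ≤ Cf * x ^ (1 - ξ) * ((mA + mB) ^ (ξ / 7) * a ^ θ * b ^ θ) /
              ((Qa : ℝ) ^ β * (Qb : ℝ) ^ β) := by gcongr
        _ = _ := by ring
    have h1' := h1.trans (hone hV0 hW0 hmV hQ1 hQ2)
    have h2' := h2.trans (hone hW0 hV0 hmW hQ2 hQ1)
    rw [mul_comm (mass g' W) (mass g V), mul_comm Q2 Q1] at h2'
    calc ∑ v ∈ V, ∑ w ∈ W, K' v w * (wt g v * wt g' w)
        ≤ ∑ v ∈ V, ∑ w ∈ W, ((if upDev U k w ≤ upDev U k v then K' v w else 0) *
              (wt g v * wt g' w) + (if upDev U k v ≤ upDev U k w then K' v w else 0) *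
              (wt g' w * wt g v)) := by
          refine Finset.sum_le_sum fun v _ => Finset.sum_le_sum fun w _ => ?_
          have hp := mul_nonneg (hK'0 v w) (mul_nonneg (BilinearAux.wt_nonneg hg0 v)
            (BilinearAux.wt_nonneg hg0' w))
          rw [mul_comm (wt g' w) (wt g v)]
          rcases le_total (upDev U k w) (upDev U k v) with hh | hh
          · rw [if_pos hh]
            refine le_add_of_nonneg_right ?_
            split_ifs
            · exact hp
            · simp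
          · rw [if_pos hh]
            refine le_add_of_nonneg_left ?_
            split_ifs
            · exact hp
            · simp
      _ ≤ _ := by
          simp only [Finset.sum_add_distrib]
          refine le_trans (add_le_add h1' h2') (le_of_eq ?_)
          simp only [hGd, mass]
          ring
  set i' : ℕ → ℕ := fun r => if r = p then i₀ else 0 with hi'
  set j' : ℕ → ℕ := fun r => if r = p then j₀ else 0 with hj'
  have hfix : ∀ q ∈ S, ∀ r, r ∉ P.erase p → r ≠ p → q.factorization r = 0 := by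
    intro q hq r hr hrp
    by_contra hne
    refine hr (Finset.mem_erase.2 ⟨hrp, hfac q hq ?_⟩)
    rw [← Nat.support_factorization]
    exact Finsupp.mem_support_iff.2 hne
  have hb := hCr P S _ _ K G hPp (BilinearAux.wt_nonneg hg0) (BilinearAux.wt_nonneg hg0') hK0 hG0
    hfinal (P.erase p) V₀ W₀ i' j' (Finset.erase_subset _ _) Finset.subset_union_left
    Finset.subset_union_right
    (fun v hv r hr => by
      rcases eq_or_ne r p with rfl | hne
      · simp [hi', (hV₀ v hv).2]
      · simp only [hi', if_neg hne]; exact hfix v (Finset.mem_union_left _ hv) r hr hne)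
    (fun w hw r hr => by
      rcases eq_or_ne r p with rfl | hne
      · simp [hj', (hW₀ w hw).2]
      · simp only [hj', if_neg hne]; exact hfix w (Finset.mem_union_right _ hw) r hr hne)
  have hQ : fixedPart (P \ P.erase p) i' j' * fixedPart (P \ P.erase p) j' i' =
      p ^ Nat.dist i₀ j₀ := by
    rw [Finset.sdiff_erase (Finset.mem_insert_self p _), Finset.sdiff_self,
      Finset.insert_empty, fixedPart, fixedPart, Finset.prod_singleton, Finset.prod_singleton]
    simp only [hi', hj', if_true, ← pow_add, Nat.dist]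
  have hwt : ∀ (A : Finset ℕ) (h : ℕ → ℝ), ∀ q ∈ A, wt (restr A h) q = wt h q :=
    fun A h q hq => by simp [wt, restr, hq]
  rw [hQ, Finset.sum_congr rfl (hwt V₀ f), Finset.sum_congr rfl (hwt W₀ f'), Nat.cast_pow,
    ← Real.rpow_natCast (p : ℝ), ← Real.rpow_mul (Nat.cast_nonneg p)] at hb
  calc ∑ v ∈ V₀, ∑ w ∈ W₀.filter (fun w => dist2' f f' v w ≤ x), wt f v * wt f' w
      ≤ ∑ v ∈ V₀, ∑ w ∈ W₀, K v w * (wt g v * wt g' w) := by
        refine Finset.sum_le_sum fun v hv => ?_
        rw [Finset.sum_filter]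
        refine Finset.sum_le_sum fun w hw => ?_
        rw [hg, hg', hwt V₀ f v hv, hwt W₀ f' w hw]
        split_ifs with hd
        · have : dist2' g g' v w ≤ x := by
            refine le_trans (max_le_max ?_ ?_) hd
            · exact mul_le_mul_of_nonneg_right (restr_le hf v) (Nat.cast_nonneg _)
            · exact mul_le_mul_of_nonneg_right (restr_le hf' w) (Nat.cast_nonneg _)
          simp only [hK, if_pos this, one_mul, le_refl]
        · exact mul_nonneg (hK0 v w)
            (mul_nonneg (BilinearAux.wt_nonneg hf v) (BilinearAux.wt_nonneg hf' w))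
    _ ≤ Cr * G * (mA * mB) ^ θ / (p : ℝ) ^ ((Nat.dist i₀ j₀ : ℝ) * β) := hb
    _ ≤ max Cr 0 * G * (mA * mB) ^ θ / (p : ℝ) ^ ((Nat.dist i₀ j₀ : ℝ) * β) := by
        gcongr
        exact le_max_left _ _
    _ = max Cr 0 * (2 * Cf) * x ^ (1 - ξ) * (p : ℝ) ^ (-(β * (Nat.dist i₀ j₀ : ℝ))) *
          massFac ξ mA mB := by
        rw [Real.rpow_neg (Nat.cast_nonneg p), massFac, hGd, ← hθd, mul_comm β]
        ring

end Vale.Agent.P028.Full
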