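import Vale.Agent.P028.Full.Defs

/-!
Counting the multiples of a real number which lie near an integer.
-/

noncomputable section

namespace Vale.Agent.P028.Full

open Finset

/-- Congruent numbers in a short range. -/
theorem bohr_card_congr_le (T : Finset ℕ) {q : ℕ} (hq : 0 < q) {W : ℝ} (hW : 0 ≤ W)
    (hT : ∀ a ∈ T, ∀ b ∈ T, a % q = b % q ∧ (a : ℝ) - b ≤ W) :
    (T.card : ℝ) ≤ W / q + 1 := by
  rcases T.eq_empty_or_nonempty with h | h
  · rw [h, Finset.card_empty, Nat.cast_zero]; positivity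
  have hm : T.min' h ∈ T := T.min'_mem h
  have hsub : T ⊆ (Finset.range (⌊W / q⌋₊ + 1)).image (fun i => T.min' h + i * q) := by
    intro a ha
    obtain ⟨hmod, hdiff⟩ := hT a ha _ hm
    have hle : T.min' h ≤ a := T.min'_le a ha
    obtain ⟨i, hi⟩ := (Nat.modEq_iff_dvd' hle).1 hmod.symm
    have e : a = T.min' h + i * q := by rw [Nat.mul_comm i q, ← hi]; omega
    refine Finset.mem_image.2 ⟨i, Finset.mem_range.2 (Nat.lt_succ_of_le (Nat.le_floor ?_)), e.symm⟩
    rw [le_div_iff₀ (Nat.cast_pos.2 hq)]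
    rw [e] at hdiff
    push_cast at hdiff
    linarith
  calc (T.card : ℝ) ≤ (⌊W / q⌋₊ + 1 : ℕ) := by
        exact_mod_cast (Finset.card_le_card hsub).trans
          (Finset.card_image_le.trans (Finset.card_range _).le)
    _ ≤ W / q + 1 := by
        push_cast
        linarith [Nat.floor_le (show 0 ≤ W / q by positivity)]

open Classical in
/-- In a dyadic range either few `d` have `‖d α‖ < e`, or all of them are multiples of the
denominator of a very good approximation. -/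
theorem exists_bohr_count :
    ∃ C : ℝ, 0 < C ∧ ∀ (α e D : ℝ), 0 < e → e ≤ 1 / 100 → 1 ≤ D →
      ((((Finset.Ioc ⌊D⌋₊ ⌊2 * D⌋₊).filter
          (fun d : ℕ => ∃ n : ℤ, |(d : ℝ) * α - n| < e)).card : ℝ) ≤
          C * (D * e ^ (1 / 4 : ℝ) + e ^ (-(1 / 4) : ℝ))) ∨
        ∃ (q : ℕ) (u : ℤ), 0 < q ∧ (q : ℝ) ≤ e ^ (-(1 / 4) : ℝ) ∧ IsCoprime u (q : ℤ) ∧
          |(q : ℝ) * α - u| * D ≤ Real.sqrt e ∧
          ∀ d : ℕ, (d : ℝ) ≤ 2 * D → (∃ n : ℤ, |(d : ℝ) * α - n| < e) → q ∣ d := by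
  refine ⟨100, by norm_num, fun α e D he he' hD => ?_⟩
  obtain ⟨r, hr, hden⟩ :=
    Real.exists_rat_abs_sub_le_and_den_le α (n := ⌊D⌋₊) (Nat.floor_pos.2 hD)
  set q : ℕ := r.den with hqdef
  set u : ℤ := r.num with hudef
  have hq : 0 < q := r.den_pos
  have hqR : (0 : ℝ) < q := Nat.cast_pos.2 hq
  have hqD : (q : ℝ) ≤ D := (Nat.cast_le.2 hden).trans (Nat.floor_le (by linarith))
  have hD0 : 0 < D := by linarith
  set ε : ℝ := (q : ℝ) * α - u with hε
  have hεD : |ε| * D ≤ 1 := by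
    have h1 : ε = (q : ℝ) * (α - r) := by
      rw [hε, Rat.cast_def r, hqdef, hudef]
      field_simp
    have h2 : |ε| ≤ 1 / ((⌊D⌋₊ : ℝ) + 1) := by
      rw [h1, abs_mul, Nat.abs_cast]
      refine (mul_le_mul_of_nonneg_left hr hqR.le).trans (le_of_eq ?_)
      rw [hqdef]
      field_simp
    calc |ε| * D ≤ 1 / ((⌊D⌋₊ : ℝ) + 1) * ((⌊D⌋₊ : ℝ) + 1) :=
          mul_le_mul h2 (Nat.lt_floor_add_one D).le hD0.le (by positivity)
      _ = 1 := by field_simp
  -- the key `j = d u - n q`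
  have hkey : ∀ (d : ℕ) (n : ℤ), |(d : ℝ) * α - n| < e →
      |(d : ℝ) * ε + (((d : ℤ) * u - n * q : ℤ) : ℝ)| < q * e := by
    intro d n h
    have e1 : (d : ℝ) * ε + (((d : ℤ) * u - n * q : ℤ) : ℝ) = (q : ℝ) * ((d : ℝ) * α - n) := by
      rw [hε]; push_cast; ring
    rw [e1, abs_mul, Nat.abs_cast]
    exact mul_lt_mul_of_pos_left h hqR
  set T := (Finset.Ioc ⌊D⌋₊ ⌊2 * D⌋₊).filter
    (fun d : ℕ => ∃ n : ℤ, |(d : ℝ) * α - n| < e) with hT
  have hrange : ∀ d ∈ T, D - 1 ≤ (d : ℝ) ∧ (d : ℝ) ≤ 2 * D := by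
    intro d hd
    obtain ⟨h1, h2⟩ := Finset.mem_Ioc.1 (Finset.mem_filter.1 hd).1
    constructor
    · have : ((⌊D⌋₊ : ℝ) + 1) ≤ d := by exact_mod_cast h1
      linarith [Nat.lt_floor_add_one D]
    · exact (Nat.cast_le.2 h2).trans (Nat.floor_le (by linarith))
  have hcount : ∀ W : ℝ, 0 ≤ W → (∀ a ∈ T, ∀ b ∈ T, ∀ (na nb : ℤ),
      |(a : ℝ) * α - na| < e → |(b : ℝ) * α - nb| < e →
      (a : ℤ) * u - na * q = (b : ℤ) * u - nb * q → (a : ℝ) - b ≤ W) →
      (T.card : ℝ) ≤ (2 * ((q : ℝ) * e) + 5) * (W / q + 1) := by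
    intro W hW hdiff
    choose! n hn using fun d (hd : d ∈ T) => (Finset.mem_filter.1 hd).2
    set J : ℤ := ⌊(q : ℝ) * e + 2⌋ with hJ
    have hmem : ∀ d ∈ T, (d : ℤ) * u - n d * q ∈ Finset.Icc (-J) J := by
      intro d hd
      refine Finset.mem_Icc.2 (abs_le.1 ?_)
      rw [hJ, Int.le_floor]
      push_cast
      have h1 := hkey d (n d) (hn d hd)
      push_cast at h1
      have h2 : |(d : ℝ) * ε| ≤ 2 := by
        rw [abs_mul, Nat.abs_cast]
        nlinarith [(hrange d hd).2, abs_nonneg ε]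
      have h3 := abs_sub_abs_le_abs_sub ((d : ℝ) * u - n d * q) (-((d : ℝ) * ε))
      rw [abs_neg, sub_neg_eq_add, add_comm ((d : ℝ) * u - n d * q)] at h3
      linarith
    rw [Finset.card_eq_sum_card_fiberwise hmem, Nat.cast_sum]
    refine (Finset.sum_le_card_nsmul _ _ (W / q + 1) fun j _ => ?_).trans ?_
    · refine bohr_card_congr_le _ hq hW fun a ha b hb => ?_
      obtain ⟨haT, hja⟩ := Finset.mem_filter.1 ha
      obtain ⟨hbT, hjb⟩ := Finset.mem_filter.1 hb
      refine ⟨?_, hdiff a haT b hbT _ _ (hn a haT) (hn b hbT) (hja.trans hjb.symm)⟩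
      have hdvd : (q : ℤ) ∣ ((b : ℤ) - a) * u := ⟨n b - n a, by linarith⟩
      have hco : IsCoprime (q : ℤ) u := (Rat.isCoprime_num_den r).symm
      exact Nat.modEq_iff_dvd.2 (hco.dvd_of_dvd_mul_right hdvd)
    · rw [Int.card_Icc, nsmul_eq_mul]
      refine mul_le_mul_of_nonneg_right ?_ (by positivity)
      have hJ0 : 0 ≤ J := Int.floor_nonneg.2 (by positivity)
      have eJ : (((J + 1 - -J).toNat : ℤ) : ℝ) = 2 * (J : ℝ) + 1 := by
        rw [Int.toNat_of_nonneg (by omega)]; push_cast; ring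
      push_cast at eJ
      rw [eJ]
      linarith [Int.floor_le ((q : ℝ) * e + 2)]
  have hqe : (q : ℝ) * e ≤ D * e := mul_le_mul_of_nonneg_right hqD he.le
  have he14 : e ≤ e ^ (1 / 4 : ℝ) :=
    Real.self_le_rpow_of_le_one he.le (by linarith) (by norm_num)
  have he141 : e ^ (1 / 4 : ℝ) ≤ 1 := Real.rpow_le_one he.le (by linarith) (by norm_num)
  have hinv : 1 ≤ e ^ (-(1 / 4) : ℝ) :=
    Real.one_le_rpow_of_pos_of_le_one_of_nonpos he (by linarith) (by norm_num)
  have hsq : Real.sqrt e ≤ e ^ (1 / 4 : ℝ) := by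
    rw [Real.sqrt_eq_rpow]
    exact Real.rpow_le_rpow_of_exponent_ge he (by linarith) (by norm_num)
  have hDe : 0 ≤ D * e ^ (1 / 4 : ℝ) := by positivity
  rcases lt_or_ge (e ^ (-(1 / 4) : ℝ)) q with hbig | hsmall
  · left
    refine (hcount (2 * D) (by linarith) fun a ha b hb _ _ _ _ _ => ?_).trans ?_
    · linarith [(hrange a ha).2, (Nat.cast_nonneg b : (0 : ℝ) ≤ b)]
    have h1 : D / q ≤ D * e ^ (1 / 4 : ℝ) := by
      rw [div_le_iff₀ hqR]
      have : 1 ≤ e ^ (1 / 4 : ℝ) * q := by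
        rw [Real.rpow_neg he.le, ← one_div, div_lt_iff₀ (by positivity)] at hbig
        linarith
      nlinarith
    have h2 : D * e ≤ D * e ^ (1 / 4 : ℝ) := mul_le_mul_of_nonneg_left he14 hD0.le
    calc (2 * ((q : ℝ) * e) + 5) * (2 * D / q + 1)
        = 4 * (D * e) + 10 * (D / q) + 2 * ((q : ℝ) * e) + 5 := by field_simp; ring
      _ ≤ _ := by linarith
  · rcases le_or_gt (|ε| * D) (Real.sqrt e) with hgood | hbad
    · right
      refine ⟨q, u, hq, hsmall, Rat.isCoprime_num_den r, hgood, fun d hd ⟨n, hn⟩ => ?_⟩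
      have h1 := hkey d n hn
      have h2 : |(d : ℝ) * ε| ≤ 2 * Real.sqrt e := by
        rw [abs_mul, Nat.abs_cast]
        nlinarith [abs_nonneg ε]
      have h3 : (q : ℝ) * e ≤ 1 / 2 := by
        calc (q : ℝ) * e ≤ e ^ (-(1 / 4) : ℝ) * e := mul_le_mul_of_nonneg_right hsmall he.le
          _ = e ^ (3 / 4 : ℝ) := by
              rw [← Real.rpow_add_one he.ne']; norm_num
          _ ≤ Real.sqrt e := by
              rw [Real.sqrt_eq_rpow]
              exact Real.rpow_le_rpow_of_exponent_ge he (by linarith) (by norm_num)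
          _ ≤ 1 / 2 := by rw [Real.sqrt_le_iff]; constructor <;> linarith
      have h4 : Real.sqrt e ≤ 1 / 10 := by rw [Real.sqrt_le_iff]; constructor <;> linarith
      have hj : (d : ℤ) * u - n * q = 0 := by
        refine Int.abs_lt_one_iff.1 ?_
        suffices h : |(((d : ℤ) * u - n * q : ℤ) : ℝ)| < 1 by exact_mod_cast h
        have := abs_sub ((d : ℝ) * ε + (((d : ℤ) * u - n * q : ℤ) : ℝ)) ((d : ℝ) * ε)
        rw [add_sub_cancel_left] at this
        linarith
      exact Int.natCast_dvd_natCast.1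
        ((Rat.isCoprime_num_den r).symm.dvd_of_dvd_mul_right ⟨n, by linarith⟩)
    · left
      have hε0 : 0 < |ε| := by
        by_contra h
        rw [not_lt] at h
        nlinarith [Real.sqrt_nonneg e]
      refine (hcount (2 * ((q : ℝ) * e) / |ε|) (by positivity)
        fun a _ b _ na nb hna hnb hj => ?_).trans ?_
      · rw [le_div_iff₀ hε0]
        have e1 : ((a : ℝ) - b) * ε = ((a : ℝ) * ε + (((a : ℤ) * u - na * q : ℤ) : ℝ)) -
            ((b : ℝ) * ε + (((b : ℤ) * u - nb * q : ℤ) : ℝ)) := by rw [hj]; ring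
        have h2 : |((a : ℝ) - b) * ε| ≤ 2 * ((q : ℝ) * e) := by
          rw [e1]
          refine (abs_sub _ _).trans ?_
          linarith [hkey a na hna, hkey b nb hnb]
        rw [abs_mul] at h2
        exact (mul_le_mul_of_nonneg_right (le_abs_self _) hε0.le).trans h2
      have h3 : (q : ℝ) * e ≤ 1 := by
        calc (q : ℝ) * e ≤ e ^ (-(1 / 4) : ℝ) * e := mul_le_mul_of_nonneg_right hsmall he.le
          _ = e ^ (3 / 4 : ℝ) := by rw [← Real.rpow_add_one he.ne']; norm_num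
          _ ≤ 1 := Real.rpow_le_one he.le (by linarith) (by norm_num)
      have h4 : e / |ε| ≤ D * e ^ (1 / 4 : ℝ) := by
        rw [div_le_iff₀ hε0]
        calc e = Real.sqrt e * Real.sqrt e := (Real.mul_self_sqrt he.le).symm
          _ ≤ e ^ (1 / 4 : ℝ) * (|ε| * D) :=
              mul_le_mul hsq hbad.le (Real.sqrt_nonneg e) (by positivity)
          _ = _ := by ring
      calc (2 * ((q : ℝ) * e) + 5) * (2 * ((q : ℝ) * e) / |ε| / q + 1)
          = (2 * ((q : ℝ) * e) + 5) * (2 * (e / |ε|) + 1) := by field_simp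
        _ ≤ 7 * (2 * (D * e ^ (1 / 4 : ℝ)) + 1) :=
            mul_le_mul (by linarith) (by linarith) (by positivity) (by norm_num)
        _ ≤ _ := by linarith

/-- The weight of a set of deficiencies is at most its harmonic sum. -/
theorem totient_div_weight_le (N d : ℕ) (hN : 0 < N) (hd : d ∣ N) :
    (Nat.totient (N / d) : ℝ) / N ≤ 1 / d := by
  have hd0 : 0 < d := Nat.pos_of_dvd_of_pos hd hN
  rw [div_le_div_iff₀ (Nat.cast_pos.2 hN) (Nat.cast_pos.2 hd0), one_mul]
  calc (Nat.totient (N / d) : ℝ) * d ≤ ((N / d : ℕ) : ℝ) * d :=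
        mul_le_mul_of_nonneg_right (Nat.cast_le.2 (Nat.totient_le _)) (Nat.cast_nonneg d)
    _ = N := by exact_mod_cast Nat.div_mul_cancel hd

end Vale.Agent.P028.Full
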