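import Vale.Agent.P028.Full.Pairs

/-!
The shape of the bounds for the parts of the second moment: the lightness exponent is small, then
the loss of the bilinear bound, then the rough exponent is large.
-/

noncomputable section

namespace Vale.Agent.P028.Full

/-- The pairs of kind `kind` below some level contribute a bounded amount. -/
def PartBound (kind : Ctx → ℕ → ℕ → Prop) : Prop :=
  ∃ c0 : ℝ, 0 < c0 ∧ ∀ c : ℝ, 0 < c → c ≤ c0 → ∃ ξ0 : ℝ, 0 < ξ0 ∧ ∀ ξ : ℝ, 0 < ξ → ξ ≤ ξ0 →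
    ∃ M0 : ℕ, ∀ M : ℕ, M0 ≤ M → ∀ K : ℝ, ∃ B x1 : ℝ, 0 < x1 ∧ ∀ x0 : ℝ, 0 < x0 → x0 ≤ x1 →
      ∀ C : Ctx, C.par = ⟨M, c⟩ → C.Ok ξ K → C.part x0 (kind C) ≤ B

end Vale.Agent.P028.Full
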