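import Vale.Agent.P028.Full.Tree

/-!
Cells of a centre map above a threshold, deficiencies and their probabilities.
-/

noncomputable section

namespace Vale.Agent.P028.Full

open Finset

/-- The centre of the cell of `v` above `Y`. -/
def kCentre (k : ℕ → ℕ → ℕ) (S : Finset ℕ) (Y v : ℕ) : ℕ :=
  ∏ p ∈ (S.biUnion Nat.primeFactors).filter (fun p => Y < p), p ^ k v p

/-- The deficiency of `v` above `Y`. -/
def kDef (k : ℕ → ℕ → ℕ) (S : Finset ℕ) (Y v : ℕ) : ℕ :=
  ∏ p ∈ (S.biUnion Nat.primeFactors).filter (fun p => Y < p), p ^ (k v p - v.factorization p)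

/-- The probability `φ(K / b) / K` of a deficiency. -/
def kProb (k : ℕ → ℕ → ℕ) (S : Finset ℕ) (Y v : ℕ) : ℝ :=
  (Nat.totient (kCentre k S Y v / kDef k S Y v) : ℝ) / kCentre k S Y v

open Classical in
/-- The cell of `v` above `Y`. -/
def kCell (k : ℕ → ℕ → ℕ) (S : Finset ℕ) (Y v : ℕ) : Finset ℕ :=
  S.filter (fun w => ∀ p : ℕ, p.Prime → Y < p → k v p = k w p)

/-- The members of the cell of `v` with the same deficiency. -/
def kFibre (k : ℕ → ℕ → ℕ) (S : Finset ℕ) (Y v : ℕ) : Finset ℕ :=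
  (kCell k S Y v).filter (fun w => kDef k S Y w = kDef k S Y v)

/-- The part of `w'` outside the deficiency: `r' = cPart * b_v`. -/
def cPart (k : ℕ → ℕ → ℕ) (S : Finset ℕ) (Y v w : ℕ) : ℕ := qd w v / kDef k S Y v

end Vale.Agent.P028.Full
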