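import Vale.Agent.P028.Full.Overlap

/-!
The square of a bump.
-/

noncomputable section

namespace Vale.Agent.P028.Full

open Finset MeasureTheory

/-- A bump squared has bounded integral. -/
theorem exists_diagonal_le (γ : ℝ) (ψ : ℕ → ℝ) (K : Classes) (q : ℕ) (hq : 0 < q)
    (hψ : 0 ≤ ψ q) (hψ2 : ψ q ≤ 1 / 2) :
    ∫ x, bumpC γ ψ K q x * bumpC γ ψ K q x ≤ 4 * wt ψ q := by
  have hw : 0 ≤ wC K q ∧ wC K q ≤ 1 := by
    have h : ∀ p ∈ q.primeFactors \ K.det q, 0 ≤ 1 - 1 / (p : ℝ) ∧ 1 - 1 / (p : ℝ) ≤ 1 := by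
      intro p hp
      have h1 : (1 : ℝ) ≤ (p : ℝ) := by
        exact_mod_cast (Nat.prime_of_mem_primeFactors (mem_sdiff.1 hp).1).one_le
      refine ⟨?_, ?_⟩
      · rw [sub_nonneg]
        exact (div_le_one (by linarith)).2 h1
      · have : (0 : ℝ) ≤ 1 / (p : ℝ) := by positivity
        linarith
    exact ⟨prod_nonneg fun p hp => (h p hp).1,
      prod_le_one (fun p hp => (h p hp).1) fun p hp => (h p hp).2⟩
  have hq' : (0 : ℝ) < q := Nat.cast_pos.2 hq
  have hle : ∀ x, 0 ≤ bumpC γ ψ K q x ∧ bumpC γ ψ K q x ≤ 1 := by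
    intro x
    have hs0 : 0 ≤ ∑ a ∈ admC K q, (Set.Ioo (((a : ℝ) + γ - ψ q) / q)
        (((a : ℝ) + γ + ψ q) / q)).indicator (fun _ => (1 : ℝ)) x :=
      sum_nonneg fun a _ => Set.indicator_nonneg (fun _ _ => zero_le_one) x
    refine ⟨mul_nonneg hw.1 hs0, mul_le_one₀ hw.2 hs0 ?_⟩
    classical
    simp only [Set.indicator_apply, sum_boole]
    refine Nat.cast_le_one.2 (card_le_one.2 fun a ha b hb => ?_)
    obtain ⟨-, ha1, ha2⟩ := mem_filter.1 ha
    obtain ⟨-, hb1, hb2⟩ := mem_filter.1 hb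
    rw [div_lt_iff₀ hq'] at ha1 hb1
    rw [lt_div_iff₀ hq'] at ha2 hb2
    have e1 : (a : ℝ) < ((b + 1 : ℕ) : ℝ) := by push_cast; linarith
    have e2 : (b : ℝ) < ((a + 1 : ℕ) : ℝ) := by push_cast; linarith
    rw [Nat.cast_lt] at e1 e2
    omega
  have hint : Integrable (bumpC γ ψ K q) := by
    refine (integrable_finsetSum _ fun a _ => ?_).const_mul (wC K q)
    refine (integrable_indicator_iff measurableSet_Ioo).2 ?_
    exact integrableOn_const (hs := (measure_Ioo_lt_top).ne)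
  have hwt : 0 ≤ wt ψ q := mul_nonneg (by positivity) hψ
  calc ∫ x, bumpC γ ψ K q x * bumpC γ ψ K q x ≤ ∫ x, bumpC γ ψ K q x :=
        integral_mono_of_nonneg (ae_of_all _ fun x => mul_self_nonneg _) hint
          (ae_of_all _ fun x => mul_le_of_le_one_left (hle x).1 (hle x).2)
    _ = 2 * wt ψ q := integral_bumpC γ ψ K q hq hψ
    _ ≤ 4 * wt ψ q := by linarith

end Vale.Agent.P028.Full
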