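import Vale.Agent.P028.Full.Pairs
import Vale.Agent.P028.Full.AnatomyLevel

/-!
Coincidences above a threshold for pairs in one cell: unless the cross form of the two owners
vanishes at one of the coincident primes, their product of ratios is bounded by an absolute
constant, whatever the level is.
-/

noncomputable section

namespace Vale.Agent.P028.Full

open Finset BilinearAux

variable (C : Ctx)

/-- The lifted cross form of the owners of `p`. -/
def Ctx.ownerZ (q r p : ℕ) (n : ℤ) : ℤ :=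
  anatZ n (C.node (C.owner q p) q).2 (C.node (C.owner r p) r).2 (C.def' (C.owner q p) q)
    (C.def' (C.owner r p) r) (qd r q) (qd q r) (C.node (C.owner q p) q).1 (C.node (C.owner r p) r).1

/-- An exact coincidence above `Y_k`: two classes coincide and the cross form of their nodes
vanishes. -/
def Ctx.ExactHi (k q r : ℕ) (n : ℤ) : Prop :=
  ∃ p ∈ C.classes.det q ∩ C.classes.det r, C.par.thr k < p ∧ ¬ p ∣ qd q r * qd r q ∧
    (p : ℤ) ∣ n - (C.classes.cls q p * (qd r q : ℤ) - C.classes.cls r p * (qd q r : ℤ)) ∧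
    C.ownerZ q r p n = 0

open Classical in
/-- The factor of the exact coincidences above `Y_k`, summed over the coincidence numbers. -/
def Ctx.exactSum (k q r : ℕ) : ℝ :=
  ∑ n ∈ (admN C.γ C.ψ C.classes q r).filter (fun n => C.ExactHi k q r n),
    wCoinHi C.classes (C.par.thr k) q r n

theorem Ctx.def'_pos (j v : ℕ) : 0 < C.def' j v :=
  prodPow_pos (fun p hp => by
    obtain ⟨q, -, hq⟩ := mem_biUnion.1 (mem_filter.1 hp).1
    exact Nat.prime_of_mem_primeFactors hq) _

/-- The claims on a prime depend on its dyadic block only. -/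
theorem Ctx.claims_iff_of_log_eq {j v p p' : ℕ} (hp : p.Prime) (hp' : p'.Prime)
    (h : Nat.log 2 p = Nat.log 2 p') : C.Claims j v p ↔ C.Claims j v p' := by
  have key : ∀ {a b : ℕ}, a.Prime → b.Prime → Nat.log 2 a = Nat.log 2 b →
      a ≤ C.par.thr j → b ≤ C.par.thr j := by
    intro a b ha hb hab hle
    have e : C.par.thr j = 2 ^ (2 * (2 ^ j * C.par.M)) := by
      rw [Par.thr, bandZ, ← pow_mul, pow_succ]
      ring_nf
    rw [e] at hle ⊢
    have h1 : Nat.log 2 a < 2 * (2 ^ j * C.par.M) := by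
      by_contra hge
      have h2 := (pow_le_pow_right₀ (a := 2) one_le_two (not_lt.1 hge)).trans
        (Nat.pow_log_le_self 2 ha.ne_zero)
      have h3 : a = 2 ^ (2 * (2 ^ j * C.par.M)) := le_antisymm hle h2
      rw [h3] at ha
      have h4 := Nat.Prime.not_prime_pow (x := 2) (n := 2 * (2 ^ j * C.par.M))
      rcases Nat.eq_zero_or_pos (2 ^ j * C.par.M) with h0 | h0
      · rw [h0] at ha; exact Nat.not_prime_one (by simpa using ha)
      · exact h4 (by omega) ha
    calc b ≤ 2 ^ (Nat.log 2 b + 1) := (Nat.lt_pow_succ_log_self one_lt_two b).le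
      _ ≤ 2 ^ (2 * (2 ^ j * C.par.M)) := pow_le_pow_right₀ one_le_two (by omega)
  unfold Ctx.Claims
  rw [h]
  exact and_congr_right fun _ => and_congr_right fun _ =>
    and_congr_left fun _ => ⟨key hp hp' h, key hp' hp h.symm⟩

theorem Ctx.owner_eq_of_log_eq {v p p' : ℕ} (hp : p.Prime) (hp' : p'.Prime)
    (h : Nat.log 2 p = Nat.log 2 p') : C.owner v p = C.owner v p' := by
  unfold Ctx.owner
  congr 1
  ext j
  simp only [Set.mem_ofPred_eq]
  rw [C.claims_iff_of_log_eq hp hp' h]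

/-- What the owner of a deleted prime satisfies. -/
theorem Ctx.owner_spec {v p : ℕ} (hp : p ∈ C.classes.det v) :
    C.Claims (C.owner v p) v p ∧
      ¬ p ∣ (C.node (C.owner v p) v).2 * C.def' (C.owner v p) v ∧
      (p : ℤ) ∣ C.classes.cls v p *
          (((C.node (C.owner v p) v).2 * C.def' (C.owner v p) v : ℕ) : ℤ) +
        (C.node (C.owner v p) v).1 := by
  classical
  obtain ⟨hpv, hex, hden⟩ := mem_filter.1 hp
  have hpp := Nat.prime_of_mem_primeFactors hpv
  refine ⟨(Nat.sInf_mem (s := {j | C.Claims j v p ∧ C.Light j v}) hex).1, hden, ?_⟩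
  show (p : ℤ) ∣ -(C.node (C.owner v p) v).1 * Int.gcdA (C.den v p : ℤ) p * (C.den v p : ℤ) + _
  have hg : Int.gcd (C.den v p : ℤ) p = 1 := by
    rw [Int.gcd_natCast_natCast]
    exact Nat.Coprime.symm ((hpp.coprime_iff_not_dvd).2 hden)
  have hb := Int.gcd_eq_gcd_ab (C.den v p : ℤ) p
  rw [hg] at hb
  exact ⟨(C.node (C.owner v p) v).1 * Int.gcdB (C.den v p : ℤ) p, by
    linear_combination (C.node (C.owner v p) v).1 * hb⟩

/-- In one cell above `Y_k` a deficiency above a higher threshold divides the other quotient. -/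
theorem def'_dvd_qd {k i q r : ℕ} (hq : 0 < q) (hr : 0 < r)
    (hsame : SameCell C.k (C.par.thr k) q r) (hki : C.par.thr k ≤ C.par.thr i) :
    C.def' i q ∣ qd r q := by
  have hT : ∀ p ∈ (C.S.biUnion Nat.primeFactors).filter (fun p => C.par.thr i < p), p.Prime :=
    fun p hp => by
      obtain ⟨v, -, hv⟩ := mem_biUnion.1 (mem_filter.1 hp).1
      exact Nat.prime_of_mem_primeFactors hv
  refine (Nat.factorization_le_iff_dvd (C.def'_pos i q).ne' (qd_pos hr).ne').1 fun p => ?_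
  rw [Ctx.def', kDef, factorization_prodPow hT, qd, Nat.factorization_div (Nat.gcd_dvd_left _ _),
    Nat.factorization_gcd hr.ne' hq.ne']
  split
  · next hp =>
    obtain ⟨h1, h2⟩ := hsame p (hT p hp) (lt_of_le_of_lt hki (mem_filter.1 hp).2)
    simp only [Finsupp.coe_tsub, Pi.sub_apply, Finsupp.inf_apply]
    rcases h2 with h2 | h2
    · omega
    · rw [h2, ← h1]
      rcases le_total (C.k q p) (q.factorization p) with h3 | h3
      · omega
      · rw [inf_eq_right.2 h3]
  · exact Nat.zero_le _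

theorem sameCell_symm {k : ℕ → ℕ → ℕ} {Y v w : ℕ} (h : SameCell k Y v w) : SameCell k Y w v :=
  fun p hp hY => ⟨(h p hp hY).1.symm, (h p hp hY).2.symm⟩

theorem sum_two_pow_neg_le (T : Finset ℕ) {a : ℝ} (ha : 0 ≤ a) (ha1 : a < 1) :
    ∑ s ∈ T, a ^ s ≤ 1 / (1 - a) := by
  refine (sum_le_sum_of_subset_of_nonneg (subset_range_sup_succ T)
    fun s _ _ => pow_nonneg ha s).trans ?_
  rw [Finset.range_eq_Ico]
  exact (geom_sum_Ico_le_of_lt_one ha ha1).trans_eq (by rw [pow_zero])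

/-- The coincidences above `Y_k` of a pair in one cell cost an absolute constant, unless one of
them is exact. -/
theorem Ctx.wCoinHi_le_of_not_exact {ξ K : ℝ} (hC : C.Ok ξ K) {k q r : ℕ} (hq : q ∈ C.S)
    (hr : r ∈ C.S) (hsame : SameCell C.k (C.par.thr k) q r)
    (hlog : Real.log (dist2 C.ψ q r) ≤ C.par.thr k) {n : ℤ}
    (hn : n ∈ admN C.γ C.ψ C.classes q r) (hne : ¬ C.ExactHi k q r n) :
    wCoinHi C.classes (C.par.thr k) q r n ≤ Real.exp 160 := by
  classical
  set Y := C.par.thr k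
  have hY1 : 1 ≤ Y := Nat.one_le_iff_ne_zero.2 (by simp [Y, Par.thr, bandZ])
  set P := ((C.classes.det q ∩ C.classes.det r).filter (fun p => ¬ p ∣ qd q r * qd r q ∧
      (p : ℤ) ∣ n - (C.classes.cls q p * (qd r q : ℤ) - C.classes.cls r p * (qd q r : ℤ)))).filter
    (fun p => Y < p) with hP
  have hmem : ∀ p ∈ P, p ∈ C.classes.det q ∧ p ∈ C.classes.det r ∧ p.Prime ∧ Y < p ∧
      (p : ℤ) ∣ n - (C.classes.cls q p * (qd r q : ℤ) - C.classes.cls r p * (qd q r : ℤ)) ∧
      C.ownerZ q r p n ≠ 0 := by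
    intro p hp
    obtain ⟨hp1, hpY⟩ := mem_filter.1 hp
    obtain ⟨hp2, hnd, hdvd⟩ := mem_filter.1 hp1
    exact ⟨(mem_inter.1 hp2).1, (mem_inter.1 hp2).2,
      Nat.prime_of_mem_primeFactors (C.classes.det_sub q (mem_inter.1 hp2).1), hpY, hdvd,
      fun h => hne ⟨p, hp2, hpY, hnd, hdvd, h⟩⟩
  set D := dist2 C.ψ q r with hD
  have hq0 := hC.pos q hq
  have hr0 := hC.pos r hr
  have hD0 : 0 < D := lt_of_lt_of_le
    (mul_pos (hC.psi_pos q hq) (by exact_mod_cast qd_pos hr0)) (le_max_left _ _)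
  have hblock : ∀ s ∈ P.image (Nat.log 2),
      ∏ p ∈ P.filter (fun p => Nat.log 2 p = s), ratio p ≤
        Real.exp ((8 * (2 + max (Real.log D) 0)) * (1 / 2 : ℝ) ^ s +
          16 * ((2 : ℝ) ^ (-(1 / 3) : ℝ)) ^ s) := by
    intro s hs
    obtain ⟨p0, hp0, rfl⟩ := mem_image.1 hs
    obtain ⟨hq', hr', hpp, hpY, -, hZ⟩ := hmem p0 hp0
    set s := Nat.log 2 p0 with hs0
    have hs1 : 1 ≤ s := Nat.le_log_of_pow_le one_lt_two (by simpa using hpp.two_le)
    set i := C.owner q p0 with hi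
    set i' := C.owner r p0 with hi'
    obtain ⟨hcl, hndq, hdq⟩ := C.owner_spec hq'
    obtain ⟨hcl', hndr, hdr⟩ := C.owner_spec hr'
    obtain ⟨hPpos, -, hpi, hT⟩ := hcl
    obtain ⟨hPpos', -, hpi', hT'⟩ := hcl'
    have hb := C.def'_pos i q
    have hb' := C.def'_pos i' r
    have herr : ∀ {v : ℕ}, v ∈ C.S → ∀ j,
        |((C.node j v).2 : ℝ) * (C.γ * C.def' j v) - (C.node j v).1| ≤
          C.ψ v * C.def' j v * C.scale j v := by
      intro v hv j
      have hη : 0 < C.rad j v := mul_pos (hC.psi_pos v hv) (by exact_mod_cast C.def'_pos j v)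
      have h : |((C.node j v).2 : ℝ) * (C.γ * C.def' j v) - (C.node j v).1| / C.rad j v ≤
          C.scale j v := (le_max_right _ _).trans (le_max_right _ _)
      rw [div_le_iff₀ hη] at h
      refine h.trans_eq ?_
      rw [Ctx.rad]; ring
    have h2 : ∀ j v, (2 : ℝ) ≤ C.scale j v := fun j v => le_max_left _ _
    have hlT : ∀ {j v : ℕ}, Real.log (C.scale j v) ^ (3 / 2 : ℝ) ≤ ((2 ^ s : ℕ) : ℝ) →
        Real.log (C.scale j v) ≤ ((2 : ℝ) ^ (s : ℕ)) ^ (2 / 3 : ℝ) := by
      intro j v h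
      have h0 : 0 ≤ Real.log (C.scale j v) := Real.log_nonneg (by linarith [h2 j v])
      have h' := Real.rpow_le_rpow (Real.rpow_nonneg h0 _) h (by norm_num : (0 : ℝ) ≤ 2 / 3)
      rw [← Real.rpow_mul h0] at h'
      norm_num at h' ⊢
      exact h'
    have hb1 : C.def' i q ∣ qd r q := def'_dvd_qd C hq0 hr0 hsame (hpY.le.trans hpi)
    have hb2 : C.def' i' r ∣ qd q r := def'_dvd_qd C hr0 hq0 (sameCell_symm hsame) (hpY.le.trans hpi')
    have hL : C.def' i q * C.def' i' r / anatL (C.def' i q) (C.def' i' r) (qd r q) (qd q r) = 1 := by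
      rw [anatL, Nat.gcd_eq_left (Nat.dvd_gcd (Nat.mul_dvd_mul_right hb1 _)
        (by rw [mul_comm (C.def' i q)]; exact Nat.mul_dvd_mul_right hb2 _))]
      exact Nat.div_self (Nat.mul_pos hb hb')
    have hn' : |(n : ℝ) + C.γ * ((qd r q : ℝ) - qd q r)| ≤ 2 * D := by
      have := (mem_filter.1 (mem_filter.1 hn).1).2.le
      simpa [mdiff] using this
    have hsize := abs_anatZ_div_le (f := C.ψ q) (f' := C.ψ r) (T := C.scale i q)
      (T' := C.scale i' r) hn' (by linarith [h2 i q]) (by linarith [h2 i' r])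
      ((le_max_left _ _).trans (le_max_right _ _)) ((le_max_left _ _).trans (le_max_right _ _))
      (herr hq i) (herr hr i') (le_max_left _ _) (le_max_right _ _) hb hb'
    rw [hL, Nat.cast_one, mul_one] at hsize
    set N := anatZ n (C.node i q).2 (C.node i' r).2 (C.def' i q) (C.def' i' r) (qd r q) (qd q r)
      (C.node i q).1 (C.node i' r).1 / (anatL (C.def' i q) (C.def' i' r) (qd r q) (qd q r) : ℤ)
      with hN
    have hN0 : N ≠ 0 := fun h => hZ (by
      show anatZ n (C.node i q).2 (C.node i' r).2 (C.def' i q) (C.def' i' r) (qd r q) (qd q r)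
        (C.node i q).1 (C.node i' r).1 = 0
      rw [← Int.ediv_mul_cancel (anatL_dvd_anatZ n (C.node i q).2 (C.node i' r).2 (C.def' i q)
        (C.def' i' r) (qd r q) (qd q r) (C.node i q).1 (C.node i' r).1), ← hN, h, zero_mul])
    have hy : (1 : ℝ) ≤ (2 : ℝ) ^ (s - 1) := one_le_pow₀ one_le_two
    refine (prod_ratio_of_dvd_le hN0 hy _ fun p hp => ?_).trans (Real.exp_le_exp.2 ?_)
    · obtain ⟨hpP, hps⟩ := mem_filter.1 hp
      obtain ⟨hpq, hpr, hp', -, hdvd, -⟩ := hmem p hpP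
      obtain ⟨-, hnd1, hd1⟩ := C.owner_spec hpq
      obtain ⟨-, hnd2, hd2⟩ := C.owner_spec hpr
      rw [C.owner_eq_of_log_eq hp' hpp hps, ← hi] at hnd1 hd1
      rw [C.owner_eq_of_log_eq hp' hpp hps, ← hi'] at hnd2 hd2
      refine ⟨hp', dvd_anatZ_div hp' hnd1 hnd2 hd1 hd2 hdvd, ?_⟩
      have h3 := Nat.pow_log_le_self 2 hp'.ne_zero
      rw [hps] at h3
      have h4 : 2 ^ (s - 1) < 2 ^ s := Nat.pow_lt_pow_right one_lt_two (by omega)
      exact_mod_cast lt_of_lt_of_le h4 h3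
    · have hl := Real.log_le_log (abs_pos.2 (by exact_mod_cast hN0)) hsize
      have hT0 : 0 < C.scale i q := by linarith [h2 i q]
      have hT0' : 0 < C.scale i' r := by linarith [h2 i' r]
      rw [Real.log_mul (by positivity) hD0.ne', Real.log_mul (by positivity) hT0'.ne',
        Real.log_mul (by norm_num) hT0.ne'] at hl
      have h4 : Real.log 4 ≤ 2 := by
        rw [show (4 : ℝ) = 2 ^ 2 by norm_num, Real.log_pow]
        have := Real.log_two_lt_d9
        push_cast
        linarith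
      have e1 := hlT (j := i) (v := q) hT
      have e2 := hlT (j := i') (v := r) hT'
      have e3 : ((2 : ℝ) ^ s) ^ (2 / 3 : ℝ) * ((1 / 2 : ℝ) ^ s) = ((2 : ℝ) ^ (-(1 / 3) : ℝ)) ^ s := by
        rw [← Real.rpow_natCast 2 s, ← Real.rpow_mul (by norm_num),
          ← Real.rpow_natCast (1 / 2 : ℝ) s, one_div (2 : ℝ), Real.inv_rpow (by norm_num),
          ← Real.rpow_neg (by norm_num), ← Real.rpow_add (by norm_num),
          ← Real.rpow_natCast ((2 : ℝ) ^ (-(1 / 3) : ℝ)) s, ← Real.rpow_mul (by norm_num)]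
        ring_nf
      have e4 : (2 : ℝ) ^ (s - 1) * (2 * (1 / 2 : ℝ) ^ s) = 1 := by
        obtain ⟨m, hm⟩ : ∃ m, s = m + 1 := ⟨s - 1, by omega⟩
        rw [hm, Nat.add_sub_cancel, pow_succ, ← mul_assoc, ← mul_assoc, mul_comm ((2:ℝ) ^ m) 2,
          mul_assoc (2:ℝ) ((2:ℝ)^m), ← mul_pow]
        norm_num
      have h5 : (0 : ℝ) < (2 : ℝ) ^ (s - 1) := by positivity
      rw [div_le_iff₀ h5, ← e3]
      set a := ((2 : ℝ) ^ s) ^ (2 / 3 : ℝ)
      set t := (1 / 2 : ℝ) ^ s
      have : 4 * Real.log |(N : ℝ)| ≤ 4 * (2 + max (Real.log D) 0) + 8 * a := by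
        linarith [le_max_left (Real.log D) 0]
      refine this.trans_eq ?_
      have e5 : t * (2 : ℝ) ^ (s - 1) = 1 / 2 := by linarith [e4]
      calc 4 * (2 + max (Real.log D) 0) + 8 * a
          = (8 * (2 + max (Real.log D) 0) + 16 * a) * (1 / 2) := by ring
        _ = _ := by rw [← e5]; ring
  show ∏ p ∈ P, ratio p ≤ _
  rw [← prod_fiberwise_of_maps_to (g := Nat.log 2) fun p hp => mem_image_of_mem _ hp]
  refine (prod_le_prod (fun s _ => prod_nonneg fun p _ => ratio_nonneg p) hblock).trans ?_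
  rw [← Real.exp_sum, Real.exp_le_exp, sum_add_distrib, ← mul_sum, ← mul_sum]
  have hc : ((2 : ℝ) ^ (-(1 / 3) : ℝ)) ≤ 4 / 5 := by
    rw [Real.rpow_neg (by norm_num), inv_le_comm₀ (Real.rpow_pos_of_pos (by norm_num) _)
      (by norm_num), one_div]
    rw [Real.le_rpow_inv_iff_of_pos (by norm_num) (by norm_num) (by norm_num)]
    norm_num
  have hA : ∑ s ∈ P.image (Nat.log 2), (1 / 2 : ℝ) ^ s ≤ 2 :=
    (sum_two_pow_neg_le _ (by norm_num) (by norm_num)).trans (by norm_num)
  have hB : ∑ s ∈ P.image (Nat.log 2), ((2 : ℝ) ^ (-(1 / 3) : ℝ)) ^ s ≤ 5 := by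
    refine (sum_two_pow_neg_le _ (Real.rpow_nonneg (by norm_num) _) (by linarith)).trans ?_
    rw [div_le_iff₀ (by linarith)]
    linarith
  have hY : (Y : ℝ) * ∑ s ∈ P.image (Nat.log 2), (1 / 2 : ℝ) ^ s ≤ 4 := by
    rcases (P.image (Nat.log 2)).eq_empty_or_nonempty with h | h
    · rw [h, sum_empty, mul_zero]; norm_num
    obtain ⟨p0, hp0, hp0e⟩ := mem_image.1 (Finset.min'_mem _ h)
    set s0 := (P.image (Nat.log 2)).min' h
    have hsum : ∑ s ∈ P.image (Nat.log 2), (1 / 2 : ℝ) ^ s ≤ (1 / 2 : ℝ) ^ s0 * 2 := by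
      have hsub : P.image (Nat.log 2) ⊆
          Finset.Ico s0 ((P.image (Nat.log 2)).max' h + 1) := fun s hs =>
        mem_Ico.2 ⟨min'_le _ s hs, Nat.lt_succ_of_le (le_max' _ s hs)⟩
      refine (sum_le_sum_of_subset_of_nonneg hsub fun s _ _ => by positivity).trans ?_
      refine (geom_sum_Ico_le_of_lt_one (by norm_num) (by norm_num)).trans_eq ?_
      ring
    have hY' : (Y : ℝ) ≤ (2 : ℝ) ^ (s0 + 1) := by
      have h1 := (hmem p0 hp0).2.2.2.1
      have h2 := Nat.lt_pow_succ_log_self one_lt_two p0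
      rw [hp0e] at h2
      exact_mod_cast (h1.trans h2).le
    calc (Y : ℝ) * _ ≤ (2 : ℝ) ^ (s0 + 1) * ((1 / 2 : ℝ) ^ s0 * 2) :=
          mul_le_mul hY' hsum (sum_nonneg fun s _ => by positivity) (by positivity)
      _ = 4 := by
          rw [pow_succ, mul_mul_mul_comm, ← mul_pow]
          norm_num
  have hA0 : 0 ≤ ∑ s ∈ P.image (Nat.log 2), (1 / 2 : ℝ) ^ s := sum_nonneg fun s _ => by positivity
  have hmax : max (Real.log D) 0 ≤ Y := max_le hlog (Nat.cast_nonneg _)
  nlinarith [mul_le_mul_of_nonneg_right hmax hA0]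

end Vale.Agent.P028.Full
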