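import Vale.Agent.P028.Full.Exact

/-!
The moment of the exact coincidences above a threshold for pairs in one cell, at every level.
-/

noncomputable section

namespace Vale.Agent.P028.Full

open Finset

open Classical in
/-- Pairs of level at most `x` in one cell above `Y_k`, `Z_{k+1} ≥ max x x⁻¹`: every power of the
exact coincidences costs `Z_{k+1} ^ ε`. -/
theorem exists_exactMoment_le :
    ∃ ξ0 : ℝ, 0 < ξ0 ∧ ∀ ξ : ℝ, 0 < ξ → ξ ≤ ξ0 → ∀ u : ℕ,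
      ∃ M0 : ℕ, ∀ M : ℕ, M0 ≤ M → ∀ c K ε : ℝ, 0 < c → 0 < ε → ∃ B : ℝ,
        ∀ C : Ctx, C.par = ⟨M, c⟩ → C.Ok ξ K → ∀ x : ℝ, 0 < x →
          ∀ k : ℕ, bandOf (max x x⁻¹) ≤ k →
            ∑ q ∈ C.S, ∑ r ∈ C.S.filter (fun r =>
                r ≠ q ∧ dist2 C.ψ q r ≤ x ∧ SameCell C.k (C.par.thr k) q r),
              wt C.ψ q * wt C.ψ r * C.exactSum k q r ^ u ≤
              B * x ^ (1 - 2 * ξ) * (bandZ (k + 1) : ℝ) ^ ε := by
  sorry

end Vale.Agent.P028.Full
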