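import Mathlib

/-!
Exclusive Rogers compression at one point of the lower coordinates.

The items `I` cover the point, at most one for each pattern.  At the digit `j` an item is fixed to a
class (`fix`), deletes one class (`del`) or is free (`none`).  If two patterns first differ, from
the top, at a digit where one is fixed and the other deletes, the deleted classes can be chosen from
the lower digits so that the items become pairwise disjoint, each keeping its exact probability.
-/

noncomputable section

namespace Vale.Agent.P028.Full.Exclusive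

open Finset

/-- The state of an item at one digit. -/
inductive St
  | fix
  | del
  | none
  deriving DecidableEq

/-- The data of the items. -/
structure Sys (ι : Type*) where
  n : ℕ
  size : ℕ → ℕ
  I : Finset ι
  pat : ι → ℕ → St
  cls : ι → ℕ → ℕ
  dflt : ι → ℕ → ℕ

variable {ι : Type*} (S : Sys ι)

/-- Same pattern at the digits `≥ j`. -/
def Sys.Agree (j : ℕ) (i k : ι) : Prop := ∀ l, j ≤ l → l < S.n → S.pat i l = S.pat k l

open Classical in
/-- The class deleted by `i` at the digit `j`, given the items which meet the lower digits. -/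
def Sys.delOf (j : ℕ) (i : ι) (ok : ι → Prop) : ℕ :=
  if h : ∃ k ∈ S.I, S.Agree (j + 1) i k ∧ S.pat k j = .fix ∧ ok k then S.cls h.choose j
  else S.dflt i j

/-- The conditions of the item `i` at the digits below `j`. -/
def Sys.ok : ℕ → ι → (ℕ → ℕ) → Prop
  | 0, _, _ => True
  | j + 1, i, m => Sys.ok j i m ∧ (S.pat i j = .fix → m j = S.cls i j) ∧
      (S.pat i j = .del → m j ≠ S.delOf j i (fun k => Sys.ok j k m))

/-- The probability kept by an item at one digit. -/
def Sys.weight (i : ι) (j : ℕ) : ℝ :=
  match S.pat i j with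
  | .fix => 1 / (S.size j : ℝ)
  | .del => 1 - 1 / (S.size j : ℝ)
  | .none => 1

/-- The mean over the digits below `j`. -/
def Sys.mean : ℕ → ((ℕ → ℕ) → ℝ) → (ℕ → ℕ) → ℝ
  | 0, f => f
  | j + 1, f => Sys.mean j fun m =>
      (∑ c ∈ Finset.range (S.size j), f (Function.update m j c)) / (S.size j : ℝ)

theorem Sys.ok_update {j l : ℕ} (hl : j ≤ l) (i : ι) (m : ℕ → ℕ) (c : ℕ) :
    S.ok j i (Function.update m l c) ↔ S.ok j i m := by
  induction j generalizing i with
  | zero => exact Iff.rfl
  | succ j ih =>
    have e : (fun k => S.ok j k (Function.update m l c)) = fun k => S.ok j k m :=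
      funext fun k => propext (ih (by omega) k)
    rw [Sys.ok, Sys.ok, ih (by omega) i, e, Function.update_of_ne (by omega)]

/-- Hypotheses: two items differing first, from the top, at a digit are fixed and deleting there,
and no two items have one pattern. -/
def Sys.Separated : Prop :=
  ∀ i ∈ S.I, ∀ k ∈ S.I, (S.Agree 0 i k → i = k) ∧
    ∀ j, j < S.n → S.Agree (j + 1) i k → S.pat i j ≠ S.pat k j →
      (S.pat i j = .fix ∧ S.pat k j = .del) ∨ (S.pat i j = .del ∧ S.pat k j = .fix)

/-- Items which agree above `j` and meet the same digits below `j` are equal. -/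
theorem Sys.eq_of_ok (h : S.Separated) :
    ∀ j, j ≤ S.n → ∀ i ∈ S.I, ∀ k ∈ S.I, ∀ m, S.Agree j i k → S.ok j i m → S.ok j k m → i = k := by
  intro j
  induction j with
  | zero => exact fun _ i hi k hk _ ha _ _ => (h i hi k hk).1 ha
  | succ j ih =>
    intro hj i hi k hk m ha hoi hok
    by_cases he : S.pat i j = S.pat k j
    · exact ih (by omega) i hi k hk m
        (fun l hl hln => (eq_or_lt_of_le hl).elim (fun e => e ▸ he) fun e => ha l e hln) hoi.1 hok.1
    exfalso
    have main : ∀ a ∈ S.I, ∀ b ∈ S.I, S.Agree (j + 1) a b → S.pat a j = .del → S.pat b j = .fix →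
        S.ok (j + 1) a m → S.ok (j + 1) b m → False := by
      intro a _ b hb hab pa pb hoa hob
      have hex : ∃ k ∈ S.I, S.Agree (j + 1) a k ∧ S.pat k j = .fix ∧ S.ok j k m :=
        ⟨b, hb, hab, pb, hob.1⟩
      obtain ⟨c1, c2, c3, c4⟩ := hex.choose_spec
      have heq : hex.choose = b := by
        refine ih (by omega) _ c1 b hb m (fun l hl hln => ?_) c4 hob.1
        rcases eq_or_lt_of_le hl with e | e
        · rw [← e, c3, pb]
        · rw [← c2 l e hln, hab l e hln]
      refine hoa.2.2 pa ?_
      rw [hob.2.1 pb, Sys.delOf, dif_pos hex, heq]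
    rcases (h i hi k hk).2 j (by omega) ha he with ⟨p, q⟩ | ⟨p, q⟩
    · exact main k hk i hi (fun l hl hln => (ha l hl hln).symm) q p hok hoi
    · exact main i hi k hk ha p q hoi hok

/-- The items are disjoint. -/
theorem Sys.eq_of_ok_top (h : S.Separated) {i k : ι} (hi : i ∈ S.I) (hk : k ∈ S.I) {m : ℕ → ℕ}
    (h1 : S.ok S.n i m) (h2 : S.ok S.n k m) : i = k :=
  S.eq_of_ok h S.n le_rfl i hi k hk m (fun _ hl hln => absurd hln (not_lt.2 hl)) h1 h2

/-- The classes are residues. -/
def Sys.Valid : Prop :=
  ∀ j, j < S.n → 0 < S.size j ∧ ∀ i, S.cls i j < S.size j ∧ S.dflt i j < S.size j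

open Classical in
/-- Each item keeps exactly the product of its probabilities. -/
theorem Sys.mean_ok (hv : S.Valid) :
    ∀ j, j ≤ S.n → ∀ (i : ι) (a : ℝ) (m0 : ℕ → ℕ),
      S.mean j (fun m => if S.ok j i m then a else 0) m0 = a * ∏ l ∈ Finset.range j, S.weight i l := by
  intro j
  induction j with
  | zero => intro _ i a m0; simp [Sys.mean, Sys.ok]
  | succ j ih =>
    intro hj i a m0
    obtain ⟨hp, hc⟩ := hv j (by omega)
    have hp0 : (S.size j : ℝ) ≠ 0 := by exact_mod_cast hp.ne'
    rw [Sys.mean]
    refine Eq.trans (congrArg (S.mean j · m0) (funext fun m => ?_))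
      ((ih (by omega) i (a * S.weight i j) m0).trans
        (by rw [Finset.prod_range_succ]; ring))
    have hd : S.delOf j i (fun k => S.ok j k m) < S.size j := by
      rw [Sys.delOf]
      split_ifs with hk
      · exact (hc hk.choose).1
      · exact (hc i).2
    have e : ∀ c, S.ok (j + 1) i (Function.update m j c) ↔ S.ok j i m ∧
        (S.pat i j = .fix → c = S.cls i j) ∧
          (S.pat i j = .del → c ≠ S.delOf j i (fun k => S.ok j k m)) := by
      intro c
      have e' : (fun k => S.ok j k (Function.update m j c)) = fun k => S.ok j k m :=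
        funext fun k => propext (S.ok_update le_rfl k m c)
      rw [Sys.ok, S.ok_update le_rfl, e', Function.update_self]
    simp only [e]
    by_cases ho : S.ok j i m
    swap
    · simp [ho]
    simp only [ho, true_and, if_true]
    rcases hs : S.pat i j with _ | _ | _
    · simp [Sys.weight, hs, (hc i).1, div_eq_mul_inv]
    · simp only [Sys.weight, hs, reduceCtorEq, false_implies, true_implies, true_and, ne_eq, ite_not]
      rw [Finset.sum_ite, Finset.sum_const_zero, zero_add, Finset.sum_const, nsmul_eq_mul,
        Finset.filter_ne', Finset.card_erase_of_mem (Finset.mem_range.2 hd), Finset.card_range,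
        Nat.cast_sub hp]
      field_simp
      push_cast
      ring
    · simp only [Sys.weight, hs, reduceCtorEq, false_implies, true_and, if_true, Finset.sum_const,
        Finset.card_range, nsmul_eq_mul]
      field_simp

theorem Sys.mean_mono {f g : (ℕ → ℕ) → ℝ} :
    ∀ j, (∀ m, f m ≤ g m) → ∀ m0, S.mean j f m0 ≤ S.mean j g m0 := by
  intro j
  induction j generalizing f g with
  | zero => exact fun h m0 => h m0
  | succ j ih =>
    exact fun h m0 => ih (fun m => div_le_div_of_nonneg_right
      (Finset.sum_le_sum fun c _ => h _) (Nat.cast_nonneg _)) m0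

theorem Sys.mean_sum {κ : Type*} (s : Finset κ) (f : κ → (ℕ → ℕ) → ℝ) :
    ∀ j m0, S.mean j (fun m => ∑ x ∈ s, f x m) m0 = ∑ x ∈ s, S.mean j (f x) m0 := by
  intro j
  induction j generalizing f with
  | zero => exact fun _ => rfl
  | succ j ih =>
    intro m0
    rw [Sys.mean]
    refine Eq.trans (congrArg (S.mean j · m0) (funext fun m => ?_)) (ih _ m0)
    rw [← Finset.sum_div, Finset.sum_comm]

open Classical in
/-- Rogers' inequality: the mean of the union of the fixed classes is at least the sum of the exact
probabilities of the patterns. -/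
theorem Sys.sum_weight_le_mean (hv : S.Valid) (h : S.Separated) (m0 : ℕ → ℕ) :
    ∑ i ∈ S.I, ∏ l ∈ Finset.range S.n, S.weight i l ≤
      S.mean S.n (fun m => if ∃ i ∈ S.I, ∀ l, l < S.n → S.pat i l = .fix → m l = S.cls i l
        then 1 else 0) m0 := by
  have hfix : ∀ j i m, S.ok j i m → ∀ l, l < j → S.pat i l = .fix → m l = S.cls i l := by
    intro j
    induction j with
    | zero => intro i m _ l hl; omega
    | succ j ih =>
      intro i m ho l hl hp
      rcases eq_or_lt_of_le (Nat.le_of_lt_succ hl) with e | e
      · exact e ▸ ho.2.1 (e ▸ hp)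
      · exact ih i m ho.1 l e hp
  calc ∑ i ∈ S.I, ∏ l ∈ Finset.range S.n, S.weight i l
      = S.mean S.n (fun m => ∑ i ∈ S.I, if S.ok S.n i m then (1 : ℝ) else 0) m0 := by
        rw [S.mean_sum]
        exact Finset.sum_congr rfl fun i _ => by rw [S.mean_ok hv S.n le_rfl i 1 m0, one_mul]
    _ ≤ _ := by
        refine S.mean_mono S.n (fun m => ?_) m0
        by_cases hex : ∃ i ∈ S.I, S.ok S.n i m
        · obtain ⟨i, hi, hio⟩ := hex
          rw [Finset.sum_eq_single i (fun k hk hki => if_neg fun hko =>
            hki (S.eq_of_ok_top h hk hi hko hio)) (fun hn => absurd hi hn), if_pos hio,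
            if_pos ⟨i, hi, hfix S.n i m hio⟩]
        · rw [Finset.sum_eq_zero fun k hk => if_neg fun hko => hex ⟨k, hk, hko⟩]
          split_ifs <;> norm_num

end Vale.Agent.P028.Full.Exclusive
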