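import Vale.Agent.P028.Full.FracDefs

/-!
The exclusive selection: bounds, means and the product of two totals.

The selection of an admissible family has total at most `1`, each item keeps its mean, and the mean
of the product of two totals is at most the kernel, which is that of the averaged weights above the
first coordinate at which both items are constrained.
-/

noncomputable section

namespace Vale.Agent.P028.Full.Frac

open Finset

variable {ι : Type*} {p : ℕ → ℕ} {st : ι → ℕ → St} {f : ι → ℝ}

theorem avgE_mono {m : ℕ} {F G : (ℕ → ℕ) → ℝ} (h : ∀ ω, F ω ≤ G ω) :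
    ∀ ω, avgE p m F ω ≤ avgE p m G ω := by
  induction m generalizing F G with
  | zero => exact h
  | succ m ih =>
    exact fun ω => ih (fun ω' => div_le_div_of_nonneg_right
      (Finset.sum_le_sum fun c _ => h _) (Nat.cast_nonneg _)) ω

theorem avgE_add {m : ℕ} {F G : (ℕ → ℕ) → ℝ} :
    ∀ ω, avgE p m (fun ω => F ω + G ω) ω = avgE p m F ω + avgE p m G ω := by
  induction m generalizing F G with
  | zero => exact fun _ => rfl
  | succ m ih =>
    intro ω
    simp only [avgE, Finset.sum_add_distrib, add_div]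
    exact ih ω

theorem avgE_const_mul {m : ℕ} {F : (ℕ → ℕ) → ℝ} (a : ℝ) :
    ∀ ω, avgE p m (fun ω => a * F ω) ω = a * avgE p m F ω := by
  induction m generalizing F with
  | zero => exact fun _ => rfl
  | succ m ih =>
    intro ω
    simp only [avgE, ← Finset.mul_sum, mul_div_assoc]
    exact ih ω

theorem avgE_sum {κ : Type*} {m : ℕ} (s : Finset κ) (F : κ → (ℕ → ℕ) → ℝ) (ω : ℕ → ℕ) :
    avgE p m (fun ω => ∑ k ∈ s, F k ω) ω = ∑ k ∈ s, avgE p m (F k) ω := by
  classical
  induction s using Finset.induction_on with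
  | empty => simpa using avgE_const_mul (p := p) (m := m) (F := fun _ => 0) 0 ω
  | insert a s ha ih => simp only [Finset.sum_insert ha, avgE_add, ih]

theorem sel_congr {m : ℕ} {S : Finset ι} {ω ω' : ℕ → ℕ} (h : ∀ l < m, ω l = ω' l) (i : ι) :
    sel p st f m S ω i = sel p st f m S ω' i := by
  induction m generalizing S i with
  | zero => rfl
  | succ m ih =>
    have h' : ∀ T j, sel p st f m T ω j = sel p st f m T ω' j :=
      fun T j => ih (fun l hl => h l (by omega)) j
    simp only [sel, h', h m (Nat.lt_succ_self m)]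

theorem sel_update {m : ℕ} {S : Finset ι} {ω : ℕ → ℕ} {c : ℕ} (i : ι) :
    sel p st f m S (Function.update ω m c) i = sel p st f m S ω i :=
  sel_congr (fun l hl => Function.update_of_ne (by omega) _ _) i

theorem sum_hit (hp : ∀ m, 0 < p m) {m : ℕ} (c : ℕ) :
    ∑ d ∈ Finset.range (p m), (St.con c).hit (p m) d = 1 := by
  simp [St.hit, Nat.mod_lt c (hp m)]

theorem hit_nonneg (q : ℕ) (s : St) (d : ℕ) : 0 ≤ s.hit q d := by
  cases s <;> simp [St.hit]
  split <;> norm_num

theorem hit_le_one (q : ℕ) (s : St) (d : ℕ) : s.hit q d ≤ 1 := by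
  cases s <;> simp [St.hit]
  split <;> norm_num

theorem exists_con {s : St} (h : s.kind = 2) : ∃ c, s = .con c := by
  cases s <;> simp_all [St.kind]

theorem eq_free {s : St} (h : s.kind = 1) : s = .free := by
  cases s <;> simp_all [St.kind]

theorem sum_fam (S : Finset ι) (m : ℕ) (g : ι → ℝ) :
    ∑ i ∈ S, g i = ∑ i ∈ fam st S m 0, g i + ∑ i ∈ fam st S m 1, g i + ∑ i ∈ fam st S m 2, g i := by
  rw [← Finset.sum_fiberwise S (fun i => (st i m).kind) g, Fin.sum_univ_three]
  rfl

theorem eq_idle {s : St} (h : s.kind = 0) : s = .idle := by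
  cases s <;> simp_all [St.kind]

/-- The bounds of the selection. -/
theorem sel_bounds (hp : ∀ m, 0 < p m) (hf : ∀ i, 0 ≤ f i) {m : ℕ} :
    ∀ {S : Finset ι}, Adm st f m S → ∀ ω,
      (∀ i ∈ S, 0 ≤ sel p st f m S ω i ∧
        sel p st f m S ω i ≤ f i * ∏ l ∈ Finset.range m, (st i l).hit (p l) (ω l)) ∧
      tot p st f m S ω ≤ 1 := by
  induction m with
  | zero =>
    intro S hS ω
    exact ⟨fun i _ => ⟨hf i, by simp [sel]⟩, hS⟩
  | succ m ih =>
    intro S hS ω
    set r : ℝ := 1 / (p m : ℝ) with hr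
    have hr0 : 0 ≤ r := by positivity
    have hr1 : r ≤ 1 := by
      rw [hr, div_le_one (by exact_mod_cast hp m)]
      exact_mod_cast hp m
    have hk := fun k => ih (hS.2 k) ω
    set b := tot p st f m (fam st S m 2) ω with hb
    have hb1 : b ≤ 1 := (hk 2).2
    have hb0 : 0 ≤ b := Finset.sum_nonneg fun j hj => ((hk 2).1 j hj).1
    set D := ∑ j ∈ fam st S m 2, (st j m).hit (p m) (ω m) * sel p st f m (fam st S m 2) ω j with hD
    have hD0 : 0 ≤ D := Finset.sum_nonneg fun j hj =>
      mul_nonneg (hit_nonneg _ _ _) ((hk 2).1 j hj).1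
    have hDb : D ≤ b := Finset.sum_le_sum fun j hj =>
      mul_le_of_le_one_left ((hk 2).1 j hj).1 (hit_le_one _ _ _)
    set w := 1 - (1 - b) * r - D with hw
    have hw0 : 0 ≤ w := by nlinarith
    have hw1 : w ≤ 1 := by nlinarith
    have hdiv : (1 - b) / (p m : ℝ) = (1 - b) * r := by rw [hr]; ring
    have hfree : ∀ i ∈ fam st S m 1,
        sel p st f (m + 1) S ω i = sel p st f m (fam st S m 1) ω i * w := by
      intro i hi
      simp only [sel, eq_free (Finset.mem_filter.1 hi).2]
      rw [← hD, hw, ← hdiv, hb, tot]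
    have hidle : ∀ i ∈ fam st S m 0, sel p st f (m + 1) S ω i = sel p st f m (fam st S m 0) ω i := by
      intro i hi
      simp only [sel, eq_idle (Finset.mem_filter.1 hi).2]
    have hcon : ∀ i ∈ fam st S m 2, sel p st f (m + 1) S ω i =
        (st i m).hit (p m) (ω m) * sel p st f m (fam st S m 2) ω i := by
      intro i hi
      obtain ⟨c, hc⟩ := exists_con (Finset.mem_filter.1 hi).2
      simp only [sel, hc]
    refine ⟨fun i hi => ?_, ?_⟩
    · have hmem : i ∈ fam st S m (st i m).kind := Finset.mem_filter.2 ⟨hi, rfl⟩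
      obtain ⟨h0, h1⟩ := (hk (st i m).kind).1 i hmem
      rw [Finset.prod_range_succ]
      cases hs : st i m with
      | idle =>
        rw [hs] at hmem h0 h1
        rw [hidle i hmem]
        refine ⟨h0, h1.trans (le_of_eq ?_)⟩
        simp [St.hit]
      | free =>
        rw [hs] at hmem h0 h1
        rw [hfree i hmem]
        refine ⟨mul_nonneg h0 hw0, ((mul_le_of_le_one_right h0 hw1).trans h1).trans (le_of_eq ?_)⟩
        simp [St.hit]
      | con c =>
        rw [hs] at hmem h0 h1
        rw [hcon i hmem, hs]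
        refine ⟨mul_nonneg (hit_nonneg _ _ _) h0,
          (mul_le_mul_of_nonneg_left h1 (hit_nonneg _ _ _)).trans (le_of_eq ?_)⟩
        ring
    · have hsplit : tot p st f (m + 1) S ω =
          tot p st f m (fam st S m 0) ω + tot p st f m (fam st S m 1) ω * w + D := by
        rw [tot, sum_fam S m]
        rw [Finset.sum_congr rfl hidle, Finset.sum_congr rfl hfree, Finset.sum_congr rfl hcon,
          ← Finset.sum_mul]
        rfl
      rw [hsplit]
      set a := tot p st f m (fam st S m 1) ω
      rcases hS.1 with h | ⟨h1, h2⟩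
      · have e : tot p st f m (fam st S m 0) ω = 0 := by simp [tot, h]
        have ha1 : a ≤ 1 := (hk 1).2
        have ha0 : 0 ≤ a := Finset.sum_nonneg fun j hj => ((hk 1).1 j hj).1
        rw [e, hw]
        nlinarith [mul_nonneg ha0 (mul_nonneg (sub_nonneg.2 hb1) hr0),
          mul_le_mul_of_nonneg_left hDb (sub_nonneg.2 ha1),
          mul_nonneg (sub_nonneg.2 ha1) (sub_nonneg.2 hb1)]
      · have e1 : a = 0 := by simp [a, tot, h1]
        have e2 : D = 0 := by simp [hD, h2]
        rw [e1, e2]
        simpa using (hk 0).2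

/-- Each item keeps its mean. -/
theorem avgE_sel (hp : ∀ m, 0 < p m) {m : ℕ} : ∀ (S : Finset ι) (i : ι) (ω : ℕ → ℕ),
    avgE p m (fun ω => sel p st f m S ω i) ω =
      f i * ∏ l ∈ Finset.range m, (st i l).mean (p l) := by
  induction m with
  | zero => intro S i ω; simp [avgE, sel]
  | succ m ih =>
    intro S i ω
    have key : ∀ ω' : ℕ → ℕ, (∑ c ∈ Finset.range (p m),
        sel p st f (m + 1) S (Function.update ω' m c) i) / (p m : ℝ) =
          (st i m).mean (p m) * sel p st f m (fam st S m (st i m).kind) ω' i := by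
      intro ω'
      have hp' : (p m : ℝ) ≠ 0 := Nat.cast_ne_zero.2 (hp m).ne'
      cases hs : st i m with
      | idle =>
        simp only [sel, hs, sel_update, St.kind, St.mean, Finset.sum_const, Finset.card_range,
          nsmul_eq_mul, one_mul]
        field_simp
      | free =>
        simp only [sel, hs, sel_update, St.kind, St.mean, Function.update_self]
        rw [← Finset.mul_sum, Finset.sum_sub_distrib, Finset.sum_comm]
        have hsum : ∀ j ∈ fam st S m 2, ∑ c ∈ Finset.range (p m),
            (st j m).hit (p m) c * sel p st f m (fam st S m 2) ω' j =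
              sel p st f m (fam st S m 2) ω' j := by
          intro j hj
          obtain ⟨d, hd⟩ := exists_con (Finset.mem_filter.1 hj).2
          rw [← Finset.sum_mul, hd, sum_hit hp, one_mul]
        rw [Finset.sum_congr rfl hsum, Finset.sum_const, Finset.card_range, nsmul_eq_mul]
        field_simp
        ring
      | con c =>
        simp only [sel, hs, sel_update, St.kind, St.mean, Function.update_self]
        rw [← Finset.sum_mul, sum_hit hp]
        ring
    simp only [avgE, key]
    rw [avgE_const_mul, ih, Finset.prod_range_succ]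
    ring

theorem avgE_hit_mul (hp : ∀ m, 0 < p m) {m : ℕ} (s t : ℕ → St) :
    ∀ ω, avgE p m (fun ω => (∏ l ∈ Finset.range m, (s l).hit (p l) (ω l)) *
      ∏ l ∈ Finset.range m, (t l).hit (p l) (ω l)) ω = crude p m s t := by
  induction m with
  | zero => intro ω; simp [avgE, crude]
  | succ m ih =>
    intro ω
    have key : ∀ ω' : ℕ → ℕ, (∑ c ∈ Finset.range (p m),
        (∏ l ∈ Finset.range (m + 1), (s l).hit (p l) (Function.update ω' m c l)) *
          ∏ l ∈ Finset.range (m + 1), (t l).hit (p l) (Function.update ω' m c l)) / (p m : ℝ) =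
        cfac (p m) (s m) (t m) * ((∏ l ∈ Finset.range m, (s l).hit (p l) (ω' l)) *
          ∏ l ∈ Finset.range m, (t l).hit (p l) (ω' l)) := by
      intro ω'
      have hu : ∀ (u : ℕ → St) (c : ℕ), ∏ l ∈ Finset.range (m + 1),
          (u l).hit (p l) (Function.update ω' m c l) =
            (∏ l ∈ Finset.range m, (u l).hit (p l) (ω' l)) * (u m).hit (p m) c := by
        intro u c
        rw [Finset.prod_range_succ, Function.update_self]
        congr 1
        exact Finset.prod_congr rfl fun l hl =>
          by rw [Function.update_of_ne (Finset.mem_range.1 hl).ne]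
      have hc : (∑ c ∈ Finset.range (p m), (s m).hit (p m) c * (t m).hit (p m) c) / (p m : ℝ) =
          cfac (p m) (s m) (t m) := by
        have hp' : (p m : ℝ) ≠ 0 := Nat.cast_ne_zero.2 (hp m).ne'
        have hnum := fun c => sum_hit (p := p) hp (m := m) c
        cases s m <;> cases t m <;>
          simp [St.hit, cfac, hp', hp m, Nat.mod_lt, eq_comm] <;> split <;> simp_all
      rw [← hc]
      simp only [hu]
      rw [mul_comm _ (_ * _), ← mul_div_assoc, Finset.mul_sum]
      congr 1
      exact Finset.sum_congr rfl fun c _ => by ring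
    simp only [avgE, key]
    rw [avgE_const_mul, ih, crude]

/-- The algebra of one coordinate. -/
theorem step_arith {r A0 A1 A2 B0 B1 B2 K : ℝ} (hr : 0 ≤ r)
    (hA0 : 0 ≤ A0) (hA1 : 0 ≤ A1) (hA1' : A1 ≤ 1) (hA2 : 0 ≤ A2) (hA2' : A2 ≤ 1)
    (hB0 : 0 ≤ B0) (hB1 : 0 ≤ B1) (hB1' : B1 ≤ 1) (hB2 : 0 ≤ B2) (hB2' : B2 ≤ 1) (hK : 0 ≤ K) :
    (A0 + A1 * (1 - (1 - A2) * r)) * (B0 + B1 * (1 - (1 - B2) * r)) +
      (A0 + A1 * (1 - (1 - A2) * r)) * (1 - B1) * (B2 * r) +
      (B0 + B1 * (1 - (1 - B2) * r)) * (1 - A1) * (A2 * r) +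
      (1 - A1) * (1 - B1) * (K * r) ≤
    A0 * B0 + (1 - r) * (A0 * B1 + A1 * B0) + r * (A0 * B2 + A2 * B0) + (1 - r) ^ 2 * (A1 * B1) +
      r * (A1 * B2 + A2 * B1) + K * r := by
  have h1 : 0 ≤ r ^ 2 * (A1 * B2 * (1 - A2)) := by
    have := sub_nonneg.2 hA2'; positivity
  have h2 : 0 ≤ r ^ 2 * (A2 * B1 * (1 - B2)) := by
    have := sub_nonneg.2 hB2'; positivity
  have h3 : 0 ≤ r ^ 2 * (A2 * B2 * (A1 * B1)) := by positivity
  have h4 : 0 ≤ K * r * A1 + K * r * (1 - A1) * B1 := by
    have := sub_nonneg.2 hA1'; positivity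
  nlinarith

/-- The coincidences of the constrained members of two families at the coordinate `m`. -/
def coin (p : ℕ → ℕ) (st : ι → ℕ → St) (f : ι → ℝ) (m : ℕ) (A B : Finset ι) (ω : ℕ → ℕ) : ℝ :=
  ∑ i ∈ A, ∑ j ∈ B, cfac (p m) (st i m) (st j m) *
    (sel p st f m A ω i * sel p st f m B ω j)

theorem cfac_nonneg (q : ℕ) (s t : St) : 0 ≤ cfac q s t := by
  cases s <;> cases t <;> simp [cfac]
  split <;> positivity

/-- The mean over one coordinate of the product of two totals. -/
theorem mean_tot_mul_le (hp : ∀ m, 0 < p m) (hf : ∀ i, 0 ≤ f i) {m : ℕ} {S T : Finset ι}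
    (hS : Adm st f (m + 1) S) (hT : Adm st f (m + 1) T) (ω : ℕ → ℕ) :
    (∑ c ∈ Finset.range (p m), tot p st f (m + 1) S (Function.update ω m c) *
        tot p st f (m + 1) T (Function.update ω m c)) / (p m : ℝ) ≤
      tot p st f m (fam st S m 0) ω * tot p st f m (fam st T m 0) ω +
      (1 - 1 / (p m : ℝ)) * (tot p st f m (fam st S m 0) ω * tot p st f m (fam st T m 1) ω +
        tot p st f m (fam st S m 1) ω * tot p st f m (fam st T m 0) ω) +
      1 / (p m : ℝ) * (tot p st f m (fam st S m 0) ω * tot p st f m (fam st T m 2) ω +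
        tot p st f m (fam st S m 2) ω * tot p st f m (fam st T m 0) ω) +
      (1 - 1 / (p m : ℝ)) ^ 2 *
        (tot p st f m (fam st S m 1) ω * tot p st f m (fam st T m 1) ω) +
      1 / (p m : ℝ) * (tot p st f m (fam st S m 1) ω * tot p st f m (fam st T m 2) ω +
        tot p st f m (fam st S m 2) ω * tot p st f m (fam st T m 1) ω) +
      coin p st f m (fam st S m 2) (fam st T m 2) ω := by
  have hp' : (p m : ℝ) ≠ 0 := Nat.cast_ne_zero.2 (hp m).ne'
  set r : ℝ := 1 / (p m : ℝ) with hr
  let D : Finset ι → ℕ → ℝ := fun U c =>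
    ∑ j ∈ fam st U m 2, (st j m).hit (p m) c * sel p st f m (fam st U m 2) ω j
  have htot : ∀ U c, tot p st f (m + 1) U (Function.update ω m c) =
      tot p st f m (fam st U m 0) ω +
        tot p st f m (fam st U m 1) ω * (1 - (1 - tot p st f m (fam st U m 2) ω) * r - D U c) +
        D U c := by
    intro U c
    rw [tot, sum_fam U m]
    congr 1
    congr 1
    · refine Finset.sum_congr rfl fun i hi => ?_
      simp only [sel, eq_idle (Finset.mem_filter.1 hi).2]
      exact sel_update i
    · rw [tot, Finset.sum_mul]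
      refine Finset.sum_congr rfl fun i hi => ?_
      simp only [sel, eq_free (Finset.mem_filter.1 hi).2, sel_update, Function.update_self]
      rw [hr]
      show _ * _ = _ * (_ - _ - D U c)
      simp only [D, tot]
      ring
    · refine Finset.sum_congr rfl fun i hi => ?_
      obtain ⟨d, hd⟩ := exists_con (Finset.mem_filter.1 hi).2
      simp only [sel, hd, sel_update, Function.update_self]
  have hD : ∀ U, ∑ c ∈ Finset.range (p m), D U c = tot p st f m (fam st U m 2) ω := by
    intro U
    simp only [D]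
    rw [Finset.sum_comm, tot]
    refine Finset.sum_congr rfl fun j hj => ?_
    obtain ⟨d, hd⟩ := exists_con (Finset.mem_filter.1 hj).2
    rw [← Finset.sum_mul, hd, sum_hit hp, one_mul]
  have hDD : (∑ c ∈ Finset.range (p m), D S c * D T c) * r =
      coin p st f m (fam st S m 2) (fam st T m 2) ω := by
    simp only [D, coin]
    simp_rw [Finset.sum_mul_sum]
    rw [Finset.sum_comm, Finset.sum_mul]
    refine Finset.sum_congr rfl fun i hi => ?_
    rw [Finset.sum_comm, Finset.sum_mul]
    refine Finset.sum_congr rfl fun j hj => ?_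
    obtain ⟨d, hd⟩ := exists_con (Finset.mem_filter.1 hi).2
    obtain ⟨e, he⟩ := exists_con (Finset.mem_filter.1 hj).2
    rw [hd, he]
    have hlt := Nat.mod_lt e (hp m)
    by_cases hde : d % p m = e % p m <;> simp [St.hit, cfac, hde, hlt, hr, eq_comm] <;> ring
  have hS' := fun k => sel_bounds hp hf (hS.2 k) ω
  have hT' := fun k => sel_bounds hp hf (hT.2 k) ω
  have hnn : ∀ k, 0 ≤ tot p st f m (fam st S m k) ω := fun k =>
    Finset.sum_nonneg fun i hi => ((hS' k).1 i hi).1
  have hnn' : ∀ k, 0 ≤ tot p st f m (fam st T m k) ω := fun k =>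
    Finset.sum_nonneg fun i hi => ((hT' k).1 i hi).1
  have hK : 0 ≤ ∑ c ∈ Finset.range (p m), D S c * D T c := Finset.sum_nonneg fun c _ =>
    mul_nonneg (Finset.sum_nonneg fun j hj => mul_nonneg (hit_nonneg _ _ _) ((hS' 2).1 j hj).1)
      (Finset.sum_nonneg fun j hj => mul_nonneg (hit_nonneg _ _ _) ((hT' 2).1 j hj).1)
  simp only [htot]
  set A0 := tot p st f m (fam st S m 0) ω
  set A1 := tot p st f m (fam st S m 1) ω
  set A2 := tot p st f m (fam st S m 2) ω
  set B0 := tot p st f m (fam st T m 0) ω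
  set B1 := tot p st f m (fam st T m 1) ω
  set B2 := tot p st f m (fam st T m 2) ω
  have e : ∀ c, (A0 + A1 * (1 - (1 - A2) * r - D S c) + D S c) *
      (B0 + B1 * (1 - (1 - B2) * r - D T c) + D T c) =
      (A0 + A1 * (1 - (1 - A2) * r)) * (B0 + B1 * (1 - (1 - B2) * r)) +
      (A0 + A1 * (1 - (1 - A2) * r)) * (1 - B1) * D T c +
      (B0 + B1 * (1 - (1 - B2) * r)) * (1 - A1) * D S c +
      (1 - A1) * (1 - B1) * (D S c * D T c) := fun c => by ring
  rw [Finset.sum_congr rfl fun c _ => e c]
  simp only [Finset.sum_add_distrib, ← Finset.mul_sum, hD, Finset.sum_const, Finset.card_range,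
    nsmul_eq_mul]
  rw [← hDD]
  refine le_trans (le_of_eq ?_) (step_arith (r := r) (by positivity) (hnn 0) (hnn 1) (hS' 1).2
    (hnn 2) (hS' 2).2 (hnn' 0) (hnn' 1) (hT' 1).2 (hnn' 2) (hT' 2).2 hK)
  rw [hr]
  simp only [A2, B2]
  field_simp

/-- The mean of the product of two totals is at most the kernel. -/
theorem avgE_tot_mul_le (hp : ∀ m, 0 < p m) (hf : ∀ i, 0 ≤ f i) {m : ℕ} :
    ∀ {S T : Finset ι}, Adm st f m S → Adm st f m T → ∀ ω,
      avgE p m (fun ω => tot p st f m S ω * tot p st f m T ω) ω ≤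
        ∑ i ∈ S, ∑ j ∈ T, f i * f j * kern p m (st i) (st j) := by
  induction m with
  | zero =>
    intro S T _ _ ω
    simp [avgE, tot, sel, kern, Finset.sum_mul_sum]
  | succ m ih =>
    intro S T hS hT ω
    refine (avgE_mono (fun ω' => mean_tot_mul_le hp hf hS hT ω') ω).trans ?_
    simp only [avgE_add, avgE_const_mul]
    have hr : (0 : ℝ) ≤ 1 / (p m : ℝ) := by positivity
    have hr1 : (0 : ℝ) ≤ 1 - 1 / (p m : ℝ) := by
      rw [sub_nonneg, div_le_one (by exact_mod_cast hp m)]
      exact_mod_cast hp m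
    let R : Finset ι → Finset ι → ℝ := fun A B =>
      ∑ i ∈ A, ∑ j ∈ B, f i * f j * kern p (m + 1) (st i) (st j)
    have block : ∀ (k l : Fin 3) (a : ℝ), 0 ≤ a →
        (∀ i ∈ fam st S m k, ∀ j ∈ fam st T m l,
          kern p (m + 1) (st i) (st j) = a * kern p m (st i) (st j)) →
        a * avgE p m (fun ω => tot p st f m (fam st S m k) ω * tot p st f m (fam st T m l) ω) ω ≤
          R (fam st S m k) (fam st T m l) := by
      intro k l a ha h
      refine (mul_le_mul_of_nonneg_left (ih (hS.2 k) (hT.2 l) ω) ha).trans (le_of_eq ?_)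
      rw [Finset.mul_sum]
      refine Finset.sum_congr rfl fun i hi => ?_
      rw [Finset.mul_sum]
      refine Finset.sum_congr rfl fun j hj => ?_
      rw [h i hi j hj]
      ring
    have hk : ∀ {U : Finset ι} {k : Fin 3} {i : ι}, i ∈ fam st U m k → (st i m).kind = k :=
      fun hi => (Finset.mem_filter.1 hi).2
    have hkern : ∀ {s t : ℕ → St}, ¬((s m).kind = 2 ∧ (t m).kind = 2) →
        kern p (m + 1) s t = efac (p m) (s m) (t m) * kern p m s t :=
      fun h => by rw [kern, if_neg h]
    have h00 := block 0 0 1 zero_le_one fun i hi j hj => by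
      rw [hkern (by simp [hk hi]), eq_idle (hk hi), eq_idle (hk hj)]; rfl
    have h01 := block 0 1 _ hr1 fun i hi j hj => by
      rw [hkern (by simp [hk hi]), eq_idle (hk hi), eq_free (hk hj)]; rfl
    have h10 := block 1 0 _ hr1 fun i hi j hj => by
      rw [hkern (by simp [hk hi]), eq_free (hk hi), eq_idle (hk hj)]; rfl
    have h02 := block 0 2 _ hr fun i hi j hj => by
      obtain ⟨c, hc⟩ := exists_con (hk hj)
      rw [hkern (by simp [hk hi]), eq_idle (hk hi), hc]; rfl
    have h20 := block 2 0 _ hr fun i hi j hj => by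
      obtain ⟨c, hc⟩ := exists_con (hk hi)
      rw [hkern (by simp [hk hj]), hc, eq_idle (hk hj)]; rfl
    have h11 := block 1 1 _ (pow_nonneg hr1 2) fun i hi j hj => by
      rw [hkern (by simp [hk hi]), eq_free (hk hi), eq_free (hk hj)]; rfl
    have h12 := block 1 2 _ hr fun i hi j hj => by
      obtain ⟨c, hc⟩ := exists_con (hk hj)
      rw [hkern (by simp [hk hi]), eq_free (hk hi), hc]; rfl
    have h21 := block 2 1 _ hr fun i hi j hj => by
      obtain ⟨c, hc⟩ := exists_con (hk hi)
      rw [hkern (by simp [hk hj]), hc, eq_free (hk hj)]; rfl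
    have h22 : avgE p m (coin p st f m (fam st S m 2) (fam st T m 2)) ω ≤
        R (fam st S m 2) (fam st T m 2) := by
      have hA : Adm st f m (fam st S m 2) := hS.2 2
      have hB : Adm st f m (fam st T m 2) := hT.2 2
      refine (avgE_mono (G := fun ω => ∑ i ∈ fam st S m 2, ∑ j ∈ fam st T m 2,
        (cfac (p m) (st i m) (st j m) * (f i * f j)) *
          ((∏ l ∈ Finset.range m, (st i l).hit (p l) (ω l)) *
            ∏ l ∈ Finset.range m, (st j l).hit (p l) (ω l))) (fun ω' => ?_) ω).trans (le_of_eq ?_)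
      · refine Finset.sum_le_sum fun i hi => Finset.sum_le_sum fun j hj => ?_
        obtain ⟨hi0, hi1⟩ := (sel_bounds hp hf hA ω').1 i hi
        obtain ⟨hj0, hj1⟩ := (sel_bounds hp hf hB ω').1 j hj
        refine (mul_le_mul_of_nonneg_left (mul_le_mul hi1 hj1 hj0 (le_trans hi0 hi1))
          (cfac_nonneg _ _ _)).trans (le_of_eq ?_)
        ring
      · rw [avgE_sum]
        refine Finset.sum_congr rfl fun i hi => ?_
        rw [avgE_sum]
        refine Finset.sum_congr rfl fun j hj => ?_
        rw [avgE_const_mul, avgE_hit_mul hp, kern, if_pos ⟨hk hi, hk hj⟩]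
        obtain ⟨c, hc⟩ := exists_con (hk hi)
        obtain ⟨d, hd⟩ := exists_con (hk hj)
        rw [hc, hd]
        simp only [efac]
        ring
    have hsplit : ∑ i ∈ S, ∑ j ∈ T, f i * f j * kern p (m + 1) (st i) (st j) =
        R (fam st S m 0) (fam st T m 0) + R (fam st S m 0) (fam st T m 1) +
        R (fam st S m 1) (fam st T m 0) + R (fam st S m 0) (fam st T m 2) +
        R (fam st S m 2) (fam st T m 0) + R (fam st S m 1) (fam st T m 1) +
        R (fam st S m 1) (fam st T m 2) + R (fam st S m 2) (fam st T m 1) +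
        R (fam st S m 2) (fam st T m 2) := by
      simp only [sum_fam (st := st) T m, Finset.sum_add_distrib, sum_fam (st := st) S m, R]
      ring
    rw [hsplit]
    linarith

end Vale.Agent.P028.Full.Frac
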