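import Mathlib

/-!
Exclusive selections on a product of finite coordinates.

An item is free, constrained to a class, or idle at each coordinate.  `sel` shares the weights of a
family so that the total stays below `1` while every item keeps its exact mean: a free item gives up
the classes of the constrained items of its family and an average of the rest.
-/

noncomputable section

namespace Vale.Agent.P028.Full.Frac

open Finset

/-- The state of an item at a coordinate. -/
inductive St
  | idle
  | free
  | con (c : ℕ)

/-- The kind of a state: `0` idle, `1` free, `2` constrained. -/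
def St.kind : St → Fin 3
  | .idle => 0
  | .free => 1
  | .con _ => 2

/-- The indicator that the digit `d` is allowed by the state, ignoring deletions. -/
def St.hit (p : ℕ) : St → ℕ → ℝ
  | .con c, d => if c % p = d then 1 else 0
  | _, _ => 1

variable {ι : Type*} (p : ℕ → ℕ) (st : ι → ℕ → St) (f : ι → ℝ)

/-- The members of `S` of kind `k` at the coordinate `m`. -/
def fam (S : Finset ι) (m : ℕ) (k : Fin 3) : Finset ι :=
  S.filter (fun i => (st i m).kind = k)

/-- The selection after the coordinates below `m`; the coordinate `m - 1` is the outermost. -/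
def sel : ℕ → Finset ι → (ℕ → ℕ) → ι → ℝ
  | 0, _, _, i => f i
  | m + 1, S, ω, i =>
    match st i m with
    | .idle => sel m (fam st S m 0) ω i
    | .free =>
      sel m (fam st S m 1) ω i *
        (1 - (1 - ∑ j ∈ fam st S m 2, sel m (fam st S m 2) ω j) / (p m : ℝ) -
          ∑ j ∈ fam st S m 2, (st j m).hit (p m) (ω m) * sel m (fam st S m 2) ω j)
    | .con c => (St.con c).hit (p m) (ω m) * sel m (fam st S m 2) ω i

/-- The total of a family. -/
def tot (m : ℕ) (S : Finset ι) (ω : ℕ → ℕ) : ℝ := ∑ i ∈ S, sel p st f m S ω i

/-- The admissible families: idle items stay among themselves and each fibre has total at most `1`. -/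
def Adm : ℕ → Finset ι → Prop
  | 0, S => ∑ i ∈ S, f i ≤ 1
  | m + 1, S => (fam st S m 0 = ∅ ∨ (fam st S m 1 = ∅ ∧ fam st S m 2 = ∅)) ∧
      ∀ k, Adm m (fam st S m k)

/-- The mean over the coordinates below `m`. -/
def avgE : ℕ → ((ℕ → ℕ) → ℝ) → (ℕ → ℕ) → ℝ
  | 0, F, ω => F ω
  | m + 1, F, ω =>
    avgE m (fun ω' => (∑ c ∈ Finset.range (p m), F (Function.update ω' m c)) / (p m : ℝ)) ω

/-- The mean of one coordinate of a state. -/
def St.mean (p : ℕ) : St → ℝ
  | .idle => 1
  | .free => 1 - 1 / (p : ℝ)
  | .con _ => 1 / (p : ℝ)

/-- The factor of a pair at a coordinate without deletions. -/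
def cfac (p : ℕ) : St → St → ℝ
  | .con c, .con c' => if c % p = c' % p then 1 / (p : ℝ) else 0
  | .con _, _ => 1 / (p : ℝ)
  | _, .con _ => 1 / (p : ℝ)
  | _, _ => 1

/-- The factor of a pair at a coordinate: a free item keeps `1` against a constrained one. -/
def efac (p : ℕ) : St → St → ℝ
  | .free, .free => (1 - 1 / (p : ℝ)) ^ 2
  | .free, .idle => 1 - 1 / (p : ℝ)
  | .idle, .free => 1 - 1 / (p : ℝ)
  | .idle, .idle => 1
  | s, t => cfac p s t

/-- The kernel without deletions. -/
def crude : ℕ → (ℕ → St) → (ℕ → St) → ℝ
  | 0, _, _ => 1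
  | m + 1, s, t => cfac (p m) (s m) (t m) * crude m s t

/-- The kernel: exact down to the first coordinate at which both items are constrained. -/
def kern : ℕ → (ℕ → St) → (ℕ → St) → ℝ
  | 0, _, _ => 1
  | m + 1, s, t => efac (p m) (s m) (t m) *
      if (s m).kind = 2 ∧ (t m).kind = 2 then crude p m s t else kern m s t

end Vale.Agent.P028.Full.Frac
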