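import Mathlib

/-!
Fractional exclusion at one digit, for arbitrary multiplicities.

At a digit with the classes `s` the fixed items have total `b c` at the class `c` and the free items
total `f`.  The free items delete the share `delShare` of the class `c`; this keeps their means
exactly.  The second moment then costs only the pairs of fixed items with different classes, and
between two such systems the classes are no worse than random ones.
-/

noncomputable section

namespace Vale.Agent.P028.Full.Fractional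

open Finset

variable {ι : Type*} (s : Finset ι) (b b' : ι → ℝ) (f f' : ℝ)

/-- The normalisation `max (Σ b) f`. -/
def scale : ℝ := max (∑ c ∈ s, b c) f

/-- The share of the class `c` deleted from the free items. -/
def delShare (c : ι) : ℝ :=
  b c / scale s b f + (1 - (∑ c ∈ s, b c) / scale s b f) / s.card

/-- The fixed items and what is left of the free items at the class `c`. -/
def total (c : ι) : ℝ := b c + f * (1 - delShare s b f c)

/-- The mean of the total. -/
def avgTotal : ℝ := (∑ c ∈ s, b c) / s.card + f * (1 - 1 / s.card)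

variable {s b b' f f'}

theorem scale_nonneg (hb : ∀ c ∈ s, 0 ≤ b c) : 0 ≤ scale s b f :=
  le_max_of_le_left (sum_nonneg hb)

theorem share_nonneg (hb : ∀ c ∈ s, 0 ≤ b c) : 0 ≤ 1 - (∑ c ∈ s, b c) / scale s b f :=
  sub_nonneg.2 (div_le_one_of_le₀ (le_max_left _ _) (scale_nonneg hb))

theorem delShare_nonneg (hb : ∀ c ∈ s, 0 ≤ b c) {c : ι} (hc : c ∈ s) :
    0 ≤ delShare s b f c :=
  add_nonneg (div_nonneg (hb c hc) (scale_nonneg hb))
    (div_nonneg (share_nonneg hb) (Nat.cast_nonneg _))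

theorem delShare_le_one (hb : ∀ c ∈ s, 0 ≤ b c) {c : ι} (hc : c ∈ s) :
    delShare s b f c ≤ 1 := by
  have hp : (1 : ℝ) ≤ s.card := by exact_mod_cast card_pos.2 ⟨c, hc⟩
  have h1 : b c / scale s b f ≤ (∑ c ∈ s, b c) / scale s b f :=
    div_le_div_of_nonneg_right (single_le_sum hb hc) (scale_nonneg hb)
  have h2 := div_le_self (share_nonneg (f := f) hb) hp
  rw [delShare]
  linarith

/-- The deleted shares have mean `1 / p`. -/
theorem sum_delShare (hs : s.Nonempty) : ∑ c ∈ s, delShare s b f c = 1 := by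
  have hp : (s.card : ℝ) ≠ 0 := by exact_mod_cast (card_pos.2 hs).ne'
  simp only [delShare, sum_add_distrib, sum_const, nsmul_eq_mul, ← sum_div]
  field_simp
  ring

/-- The means are kept. -/
theorem sum_total (hs : s.Nonempty) :
    ∑ c ∈ s, total s b f c = s.card * avgTotal s b f := by
  have hp : (s.card : ℝ) ≠ 0 := by exact_mod_cast (card_pos.2 hs).ne'
  simp only [total, avgTotal, sum_add_distrib, ← mul_sum, sum_sub_distrib, sum_const, nsmul_eq_mul,
    sum_delShare hs]
  field_simp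

/-- The total varies only with the fixed items, scaled down by `1 - f / scale`. -/
theorem total_sub_avgTotal (hs : s.Nonempty) (c : ι) :
    total s b f c - avgTotal s b f =
      (1 - f / scale s b f) * (b c - (∑ c ∈ s, b c) / s.card) := by
  have hp : (s.card : ℝ) ≠ 0 := by exact_mod_cast (card_pos.2 hs).ne'
  simp only [total, avgTotal, delShare]
  field_simp
  ring

theorem one_sub_div_scale_nonneg (hb : ∀ c ∈ s, 0 ≤ b c) : 0 ≤ 1 - f / scale s b f :=
  sub_nonneg.2 (div_le_one_of_le₀ (le_max_right _ _) (scale_nonneg hb))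

theorem one_sub_div_scale_le_one (hb : ∀ c ∈ s, 0 ≤ b c) (hf : 0 ≤ f) :
    1 - f / scale s b f ≤ 1 :=
  sub_le_self _ (div_nonneg hf (scale_nonneg hb))

/-- Two systems over one digit: no worse than random classes, except for two fixed items in one
class. -/
theorem sum_total_mul_total_le (hs : s.Nonempty) (hb : ∀ c ∈ s, 0 ≤ b c)
    (hb' : ∀ c ∈ s, 0 ≤ b' c) (hf : 0 ≤ f) (hf' : 0 ≤ f') :
    ∑ c ∈ s, total s b f c * total s b' f' c ≤
      s.card * (avgTotal s b f * avgTotal s b' f') + ∑ c ∈ s, b c * b' c := by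
  have hp : (s.card : ℝ) ≠ 0 := by exact_mod_cast (card_pos.2 hs).ne'
  set v := 1 - f / scale s b f with hv
  set v' := 1 - f' / scale s b' f' with hv'
  have hzero : ∀ (g : ι → ℝ), ∑ c ∈ s, (g c - (∑ c ∈ s, g c) / s.card) = 0 := fun g => by
    rw [sum_sub_distrib, sum_const, nsmul_eq_mul]
    field_simp
    ring
  have e : ∀ c ∈ s, total s b f c * total s b' f' c = avgTotal s b f * avgTotal s b' f' +
      avgTotal s b f * v' * (b' c - (∑ c ∈ s, b' c) / s.card) +
      avgTotal s b' f' * v * (b c - (∑ c ∈ s, b c) / s.card) +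
      v * v' * (b c * b' c) - v * v' * ((∑ c ∈ s, b' c) / s.card) * b c -
      v * v' * ((∑ c ∈ s, b c) / s.card) * (b' c - (∑ c ∈ s, b' c) / s.card) := fun c _ => by
    have h1 := total_sub_avgTotal (b := b) (f := f) hs c
    have h2 := total_sub_avgTotal (b := b') (f := f') hs c
    rw [← hv] at h1
    rw [← hv'] at h2
    rw [sub_eq_iff_eq_add] at h1 h2
    rw [h1, h2]
    ring
  have hvv : v * v' ≤ 1 := by
    have := one_sub_div_scale_nonneg (f := f') hb'
    calc v * v' ≤ 1 * 1 := mul_le_mul (one_sub_div_scale_le_one hb hf)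
          (one_sub_div_scale_le_one hb' hf') this zero_le_one
      _ = 1 := one_mul 1
  have hvv0 : 0 ≤ v * v' :=
    mul_nonneg (one_sub_div_scale_nonneg hb) (one_sub_div_scale_nonneg hb')
  have hneg : 0 ≤ v * v' * ((∑ c ∈ s, b' c) / s.card) * ∑ c ∈ s, b c :=
    mul_nonneg (mul_nonneg hvv0 (div_nonneg (sum_nonneg hb') (Nat.cast_nonneg _))) (sum_nonneg hb)
  have hdiag : v * v' * ∑ c ∈ s, b c * b' c ≤ ∑ c ∈ s, b c * b' c :=
    mul_le_of_le_one_left (sum_nonneg fun c hc => mul_nonneg (hb c hc) (hb' c hc)) hvv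
  rw [sum_congr rfl e]
  simp only [sum_add_distrib, sum_sub_distrib, ← mul_sum, hzero, mul_zero, sum_const, nsmul_eq_mul,
    add_zero, sub_zero]
  linarith

theorem alg_total {x B f u v n : ℝ} (hB : B ≠ 0) (hf : f = v * B) :
    (x + f * (1 - (x / B + (1 - u) / n))) ^ 2 = (1 - v) ^ 2 * x ^ 2 +
      2 * (1 - v) * (f * (1 - (1 - u) / n)) * x + (f * (1 - (1 - u) / n)) ^ 2 := by
  subst hf
  field_simp
  ring

theorem alg_main {T B f u v n Q : ℝ} (hn : n ≠ 0) (hT : T = u * B) (hf : f = v * B) :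
    (1 - v) ^ 2 * Q + 2 * (1 - v) * (f * (1 - (1 - u) / n)) * T +
      n * (f * (1 - (1 - u) / n)) ^ 2 =
      Q + f ^ 2 * (n - 1 + 1 / n) + 2 * v * (T ^ 2 - Q) - v ^ 2 * (T ^ 2 - Q) -
        B ^ 2 * (v * (1 - u) * (v * (1 + u) - 2 * u)) -
        B ^ 2 * (v * (1 - u) / n * (2 * u * (1 - v)) + v ^ 2 * (u * (2 - u)) / n) := by
  subst hT hf
  field_simp
  ring

/-- One system: exact conflicts cost nothing, the only cost is a pair of fixed items in two
classes. -/
theorem sum_total_sq_le [DecidableEq ι] (hs : s.Nonempty) (hb : ∀ c ∈ s, 0 ≤ b c) (hf : 0 ≤ f) :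
    ∑ c ∈ s, total s b f c ^ 2 ≤
      ∑ c ∈ s, b c ^ 2 + f ^ 2 * (s.card - 1 + 1 / s.card) +
        2 * (f / scale s b f) * ∑ c ∈ s, ∑ d ∈ s.erase c, b c * b d := by
  have hp : (0 : ℝ) < s.card := by exact_mod_cast card_pos.2 hs
  set T := ∑ c ∈ s, b c with hT
  set Q := ∑ c ∈ s, b c ^ 2 with hQ
  set B := scale s b f with hB
  have hT0 : 0 ≤ T := sum_nonneg hb
  have hK : ∑ c ∈ s, ∑ d ∈ s.erase c, b c * b d = T ^ 2 - Q := by
    rw [hT, hQ, sq, sum_mul_sum, ← sum_sub_distrib]
    refine sum_congr rfl fun c hc => ?_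
    rw [← Finset.add_sum_erase _ _ hc]
    ring
  have hK0 : 0 ≤ T ^ 2 - Q := hK ▸ sum_nonneg fun c hc => sum_nonneg fun d hd =>
    mul_nonneg (hb c hc) (hb d (mem_of_mem_erase hd))
  rw [hK]
  have hB0 : 0 ≤ B := scale_nonneg hb
  rcases eq_or_lt_of_le hB0 with h0 | hpos
  · have hb0 : ∀ c ∈ s, b c = 0 := by
      refine (sum_eq_zero_iff_of_nonneg hb).1 (le_antisymm ?_ hT0)
      exact h0 ▸ le_max_left _ _
    have hf0 : f = 0 := le_antisymm (h0 ▸ le_max_right _ _) hf
    subst hf0
    have : ∀ c ∈ s, total s b 0 c ^ 2 = 0 := fun c hc => by simp [total, hb0 c hc]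
    rw [sum_eq_zero this, ← h0]
    have hQ0 : 0 ≤ Q := sum_nonneg fun c _ => sq_nonneg _
    nlinarith
  set v := f / B with hv
  set u := T / B with hu
  have hv0 : 0 ≤ v := div_nonneg hf hB0
  have hu0 : 0 ≤ u := div_nonneg hT0 hB0
  have huv : u = 1 ∨ v = 1 := by
    rcases max_choice T f with h | h
    · exact Or.inl (by rw [hu, show B = T from h, div_self]; rw [← show B = T from h]; exact hpos.ne')
    · exact Or.inr (by rw [hv, show B = f from h, div_self]; rw [← show B = f from h]; exact hpos.ne')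
  have hu1 : u ≤ 1 := div_le_one_of_le₀ (le_max_left _ _) hB0
  have hv1 : v ≤ 1 := div_le_one_of_le₀ (le_max_right _ _) hB0
  have hTB : T = u * B := by rw [hu]; field_simp
  have hfB : f = v * B := by rw [hv]; field_simp
  have e : ∀ c ∈ s, total s b f c ^ 2 = (1 - v) ^ 2 * b c ^ 2 +
      2 * (1 - v) * (f * (1 - (1 - u) / s.card)) * b c + (f * (1 - (1 - u) / s.card)) ^ 2 :=
    fun c _ => by
      show (b c + f * (1 - (b c / B + (1 - u) / s.card))) ^ 2 = _
      exact alg_total hpos.ne' hfB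
  rw [sum_congr rfl e, sum_add_distrib, sum_add_distrib, ← mul_sum, ← mul_sum, sum_const,
    nsmul_eq_mul, ← hT, ← hQ]
  have key : 0 ≤ v * (1 - u) * (v * (1 + u) - 2 * u) := by
    rcases huv with h | h
    · rw [h]; simp
    · rw [h]; nlinarith
  have main : (1 - v) ^ 2 * Q + 2 * (1 - v) * (f * (1 - (1 - u) / s.card)) * T +
      s.card * (f * (1 - (1 - u) / s.card)) ^ 2 =
      Q + f ^ 2 * (s.card - 1 + 1 / s.card) + 2 * v * (T ^ 2 - Q) - v ^ 2 * (T ^ 2 - Q) -
        B ^ 2 * (v * (1 - u) * (v * (1 + u) - 2 * u)) -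
        B ^ 2 * (v * (1 - u) / s.card * (2 * u * (1 - v)) + v ^ 2 * (u * (2 - u)) / s.card) := by
    exact alg_main hp.ne' hTB hfB
  rw [main]
  have h2 : 0 ≤ v * (1 - u) / s.card * (2 * u * (1 - v)) + v ^ 2 * (u * (2 - u)) / s.card :=
    add_nonneg (mul_nonneg (div_nonneg (mul_nonneg hv0 (by linarith)) hp.le)
      (mul_nonneg (by linarith) (by linarith)))
      (div_nonneg (mul_nonneg (sq_nonneg v) (mul_nonneg hu0 (by linarith))) hp.le)
  nlinarith [mul_nonneg (sq_nonneg B) key, mul_nonneg (sq_nonneg B) h2,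
    mul_nonneg (sq_nonneg v) hK0]

end Vale.Agent.P028.Full.Fractional
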