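import Vale.Agent.P028.Full.Pools
import Vale.Agent.P028.Lift.Gain

/-!
Pairs of one cell without an exact relation between the two nodes: lifted to pools they are bad
pairs, so their weight saves a power of the level.
-/

noncomputable section

namespace Vale.Agent.P028.Full

open Finset BilinearAux

variable {k : ℕ → ℕ → ℕ} {S : Finset ℕ} {Y : ℕ}

/-- `v` times its deficiency, at a prime. -/
theorem factorization_mul_kDef {v : ℕ} (hvS : v ∈ S) (hv : 0 < v) (p : ℕ) :
    (v * kDef k S Y v).factorization p =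
      if p.Prime ∧ Y < p ∧ p ∈ S.biUnion Nat.primeFactors then max (v.factorization p) (k v p)
      else v.factorization p := by
  have _ := hvS
  rw [Nat.factorization_mul hv.ne' (kDef_pos k S Y v).ne', Finsupp.add_apply, factorization_kDef]
  by_cases h : p ∈ S.biUnion Nat.primeFactors ∧ Y < p
  · rw [if_pos h, if_pos ⟨prime_of_mem_univ h.1, h.2, h.1⟩]
    omega
  · rw [if_neg h, if_neg (fun h' => h ⟨h'.2.2, h'.2.1⟩), add_zero]

/-- A prime of a member is a prime of the set. -/
theorem factorization_eq_zero_of_notMem {v p : ℕ} (hvS : v ∈ S)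
    (h : p ∉ S.biUnion Nat.primeFactors) : v.factorization p = 0 := by
  by_contra hne
  refine h (Finset.mem_biUnion.2 ⟨v, hvS, ?_⟩)
  rw [← Nat.support_factorization]
  exact Finsupp.mem_support_iff.2 hne

/-- The quotient of the lifted moduli is the cofactor. -/
theorem qd_lift {q r : ℕ} (hqS : q ∈ S) (hrS : r ∈ S) (hq : 0 < q) (hr : 0 < r)
    (h : SameCell k Y q r) :
    qd (r * kDef k S Y r) (q * kDef k S Y q) = cPart k S Y q r := by
  have hrb : 0 < r * kDef k S Y r := Nat.mul_pos hr (kDef_pos k S Y r)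
  have hqb : 0 < q * kDef k S Y q := Nat.mul_pos hq (kDef_pos k S Y q)
  refine Nat.eq_of_mul_eq_mul_right (kDef_pos k S Y q) ?_
  rw [← qd_eq_cPart_mul h hq hr]
  refine Nat.eq_of_factorization_eq (Nat.mul_pos (qd_pos hrb) (kDef_pos k S Y q)).ne'
    (qd_pos hr).ne' fun p => ?_
  rw [Nat.factorization_mul (qd_pos hrb).ne' (kDef_pos k S Y q).ne', Finsupp.add_apply,
    factorization_qd hrb hqb, factorization_qd hr hq, factorization_mul_kDef hrS hr,
    factorization_mul_kDef hqS hq, factorization_kDef]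
  by_cases hp : p ∈ S.biUnion Nat.primeFactors ∧ Y < p
  · have hpp := prime_of_mem_univ hp.1
    rw [if_pos ⟨hpp, hp.2, hp.1⟩, if_pos ⟨hpp, hp.2, hp.1⟩, if_pos hp]
    obtain ⟨h1, h2⟩ := h p hpp hp.2
    omega
  · rw [if_neg (fun h' => hp ⟨h'.2.2, h'.2.1⟩), if_neg (fun h' => hp ⟨h'.2.2, h'.2.1⟩), if_neg hp,
      add_zero]

/-- The lifted moduli are linked. -/
theorem linked_lift {q r : ℕ} (hqS : q ∈ S) (hrS : r ∈ S) (hq : 0 < q) (hr : 0 < r)
    (h : SameCell k Y q r) (k₀ : ℕ → ℕ)
    (hk₀ : ∀ p : ℕ, p.Prime → Y < p → k₀ p = if p ∈ S.biUnion Nat.primeFactors then k q p else 0) :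
    Lift.Linked k₀ Y (q * kDef k S Y q) (r * kDef k S Y r) := by
  intro p hpp hY
  rw [factorization_mul_kDef hqS hq, factorization_mul_kDef hrS hr, hk₀ p hpp hY]
  by_cases hp : p ∈ S.biUnion Nat.primeFactors
  · simp only [if_pos (show p.Prime ∧ Y < p ∧ p ∈ S.biUnion Nat.primeFactors from ⟨hpp, hY, hp⟩),
      if_pos hp]
    obtain ⟨h1, h2⟩ := h p hpp hY
    omega
  · simp only [if_neg (show ¬ (p.Prime ∧ Y < p ∧ p ∈ S.biUnion Nat.primeFactors) from
      fun h' => hp h'.2.2), if_neg hp]
    exact Or.inl (factorization_eq_zero_of_notMem hqS hp)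

/-- The weight of a member is its radius times the probability of its deficiency times the factor
of the small primes. -/
theorem wt_le_rad_mul_phiY (ψ : ℕ → ℝ) {v : ℕ} (hvS : v ∈ S) (hv : 0 < v) (hψ : 0 ≤ ψ v) :
    wt ψ v ≤ kProb k S Y v * (ψ v * kDef k S Y v * Lift.phiY Y (v * kDef k S Y v)) := by
  set b := kDef k S Y v with hb
  set K := kCentre k S Y v with hK
  have hbK : b ∣ K := kDef_dvd_kCentre k S Y v
  have hb0 : 0 < b := kDef_pos k S Y v
  have hK0 : 0 < K := kCentre_pos k S Y v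
  have hKb : 0 < K / b := Nat.div_pos (Nat.le_of_dvd hK0 hbK) hb0
  have hfac : ∀ p : ℕ, p.Prime → 0 ≤ 1 - 1 / (p : ℝ) ∧ 1 - 1 / (p : ℝ) ≤ 1 := by
    intro p hp
    have h2 : (2 : ℝ) ≤ p := by exact_mod_cast hp.two_le
    constructor
    · rw [sub_nonneg, div_le_one (by linarith)]; linarith
    · linarith [show (0 : ℝ) ≤ 1 / (p : ℝ) by positivity]
  have hsub : (K / b).primeFactors ∪ (v * b).primeFactors.filter (fun p => p ≤ Y) ⊆
      v.primeFactors := by
    intro p hp
    rw [← Nat.support_factorization, Finsupp.mem_support_iff]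
    rcases Finset.mem_union.1 hp with h | h
    · exact fun h0 => by
        have := Nat.primeFactors_mono (kCentre_div_kDef_dvd (k := k) (S := S) (Y := Y) hv)
          hv.ne' h
        rw [← Nat.support_factorization, Finsupp.mem_support_iff] at this
        exact this h0
    · obtain ⟨h, hY⟩ := Finset.mem_filter.1 h
      rw [← Nat.support_factorization, Finsupp.mem_support_iff, hb, factorization_mul_kDef hvS hv,
        if_neg (fun hh => absurd hY (not_le.2 hh.2.1))] at h
      exact h
  have hdis : Disjoint (K / b).primeFactors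
      ((v * b).primeFactors.filter (fun p => p ≤ Y)) := by
    rw [Finset.disjoint_left]
    intro p hp hp'
    have := Nat.primeFactors_mono (Nat.div_dvd_of_dvd hbK) hK0.ne' hp
    rw [← Nat.support_factorization, Finsupp.mem_support_iff, hK, factorization_kCentre] at this
    exact absurd (ite_ne_right_iff.1 this).1.2 (not_lt.2 (Finset.mem_filter.1 hp').2)
  have hle : (Nat.totient v : ℝ) / v ≤
      ((Nat.totient (K / b) : ℝ) / (K / b : ℕ)) * Lift.phiY Y (v * b) := by
    rw [totient_div_eq v hv, totient_div_eq (K / b) hKb, Lift.phiY,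
      ← Finset.prod_union hdis, ← Finset.prod_sdiff hsub]
    exact mul_le_of_le_one_left
      (Finset.prod_nonneg fun p hp => (hfac p (Nat.prime_of_mem_primeFactors (hsub hp))).1)
      (Finset.prod_le_one (fun p hp => (hfac p (Nat.prime_of_mem_primeFactors
        (Finset.mem_sdiff.1 hp).1)).1) fun p hp => (hfac p (Nat.prime_of_mem_primeFactors
        (Finset.mem_sdiff.1 hp).1)).2)
  have hPb : kProb k S Y v * b = (Nat.totient (K / b) : ℝ) / (K / b : ℕ) := by
    rw [kProb, ← hb, ← hK, Nat.cast_div hbK (Nat.cast_ne_zero.2 hb0.ne'), div_div_eq_mul_div,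
      div_mul_eq_mul_div]
  calc wt ψ v = (Nat.totient v : ℝ) / v * ψ v := rfl
    _ ≤ kProb k S Y v * b * Lift.phiY Y (v * b) * ψ v := by
        rw [hPb]; exact mul_le_mul_of_nonneg_right hle hψ
    _ = _ := by ring

/-- The pair has an exact relation between the nodes at band `j`. -/
def Ctx.ExactAt (C : Ctx) (j q r : ℕ) (n : ℤ) : Prop :=
  0 < (C.node j q).2 ∧ 0 < (C.node j r).2 ∧
    n * ((C.node j q).2 : ℤ) * ((C.node j r).2 : ℤ) +
      (cPart C.k C.S (C.par.thr j) q r : ℤ) * (C.node j q).1 * ((C.node j r).2 : ℤ) -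
      (cPart C.k C.S (C.par.thr j) r q : ℤ) * (C.node j r).1 * ((C.node j q).2 : ℤ) = 0

/-- A pair at band `j` and level `x` without an exact relation, not tiny. -/
def Ctx.GenAt (C : Ctx) (j : ℕ) (x : ℝ) (q r : ℕ) : Prop :=
  SameCell C.k (C.par.thr j) q r ∧ dist2 C.ψ q r ≤ x ∧
    x ^ (-(1 / 200 : ℝ)) < max (cPart C.k C.S (C.par.thr j) q r : ℝ)
      (cPart C.k C.S (C.par.thr j) r q : ℝ) ∧
    ∃ n ∈ nearSet C.γ C.ψ q r, ¬ C.ExactAt j q r n

open Classical in
/-- The lifted pair is bad. -/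
theorem Ctx.badPair_lift (C : Ctx) {j q r : ℕ} {x : ℝ} (hqS : q ∈ C.S) (hrS : r ∈ C.S)
    (hq : 0 < q) (hr : 0 < r) (f f' : ℕ → ℝ) (k₀ : ℕ → ℕ)
    (hf : f (q * C.def' j q) = C.rad j q) (hf' : f' (r * C.def' j r) = C.rad j r)
    (hk₀ : ∀ p : ℕ, p.Prime → C.par.thr j < p →
      k₀ p = if p ∈ C.S.biUnion Nat.primeFactors then C.k q p else 0)
    (h : C.GenAt j x q r) :
    Lift.BadPair (C.γ * C.def' j q) (C.γ * C.def' j r) x f f' k₀ (C.par.thr j)
      (q * C.def' j q) (r * C.def' j r) := by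
  obtain ⟨hs, hd, hbig, n, hn, hex⟩ := h
  have e1 : qd (r * C.def' j r) (q * C.def' j q) = cPart C.k C.S (C.par.thr j) q r :=
    qd_lift hqS hrS hq hr hs
  have e2 : qd (q * C.def' j q) (r * C.def' j r) = cPart C.k C.S (C.par.thr j) r q :=
    qd_lift hrS hqS hr hq hs.symm
  rw [C.dist2_eq hs hq hr] at hd
  refine ⟨linked_lift hqS hrS hq hr hs k₀ hk₀, ?_, ?_, ?_, -n, ?_, ?_⟩
  · rw [hf, e1, mul_comm]; exact (le_max_left _ _).trans hd
  · rw [hf', e2, mul_comm]; exact (le_max_right _ _).trans hd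
  · rw [e1, e2]; exact hbig
  · rw [e1, e2]
    have h1 := (Finset.mem_filter.1 hn).2
    rw [C.near_eq hs hq hr n, C.dist2_eq hs hq hr] at h1
    refine lt_of_le_of_lt (le_of_eq ?_) (h1.trans_le (mul_le_mul_of_nonneg_left hd two_pos.le))
    congr 1
    push_cast
    ring
  · rintro ⟨P, P', u, u', hu, hu', he⟩
    rw [e1, e2] at he
    rw [hf] at hu
    rw [hf'] at hu'
    obtain ⟨a1, a2, a3, a4⟩ := hu
    obtain ⟨b1, b2, b3, b4⟩ := hu'
    have g1 : C.node j q = (u, P) := nodeOf_eq ⟨a1, a2, a3, a4⟩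
    have g2 : C.node j r = (u', P') := nodeOf_eq ⟨b1, b2, b3, b4⟩
    refine hex ⟨by rw [g1]; exact a1, by rw [g2]; exact b1, ?_⟩
    rw [g1, g2]
    simp only at he ⊢
    linarith

open Classical in
/-- The plain weight of the generic pairs of a level saves a power of the level. -/
theorem exists_genPairs_le :
    ∃ (B g ν : ℝ) (M0 : ℕ), 0 < B ∧ 0 < g ∧ 0 < ν ∧ ∀ (C : Ctx) (j : ℕ) (x : ℝ),
      (∀ q ∈ C.S, 0 < q) → (∀ q, 0 ≤ C.ψ q) → mass C.ψ C.S ≤ 2 → 0 < x → B * x ≤ 1 →
      x ^ (-(M0 : ℝ)) ≤ (C.par.thr j : ℝ) → Real.log (C.par.thr j) ≤ x ^ (-ν) →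
      ∑ q ∈ C.S, ∑ r ∈ C.S.filter (fun r => C.GenAt j x q r), wt C.ψ q * wt C.ψ r ≤
        B * x ^ (1 + g) := by
  obtain ⟨B, g, ν, M0, exps, hB, hg, hν, hexp, hgain⟩ := Lift.exists_gain_le
  refine ⟨max B (4 * B * exps.length + 1), g, ν, M0, lt_max_of_lt_left hB, hg, hν, ?_⟩
  intro C j x hS hψ hmass hx hBx hY hlogY
  set Y := C.par.thr j with hYd
  set W : ℕ → ℕ → ℝ := fun q r => if C.GenAt j x q r then wt C.ψ q * wt C.ψ r else 0 with hW
  have hW0 : ∀ q r, 0 ≤ W q r := fun q r => by
    simp only [hW]; split_ifs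
    · exact mul_nonneg (wt_nonneg hψ _) (wt_nonneg hψ _)
    · exact le_rfl
  -- one cell
  have hcell : ∀ v₀ ∈ C.S,
      ∑ q ∈ kCell C.k C.S Y v₀, ∑ r ∈ kCell C.k C.S Y v₀, W q r ≤
        B * x ^ (1 + g) * (exps.map fun e => mass C.ψ (kCell C.k C.S Y v₀) ^ (e.1 + e.2)).sum := by
    intro v₀ _
    set Cl := kCell C.k C.S Y v₀ with hCl
    set K := kCentre C.k C.S Y v₀ with hK
    set T := Cl.image (kDef C.k C.S Y) with hT
    have hclS : Cl ⊆ C.S := Finset.filter_subset _ _
    have hkk : ∀ v ∈ Cl, ∀ p : ℕ, p.Prime → Y < p → C.k v p = C.k v₀ p := fun v hv p hp hY =>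
      ((Finset.mem_filter.1 hv).2 p hp hY).symm
    have hcen : ∀ v ∈ Cl, kCentre C.k C.S Y v = K := fun v hv =>
      kCentre_congr C.k C.S Y (hkk v hv)
    set P : ℕ → ℝ := fun b => defProb K b with hPd
    have hP : ∀ v ∈ Cl, kProb C.k C.S Y v = P (kDef C.k C.S Y v) := fun v hv => by
      rw [kProb_eq, hcen v hv]
    have hP0 : ∀ b ∈ T, 0 < P b := by
      intro b hb
      obtain ⟨v, hv, rfl⟩ := Finset.mem_image.1 hb
      rw [← hP v hv]; exact kProb_pos C.k C.S Y v
    have hTdvd : T ⊆ K.divisors := by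
      intro b hb
      obtain ⟨v, hv, rfl⟩ := Finset.mem_image.1 hb
      exact Nat.mem_divisors.2
        ⟨hcen v hv ▸ kDef_dvd_kCentre C.k C.S Y v, (kCentre_pos C.k C.S Y v₀).ne'⟩
    set Fib : ℕ → Finset ℕ := fun b => Cl.filter (fun v => kDef C.k C.S Y v = b) with hFib
    set m : ℕ → ℝ := fun b => ∑ v ∈ Fib b, wt C.ψ v with hm
    have hm0 : ∀ b, 0 ≤ m b := fun b => Finset.sum_nonneg fun v _ => wt_nonneg hψ v
    set k₀ : ℕ → ℕ := fun p =>
      if p ∈ C.S.biUnion Nat.primeFactors then C.k v₀ p else 0 with hk₀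
    set V : ℕ → Finset ℕ := fun b => (Fib b).image (· * b) with hV
    set f : ℕ → ℕ → ℝ := fun b u => C.ψ (u / b) * b with hf
    set G : ℕ → ℕ → ℝ := fun b u => wt C.ψ (u / b) / P b with hG
    have hbpos : ∀ b ∈ T, 0 < b := fun b hb => Nat.pos_of_mem_divisors (hTdvd hb)
    have hdiv : ∀ b ∈ T, ∀ v, v * b / b = v := fun b hb v => Nat.mul_div_cancel v (hbpos b hb)
    have hpool : ∀ b ∈ T, Lift.Pool (G b) (f b) (V b) k₀ Y := by
      intro b hb
      refine ⟨fun u hu => ?_, fun u => div_nonneg (wt_nonneg hψ _) (hP0 b hb).le,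
        fun u => mul_nonneg (hψ _) (Nat.cast_nonneg _), fun u hu => ?_, fun u hu p hp hpY => ?_⟩
      · obtain ⟨v, hv, rfl⟩ := Finset.mem_image.1 hu
        exact Nat.mul_pos (hS v (hclS (Finset.mem_filter.1 hv).1)) (hbpos b hb)
      · obtain ⟨v, hv, rfl⟩ := Finset.mem_image.1 hu
        obtain ⟨hvC, rfl⟩ := Finset.mem_filter.1 hv
        simp only [hG, hf, hdiv _ hb]
        rw [div_le_iff₀ (hP0 _ hb), mul_comm _ (P _), ← hP v hvC]
        exact wt_le_rad_mul_phiY C.ψ (hclS hvC) (hS v (hclS hvC)) (hψ v)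
      · obtain ⟨v, hv, rfl⟩ := Finset.mem_image.1 hu
        obtain ⟨hvC, rfl⟩ := Finset.mem_filter.1 hv
        rw [factorization_mul_kDef (hclS hvC) (hS v (hclS hvC)), hk₀]
        dsimp only
        by_cases hb' : p ∈ C.S.biUnion Nat.primeFactors
        · rw [if_pos hb', if_pos ⟨hp, hpY, hb'⟩, hkk v hvC p hp hpY]
          exact le_max_right _ _
        · rw [if_neg hb']; exact Nat.zero_le _
    have hone : ∀ b ∈ T, ∀ b' ∈ T, ∑ q ∈ Fib b, ∑ r ∈ Fib b', W q r ≤
        B * x ^ (1 + g) * (exps.map fun e => P b * (m b / P b) ^ e.1 *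
          (P b' * (m b' / P b') ^ e.2)).sum := by
      intro b hb b' hb'
      have h := hgain (C.γ * b) (C.γ * b') x (G b) (G b') (f b) (f b') (V b) (V b') k₀ Y hx
        (le_trans (mul_le_mul_of_nonneg_right (le_max_left _ _) hx.le) hBx) hY hlogY
        (hpool b hb) (hpool b' hb')
      have hinj : ∀ c ∈ T, Set.InjOn (· * c) (Fib c) := fun c hc u _ u' _ he =>
        Nat.eq_of_mul_eq_mul_right (hbpos c hc) he
      have hGsum : ∀ c ∈ T, ∑ u ∈ V c, G c u = m c / P c := by
        intro c hc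
        rw [hV, Finset.sum_image (hinj c hc), hm, Finset.sum_div]
        exact Finset.sum_congr rfl fun v _ => by simp only [hG, hdiv c hc]
      rw [hGsum b hb, hGsum b' hb', hV, Finset.sum_image (hinj b hb)] at h
      have hPP := mul_nonneg (hP0 b hb).le (hP0 b' hb').le
      calc ∑ q ∈ Fib b, ∑ r ∈ Fib b', W q r
          = P b * P b' * ∑ q ∈ Fib b, ∑ r ∈ Fib b',
              (if C.GenAt j x q r then G b (q * b) * G b' (r * b') else 0) := by
            rw [Finset.mul_sum]
            refine Finset.sum_congr rfl fun q _ => ?_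
            rw [Finset.mul_sum]
            refine Finset.sum_congr rfl fun r _ => ?_
            simp only [hW, hG, hdiv b hb, hdiv b' hb', mul_ite, mul_zero]
            have := (hP0 b hb).ne'
            have := (hP0 b' hb').ne'
            split_ifs
            · field_simp
            · rfl
        _ ≤ P b * P b' * _ := by
            refine mul_le_mul_of_nonneg_left (le_trans (Finset.sum_le_sum fun q hq => ?_) h) hPP
            dsimp only
            rw [Finset.sum_filter (s := (Fib b').image (· * b')), Finset.sum_image (hinj b' hb')]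
            refine Finset.sum_le_sum fun r hr => ?_
            have hnn : 0 ≤ G b (q * b) * G b' (r * b') :=
              mul_nonneg ((hpool b hb).F_nonneg _) ((hpool b' hb').F_nonneg _)
            obtain ⟨hqC, hqb⟩ := Finset.mem_filter.1 hq
            obtain ⟨hrC, hrb⟩ := Finset.mem_filter.1 hr
            by_cases hc : C.GenAt j x q r
            · rw [if_pos hc, if_pos]
              have := C.badPair_lift (hclS hqC) (hclS hrC) (hS q (hclS hqC)) (hS r (hclS hrC))
                (f b) (f b') k₀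
                (by simp only [hf, Ctx.def', Ctx.rad]; rw [← hYd, hqb, hdiv b hb])
                (by simp only [hf, Ctx.def', Ctx.rad]; rw [← hYd, hrb, hdiv b' hb'])
                (fun p hp hpY => by
                  rw [← hYd] at hpY
                  simp only [hk₀]
                  split_ifs
                  · exact (hkk q hqC p hp hpY).symm
                  · rfl) hc
              simpa only [Ctx.def', ← hYd, hqb, hrb] using this
            · rw [if_neg hc]; split_ifs
              · exact hnn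
              · exact le_rfl
        _ = _ := by
            rw [mul_left_comm, ← List.sum_map_mul_left]
            congr 2
            refine List.map_congr_left fun e _ => ?_
            ring
    have hfib : ∀ v ∈ Cl, kDef C.k C.S Y v ∈ T := fun v hv => Finset.mem_image_of_mem _ hv
    have hmsum : ∑ b ∈ T, m b = mass C.ψ Cl := Finset.sum_fiberwise_of_maps_to hfib _
    have hside : ∀ e : ℝ, 0 < e → e < 1 →
        ∑ b ∈ T, P b * (m b / P b) ^ e ≤ mass C.ψ Cl ^ e := by
      intro e he he1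
      calc ∑ b ∈ T, P b * (m b / P b) ^ e = ∑ b ∈ T, m b ^ e * P b ^ (1 - e) := by
            refine Finset.sum_congr rfl fun b hb => ?_
            rw [Real.div_rpow (hm0 b) (hP0 b hb).le, Real.rpow_sub (hP0 b hb), Real.rpow_one]
            ring
        _ ≤ (∑ b ∈ T, m b) ^ e * (∑ b ∈ T, P b) ^ (1 - e) :=
            sum_rpow2_le T m P he he1 (fun b _ => hm0 b) fun b hb => (hP0 b hb).le
        _ ≤ (∑ b ∈ T, m b) ^ e * 1 := by
            refine mul_le_mul_of_nonneg_left (Real.rpow_le_one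
              (Finset.sum_nonneg fun b hb => (hP0 b hb).le) ?_ (by linarith))
              (Real.rpow_nonneg (Finset.sum_nonneg fun b _ => hm0 b) _)
            exact sum_defProb_le (kCentre_pos C.k C.S Y v₀) T hTdvd
        _ = _ := by rw [mul_one, hmsum]
    calc ∑ q ∈ Cl, ∑ r ∈ Cl, W q r
        = ∑ b ∈ T, ∑ b' ∈ T, ∑ q ∈ Fib b, ∑ r ∈ Fib b', W q r := by
          rw [← Finset.sum_fiberwise_of_maps_to hfib]
          refine Finset.sum_congr rfl fun b _ => ?_
          rw [Finset.sum_comm (s := T)]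
          refine Finset.sum_congr rfl fun q _ => ?_
          exact (Finset.sum_fiberwise_of_maps_to hfib _).symm
      _ ≤ ∑ b ∈ T, ∑ b' ∈ T, B * x ^ (1 + g) * (exps.map fun e => P b * (m b / P b) ^ e.1 *
            (P b' * (m b' / P b') ^ e.2)).sum :=
          Finset.sum_le_sum fun b hb => Finset.sum_le_sum fun b' hb' => hone b hb b' hb'
      _ ≤ _ := by
          simp only [← Finset.mul_sum]
          refine mul_le_mul_of_nonneg_left ?_ (by positivity)
          suffices hl : ∀ l : List (ℝ × ℝ), (∀ e ∈ l, e ∈ exps) →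
              ∑ b ∈ T, ∑ b' ∈ T, (l.map fun e => P b * (m b / P b) ^ e.1 *
                (P b' * (m b' / P b') ^ e.2)).sum ≤
              (l.map fun e => mass C.ψ Cl ^ (e.1 + e.2)).sum from hl exps fun e he => he
          intro l
          induction l with
          | nil => simp
          | cons e l ih =>
            intro hl
            obtain ⟨e1, e2, e3, e4, e5⟩ := hexp e (hl e (List.mem_cons_self ..))
            simp only [List.map_cons, List.sum_cons, Finset.sum_add_distrib]
            refine add_le_add ?_ (ih fun a ha => hl a (List.mem_cons_of_mem _ ha))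
            simp only [← Finset.mul_sum, ← Finset.sum_mul]
            rw [Real.rpow_add' (mass_nonneg hψ _) (by linarith)]
            refine mul_le_mul (hside e.1 e1 e2) (hside e.2 e3 e4) ?_
              (Real.rpow_nonneg (mass_nonneg hψ _) _)
            exact Finset.sum_nonneg fun b hb =>
              mul_nonneg (hP0 b hb).le (Real.rpow_nonneg (div_nonneg (hm0 b) (hP0 b hb).le) _)
  -- all the cells
  have hsplit : ∑ q ∈ C.S, ∑ r ∈ C.S.filter (fun r => C.GenAt j x q r), wt C.ψ q * wt C.ψ r ≤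
      ∑ Cl ∈ C.S.image (kCell C.k C.S Y), ∑ q ∈ Cl, ∑ r ∈ Cl, W q r := by
    calc ∑ q ∈ C.S, ∑ r ∈ C.S.filter (fun r => C.GenAt j x q r), wt C.ψ q * wt C.ψ r
        ≤ ∑ q ∈ C.S, ∑ r ∈ kCell C.k C.S Y q, W q r := by
          refine Finset.sum_le_sum fun q _ => ?_
          refine le_trans (le_of_eq (Finset.sum_congr rfl fun r hr => ?_))
            (Finset.sum_le_sum_of_subset_of_nonneg (fun r hr => ?_) fun r _ _ => hW0 q r)
          · simp only [hW]; rw [if_pos (Finset.mem_filter.1 hr).2]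
          · obtain ⟨hrS, hr⟩ := Finset.mem_filter.1 hr
            exact Finset.mem_filter.2 ⟨hrS, fun p hp hY => (hr.1 p hp hY).1⟩
      _ = _ := by
          rw [sum_kCells C.k C.S Y]
          refine Finset.sum_congr rfl fun Cl hCl => ?_
          obtain ⟨v₀, -, rfl⟩ := Finset.mem_image.1 hCl
          exact Finset.sum_congr rfl fun q hq => by rw [kCell_eq_of_mem C.k C.S Y hq]
  have hM : mass C.ψ C.S = ∑ Cl ∈ C.S.image (kCell C.k C.S Y), mass C.ψ Cl :=
    sum_kCells C.k C.S Y (wt C.ψ)
  refine hsplit.trans ?_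
  calc ∑ Cl ∈ C.S.image (kCell C.k C.S Y), ∑ q ∈ Cl, ∑ r ∈ Cl, W q r
      ≤ ∑ Cl ∈ C.S.image (kCell C.k C.S Y),
          B * x ^ (1 + g) * (exps.length * (2 * mass C.ψ Cl)) := by
        refine Finset.sum_le_sum fun Cl hCl => ?_
        obtain ⟨v₀, hv₀, rfl⟩ := Finset.mem_image.1 hCl
        refine (hcell v₀ hv₀).trans (mul_le_mul_of_nonneg_left ?_ (by positivity))
        refine le_trans (List.sum_le_card_nsmul _ (2 * mass C.ψ (kCell C.k C.S Y v₀)) ?_) ?_
        · intro y hy
          obtain ⟨e, he, rfl⟩ := List.mem_map.1 hy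
          obtain ⟨e1, e2, e3, e4, e5⟩ := hexp e he
          have h0 := mass_nonneg hψ (kCell C.k C.S Y v₀)
          have h2 : mass C.ψ (kCell C.k C.S Y v₀) ≤ 2 :=
            (mass_mono hψ (Finset.filter_subset _ _)).trans hmass
          calc mass C.ψ (kCell C.k C.S Y v₀) ^ (e.1 + e.2)
              = mass C.ψ (kCell C.k C.S Y v₀) ^ (e.1 + e.2 - 1) *
                  mass C.ψ (kCell C.k C.S Y v₀) := by
                conv_rhs => arg 2; rw [← Real.rpow_one (mass C.ψ (kCell C.k C.S Y v₀))]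
                rw [← Real.rpow_add' h0 (by linarith)]; ring_nf
            _ ≤ 2 * mass C.ψ (kCell C.k C.S Y v₀) := by
                refine mul_le_mul_of_nonneg_right ?_ h0
                calc mass C.ψ (kCell C.k C.S Y v₀) ^ (e.1 + e.2 - 1)
                    ≤ (2 : ℝ) ^ (e.1 + e.2 - 1) := Real.rpow_le_rpow h0 h2 (by linarith)
                  _ ≤ (2 : ℝ) ^ (1 : ℝ) :=
                      Real.rpow_le_rpow_of_exponent_le one_le_two (by linarith)
                  _ = 2 := Real.rpow_one 2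
        · rw [List.length_map, nsmul_eq_mul]
    _ = B * x ^ (1 + g) * (exps.length * (2 * mass C.ψ C.S)) := by
        rw [hM, Finset.mul_sum, Finset.mul_sum, Finset.mul_sum]
    _ ≤ B * x ^ (1 + g) * (exps.length * (2 * 2)) := by gcongr
    _ = 4 * B * exps.length * x ^ (1 + g) := by ring
    _ ≤ _ := mul_le_mul_of_nonneg_right
        (le_trans (by linarith) (le_max_right _ _)) (by positivity)

end Vale.Agent.P028.Full
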