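import Vale.Agent.P028.Full.Cells

/-!
A centre map with the tree bound and with concentrated cells.
-/

noncomputable section

namespace Vale.Agent.P028.Full

open Finset

/-- The tree bound and the concentration of the cells. -/
structure GoodTree (ξ K : ℝ) (S : Finset ℕ) (F : ℕ → ℝ) (k : ℕ → ℕ → ℕ) : Prop where
  separated : ∀ (Y : ℕ) (G : ℝ) (W : ℕ → ℕ → ℝ), 4 ≤ Y → 0 ≤ G → (∀ v w, 0 ≤ W v w) →
    GainsAt ξ G S F W → ∀ [DecidablePred fun z : ℕ × ℕ => SameCell k Y z.1 z.2],
    ∑ z ∈ (S ×ˢ S).filter (fun z => ¬ SameCell k Y z.1 z.2), W z.1 z.2 * (F z.1 * F z.2) ≤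
      K * G * (Y : ℝ) ^ (-(ξ / 20)) * (∑ v ∈ S, F v) ^ (1 + ξ)
  concentrated : ∀ p : ℕ, p.Prime → ∀ v ∈ S,
    ∑ w ∈ (kCell k S (p - 1) v).filter (fun w => w.factorization p ≠ k v p), F w ≤
      K * (p : ℝ) ^ (-(1 - ξ / 2)) * ∑ w ∈ kCell k S (p - 1) v, F w

namespace Tree

variable {F : ℕ → ℝ} {t : ℕ → ℝ} {N : ℕ} {S : Finset ℕ}

open Classical in
theorem centreAt_eq {u q : ℕ} {C : Finset ℕ} (hq : q ≤ N) (hC : cell F t N S (N - q) u = C) :
    centreAt F t N S u q =
      if Splits F t N C q then u.factorization q else ctr F N C q := by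
  subst hC
  exact if_pos hq

theorem cell_succ_subset (m v : ℕ) : cell F t N S (m + 1) v ⊆ cell F t N S m v := by
  rw [cell]; split
  · exact Finset.filter_subset _ _
  · exact subset_rfl

theorem cell_anti {m m' : ℕ} (h : m ≤ m') (v : ℕ) : cell F t N S m' v ⊆ cell F t N S m v := by
  induction m', h using Nat.le_induction with
  | base => exact subset_rfl
  | succ n _ ih => exact (cell_succ_subset n v).trans ih

theorem cell_succ_of_centres {m v w : ℕ} (hm : m < N) (h : w ∈ cell F t N S m v)
    (hk : (N - m).Prime → centreAt F t N S v (N - m) = centreAt F t N S w (N - m)) :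
    w ∈ cell F t N S (m + 1) v := by
  rw [cell]
  split
  case isTrue hs =>
    refine Finset.mem_filter.2 ⟨h, ?_⟩
    have h' := hk hs.1
    rw [centreAt_eq (C := cell F t N S m v) (Nat.sub_le _ _) (by rw [Nat.sub_sub_self hm.le]),
      centreAt_eq (C := cell F t N S m v) (Nat.sub_le _ _)
        (by rw [Nat.sub_sub_self hm.le, cell_eq_of_mem h]), if_pos hs, if_pos hs] at h'
    exact h'.symm
  case isFalse => exact h

theorem mem_cell_of_centres {m v w : ℕ} (hw : w ∈ S) (hm : m ≤ N)
    (hk : ∀ q : ℕ, q.Prime → N - m < q → centreAt F t N S v q = centreAt F t N S w q) :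
    w ∈ cell F t N S m v := by
  induction m with
  | zero => exact hw
  | succ m ih =>
    exact cell_succ_of_centres (by omega) (ih (by omega) fun q hq hlt => hk q hq (by omega))
      fun hp => hk _ hp (by omega)

theorem centres_eq_of_mem {p v w : ℕ} (hw : w ∈ cell F t N S (N - p) v) {q : ℕ} (hq : p < q) :
    centreAt F t N S v q = centreAt F t N S w q := by
  by_cases hqN : q ≤ N
  · have h1 : w ∈ cell F t N S (N - q + 1) v := cell_anti (by omega) v hw
    have h2 : w ∈ cell F t N S (N - q) v := cell_succ_subset _ _ h1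
    rw [centreAt_eq (C := cell F t N S (N - q) v) hqN rfl,
      centreAt_eq (C := cell F t N S (N - q) v) hqN (cell_eq_of_mem h2)]
    by_cases hs : Splits F t N (cell F t N S (N - q) v) q
    · rw [if_pos hs, if_pos hs]
      have hs' : Splits F t N (cell F t N S (N - q) v) (N - (N - q)) := by
        rwa [Nat.sub_sub_self hqN]
      rw [cell, if_pos hs'] at h1
      have h3 := (Finset.mem_filter.1 h1).2
      rw [Nat.sub_sub_self hqN] at h3
      exact h3.symm
    · rw [if_neg hs, if_neg hs]
  · simp [centreAt, hqN]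

end Tree

open Classical in
/-- Every finite weighted set has a good tree. -/
theorem exists_goodTree (ξ : ℝ) (hξ : 0 < ξ) (hξ1 : ξ ≤ 1 / 100) :
    ∃ K : ℝ, ∀ (S : Finset ℕ) (F : ℕ → ℝ), (∀ v ∈ S, 0 < v) → (∀ v, 0 ≤ F v) →
      ∃ k : ℕ → ℕ → ℕ, GoodTree ξ K S F k := by
  obtain ⟨C, -, hC⟩ := tree_centreAt_le ξ hξ hξ1
  refine ⟨max C 1, fun S F hpos hF => ?_⟩
  set N := S.sup id with hN
  set t : ℕ → ℝ := fun p => (p : ℝ) ^ (-(1 - ξ / 2)) with ht
  set k := Tree.centreAt F t N S with hk
  refine ⟨k, ?_, ?_⟩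
  · intro Y G W hY hG hW hgain _
    have h := hC S F hpos hF Y G W hY hG hW hgain
    refine le_trans (le_of_eq ?_) (h.trans (mul_le_mul_of_nonneg_right
      (mul_le_mul_of_nonneg_right (mul_le_mul_of_nonneg_right (le_max_left _ _) hG)
        (Real.rpow_nonneg (Nat.cast_nonneg _) _))
      (Real.rpow_nonneg (Finset.sum_nonneg fun v _ => hF v) _)))
    rw [Finset.sum_filter, Finset.sum_product]
    refine Finset.sum_congr rfl fun v _ => ?_
    rw [Finset.sum_filter]
    exact Finset.sum_congr rfl fun w _ => by congr 1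
  · intro p hp v hv
    have hK : (1 : ℝ) ≤ max C 1 := le_max_right _ _
    set T := kCell k S (p - 1) v with hT
    have hTS : T ⊆ S := Finset.filter_subset _ _
    have hRHS : 0 ≤ max C 1 * (p : ℝ) ^ (-(1 - ξ / 2)) * ∑ w ∈ T, F w :=
      mul_nonneg (mul_nonneg (by linarith) (Real.rpow_nonneg (Nat.cast_nonneg _) _))
        (Finset.sum_nonneg fun w _ => hF w)
    by_cases hpN : p ≤ N
    swap
    · rw [Finset.filter_false_of_mem fun w hw => ?_]
      · simpa using hRHS
      · have hw' : w ≤ N := Finset.le_sup (f := id) (hTS hw)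
        simp [hk, Tree.centreAt, hpN, Nat.factorization_eq_zero_of_lt (show w < p by omega)]
    set D := Tree.cell F t N S (N - p) v with hD
    have hTk : ∀ w ∈ T, ∀ q : ℕ, q.Prime → p ≤ q → k v q = k w q := fun w hw q hq hpq =>
      (Finset.mem_filter.1 hw).2 q hq (by have := hp.pos; omega)
    have hTD : T ⊆ D := fun w hw => Tree.mem_cell_of_centres (hTS hw) (by omega) fun q hq hlt =>
      hTk w hw q hq (by omega)
    have hkv : k v p = if Tree.Splits F t N D p then v.factorization p else Tree.ctr F N D p := Tree.centreAt_eq hpN rfl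
    have hkw : ∀ w ∈ D, k w p = if Tree.Splits F t N D p then w.factorization p else Tree.ctr F N D p := by
      intro w hw
      exact Tree.centreAt_eq hpN (Tree.cell_eq_of_mem hw)
    by_cases hs : Tree.Splits F t N D p
    · rw [Finset.filter_false_of_mem fun w hw => ?_]
      · simpa using hRHS
      · have h := hTk w hw p hp le_rfl
        rw [hkw w (hTD hw), if_pos hs] at h
        simp [h]
    · have hDT : D ⊆ T := fun w hw => Finset.mem_filter.2 ⟨Tree.cell_subset _ _ hw, fun q hq hlt => by
        rcases Nat.lt_or_eq_of_le (show p ≤ q by omega) with h | rfl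
        · exact Tree.centres_eq_of_mem hw h
        · rw [hkv, hkw w hw, if_neg hs, if_neg hs]⟩
      rw [Finset.Subset.antisymm hTD hDT, hkv, if_neg hs]
      have hconc : (1 - t p) * ∑ w ∈ D, F w ≤ Tree.fib F D p (Tree.ctr F N D p) := by
        rw [Tree.Splits] at hs
        push Not at hs
        exact hs hp
      have hsplit := Finset.sum_filter_add_sum_filter_not D
        (fun w => w.factorization p = Tree.ctr F N D p) F
      rw [Tree.fib] at hconc
      calc _ ≤ t p * ∑ w ∈ D, F w := by
            simp only [ne_eq] at hsplit ⊢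
            linarith
        _ ≤ _ := by
            refine mul_le_mul_of_nonneg_right ?_ (Finset.sum_nonneg fun w _ => hF w)
            exact le_mul_of_one_le_left (Real.rpow_nonneg (Nat.cast_nonneg _) _) hK

end Vale.Agent.P028.Full
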