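import Vale.Agent.P028.Full.LargeLevel
import Vale.Agent.P028.Full.ExactMoment
import Vale.Agent.P028.Full.Bil

/-!
Pairs of level `D ≍ x ≥ x0` which are not in one cell above the band of the level: the tree gains
a large power of the band, which pays for the crude bound of the second moment.
-/

noncomputable section

namespace Vale.Agent.P028.Full

open Finset BilinearAux

theorem bandZ_mono {i j : ℕ} (h : i ≤ j) : bandZ i ≤ bandZ j :=
  Nat.pow_le_pow_right two_pos (Nat.pow_le_pow_right two_pos h)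

theorem bandOf_bandZ (j : ℕ) : bandOf (bandZ (j + 1) : ℝ) = j := by
  refine le_antisymm (Nat.sInf_le (Set.mem_ofPred_eq ▸ le_refl _)) ?_
  refine le_csInf ⟨j, Set.mem_ofPred_eq ▸ le_refl _⟩ fun i hi => ?_
  by_contra hlt
  have h1 : bandZ (i + 1) < bandZ (j + 1) :=
    Nat.pow_lt_pow_right one_lt_two (Nat.pow_lt_pow_right one_lt_two (by omega))
  have h2 : (bandZ (j + 1) : ℝ) ≤ (bandZ (i + 1) : ℝ) := hi
  have h3 : bandZ (j + 1) ≤ bandZ (i + 1) := by exact_mod_cast h2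
  omega

/-- The band of a level bounds the level and its inverse. -/
theorem largeBand_spec {x : ℝ} (hx : 0 < x) {j : ℕ} (hj : largeBand x ≤ j) :
    2 * x ≤ (bandZ (j + 1) : ℝ) ∧ bandOf (max (2 * x) (2 * x)⁻¹) ≤ j := by
  have hmax1 : 1 ≤ max x x⁻¹ := by
    rcases le_total 1 x with h | h
    · exact h.trans (le_max_left _ _)
    · exact ((one_le_inv₀ hx).2 h).trans (le_max_right _ _)
  have h := (bandOf_spec (show 1 ≤ 4 * max x x⁻¹ by linarith)).1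
  have hz : (bandZ (largeBand x + 1) : ℝ) ≤ bandZ (j + 1) := by
    exact_mod_cast bandZ_mono (Nat.succ_le_succ hj)
  refine ⟨?_, (Nat.sInf_le (m := largeBand x) ?_).trans hj⟩
  · have := le_max_left x x⁻¹
    change 4 * max x x⁻¹ ≤ (bandZ (largeBand x + 1) : ℝ) at h
    linarith
  · show max (2 * x) (2 * x)⁻¹ ≤ (bandZ (largeBand x + 1) : ℝ)
    refine le_trans (max_le ?_ ?_) h
    · linarith [le_max_left x x⁻¹]
    · rw [mul_inv]
      linarith [le_max_right x x⁻¹, inv_pos.2 hx]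

/-- The crude bound for a pair of level above `x` in one cell above `Y_j`. -/
theorem exists_term_crude_le (M : ℕ) (hM : 1 ≤ M) (x0 : ℝ) (hx0 : 0 < x0) :
    ∃ L : ℝ, 0 ≤ L ∧ ∀ (C : Ctx) (ξ K x : ℝ) (j q r : ℕ), C.par.M = M → C.Ok ξ K → x0 ≤ x →
      largeBand x ≤ j → q ∈ C.S → r ∈ C.S → x < dist2 C.ψ q r → dist2 C.ψ q r ≤ 2 * x →
      SameCell C.k (C.par.thr j) q r →
      C.term q r ≤ L * bandZ (j + 1) *
        (wt C.ψ q * wt C.ψ r * (pC C.classes q r * (1 + C.exactSum j q r))) := by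
  classical
  obtain ⟨L, hL1, hL⟩ := exists_prod_ratio_thr_le M 1 one_pos
  set W := Real.exp 160 * (4 + 3 / x0) + 1 / x0 with hW
  have hW0 : 0 ≤ W := by positivity
  refine ⟨L * W, by positivity, ?_⟩
  intro C ξ K x j q r hCM hC hx hj hq hr hxD hDx hsame
  have hx' : 0 < x := hx0.trans_le hx
  set D := dist2 C.ψ q r with hD
  have hD0 : 0 < D := hx'.trans hxD
  set Y := C.par.thr j with hY
  set Z := (bandZ (j + 1) : ℝ) with hZ
  have hlog : Real.log D ≤ Y := by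
    have h1 := (largeBand_spec hx' hj).1
    have h2 : Z ≤ Y := by
      rw [hZ]; exact_mod_cast bandZ_le_thr C.par (hCM ▸ hM) j
    linarith [Real.log_le_sub_one_of_pos hD0]
  have hZ1 : 1 ≤ Z := by
    rw [hZ]; exact_mod_cast (show 1 ≤ 4 by norm_num).trans (four_le_bandZ j)
  have hP : ∏ p ∈ loPrimes Y, ratio p ≤ L * Z := by
    refine (hL C.par Z (loPrimes Y) hCM hZ1 fun p hp => ⟨prime_of_loPrimes hp, ?_⟩).trans_eq
      (by rw [Real.rpow_one])
    rw [hZ, bandOf_bandZ]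
    exact Nat.le_of_lt_succ (mem_range.1 (mem_filter.1 hp).1)
  set K' := C.classes
  set E := C.exactSum j q r with hE
  have hE0 : 0 ≤ E := sum_nonneg fun n _ => wCoinHi_nonneg _ _ _ _ _
  have hcard : ((admN C.γ C.ψ K' q r).card : ℝ) ≤ 4 * D + 3 := by
    have h1 := Int.sub_one_lt_floor (-(C.γ * mdiff q r) - 2 * D)
    have h2 := Int.ceil_lt_add_one (-(C.γ * mdiff q r) + 2 * D)
    have h3 := card_le_card ((filter_subset _ _).trans (filter_subset _ _) :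
      admN C.γ C.ψ K' q r ⊆ Icc ⌊-(C.γ * mdiff q r) - 2 * D⌋ ⌈-(C.γ * mdiff q r) + 2 * D⌉)
    rw [Int.card_Icc] at h3
    have h3' : (admN C.γ C.ψ K' q r).card ≤
        (⌈-(C.γ * mdiff q r) + 2 * D⌉ + 1 - ⌊-(C.γ * mdiff q r) - 2 * D⌋).toNat := h3
    clear h3
    set u := ⌈-(C.γ * mdiff q r) + 2 * D⌉ + 1 - ⌊-(C.γ * mdiff q r) - 2 * D⌋ with hu
    have h4 : ((admN C.γ C.ψ K' q r).card : ℝ) ≤ max (u : ℝ) 0 := by
      rcases le_total 0 u with h | h
      · refine le_trans ?_ (le_max_left _ _)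
        have : ((admN C.γ C.ψ K' q r).card : ℤ) ≤ u := by omega
        exact_mod_cast this
      · refine le_trans ?_ (le_max_right _ _)
        have : (admN C.γ C.ψ K' q r).card = 0 := by omega
        rw [this, Nat.cast_zero]
    refine h4.trans (max_le ?_ (by linarith))
    rw [hu]; push_cast
    linarith
  have hsum : ∑ n ∈ admN C.γ C.ψ K' q r, wCoinHi K' Y q r n ≤
      Real.exp 160 * (4 * D + 3) + E := by
    rw [← sum_filter_add_sum_filter_not (admN C.γ C.ψ K' q r) (fun n => C.ExactHi j q r n),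
      add_comm]
    refine add_le_add ?_ le_rfl
    refine (sum_le_card_nsmul _ _ (Real.exp 160) fun n hn => ?_).trans ?_
    · exact C.wCoinHi_le_of_not_exact hC hq hr hsame hlog (mem_filter.1 hn).1 (mem_filter.1 hn).2
    · rw [nsmul_eq_mul, mul_comm]
      refine mul_le_mul_of_nonneg_left (le_trans ?_ hcard) (Real.exp_pos _).le
      exact_mod_cast card_le_card (filter_subset _ _)
  have hWW : 0 ≤ wt C.ψ q * wt C.ψ r := mul_nonneg (BilinearAux.wt_nonneg hC.psi_nonneg q)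
    (BilinearAux.wt_nonneg hC.psi_nonneg r)
  have hpC := pC_nonneg K' q r
  calc C.term q r ≤ wt C.ψ q * wt C.ψ r / D *
        ∑ n ∈ admN C.γ C.ψ K' q r, pC K' q r * (L * Z * wCoinHi K' Y q r n) := by
        refine mul_le_mul_of_nonneg_left (sum_le_sum fun n _ => mul_le_mul_of_nonneg_left ?_ hpC)
          (div_nonneg hWW hD0.le)
        refine (wCoin_le_lo_mul_hi K' Y q r n).trans
          (mul_le_mul_of_nonneg_right (le_trans ?_ hP) (wCoinHi_nonneg _ _ _ _ _))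
        refine prod_le_prod (fun p hp => ?_) fun p hp => ?_
        · split_ifs <;> first | exact ratio_nonneg p | norm_num
        · split_ifs
          · exact le_rfl
          · exact BilinearAux.one_le_ratio (prime_of_loPrimes hp)
    _ = wt C.ψ q * wt C.ψ r * pC K' q r * (L * Z) *
        ((∑ n ∈ admN C.γ C.ψ K' q r, wCoinHi K' Y q r n) / D) := by
        rw [← mul_sum, ← mul_sum]; ring
    _ ≤ wt C.ψ q * wt C.ψ r * pC K' q r * (L * Z) * (W * (1 + E)) := by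
        refine mul_le_mul_of_nonneg_left ?_ (by positivity)
        rw [div_le_iff₀ hD0]
        refine hsum.trans ?_
        have hge : x0 ≤ D := hx.trans hxD.le
        have h3 : 4 * D + 3 ≤ (4 + 3 / x0) * D := by
          have : 3 ≤ 3 / x0 * D := by rw [div_mul_eq_mul_div, le_div_iff₀ hx0]; linarith
          linarith
        have h5 : E ≤ 1 / x0 * E * D := by
          rw [one_div_mul_eq_div, div_mul_eq_mul_div, le_div_iff₀ hx0]
          exact mul_le_mul_of_nonneg_left hge hE0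
        have h6 : 0 ≤ Real.exp 160 * (4 + 3 / x0) * E * D + 1 / x0 * D := by positivity
        have h7 := mul_le_mul_of_nonneg_left h3 (Real.exp_pos 160).le
        rw [hW]
        linarith
    _ = _ := by ring

/-- The indicator of a level gains at separated primes. -/
theorem exists_gainsAt_level (ξ : ℝ) (hξ : 0 < ξ) (hξ1 : ξ ≤ 1 / 100) :
    ∃ G : ℝ, 0 ≤ G ∧ ∀ (ψ : ℕ → ℝ) (S : Finset ℕ) (x : ℝ), (∀ q ∈ S, 0 < q) → (∀ q, 0 ≤ ψ q) →
      0 < x → GainsAt ξ (G * x ^ (1 - ξ)) S (wt ψ) (fun v w => if dist2 ψ v w ≤ x then 1 else 0) := by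
  obtain ⟨Cb, hCb⟩ := exists_bilinear_le ξ hξ hξ1
  refine ⟨max Cb 0, le_max_right _ _, fun ψ S x hS hψ hx => ?_⟩
  intro p i j V W hp hV hW hi hj
  refine le_trans (le_of_eq ?_) ((hCb ψ ψ V W x p i j hx hp
    (fun v hv => ⟨hS v (hV hv), hi v hv⟩) (fun w hw => ⟨hS w (hW hw), hj w hw⟩) hψ hψ).trans ?_)
  · refine sum_congr rfl fun v _ => ?_
    rw [sum_filter]
    refine sum_congr rfl fun w _ => ?_
    simp only [dist2', dist2]
    split_ifs <;> simp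
  · refine mul_le_mul_of_nonneg_right (mul_le_mul_of_nonneg_right (mul_le_mul_of_nonneg_right
      (le_max_left _ _) (Real.rpow_nonneg hx.le _)) (Real.rpow_nonneg (Nat.cast_nonneg p) _)) ?_
    exact mul_nonneg (Real.rpow_nonneg (add_nonneg (BilinearAux.mass_nonneg hψ V)
      (BilinearAux.mass_nonneg hψ W)) _) (Real.rpow_nonneg (mul_nonneg
        (BilinearAux.mass_nonneg hψ V) (BilinearAux.mass_nonneg hψ W)) _)

/-- Every pair lies in one cell above some threshold. -/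
theorem Ctx.exists_sameCell {C : Ctx} {ξ K : ℝ} (hξ : 0 < ξ) (hξ1 : ξ ≤ 1 / 100) (hM : 1 ≤ C.par.M)
    (hC : C.Ok ξ K) {q r : ℕ} (hq : q ∈ C.S) (hr : r ∈ C.S) (k : ℕ) :
    ∃ N, k ≤ N ∧ SameCell C.k (C.par.thr N) q r := by
  classical
  by_contra hno
  push Not at hno
  obtain ⟨G0, hG0, hG⟩ := exists_gainsAt_level ξ hξ hξ1
  set x := dist2 C.ψ q r with hx
  have hx0 : 0 < x := lt_of_lt_of_le
    (mul_pos (hC.psi_pos q hq) (by exact_mod_cast qd_pos (hC.pos r hr))) (le_max_left _ _)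
  set Kn : ℕ → ℕ → ℝ := fun v w => if dist2 C.ψ v w ≤ x then 1 else 0 with hKn
  have hwt0 : ∀ v, 0 ≤ wt C.ψ v := fun v => BilinearAux.wt_nonneg hC.psi_nonneg v
  have hgain : GainsAt ξ (G0 * x ^ (1 - ξ)) C.S (wt C.ψ) Kn :=
    hG C.ψ C.S x hC.pos hC.psi_nonneg hx0
  set B := max K 0 * (G0 * x ^ (1 - ξ)) * (∑ v ∈ C.S, wt C.ψ v) ^ (1 + ξ) with hB
  have hB0 : 0 ≤ B := mul_nonneg (mul_nonneg (le_max_right _ _) (by positivity))
    (Real.rpow_nonneg (sum_nonneg fun v _ => hwt0 v) _)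
  have hwt : 0 < wt C.ψ q * wt C.ψ r := by
    refine mul_pos ?_ ?_ <;> refine mul_pos (div_pos ?_ ?_) ?_
    · exact_mod_cast Nat.totient_pos.2 (hC.pos q hq)
    · exact_mod_cast hC.pos q hq
    · exact hC.psi_pos q hq
    · exact_mod_cast Nat.totient_pos.2 (hC.pos r hr)
    · exact_mod_cast hC.pos r hr
    · exact hC.psi_pos r hr
  set a : ℝ := (2 : ℝ) ^ (-(ξ / 20)) with ha
  have ha0 : 0 < a := Real.rpow_pos_of_pos two_pos _
  have ha1 : a < 1 := Real.rpow_lt_one_of_one_lt_of_neg one_lt_two (by linarith)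
  obtain ⟨N0, hN0⟩ := exists_pow_lt_of_lt_one (div_pos hwt (by linarith : 0 < B + 1)) ha1
  set N := max k N0
  set Y := C.par.thr N with hY
  have hY4 : 4 ≤ Y := (four_le_bandZ N).trans (bandZ_le_thr C.par hM N)
  have h := hC.tree.separated Y (G0 * x ^ (1 - ξ)) Kn hY4 (by positivity)
    (fun v w => by simp only [hKn]; split_ifs <;> norm_num) hgain
  have hsingle : wt C.ψ q * wt C.ψ r ≤
      K * (G0 * x ^ (1 - ξ)) * (Y : ℝ) ^ (-(ξ / 20)) *
        (∑ v ∈ C.S, wt C.ψ v) ^ (1 + ξ) := by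
    refine le_trans ?_ h
    refine le_trans (le_of_eq ?_) (single_le_sum
      (f := fun z : ℕ × ℕ => Kn z.1 z.2 * (wt C.ψ z.1 * wt C.ψ z.2))
      (fun z _ => mul_nonneg (by simp only [hKn]; split_ifs <;> norm_num)
        (mul_nonneg (hwt0 _) (hwt0 _)))
      (mem_filter.2 ⟨mem_product.2 ⟨hq, hr⟩, hno N (le_max_left _ _)⟩ :
        (q, r) ∈ (C.S ×ˢ C.S).filter (fun z => ¬ SameCell C.k Y z.1 z.2)))
    simp [hKn, hx]
  have hYa : (Y : ℝ) ^ (-(ξ / 20)) ≤ a ^ N0 := by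
    have h1 : ((2 : ℝ) ^ N0) ≤ (Y : ℝ) := by
      have h2 : 2 ^ N0 ≤ bandZ (N + 1) := Nat.pow_le_pow_right two_pos
        (le_trans (by omega) (Nat.lt_two_pow_self (n := N + 1)).le)
      exact_mod_cast h2.trans (bandZ_le_thr C.par hM N)
    refine (Real.rpow_le_rpow_of_nonpos (by positivity) h1 (by linarith)).trans_eq ?_
    rw [ha, ← Real.rpow_natCast 2 N0, ← Real.rpow_mul two_pos.le, ← Real.rpow_natCast _ N0,
      ← Real.rpow_mul two_pos.le, mul_comm]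
  have hY0 : 0 ≤ (Y : ℝ) ^ (-(ξ / 20)) := Real.rpow_nonneg (Nat.cast_nonneg _) _
  have h1 : K * (G0 * x ^ (1 - ξ)) * (Y : ℝ) ^ (-(ξ / 20)) *
      (∑ v ∈ C.S, wt C.ψ v) ^ (1 + ξ) ≤ B * a ^ N0 := by
    calc _ ≤ max K 0 * (G0 * x ^ (1 - ξ)) * (Y : ℝ) ^ (-(ξ / 20)) *
        (∑ v ∈ C.S, wt C.ψ v) ^ (1 + ξ) := by
          refine mul_le_mul_of_nonneg_right (mul_le_mul_of_nonneg_right (mul_le_mul_of_nonneg_right
            (le_max_left _ _) (by positivity)) hY0) (Real.rpow_nonneg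
              (sum_nonneg fun v _ => hwt0 v) _)
      _ = B * (Y : ℝ) ^ (-(ξ / 20)) := by rw [hB]; ring
      _ ≤ _ := mul_le_mul_of_nonneg_left hYa hB0
  rw [lt_div_iff₀ (by linarith)] at hN0
  nlinarith [pow_pos ha0 N0]

/-- A nonnegative sum over a union is at most the sum of the sums. -/
theorem sum_biUnion_le' {ι α : Type*} [DecidableEq α] (s : Finset ι) (t : ι → Finset α) {f : α → ℝ}
    (h : ∀ i ∈ s, ∀ a ∈ t i, 0 ≤ f a) :
    ∑ a ∈ s.biUnion t, f a ≤ ∑ i ∈ s, ∑ a ∈ t i, f a := by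
  classical
  induction s using Finset.induction_on with
  | empty => simp
  | @insert i s hi ih =>
    rw [biUnion_insert, sum_insert hi]
    have h2 := ih fun j hj => h j (mem_insert_of_mem hj)
    have e := sum_union_inter (s₁ := t i) (s₂ := s.biUnion t) (f := f)
    have h0 : 0 ≤ ∑ a ∈ t i ∩ s.biUnion t, f a :=
      sum_nonneg fun a ha => h i (mem_insert_self i s) a (mem_inter.1 ha).1
    linarith

/-- A weight against its square: the inequality which trades the moment for the gain. -/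
theorem le_weighted_sq {y z : ℝ} (hz : 0 < z) : y ≤ (z ^ 9)⁻¹ * y ^ 2 + z ^ 9 := by
  have hz9 : 0 < z ^ 9 := by positivity
  have h1 := sq_nonneg (y * (z ^ 9)⁻¹ - 1)
  have e : (z ^ 9)⁻¹ * z ^ 9 = 1 := inv_mul_cancel₀ hz9.ne'
  have h2 : 0 ≤ (z ^ 9)⁻¹ * y ^ 2 + z ^ 9 := by positivity
  nlinarith

theorem sq_mul_one_add_le {a b c : ℝ} (ha : 0 ≤ a) (h : a ≤ c) :
    (a * (1 + b)) ^ 2 ≤ c ^ 4 + 2 + 2 * b ^ 4 := by
  have h1 : a ^ 2 ≤ c ^ 2 := pow_le_pow_left₀ ha h 2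
  have h2 : (a * (1 + b)) ^ 2 ≤ c ^ 2 * (1 + b) ^ 2 := by
    rw [mul_pow]; exact mul_le_mul_of_nonneg_right h1 (sq_nonneg _)
  have h3 : (1 + b) ^ 4 ≤ 8 * (1 + b ^ 4) := by
    nlinarith [sq_nonneg (1 - b), sq_nonneg (1 - b ^ 2), sq_nonneg (1 + b),
      mul_nonneg (sq_nonneg (1 - b)) (sq_nonneg (1 + b)),
      mul_nonneg (sq_nonneg (1 - b)) (sq_nonneg b), sq_nonneg b]
  nlinarith [sq_nonneg (2 * c ^ 2 - (1 + b) ^ 2)]

theorem two_mul_rpow_le {x z e : ℝ} (hx : 0 < x) (hz : 4 ≤ z) (hxz : 2 * x ≤ z) (he : 0 ≤ e)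
    (he1 : e ≤ 1) : (2 * x) ^ e ≤ 3 * z := by
  rcases le_total (2 * x) 1 with h | h
  · exact (Real.rpow_le_one (by linarith) h he).trans (by linarith)
  · exact (Real.rpow_le_self_of_one_le h he1).trans (by linarith)

/-- The weight of the pairs of a band, by the tree. -/
theorem exists_band_weight_le (ξ : ℝ) (hξ : 0 < ξ) (hξ1 : ξ ≤ 1 / 100) :
    ∃ G : ℝ, 0 ≤ G ∧ ∀ (C : Ctx) (K x : ℝ) (j : ℕ) (T : Finset (ℕ × ℕ)), C.Ok ξ K → 0 < x →
      240 ≤ ξ * C.par.M → 2 * x ≤ (bandZ (j + 1) : ℝ) →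
      (∀ z ∈ T, z ∈ C.S ×ˢ C.S ∧ dist2 C.ψ z.1 z.2 ≤ 2 * x ∧
        ¬ SameCell C.k (C.par.thr j) z.1 z.2) →
      ∑ z ∈ T, wt C.ψ z.1 * wt C.ψ z.2 ≤
        max K 0 * G * (3 * bandZ (j + 1)) * ((bandZ (j + 1) : ℝ) ^ 12)⁻¹ * 4 := by
  classical
  obtain ⟨G, hG0, hG⟩ := exists_gainsAt_level ξ hξ hξ1
  refine ⟨G, hG0, ?_⟩
  intro C K x j T hC hx hM hxz hT
  set z1 := (bandZ (j + 1) : ℝ) with hz1
  have hz4 : (4 : ℝ) ≤ z1 := by rw [hz1]; exact_mod_cast four_le_bandZ j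
  have hz0 : 0 < z1 := by linarith
  have hM1 : 1 ≤ C.par.M := by
    rcases Nat.eq_zero_or_pos C.par.M with h | h
    · rw [h, Nat.cast_zero, mul_zero] at hM; linarith
    · exact h
  have hm := BilinearAux.mass_nonneg hC.psi_nonneg C.S
  have hwt0 : ∀ v, 0 ≤ wt C.ψ v := fun v => BilinearAux.wt_nonneg hC.psi_nonneg v
  set Kn : ℕ → ℕ → ℝ := fun v w => if dist2 C.ψ v w ≤ 2 * x then 1 else 0 with hKn
  have hY4 : 4 ≤ C.par.thr j := (four_le_bandZ j).trans (bandZ_le_thr C.par hM1 j)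
  have h := hC.tree.separated (C.par.thr j) (G * (2 * x) ^ (1 - ξ)) Kn hY4
    (mul_nonneg hG0 (Real.rpow_nonneg (by linarith) _))
    (fun v w => by simp only [hKn]; split_ifs <;> norm_num)
    (hG C.ψ C.S (2 * x) hC.pos hC.psi_nonneg (by linarith))
  refine le_trans ?_ (h.trans ?_)
  · refine le_trans (le_of_eq (sum_congr rfl fun z hz => ?_))
      (sum_le_sum_of_subset_of_nonneg (fun z hz => ?_) fun z _ _ => ?_)
    · simp only [hKn, if_pos (hT z hz).2.1, one_mul]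
    · exact mem_filter.2 ⟨(hT z hz).1, (hT z hz).2.2⟩
    · exact mul_nonneg (by simp only [hKn]; split_ifs <;> norm_num)
        (mul_nonneg (hwt0 _) (hwt0 _))
  have hY : (C.par.thr j : ℝ) ^ (-(ξ / 20)) ≤ (z1 ^ 12)⁻¹ := by
    rw [Par.thr, Nat.cast_pow, ← hz1, ← Real.rpow_natCast z1 C.par.M, ← Real.rpow_mul hz0.le,
      ← Real.rpow_natCast z1 12, ← Real.rpow_neg hz0.le]
    refine Real.rpow_le_rpow_of_exponent_le (by linarith) ?_
    push_cast
    linarith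
  have hS4 : (∑ v ∈ C.S, wt C.ψ v) ^ (1 + ξ) ≤ 4 := by
    refine (Real.rpow_le_rpow hm hC.mass_le (by linarith)).trans ?_
    calc (2 : ℝ) ^ (1 + ξ) ≤ 2 ^ (2 : ℝ) :=
          Real.rpow_le_rpow_of_exponent_le one_le_two (by linarith)
      _ = 4 := by norm_num
  refine mul_le_mul (mul_le_mul ?_ hY (Real.rpow_nonneg (Nat.cast_nonneg _) _)
    (by positivity)) hS4 (Real.rpow_nonneg hm _) (by positivity)
  rw [mul_assoc (max K 0)]
  exact mul_le_mul (le_max_left _ _) (mul_le_mul_of_nonneg_left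
    (two_mul_rpow_le hx hz4 hxz (by linarith) (by linarith)) hG0)
    (mul_nonneg hG0 (Real.rpow_nonneg (by linarith) _)) (le_max_right _ _)

/-- The moment of the crude factor over the pairs of a band. -/
theorem band_moment_le {ξ K x B4 Cm : ℝ} (C : Ctx) (hC : C.Ok ξ K) {j : ℕ}
    (T : Finset (ℕ × ℕ)) (hξ : 0 < ξ) (hξ1 : ξ ≤ 1 / 100) (hx : 0 < x)
    (hxz : 2 * x ≤ (bandZ (j + 1) : ℝ))
    (hT : ∀ z ∈ T, z ∈ C.S ×ˢ C.S ∧ z.1 ≠ z.2 ∧ dist2 C.ψ z.1 z.2 ≤ 2 * x ∧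
      SameCell C.k (C.par.thr (j + 1)) z.1 z.2)
    (hm4 : ∑ q ∈ C.S, ∑ r ∈ C.S.filter (fun r => q ≠ r ∧ dist2 C.ψ q r ≤ 2 * x),
      wt C.ψ q * wt C.ψ r * hFac 0 (qd q r * qd r q) ^ 4 ≤
        Cm * (mass C.ψ C.S + mass C.ψ C.S ^ 2) * (2 * x) ^ (993 / 1000 : ℝ))
    (he4 : ∑ z ∈ T, wt C.ψ z.1 * wt C.ψ z.2 * C.exactSum (j + 1) z.1 z.2 ^ 4 ≤
      B4 * (2 * x) ^ (1 - 2 * ξ) * (bandZ (j + 1) : ℝ) ^ 2) :
    ∑ z ∈ T, wt C.ψ z.1 * wt C.ψ z.2 * (pC C.classes z.1 z.2 *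
        (1 + C.exactSum (j + 1) z.1 z.2)) ^ 2 ≤
      (18 * max Cm 0 + 8 + 6 * max B4 0) * (bandZ (j + 1) : ℝ) ^ 3 := by
  classical
  set z1 := (bandZ (j + 1) : ℝ) with hz1
  have hz4 : (4 : ℝ) ≤ z1 := by rw [hz1]; exact_mod_cast four_le_bandZ j
  have hm := BilinearAux.mass_nonneg hC.psi_nonneg C.S
  have hwt0 : ∀ v, 0 ≤ wt C.ψ v := fun v => BilinearAux.wt_nonneg hC.psi_nonneg v
  have hWW : ∀ q r, 0 ≤ wt C.ψ q * wt C.ψ r := fun q r => mul_nonneg (hwt0 q) (hwt0 r)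
  have hm2 : mass C.ψ C.S + mass C.ψ C.S ^ 2 ≤ 6 := by nlinarith [hC.mass_le]
  have hp : ∀ z ∈ T, wt C.ψ z.1 * wt C.ψ z.2 * (pC C.classes z.1 z.2 *
        (1 + C.exactSum (j + 1) z.1 z.2)) ^ 2 ≤
      wt C.ψ z.1 * wt C.ψ z.2 * hFac 0 (qd z.1 z.2 * qd z.2 z.1) ^ 4 +
        2 * (wt C.ψ z.1 * wt C.ψ z.2) +
        2 * (wt C.ψ z.1 * wt C.ψ z.2 * C.exactSum (j + 1) z.1 z.2 ^ 4) := by
    intro z hz
    have hzS := (hT z hz).1
    have key := sq_mul_one_add_le (b := C.exactSum (j + 1) z.1 z.2)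
      (pC_nonneg C.classes z.1 z.2) (pC_le_hFac C.classes (hC.pos _ (mem_product.1 hzS).1)
        (hC.pos _ (mem_product.1 hzS).2))
    exact (mul_le_mul_of_nonneg_left key (hWW _ _)).trans_eq (by ring)
  refine (sum_le_sum hp).trans ?_
  rw [sum_add_distrib, sum_add_distrib, ← mul_sum, ← mul_sum]
  have b1 : ∑ z ∈ T, wt C.ψ z.1 * wt C.ψ z.2 * hFac 0 (qd z.1 z.2 * qd z.2 z.1) ^ 4 ≤
      18 * max Cm 0 * z1 := by
    refine le_trans (sum_le_sum_of_subset_of_nonneg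
      (t := (C.S ×ˢ C.S).filter (fun z => z.1 ≠ z.2 ∧ dist2 C.ψ z.1 z.2 ≤ 2 * x))
      (fun z hz => mem_filter.2 ⟨(hT z hz).1, (hT z hz).2.1, (hT z hz).2.2.1⟩)
      fun z _ _ => mul_nonneg (hWW _ _) (by positivity)) ?_
    rw [sum_filter, sum_product]
    refine le_trans (le_of_eq (sum_congr rfl fun q _ => (sum_filter _ _).symm)) (hm4.trans ?_)
    calc Cm * (mass C.ψ C.S + mass C.ψ C.S ^ 2) * (2 * x) ^ (993 / 1000 : ℝ) ≤
        max Cm 0 * 6 * (3 * z1) := mul_le_mul (mul_le_mul (le_max_left _ _) hm2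
          (by positivity) (le_max_right _ _))
          (two_mul_rpow_le hx hz4 hxz (by norm_num) (by norm_num))
          (Real.rpow_nonneg (by linarith) _) (by positivity)
      _ = _ := by ring
  have b2 : ∑ z ∈ T, wt C.ψ z.1 * wt C.ψ z.2 ≤ 4 := by
    refine le_trans (sum_le_sum_of_subset_of_nonneg (fun z hz => (hT z hz).1)
      fun z _ _ => hWW _ _) ?_
    rw [sum_product, ← sum_mul_sum]
    show mass C.ψ C.S * mass C.ψ C.S ≤ 4
    nlinarith [hC.mass_le]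
  have b3 : B4 * (2 * x) ^ (1 - 2 * ξ) * z1 ^ 2 ≤ 3 * max B4 0 * z1 ^ 3 :=
    calc _ ≤ max B4 0 * (3 * z1) * z1 ^ 2 :=
          mul_le_mul_of_nonneg_right (mul_le_mul (le_max_left _ _)
            (two_mul_rpow_le hx hz4 hxz (by linarith) (by linarith))
            (Real.rpow_nonneg (by linarith) _) (le_max_right _ _)) (by positivity)
      _ = _ := by ring
  have hz3 : 1 ≤ z1 ^ 3 := one_le_pow₀ (by linarith)
  have hzz : z1 ≤ z1 ^ 3 := le_self_pow₀ (by linarith) (by norm_num)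
  have := mul_le_mul_of_nonneg_left hzz (show (0 : ℝ) ≤ 18 * max Cm 0 by positivity)
  linarith

/-- Decay of one band. -/
theorem band_decay_le {x : ℝ} (hx : 0 < x) {j : ℕ} (hxz : 2 * x ≤ (bandZ (j + 1) : ℝ)) :
    ((bandZ (j + 1) : ℝ) ^ 2)⁻¹ ≤ 1 / x * (1 / 2 : ℝ) ^ j := by
  have h2 : (2 : ℝ) ^ j ≤ (bandZ (j + 1) : ℝ) := by
    have : 2 ^ j ≤ bandZ (j + 1) := Nat.pow_le_pow_right two_pos
      (le_trans (Nat.le_succ j) (Nat.lt_two_pow_self (n := j + 1)).le)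
    exact_mod_cast this
  rw [one_div_pow, one_div_mul_one_div, one_div]
  refine inv_anti₀ (by positivity) ?_
  rw [sq]
  exact mul_le_mul (by linarith) h2 (by positivity) (by linarith)

open Classical in
/-- The levels `D ≍ x ≥ x0`, pairs separated above the band of the level. -/
theorem exists_crossLevel_le :
    ∃ ξ0 : ℝ, 0 < ξ0 ∧ ∀ ξ : ℝ, 0 < ξ → ξ ≤ ξ0 → ∃ M0 : ℕ, ∀ M : ℕ, M0 ≤ M →
      ∀ c K x0 : ℝ, 0 < c → 0 < x0 → ∃ B : ℝ, 0 ≤ B ∧
        ∀ C : Ctx, C.par = ⟨M, c⟩ → C.Ok ξ K → ∀ x : ℝ, x0 ≤ x →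
          ∑ q ∈ C.S, ∑ r ∈ C.S.filter (fun r => q ≠ r ∧
              (x < dist2 C.ψ q r ∧ dist2 C.ψ q r ≤ 2 * x) ∧
              ¬ SameCell C.k (C.par.thr (largeBand x)) q r), C.term q r ≤
            B / x := by
  obtain ⟨ξe, hξe, hexact⟩ := exists_exactMoment_le
  refine ⟨min ξe (1 / 100), lt_min hξe (by norm_num), ?_⟩
  intro ξ hξ hξle
  obtain ⟨M4, hM4⟩ := hexact ξ hξ (hξle.trans (min_le_left _ _)) 4
  have hξ1 : ξ ≤ 1 / 100 := hξle.trans (min_le_right _ _)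
  refine ⟨max (max M4 1) ⌈240 / ξ⌉₊, fun M hM c K x0 hc hx0 => ?_⟩
  have hM1 : 1 ≤ M := (le_max_right _ _).trans ((le_max_left _ _).trans hM)
  obtain ⟨B4, hB4⟩ := hM4 M ((le_max_left _ _).trans ((le_max_left _ _).trans hM)) c K 1 hc one_pos
  obtain ⟨L, hL0, hL⟩ := exists_term_crude_le M hM1 x0 hx0
  obtain ⟨Cm, hmom⟩ := exists_moment_le 4 (by norm_num)
  obtain ⟨G0, hG0, hGb⟩ := exists_band_weight_le ξ hξ hξ1
  set A : ℝ := L ^ 2 * (18 * max Cm 0 + 8 + 6 * max B4 0) + 12 * max K 0 * G0 with hA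
  have hA0 : 0 ≤ A := by positivity
  refine ⟨2 * A, by positivity, ?_⟩
  intro C hpar hC x hx
  have hCM : C.par.M = M := by rw [hpar]
  have hx' : 0 < x := hx0.trans_le hx
  set k := largeBand x with hk
  have hM240 : 240 ≤ ξ * (C.par.M : ℝ) := by
    have h : 240 / ξ ≤ (M : ℝ) :=
      (Nat.le_ceil _).trans (by exact_mod_cast (le_max_right _ _).trans hM)
    rw [div_le_iff₀ hξ] at h
    rw [hCM]; linarith
  have hm := BilinearAux.mass_nonneg hC.psi_nonneg C.S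
  have hwt0 : ∀ v, 0 ≤ wt C.ψ v := fun v => BilinearAux.wt_nonneg hC.psi_nonneg v
  have hWW : ∀ q r, 0 ≤ wt C.ψ q * wt C.ψ r := fun q r => mul_nonneg (hwt0 q) (hwt0 r)
  -- the threshold of a pair
  have hex : ∀ z ∈ C.S ×ˢ C.S, ∃ N, k ≤ N ∧ SameCell C.k (C.par.thr N) z.1 z.2 := fun z hz =>
    C.exists_sameCell hξ hξ1 (hCM ▸ hM1) hC (mem_product.1 hz).1 (mem_product.1 hz).2 k
  choose f hfk hfs using hex
  set N := (C.S ×ˢ C.S).attach.sup (fun z => f z.1 z.2) with hN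
  set T := (C.S ×ˢ C.S).filter (fun z => z.1 ≠ z.2 ∧
      (x < dist2 C.ψ z.1 z.2 ∧ dist2 C.ψ z.1 z.2 ≤ 2 * x) ∧
      ¬ SameCell C.k (C.par.thr k) z.1 z.2) with hT
  set band := fun j => T.filter (fun z => ¬ SameCell C.k (C.par.thr j) z.1 z.2 ∧
      SameCell C.k (C.par.thr (j + 1)) z.1 z.2) with hband
  have hcover : T ⊆ (Ico k N).biUnion band := by
    intro z hz
    obtain ⟨hzS, -, -, hk'⟩ := mem_filter.1 hz
    have hexj : ∃ j, k ≤ j ∧ SameCell C.k (C.par.thr j) z.1 z.2 := ⟨_, hfk z hzS, hfs z hzS⟩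
    obtain ⟨hj1, hj2⟩ := Nat.find_spec hexj
    have hlt : k < Nat.find hexj := by
      rcases hj1.lt_or_eq with h | h
      · exact h
      · exact absurd (h ▸ hj2) hk'
    have hmin := Nat.find_min hexj (show Nat.find hexj - 1 < Nat.find hexj by omega)
    have hle : Nat.find hexj ≤ N := (Nat.find_min' hexj ⟨hfk z hzS, hfs z hzS⟩).trans
      (Finset.le_sup (f := fun z => f z.1 z.2) (mem_attach _ ⟨z, hzS⟩))
    refine mem_biUnion.2 ⟨Nat.find hexj - 1, mem_Ico.2 ⟨by omega, by omega⟩,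
      mem_filter.2 ⟨hz, fun h => hmin ⟨by omega, h⟩, ?_⟩⟩
    rwa [Nat.sub_add_cancel (by omega)]
  have hterm0 : ∀ z ∈ C.S ×ˢ C.S, 0 ≤ C.term z.1 z.2 := fun z _ => by
    refine mul_nonneg (div_nonneg (hWW _ _) ?_) (sum_nonneg fun n _ => ?_)
    · exact le_max_of_le_left (mul_nonneg (hC.psi_nonneg _) (Nat.cast_nonneg _))
    · exact mul_nonneg (pC_nonneg _ _ _) (prod_nonneg fun p _ => ratio_nonneg p)
  -- one band
  have hone : ∀ j ∈ Ico k N, ∑ z ∈ band j, C.term z.1 z.2 ≤ A / x * (1 / 2 : ℝ) ^ j := by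
    intro j hj
    set z1 := (bandZ (j + 1) : ℝ) with hz1
    have hkj : k ≤ j := (mem_Ico.1 hj).1
    obtain ⟨h2x, -⟩ := largeBand_spec hx' hkj
    obtain ⟨-, hband'⟩ := largeBand_spec hx' (hkj.trans (Nat.le_succ j))
    have hz4 : (4 : ℝ) ≤ z1 := by rw [hz1]; exact_mod_cast four_le_bandZ j
    have hz0 : 0 < z1 := by linarith
    have hzs : (bandZ (j + 1 + 1) : ℝ) = z1 ^ 2 := by rw [hz1, bandZ_succ (j + 1)]; push_cast; ring
    set t := (z1 ^ 9)⁻¹ with ht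
    have ht0 : 0 < t := by positivity
    set G := fun q r => pC C.classes q r * (1 + C.exactSum (j + 1) q r) with hG
    have hpt : ∀ z ∈ band j, C.term z.1 z.2 ≤
        t * z1 ^ 4 * L ^ 2 * (wt C.ψ z.1 * wt C.ψ z.2 * G z.1 z.2 ^ 2) +
          z1 ^ 9 * (wt C.ψ z.1 * wt C.ψ z.2) := by
      intro z hz
      obtain ⟨hzT, -, hsame⟩ := mem_filter.1 hz
      obtain ⟨hzS, -, ⟨hxD, hDx⟩, -⟩ := mem_filter.1 hzT
      refine (hL C ξ K x (j + 1) z.1 z.2 hCM hC hx (hkj.trans (Nat.le_succ j)) (mem_product.1 hzS).1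
        (mem_product.1 hzS).2 hxD hDx hsame).trans ?_
      rw [hzs]
      have key := le_weighted_sq (y := L * z1 ^ 2 * G z.1 z.2) hz0
      calc L * z1 ^ 2 * (wt C.ψ z.1 * wt C.ψ z.2 * (pC C.classes z.1 z.2 *
            (1 + C.exactSum (j + 1) z.1 z.2))) =
            wt C.ψ z.1 * wt C.ψ z.2 * (L * z1 ^ 2 * G z.1 z.2) := by simp only [hG]; ring
        _ ≤ wt C.ψ z.1 * wt C.ψ z.2 * (t * (L * z1 ^ 2 * G z.1 z.2) ^ 2 + z1 ^ 9) :=
            mul_le_mul_of_nonneg_left key (hWW _ _)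
        _ = _ := by ring
    refine (sum_le_sum hpt).trans ?_
    rw [sum_add_distrib, ← mul_sum, ← mul_sum]
    have hTj : ∀ z ∈ band j, z ∈ C.S ×ˢ C.S ∧ z.1 ≠ z.2 ∧ dist2 C.ψ z.1 z.2 ≤ 2 * x ∧
        SameCell C.k (C.par.thr (j + 1)) z.1 z.2 ∧ ¬ SameCell C.k (C.par.thr j) z.1 z.2 := by
      intro z hz
      obtain ⟨hzT, hns, hs⟩ := mem_filter.1 hz
      obtain ⟨hzS, hne, hD, -⟩ := mem_filter.1 hzT
      exact ⟨hzS, hne, hD.2, hs, hns⟩
    have he4 : ∑ z ∈ band j, wt C.ψ z.1 * wt C.ψ z.2 * C.exactSum (j + 1) z.1 z.2 ^ 4 ≤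
        B4 * (2 * x) ^ (1 - 2 * ξ) * z1 ^ 2 := by
      refine le_trans (sum_le_sum_of_subset_of_nonneg
        (t := (C.S ×ˢ C.S).filter (fun z => z.2 ≠ z.1 ∧ dist2 C.ψ z.1 z.2 ≤ 2 * x ∧
          SameCell C.k (C.par.thr (j + 1)) z.1 z.2))
        (fun z hz => mem_filter.2 ⟨(hTj z hz).1, (hTj z hz).2.1.symm, (hTj z hz).2.2.1,
          (hTj z hz).2.2.2.1⟩) fun z _ _ => mul_nonneg (hWW _ _) (by positivity)) ?_
      rw [sum_filter, sum_product]
      refine le_trans (le_of_eq (sum_congr rfl fun q _ => (sum_filter _ _).symm))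
        ((hB4 C hpar hC (2 * x) (by linarith) (j + 1) hband').trans_eq ?_)
      rw [Real.rpow_one, hzs]
    have s1 := band_moment_le C hC (band j) hξ hξ1 hx' h2x
      (fun z hz => ⟨(hTj z hz).1, (hTj z hz).2.1, (hTj z hz).2.2.1, (hTj z hz).2.2.2.1⟩)
      (hmom C.ψ C.S (2 * x) 0 4 hC.pos hC.psi_nonneg (by linarith) (by norm_num)) he4
    have s2 := hGb C K x j (band j) hC hx' hM240 h2x
      (fun z hz => ⟨(hTj z hz).1, (hTj z hz).2.2.1, (hTj z hz).2.2.2.2⟩)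
    have hdecay := band_decay_le hx' h2x
    calc t * z1 ^ 4 * L ^ 2 * _ + z1 ^ 9 * _ ≤
        t * z1 ^ 4 * L ^ 2 * ((18 * max Cm 0 + 8 + 6 * max B4 0) * z1 ^ 3) +
          z1 ^ 9 * (max K 0 * G0 * (3 * z1) * (z1 ^ 12)⁻¹ * 4) :=
          add_le_add (mul_le_mul_of_nonneg_left s1 (by positivity))
            (mul_le_mul_of_nonneg_left s2 (by positivity))
      _ = A * (z1 ^ 2)⁻¹ := by
          rw [hA, ht]
          field_simp
          ring
      _ ≤ A * (1 / x * (1 / 2 : ℝ) ^ j) := mul_le_mul_of_nonneg_left hdecay hA0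
      _ = _ := by ring
  calc ∑ q ∈ C.S, ∑ r ∈ C.S.filter (fun r => q ≠ r ∧
        (x < dist2 C.ψ q r ∧ dist2 C.ψ q r ≤ 2 * x) ∧ ¬ SameCell C.k (C.par.thr k) q r),
        C.term q r = ∑ z ∈ T, C.term z.1 z.2 := by
        rw [hT, sum_filter, sum_product]
        exact sum_congr rfl fun q _ => sum_filter _ _
    _ ≤ ∑ z ∈ (Ico k N).biUnion band, C.term z.1 z.2 :=
        sum_le_sum_of_subset_of_nonneg hcover fun z hz _ => by
          obtain ⟨j, -, hzj⟩ := mem_biUnion.1 hz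
          exact hterm0 z (mem_filter.1 (mem_filter.1 hzj).1).1
    _ ≤ ∑ j ∈ Ico k N, ∑ z ∈ band j, C.term z.1 z.2 :=
        sum_biUnion_le' _ _ fun j _ z hz => hterm0 z (mem_filter.1 (mem_filter.1 hz).1).1
    _ ≤ ∑ j ∈ Ico k N, A / x * (1 / 2 : ℝ) ^ j := sum_le_sum hone
    _ ≤ A / x * 2 := by
        rw [← mul_sum]
        exact mul_le_mul_of_nonneg_left
          ((sum_two_pow_neg_le _ (by norm_num) (by norm_num)).trans (by norm_num)) (by positivity)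
    _ = _ := by ring

end Vale.Agent.P028.Full
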