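import Vale.Agent.P028.Full.LargeCross

/-!
One dyadic level `D ≍ x ≥ x0` of the second moment: a constant times the product of the masses at
the level plus a power gain; the dyadic levels are summed.
-/

noncomputable section

namespace Vale.Agent.P028.Full

open Finset BilinearAux

/-- A power of negative exponent above `x0`. -/
theorem rpow_le_of_le_exp {x x0 a η : ℝ} (hx0 : 0 < x0) (hx : x0 ≤ x) (ha : a ≤ -η) :
    x ^ a ≤ x0 ^ (a + η) * x ^ (-η) := by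
  have hx' : 0 < x := hx0.trans_le hx
  rw [show x ^ a = x ^ (a + η) * x ^ (-η) by rw [← Real.rpow_add hx']; ring_nf]
  exact mul_le_mul_of_nonneg_right (Real.rpow_le_rpow_of_nonpos hx0 hx (by linarith))
    (Real.rpow_nonneg hx'.le _)

/-- `Z` at the band of a level is at most a power of the level. -/
theorem bandZ_largeBand_le {x x0 : ℝ} (hx0 : 0 < x0) (hx : x0 ≤ x) :
    (bandZ (largeBand x + 1) : ℝ) ≤ 64 * (1 + 1 / x0 ^ 2) ^ 2 * x ^ 2 := by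
  have hx' : 0 < x := hx0.trans_le hx
  have hmax1 : 1 ≤ max x x⁻¹ := by
    rcases le_total 1 x with h | h
    · exact h.trans (le_max_left _ _)
    · exact ((one_le_inv₀ hx').2 h).trans (le_max_right _ _)
  have hmR : max x x⁻¹ ≤ (1 + 1 / x0 ^ 2) * x := by
    refine max_le (le_mul_of_one_le_left hx'.le (le_add_of_nonneg_right (by positivity))) ?_
    have h1 : x⁻¹ ≤ x / x0 ^ 2 := by
      rw [inv_eq_one_div, div_le_div_iff₀ hx' (by positivity)]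
      nlinarith
    refine h1.trans ?_
    rw [add_mul, one_mul, one_div_mul_eq_div]
    linarith
  refine (bandOf_spec (show 1 ≤ 4 * max x x⁻¹ by linarith)).2.trans ?_
  have := pow_le_pow_left₀ (by linarith : (0 : ℝ) ≤ max x x⁻¹) hmR 2
  simp only [mul_pow] at this ⊢
  linarith

open Classical in
/-- The squares of the factors over the pairs of level at most `2 x` in one cell. -/
theorem exists_sqSum_le :
    ∃ ξ0 : ℝ, 0 < ξ0 ∧ ∀ ξ : ℝ, 0 < ξ → ξ ≤ ξ0 → ∃ M0 : ℕ, ∀ M : ℕ, M0 ≤ M →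
      ∀ c K x0 : ℝ, 0 < c → 0 < x0 → ∃ B : ℝ, 0 ≤ B ∧
        ∀ C : Ctx, C.par = ⟨M, c⟩ → C.Ok ξ K → ∀ x : ℝ, x0 ≤ x →
          ∑ q ∈ C.S, ∑ r ∈ C.S.filter (fun r => r ≠ q ∧ dist2 C.ψ q r ≤ 2 * x ∧
              SameCell C.k (C.par.thr (largeBand x)) q r),
            wt C.ψ q * wt C.ψ r * (pC C.classes q r ^ 2 + C.exactSum (largeBand x) q r ^ 2) ≤
          B * (x ^ (993 / 1000 : ℝ) + x ^ (1 - ξ)) := by
  obtain ⟨ξe, hξe, hexact⟩ := exists_exactMoment_le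
  refine ⟨min ξe (1 / 100), lt_min hξe (by norm_num), ?_⟩
  intro ξ hξ hξle
  have hξ1 : ξ ≤ 1 / 100 := hξle.trans (min_le_right _ _)
  obtain ⟨M2, hM2⟩ := hexact ξ hξ (hξle.trans (min_le_left _ _)) 2
  refine ⟨M2, fun M hM c K x0 hc hx0 => ?_⟩
  obtain ⟨B2, hB2⟩ := hM2 M hM c K (ξ / 2) hc (by linarith)
  obtain ⟨Cm, hmom⟩ := exists_moment_le 2 (by norm_num)
  set Q := 64 * (1 + 1 / x0 ^ 2) ^ 2 with hQ
  have hQ1 : 1 ≤ Q := by
    rw [hQ]
    have : (1 : ℝ) ≤ (1 + 1 / x0 ^ 2) ^ 2 :=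
      one_le_pow₀ (le_add_of_nonneg_right (by positivity))
    linarith
  refine ⟨12 * max Cm 0 + 2 * max B2 0 * Q, by positivity, ?_⟩
  intro C hpar hC x hx
  have hx' : 0 < x := hx0.trans_le hx
  have hm := BilinearAux.mass_nonneg hC.psi_nonneg C.S
  have hm2 : mass C.ψ C.S + mass C.ψ C.S ^ 2 ≤ 6 := by nlinarith [hC.mass_le]
  have hWW : ∀ q r, 0 ≤ wt C.ψ q * wt C.ψ r := fun q r =>
    mul_nonneg (BilinearAux.wt_nonneg hC.psi_nonneg q) (BilinearAux.wt_nonneg hC.psi_nonneg r)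
  simp only [mul_add, sum_add_distrib]
  have h2e : ∀ e : ℝ, e ≤ 1 → (2 * x) ^ e ≤ 2 * x ^ e := fun e he => by
    rw [Real.mul_rpow zero_le_two hx'.le]
    exact mul_le_mul_of_nonneg_right (Real.rpow_le_self_of_one_le one_le_two he)
      (Real.rpow_nonneg hx'.le _)
  have a1 : ∑ q ∈ C.S, ∑ r ∈ C.S.filter (fun r => r ≠ q ∧ dist2 C.ψ q r ≤ 2 * x ∧
        SameCell C.k (C.par.thr (largeBand x)) q r),
      wt C.ψ q * wt C.ψ r * pC C.classes q r ^ 2 ≤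
        12 * max Cm 0 * x ^ (993 / 1000 : ℝ) := by
    refine le_trans (sum_le_sum fun q hq => le_trans (sum_le_sum fun r hr => ?_)
      (sum_le_sum_of_subset_of_nonneg
        (t := C.S.filter (fun r => q ≠ r ∧ dist2 C.ψ q r ≤ 2 * x))
        (fun r hr => mem_filter.2 ⟨(mem_filter.1 hr).1, Ne.symm (mem_filter.1 hr).2.1,
          (mem_filter.1 hr).2.2.1⟩)
        fun r _ _ => mul_nonneg (hWW q r) (sq_nonneg (hFac 0 (qd q r * qd r q)))))
      ((hmom C.ψ C.S (2 * x) 0 2 hC.pos hC.psi_nonneg (by linarith) (by norm_num)).trans ?_)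
    · exact mul_le_mul_of_nonneg_left (pow_le_pow_left₀ (pC_nonneg _ _ _)
        (pC_le_hFac _ (hC.pos q hq) (hC.pos r (mem_filter.1 hr).1)) 2) (hWW q r)
    · calc Cm * (mass C.ψ C.S + mass C.ψ C.S ^ 2) * (2 * x) ^ (993 / 1000 : ℝ) ≤
          max Cm 0 * 6 * (2 * x ^ (993 / 1000 : ℝ)) :=
            mul_le_mul (mul_le_mul (le_max_left _ _) hm2 (by positivity) (le_max_right _ _))
              (h2e _ (by norm_num)) (Real.rpow_nonneg (by linarith) _) (by positivity)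
        _ = _ := by ring
  have a2 : ∑ q ∈ C.S, ∑ r ∈ C.S.filter (fun r => r ≠ q ∧ dist2 C.ψ q r ≤ 2 * x ∧
        SameCell C.k (C.par.thr (largeBand x)) q r),
      wt C.ψ q * wt C.ψ r * C.exactSum (largeBand x) q r ^ 2 ≤
        2 * max B2 0 * Q * x ^ (1 - ξ) := by
    refine (hB2 C hpar hC (2 * x) (by linarith) (largeBand x)
      (largeBand_spec hx' le_rfl).2).trans ?_
    have hZ : (bandZ (largeBand x + 1) : ℝ) ^ (ξ / 2) ≤ Q * x ^ ξ := by
      refine (Real.rpow_le_rpow (Nat.cast_nonneg _) (bandZ_largeBand_le hx0 hx) (by linarith)).trans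
        ?_
      rw [← hQ, Real.mul_rpow (by linarith) (sq_nonneg x)]
      refine mul_le_mul (Real.rpow_le_self_of_one_le hQ1 (by linarith)) (le_of_eq ?_)
        (Real.rpow_nonneg (sq_nonneg x) _) (by linarith)
      rw [← Real.rpow_two, ← Real.rpow_mul hx'.le]
      ring_nf
    calc B2 * (2 * x) ^ (1 - 2 * ξ) * (bandZ (largeBand x + 1) : ℝ) ^ (ξ / 2) ≤
        max B2 0 * (2 * x ^ (1 - 2 * ξ)) * (Q * x ^ ξ) :=
          mul_le_mul (mul_le_mul (le_max_left _ _) (h2e _ (by linarith))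
            (Real.rpow_nonneg (by linarith) _) (le_max_right _ _)) hZ
            (Real.rpow_nonneg (Nat.cast_nonneg _) _) (by positivity)
      _ = 2 * max B2 0 * Q * (x ^ (1 - 2 * ξ) * x ^ ξ) := by ring
      _ = _ := by rw [← Real.rpow_add hx']; ring_nf
  have n1 : 0 ≤ x ^ (993 / 1000 : ℝ) := Real.rpow_nonneg hx'.le _
  have n2 : 0 ≤ x ^ (1 - ξ) := Real.rpow_nonneg hx'.le _
  have n3 : 0 ≤ max Cm 0 := le_max_right _ _
  have n4 : 0 ≤ max B2 0 * Q := mul_nonneg (le_max_right _ _) (by linarith)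
  nlinarith [mul_nonneg n3 n2, mul_nonneg n4 n1]

open Classical in
/-- One dyadic level. -/
theorem exists_dyadicLevel_le :
    ∃ ξ0 : ℝ, 0 < ξ0 ∧ ∀ ξ : ℝ, 0 < ξ → ξ ≤ ξ0 → ∃ M0 : ℕ, ∀ M : ℕ, M0 ≤ M →
      ∀ c K x0 : ℝ, 0 < c → 0 < x0 → ∃ W : ℝ, 0 ≤ W ∧
        ∀ C : Ctx, C.par = ⟨M, c⟩ → C.Ok ξ K → ∀ x : ℝ, x0 ≤ x →
          ∑ q ∈ C.S, ∑ r ∈ C.S.filter (fun r => q ≠ r ∧
              (x < dist2 C.ψ q r ∧ dist2 C.ψ q r ≤ 2 * x)), C.term q r ≤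
            W * (∑ q ∈ C.S, ∑ r ∈ C.S.filter (fun r => q ≠ r ∧
              (x < dist2 C.ψ q r ∧ dist2 C.ψ q r ≤ 2 * x)), wt C.ψ q * wt C.ψ r) +
            W * x ^ (-min (ξ / 2) (1 / 1000)) := by
  obtain ⟨ξs, hξs, hsq⟩ := exists_sqSum_le
  obtain ⟨ξc, hξc, hcross⟩ := exists_crossLevel_le
  refine ⟨min ξs ξc, lt_min hξs hξc, ?_⟩
  intro ξ hξ hξle
  obtain ⟨Ms, hMs⟩ := hsq ξ hξ (hξle.trans (min_le_left _ _))
  obtain ⟨Mc, hMc⟩ := hcross ξ hξ (hξle.trans (min_le_right _ _))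
  refine ⟨max (max Ms Mc) 1, fun M hM c K x0 hc hx0 => ?_⟩
  obtain ⟨Bs, hBs0, hBs⟩ := hMs M
    ((le_max_left _ _).trans ((le_max_left _ _).trans hM)) c K x0 hc hx0
  obtain ⟨Bc, hBc0, hBc⟩ := hMc M
    ((le_max_right _ _).trans ((le_max_left _ _).trans hM)) c K x0 hc hx0
  set η := min (ξ / 2) (1 / 1000) with hη
  have hη0 : 0 < η := lt_min (by linarith) (by norm_num)
  have hη1 : η ≤ ξ / 2 := min_le_left _ _
  have hη2 : η ≤ 1 / 1000 := min_le_right _ _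
  obtain ⟨W, hW0, hW⟩ := exists_sameLevel_le M ((le_max_right _ _).trans hM) x0 η hx0 hη0 hη2
  set a1 := x0 ^ (-(1 / 100 : ℝ) + η) with ha1
  set a2 := x0 ^ (η - 7 / 1000 + η) with ha2
  set a3 := x0 ^ (η - ξ + η) with ha3
  set a4 := x0 ^ ((-1 : ℝ) + η) with ha4
  have h1 : 0 ≤ a1 := Real.rpow_nonneg hx0.le _
  have h2 : 0 ≤ a2 := Real.rpow_nonneg hx0.le _
  have h3 : 0 ≤ a3 := Real.rpow_nonneg hx0.le _
  have h4 : 0 ≤ a4 := Real.rpow_nonneg hx0.le _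
  refine ⟨W + W * a1 + W * Bs * (a2 + a3) + Bc * a4, by positivity, ?_⟩
  intro C hpar hC x hx
  have hx' : 0 < x := hx0.trans_le hx
  have hs := hW C ξ K x (by rw [hpar]) hC hx
  have hq := hBs C hpar hC x hx
  have hc' := hBc C hpar hC x hx
  set S1 := ∑ q ∈ C.S, ∑ r ∈ C.S.filter (fun r => q ≠ r ∧
    (x < dist2 C.ψ q r ∧ dist2 C.ψ q r ≤ 2 * x)), wt C.ψ q * wt C.ψ r
  have hS1 : 0 ≤ S1 := sum_nonneg fun q _ => sum_nonneg fun r _ =>
    mul_nonneg (BilinearAux.wt_nonneg hC.psi_nonneg q) (BilinearAux.wt_nonneg hC.psi_nonneg r)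
  set X := x ^ (-η) with hX
  have hX0 : 0 ≤ X := Real.rpow_nonneg hx'.le _
  have e : ∀ f : ℕ → ℕ → ℝ, ∑ q ∈ C.S, ∑ r ∈ C.S.filter (fun r => q ≠ r ∧
      (x < dist2 C.ψ q r ∧ dist2 C.ψ q r ≤ 2 * x)), f q r =
      ∑ q ∈ C.S, ∑ r ∈ C.S.filter (fun r => q ≠ r ∧
        (x < dist2 C.ψ q r ∧ dist2 C.ψ q r ≤ 2 * x) ∧
          SameCell C.k (C.par.thr (largeBand x)) q r), f q r +
      ∑ q ∈ C.S, ∑ r ∈ C.S.filter (fun r => q ≠ r ∧
        (x < dist2 C.ψ q r ∧ dist2 C.ψ q r ≤ 2 * x) ∧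
          ¬ SameCell C.k (C.par.thr (largeBand x)) q r), f q r := by
    intro f
    rw [← sum_add_distrib]
    refine sum_congr rfl fun q _ => ?_
    rw [← sum_filter_add_sum_filter_not (C.S.filter (fun r => q ≠ r ∧
      (x < dist2 C.ψ q r ∧ dist2 C.ψ q r ≤ 2 * x)))
        (fun r => SameCell C.k (C.par.thr (largeBand x)) q r), filter_filter, filter_filter]
    congr 1 <;> exact sum_congr (filter_congr fun r _ => and_assoc) fun _ _ => rfl
  rw [e]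
  have p1 : x ^ (-(1 / 100) : ℝ) ≤ a1 * X := rpow_le_of_le_exp hx0 hx (by linarith)
  have p2 : x ^ (η - 1) * x ^ (993 / 1000 : ℝ) ≤ a2 * X := by
    rw [← Real.rpow_add hx', show η - 1 + 993 / 1000 = η - 7 / 1000 by ring]
    exact rpow_le_of_le_exp hx0 hx (by linarith)
  have p3 : x ^ (η - 1) * x ^ (1 - ξ) ≤ a3 * X := by
    rw [← Real.rpow_add hx', show η - 1 + (1 - ξ) = η - ξ by ring]
    exact rpow_le_of_le_exp hx0 hx (by linarith)
  have p4 : Bc / x ≤ Bc * (a4 * X) := by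
    rw [div_eq_mul_inv, ← Real.rpow_neg_one]
    exact mul_le_mul_of_nonneg_left (rpow_le_of_le_exp hx0 hx (by linarith)) hBc0
  have q1 : W * x ^ (η - 1) * (Bs * (x ^ (993 / 1000 : ℝ) + x ^ (1 - ξ))) ≤
      W * Bs * (a2 + a3) * X := by
    calc _ = W * Bs * (x ^ (η - 1) * x ^ (993 / 1000 : ℝ) + x ^ (η - 1) * x ^ (1 - ξ)) := by ring
      _ ≤ W * Bs * (a2 * X + a3 * X) :=
          mul_le_mul_of_nonneg_left (add_le_add p2 p3) (mul_nonneg hW0 hBs0)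
      _ = _ := by ring
  refine (add_le_add (hs.trans (add_le_add (add_le_add le_rfl
    (mul_le_mul_of_nonneg_left p1 hW0)) ((mul_le_mul_of_nonneg_left hq
      (mul_nonneg hW0 (Real.rpow_nonneg hx'.le _))).trans q1))) (hc'.trans p4)).trans ?_
  have n1 : 0 ≤ (W * a1 + W * Bs * (a2 + a3) + Bc * a4) * S1 := by positivity
  have n2 : 0 ≤ W * X := mul_nonneg hW0 hX0
  linarith

/-- The dyadic levels are a geometric series. -/
theorem sum_dyadic_rpow_le {x η : ℝ} (hx : 0 < x) (hη : 0 < η) (N : ℕ) :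
    ∑ m ∈ range N, (x * 2 ^ m) ^ (-η) ≤ x ^ (-η) * (1 - (2 : ℝ) ^ (-η))⁻¹ := by
  have h0 : 0 ≤ (2 : ℝ) ^ (-η) := Real.rpow_nonneg zero_le_two _
  have h1 : (2 : ℝ) ^ (-η) < 1 := Real.rpow_lt_one_of_one_lt_of_neg one_lt_two (by linarith)
  have e : ∀ m : ℕ, (x * 2 ^ m) ^ (-η) = x ^ (-η) * ((2 : ℝ) ^ (-η)) ^ m := fun m => by
    rw [Real.mul_rpow hx.le (by positivity), ← Real.rpow_natCast 2 m, ← Real.rpow_mul zero_le_two,
      ← Real.rpow_natCast _ m, ← Real.rpow_mul zero_le_two, mul_comm (m : ℝ)]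
  simp only [e, ← mul_sum]
  exact mul_le_mul_of_nonneg_left ((sum_two_pow_neg_le _ h0 h1).trans_eq (one_div _))
    (Real.rpow_nonneg hx.le _)

end Vale.Agent.P028.Full
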