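import Vale.Agent.P028.Full.Exact
import Vale.Agent.P028.Full.AnatomyMid

/-!
One level `D ≍ x ≥ x0` for the pairs in one cell above the band of `max x x⁻¹`: a constant times
the product of the masses, a power gain, and the exact coincidences above that band.
-/

noncomputable section

namespace Vale.Agent.P028.Full

open Finset BilinearAux

theorem pC_nonneg (K : Classes) (q r : ℕ) : 0 ≤ pC K q r :=
  mul_nonneg (prod_nonneg fun p _ => ratio_nonneg p) (prod_nonneg fun p _ => ratio_nonneg p)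

theorem wCoinHi_nonneg (K : Classes) (y q r : ℕ) (n : ℤ) : 0 ≤ wCoinHi K y q r n :=
  prod_nonneg fun p _ => ratio_nonneg p

theorem wCoinOn_nonneg (K : Classes) (T : Finset ℕ) (q r : ℕ) (n : ℤ) :
    0 ≤ wCoinOn K T q r n :=
  prod_nonneg fun p _ => by split_ifs <;> first | exact ratio_nonneg p | norm_num

theorem pCOn_nonneg (K : Classes) (T : Finset ℕ) (q r : ℕ) : 0 ≤ pCOn K T q r :=
  mul_nonneg (prod_nonneg fun p _ => by split_ifs <;> first | exact ratio_nonneg p | norm_num)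
    (prod_nonneg fun p _ => by split_ifs <;> first | exact ratio_nonneg p | norm_num)

theorem pC_le_hFac (K : Classes) {q r : ℕ} (hq : 0 < q) (hr : 0 < r) :
    pC K q r ≤ hFac 0 (qd q r * qd r q) := by
  have e : loPrimes 0 = ∅ := filter_false_of_mem fun p hp => by
    rw [mem_range] at hp
    obtain rfl : p = 0 := by omega
    exact Nat.not_prime_zero
  simpa [pCOn, e] using pC_le_lo_mul_hFac K hq hr 0

theorem prime_of_loPrimes {y p : ℕ} (hp : p ∈ loPrimes y) : p.Prime := (mem_filter.1 hp).2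

theorem prime_of_midPrimes {y Y p : ℕ} (hp : p ∈ midPrimes y Y) : p.Prime := (mem_filter.1 hp).2

/-- The coincidences split into those up to `y`, in `(y, Y]` and above `Y`. -/
theorem wCoin_le_lo_mid_hi (K : Classes) {y Y : ℕ} (hy : y ≤ Y) (q r : ℕ) (n : ℤ) :
    wCoin K q r n ≤
      wCoinOn K (loPrimes y) q r n * wCoinOn K (midPrimes y Y) q r n * wCoinHi K Y q r n := by
  refine (wCoin_le_lo_mul_hi K y q r n).trans ?_
  rw [mul_assoc]
  refine mul_le_mul_of_nonneg_left (le_of_eq ?_) (wCoinOn_nonneg K _ q r n)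
  set A := (K.det q ∩ K.det r).filter (fun p => ¬ p ∣ qd q r * qd r q ∧
      (p : ℤ) ∣ n - (K.cls q p * (qd r q : ℤ) - K.cls r p * (qd q r : ℤ))) with hA
  show ∏ p ∈ A.filter (fun p => y < p), ratio p =
    wCoinOn K (midPrimes y Y) q r n * ∏ p ∈ A.filter (fun p => Y < p), ratio p
  rw [← prod_filter_mul_prod_filter_not (A.filter (fun p => y < p)) (fun p => p ≤ Y), wCoinOn]
  congr 1
  · rw [← prod_filter]
    refine prod_congr ?_ fun _ _ => rfl
    ext p
    simp only [hA, mem_filter, midPrimes, mem_Ioc]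
    constructor
    · rintro ⟨⟨⟨h1, h2⟩, h3⟩, h4⟩
      exact ⟨⟨⟨h3, h4⟩, Nat.prime_of_mem_primeFactors (K.det_sub q (mem_inter.1 h1).1)⟩, h1, h2⟩
    · rintro ⟨⟨⟨h3, h4⟩, -⟩, h1, h2⟩
      exact ⟨⟨⟨h1, h2⟩, h3⟩, h4⟩
  · refine prod_congr ?_ fun _ _ => rfl
    ext p
    simp only [mem_filter, not_le]
    constructor
    · exact fun h => ⟨h.1.1, h.2⟩
    · exact fun h => ⟨⟨h.1, by omega⟩, h.2⟩

/-- All coincidences up to `Y` cost at most the product of all the ratios up to `Y`. -/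
theorem lo_mid_le_prod (K : Classes) {y Y : ℕ} (hy : y ≤ Y) (q r : ℕ) (n : ℤ) :
    wCoinOn K (loPrimes y) q r n * wCoinOn K (midPrimes y Y) q r n ≤
      ∏ p ∈ loPrimes Y, ratio p := by
  have hdis : Disjoint (loPrimes y) (midPrimes y Y) := disjoint_left.2 fun p hp hp' => by
    simp only [loPrimes, midPrimes, mem_filter, mem_range, mem_Ioc] at hp hp'
    omega
  rw [wCoinOn, wCoinOn, ← prod_union hdis]
  have e : loPrimes y ∪ midPrimes y Y = loPrimes Y := by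
    ext p
    simp only [loPrimes, midPrimes, mem_union, mem_filter, mem_range, mem_Ioc]
    constructor
    · rintro (⟨h, h'⟩ | ⟨⟨h, h''⟩, h'⟩) <;> exact ⟨by omega, h'⟩
    · rintro ⟨h, h'⟩
      rcases le_or_gt p y with hp | hp
      · exact Or.inl ⟨by omega, h'⟩
      · exact Or.inr ⟨⟨hp, by omega⟩, h'⟩
  rw [e]
  refine prod_le_prod (fun p hp => ?_) fun p hp => ?_
  · split_ifs <;> first | exact ratio_nonneg p | norm_num
  · split_ifs
    · exact le_rfl
    · exact BilinearAux.one_le_ratio (prime_of_loPrimes hp)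

theorem hFac_le_three_add' (y n s : ℕ) :
    hFac y n ≤ 3 + Real.exp (-(s : ℝ)) * hFac y n ^ (s + 1) := by
  have h1 := BilinearAux.one_le_hFac y n
  set h := hFac y n
  have h0 : 0 ≤ h := by linarith
  have hpos : 0 ≤ Real.exp (-(s : ℝ)) * h ^ (s + 1) :=
    mul_nonneg (Real.exp_pos _).le (pow_nonneg h0 _)
  by_cases hsmall : h ≤ 3
  · linarith
  rw [not_le] at hsmall
  have hexp : Real.exp (s : ℝ) ≤ h ^ s := by
    rw [show (s : ℝ) = (s : ℝ) * 1 by ring, Real.exp_nat_mul]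
    exact pow_le_pow_left₀ (Real.exp_pos 1).le (by linarith [Real.exp_one_lt_three]) s
  have key : h ≤ Real.exp (-(s : ℝ)) * h ^ (s + 1) := by
    rw [Real.exp_neg, ← div_eq_inv_mul, le_div_iff₀ (Real.exp_pos _), pow_succ']
    exact mul_le_mul_of_nonneg_left hexp h0
  linarith

theorem bandZ_succ (j : ℕ) : bandZ (j + 1) = bandZ j ^ 2 := by
  rw [bandZ, bandZ, ← pow_mul, ← pow_succ]

theorem four_le_bandZ (j : ℕ) : 4 ≤ bandZ (j + 1) :=
  (show 4 = 2 ^ (2 ^ 1) by norm_num).le.trans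
    (Nat.pow_le_pow_right two_pos (Nat.pow_le_pow_right two_pos (by omega)))

theorem bandZ_le_thr (P : Par) (hM : 1 ≤ P.M) (j : ℕ) : bandZ (j + 1) ≤ P.thr j :=
  Nat.le_self_pow (by omega) _

/-- One pair of level above `x` in one cell above `Y_j`: the generic coincidences cost a
constant, the exact ones at most the product `P` of all ratios below `Y_j`. -/
theorem Ctx.term_le_of_sameCell (C : Ctx) {ξ K : ℝ} (hC : C.Ok ξ K) {j q r y : ℕ} (s : ℕ)
    {x0 x Q P : ℝ} (hx0 : 0 < x0) (hx : x0 ≤ x) (hq : q ∈ C.S) (hr : r ∈ C.S)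
    (hxD : x < dist2 C.ψ q r) (hsame : SameCell C.k (C.par.thr j) q r)
    (hlog : Real.log (dist2 C.ψ q r) ≤ C.par.thr j) (hyY : y ≤ C.par.thr j) (hQ0 : 0 ≤ Q)
    (hTU : (∏ p ∈ loPrimes y, (p : ℝ)) * ∏ p ∈ midPrimes y (C.par.thr j), ratio p ≤ Q * x)
    (hP : ∏ p ∈ loPrimes (C.par.thr j), ratio p ≤ P) :
    C.term q r ≤
      Real.exp 160 * (((4 + 3 / x0) * Real.exp 1 + Q) * Real.exp 1) * 3 *
          (wt C.ψ q * wt C.ψ r) +
        Real.exp 160 * (((4 + 3 / x0) * Real.exp 1 + Q) * Real.exp 1) * Real.exp (-(s : ℝ)) *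
          (wt C.ψ q * wt C.ψ r * hFac y (qd q r * qd r q) ^ (s + 1)) +
        P / x * (wt C.ψ q * wt C.ψ r * (pC C.classes q r ^ 2 + C.exactSum j q r ^ 2)) := by
  classical
  have hx' : 0 < x := hx0.trans_le hx
  set W0 : ℝ := Real.exp 160 * (((4 + 3 / x0) * Real.exp 1 + Q) * Real.exp 1) with hW0
  set k := Real.exp (-(s : ℝ)) with hk
  have hk0 : 0 ≤ k := (Real.exp_pos _).le
  set Y := C.par.thr j with hY
  have hwt : ∀ q, 0 ≤ wt C.ψ q := fun q => BilinearAux.wt_nonneg hC.psi_nonneg q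
  have hWW : ∀ q r, 0 ≤ wt C.ψ q * wt C.ψ r := fun q r => mul_nonneg (hwt q) (hwt r)
  have hP0 : 0 ≤ P := (prod_nonneg fun p _ => ratio_nonneg p).trans hP
  set D := dist2 C.ψ q r with hD
  have hD0 : 0 < D := hx'.trans hxD
  set K' := C.classes
  set h := hFac y (qd q r * qd r q)
  have hh0 : 0 ≤ h := zero_le_one.trans (BilinearAux.one_le_hFac _ _)
  have hgen : ∑ n ∈ admN C.γ C.ψ K' q r, pCOn K' (loPrimes y) q r * wCoinOn K' (loPrimes y) q r n *
      wCoinOn K' (midPrimes y Y) q r n ≤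
      ((4 + 3 / x0) * Real.exp 1 + Q) * Real.exp 1 * D := by
    refine (sum_factor_mid_le C.γ C.ψ K' (hC.pos q hq) hD0.le _ _ (fun p => prime_of_loPrimes)
      (fun p => prime_of_midPrimes) (disjoint_left.2 fun p hp hp' => by
        simp only [loPrimes, midPrimes, mem_filter, mem_range, mem_Ioc] at hp hp'
        omega)).trans ?_
    rw [mul_right_comm _ (Real.exp 1) D]
    refine mul_le_mul_of_nonneg_right ?_ (Real.exp_pos _).le
    have h3 : 4 * D + 3 ≤ (4 + 3 / x0) * D := by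
      have : 3 ≤ 3 / x0 * D := by
        rw [div_mul_eq_mul_div, le_div_iff₀ hx0]
        linarith [hx.trans hxD.le]
      linarith
    calc (4 * D + 3) * Real.exp 1 + (∏ p ∈ loPrimes y, (p : ℝ)) * ∏ p ∈ midPrimes y Y, ratio p
        ≤ (4 + 3 / x0) * D * Real.exp 1 + Q * D :=
          add_le_add (mul_le_mul_of_nonneg_right h3 (Real.exp_pos _).le)
            (hTU.trans (mul_le_mul_of_nonneg_left hxD.le hQ0))
      _ = _ := by ring
  have hpC : pC K' q r ≤ pCOn K' (loPrimes y) q r * (3 + k * h ^ (s + 1)) :=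
    (pC_le_lo_mul_hFac K' (hC.pos q hq) (hC.pos r hr) y).trans
      (mul_le_mul_of_nonneg_left (hFac_le_three_add' _ _ _) (pCOn_nonneg _ _ _ _))
  have h30 : 0 ≤ 3 + k * h ^ (s + 1) := by positivity
  set E := C.exactSum j q r with hE
  have hsum : ∑ n ∈ admN C.γ C.ψ K' q r, pC K' q r * wCoin K' q r n ≤
      W0 * (3 + k * h ^ (s + 1)) * D + P * (pC K' q r * E) := by
    have hone : ∀ n ∈ admN C.γ C.ψ K' q r, pC K' q r * wCoin K' q r n ≤
        Real.exp 160 * (3 + k * h ^ (s + 1)) * (pCOn K' (loPrimes y) q r *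
          wCoinOn K' (loPrimes y) q r n * wCoinOn K' (midPrimes y Y) q r n) +
        P * (pC K' q r *
          (if C.ExactHi j q r n then wCoinHi K' Y q r n else 0)) := by
      intro n hn
      have h2 := wCoin_le_lo_mid_hi K' hyY q r n
      have hlo := wCoinOn_nonneg K' (loPrimes y) q r n
      have hmid := wCoinOn_nonneg K' (midPrimes y Y) q r n
      have hp := pC_nonneg K' q r
      have hpo := pCOn_nonneg K' (loPrimes y) q r
      have hhi := wCoinHi_nonneg K' Y q r n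
      by_cases hex : C.ExactHi j q r n
      · rw [if_pos hex]
        refine le_add_of_nonneg_of_le (by positivity) ?_
        refine (mul_le_mul_of_nonneg_left h2 hp).trans ?_
        rw [mul_left_comm (P)]
        refine mul_le_mul_of_nonneg_left (mul_le_mul_of_nonneg_right ?_ hhi) hp
        exact (lo_mid_le_prod K' hyY q r n).trans hP
      · rw [if_neg hex, mul_zero, mul_zero, add_zero]
        have hW' := C.wCoinHi_le_of_not_exact hC hq hr hsame hlog hn hex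
        calc pC K' q r * wCoin K' q r n ≤ (pCOn K' (loPrimes y) q r * (3 + k * h ^ (s + 1))) *
              (wCoinOn K' (loPrimes y) q r n * wCoinOn K' (midPrimes y Y) q r n *
                Real.exp 160) :=
              mul_le_mul hpC (h2.trans (mul_le_mul_of_nonneg_left hW' (mul_nonneg hlo hmid)))
                (prod_nonneg fun p _ => ratio_nonneg p) (mul_nonneg hpo h30)
          _ = _ := by ring
    refine (sum_le_sum hone).trans ?_
    rw [sum_add_distrib, ← mul_sum, ← mul_sum, ← mul_sum, ← sum_filter]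
    refine add_le_add ((mul_le_mul_of_nonneg_left hgen (by positivity)).trans_eq ?_) le_rfl
    rw [hW0]; ring
  calc C.term q r ≤ wt C.ψ q * wt C.ψ r / D *
        (W0 * (3 + k * h ^ (s + 1)) * D + P * (pC K' q r * E)) :=
        mul_le_mul_of_nonneg_left hsum (div_nonneg (hWW q r) hD0.le)
    _ = W0 * 3 * (wt C.ψ q * wt C.ψ r) + W0 * k * (wt C.ψ q * wt C.ψ r * h ^ (s + 1)) +
        P / D * (wt C.ψ q * wt C.ψ r * (pC K' q r * E)) := by
        field_simp
    _ ≤ _ := by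
        have hE0 : 0 ≤ E := sum_nonneg fun n _ => wCoinHi_nonneg _ _ _ _ _
        have h6 : pC K' q r * E ≤ pC K' q r ^ 2 + E ^ 2 := by
          nlinarith [sq_nonneg (pC K' q r - E), mul_nonneg (pC_nonneg K' q r) hE0]
        refine add_le_add le_rfl (mul_le_mul (div_le_div_of_nonneg_left hP0 hx' hxD.le)
          (mul_le_mul_of_nonneg_left h6 (hWW q r))
          (mul_nonneg (hWW q r) (mul_nonneg (pC_nonneg K' q r) hE0)) (div_nonneg hP0 hx'.le))

/-- The cut for the periodic average is half a logarithm of the level. -/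
theorem cutoff_props {x : ℝ} (hx : 0 < x) :
    4 * (Nat.log 4 ⌊Real.sqrt (8 * x)⌋₊ : ℝ) ≤ x + 6 ∧
      Real.log x ≤ 2 * (2 * ((Nat.log 4 ⌊Real.sqrt (8 * x)⌋₊ : ℝ) + 1)) ∧
      ∏ p ∈ loPrimes (Nat.log 4 ⌊Real.sqrt (8 * x)⌋₊), (p : ℝ) ≤ 1 + Real.sqrt (8 * x) := by
  set y := Nat.log 4 ⌊Real.sqrt (8 * x)⌋₊ with hy
  set s8 := Real.sqrt (8 * x) with hs8
  have hs0 : 0 ≤ s8 := Real.sqrt_nonneg _
  have hs2 : s8 ^ 2 = 8 * x := Real.sq_sqrt (by linarith)
  have hy1 : (4 : ℝ) ^ y ≤ 1 + s8 := by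
    rcases Nat.eq_zero_or_pos ⌊s8⌋₊ with h | h
    · rw [hy, h, Nat.log_zero_right, pow_zero]; linarith
    · refine le_trans (le_trans (by exact_mod_cast Nat.pow_log_le_self 4 h.ne')
        (Nat.floor_le hs0)) (by linarith)
  have hy2 : s8 < (4 : ℝ) ^ (y + 1) :=
    lt_of_lt_of_le (Nat.lt_floor_add_one _)
      (by exact_mod_cast Nat.lt_pow_succ_log_self (show 1 < 4 by norm_num) ⌊s8⌋₊)
  refine ⟨?_, ?_, ?_⟩
  · have h4 : ∀ m : ℕ, 4 * m ≤ 4 ^ m + 3 := by
      intro m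
      induction m with
      | zero => norm_num
      | succ m ih =>
        rcases Nat.eq_zero_or_pos m with rfl | hm
        · norm_num
        · have := Nat.le_self_pow (show m ≠ 0 by omega) 4
          rw [pow_succ]; omega
    have h1 : 4 * (y : ℝ) ≤ (4 : ℝ) ^ y + 3 := by exact_mod_cast h4 y
    have h2 : s8 ≤ x + 2 := by
      rw [hs8, Real.sqrt_le_iff]
      exact ⟨by linarith, by nlinarith [sq_nonneg (x - 2)]⟩
    linarith
  · have h8 : 8 * x ≤ (4 : ℝ) ^ (2 * (y + 1)) := by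
      rw [← hs2, mul_comm 2, pow_mul]
      exact pow_le_pow_left₀ hs0 hy2.le 2
    have h := Real.log_le_log hx (by linarith : x ≤ (4 : ℝ) ^ (2 * (y + 1)))
    rw [Real.log_pow] at h
    push_cast at h
    have hl4 : Real.log 4 ≤ 2 := by
      rw [show (4 : ℝ) = 2 ^ 2 by norm_num, Real.log_pow]
      have := Real.log_two_lt_d9
      push_cast
      linarith
    refine h.trans ?_
    nlinarith [Nat.cast_nonneg (α := ℝ) y]
  · have h1 : ((primorial y : ℕ) : ℝ) ≤ (4 : ℝ) ^ y := by exact_mod_cast primorial_le_four_pow y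
    have h2 : ∏ p ∈ loPrimes y, (p : ℝ) = ((primorial y : ℕ) : ℝ) := by simp [loPrimes, primorial]
    linarith

/-- The product of the periodic range is at most the level. -/
theorem cutoff_mul_le {x x0 δ : ℝ} (hx0 : 0 < x0) (hx : x0 ≤ x) (hδ : δ ≤ 1 / 2) :
    (1 + Real.sqrt (8 * x)) * x ^ δ ≤ x0 ^ (δ - 1 / 2) * (x0 ^ (-(1 / 2) : ℝ) + 3) * x := by
  have hx' : 0 < x := hx0.trans_le hx
  set s8 := Real.sqrt (8 * x) with hs8
  have hs0 : 0 ≤ s8 := Real.sqrt_nonneg _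
  have h1 : x ^ δ ≤ x0 ^ (δ - 1 / 2) * Real.sqrt x := by
    rw [Real.sqrt_eq_rpow]
    calc x ^ δ = x ^ (δ - 1 / 2) * x ^ (1 / 2 : ℝ) := by
          rw [← Real.rpow_add hx']; ring_nf
      _ ≤ _ := mul_le_mul_of_nonneg_right
          (Real.rpow_le_rpow_of_nonpos hx0 hx (by linarith)) (Real.rpow_nonneg hx'.le _)
  have h2 : (1 + s8) * Real.sqrt x ≤ (x0 ^ (-(1 / 2) : ℝ) + 3) * x := by
    have h3 : Real.sqrt x ≤ x0 ^ (-(1 / 2) : ℝ) * x := by
      rw [Real.sqrt_eq_rpow]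
      calc x ^ (1 / 2 : ℝ) = x ^ (-(1 / 2) : ℝ) * x := by
            rw [← Real.rpow_add_one hx'.ne']; norm_num
        _ ≤ _ := mul_le_mul_of_nonneg_right
            (Real.rpow_le_rpow_of_nonpos hx0 hx (by norm_num)) hx'.le
    have h4 : s8 * Real.sqrt x ≤ 3 * x := by
      rw [hs8, ← Real.sqrt_mul (by linarith), Real.sqrt_le_iff]
      exact ⟨by linarith, by nlinarith⟩
    nlinarith
  calc (1 + s8) * x ^ δ ≤ (1 + s8) * (x0 ^ (δ - 1 / 2) * Real.sqrt x) := by gcongr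
    _ = x0 ^ (δ - 1 / 2) * ((1 + s8) * Real.sqrt x) := by ring
    _ ≤ x0 ^ (δ - 1 / 2) * ((x0 ^ (-(1 / 2) : ℝ) + 3) * x) :=
        mul_le_mul_of_nonneg_left h2 (Real.rpow_nonneg hx0.le _)
    _ = _ := by ring

/-- A sum over pairs against three weights on larger sets of pairs. -/
theorem sum_pairs_le3 (S : Finset ℕ) {P P1 P2 P3 : ℕ → ℕ → Prop} [∀ q, DecidablePred (P q)]
    [∀ q, DecidablePred (P1 q)] [∀ q, DecidablePred (P2 q)] [∀ q, DecidablePred (P3 q)]
    {f g1 g2 g3 : ℕ → ℕ → ℝ} {a b c : ℝ} (ha : 0 ≤ a) (hb : 0 ≤ b) (hc : 0 ≤ c)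
    (h1 : ∀ q r, 0 ≤ g1 q r) (h2 : ∀ q r, 0 ≤ g2 q r) (h3 : ∀ q r, 0 ≤ g3 q r)
    (hP1 : ∀ q r, P q r → P1 q r) (hP2 : ∀ q r, P q r → P2 q r) (hP3 : ∀ q r, P q r → P3 q r)
    (hf : ∀ q ∈ S, ∀ r ∈ S, P q r → f q r ≤ a * g1 q r + b * g2 q r + c * g3 q r) :
    ∑ q ∈ S, ∑ r ∈ S.filter (fun r => P q r), f q r ≤
      a * (∑ q ∈ S, ∑ r ∈ S.filter (fun r => P1 q r), g1 q r) +
        b * (∑ q ∈ S, ∑ r ∈ S.filter (fun r => P2 q r), g2 q r) +
        c * ∑ q ∈ S, ∑ r ∈ S.filter (fun r => P3 q r), g3 q r := by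
  refine (sum_le_sum fun q hq => sum_le_sum fun r hr =>
    hf q hq r (mem_filter.1 hr).1 (mem_filter.1 hr).2).trans ?_
  simp only [sum_add_distrib, ← mul_sum]
  refine add_le_add (add_le_add (mul_le_mul_of_nonneg_left ?_ ha) (mul_le_mul_of_nonneg_left ?_ hb))
    (mul_le_mul_of_nonneg_left ?_ hc) <;>
    refine sum_le_sum fun q _ => sum_le_sum_of_subset_of_nonneg (fun r hr => mem_filter.2
      ⟨(mem_filter.1 hr).1, ?_⟩) fun r _ _ => ?_
  · exact hP1 q r (mem_filter.1 hr).2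
  · exact h1 q r
  · exact hP2 q r (mem_filter.1 hr).2
  · exact h2 q r
  · exact hP3 q r (mem_filter.1 hr).2
  · exact h3 q r

/-- The moment of the large primes of `q' r'` is killed by the exponential. -/
theorem exists_hFac_level_le :
    ∃ Cm : ℝ, 0 ≤ Cm ∧ ∀ (ψ : ℕ → ℝ) (S : Finset ℕ) (x : ℝ) (y : ℕ),
      (∀ q ∈ S, 0 < q) → (∀ q, 0 ≤ ψ q) → mass ψ S ≤ 2 → 0 < x →
      Real.log x ≤ 2 * (2 * ((y : ℝ) + 1)) →
      Real.exp (-((12 * (y + 1) : ℕ) : ℝ)) *
          (∑ q ∈ S, ∑ r ∈ S.filter (fun r => q ≠ r ∧ dist2 ψ q r ≤ 2 * x),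
            wt ψ q * wt ψ r * hFac y (qd q r * qd r q) ^ (12 * (y + 1) + 1)) ≤
        Cm * x ^ (-(1 / 100) : ℝ) := by
  obtain ⟨Cm, hmom⟩ := exists_moment_le 13 (by norm_num)
  refine ⟨max Cm 0 * 6, by positivity, ?_⟩
  intro ψ S x y hS hψ hm2 hx hxz
  have hm := BilinearAux.mass_nonneg hψ S
  have hM0 : mass ψ S + mass ψ S ^ 2 ≤ 6 := by nlinarith
  have hm0 : 0 ≤ mass ψ S + mass ψ S ^ 2 := by positivity
  have a2 : ∑ q ∈ S, ∑ r ∈ S.filter (fun r => q ≠ r ∧ dist2 ψ q r ≤ 2 * x),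
        wt ψ q * wt ψ r * hFac y (qd q r * qd r q) ^ (12 * (y + 1) + 1) ≤
      max Cm 0 * 6 * (2 * x) ^ (993 / 1000 : ℝ) := by
    refine (hmom ψ S (2 * x) y _ hS hψ (by linarith) (by
      push_cast; nlinarith [Nat.cast_nonneg (α := ℝ) y])).trans ?_
    refine mul_le_mul_of_nonneg_right ?_ (Real.rpow_nonneg (by linarith) _)
    exact mul_le_mul (le_max_left _ _) hM0 hm0 (le_max_right _ _)
  set z : ℝ := 2 * ((y : ℝ) + 1) with hz
  have hz1 : 1 ≤ z := by rw [hz]; linarith [Nat.cast_nonneg (α := ℝ) y]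
  obtain ⟨hn1, -, -⟩ := big_numeric (le_refl (0 : ℝ)) hz1 hx hxz
  have e : Real.exp (-((12 * (y + 1) : ℕ) : ℝ)) = Real.exp (-(6 * z)) := by
    rw [hz]; push_cast; ring_nf
  rw [e]
  refine (mul_le_mul_of_nonneg_left a2 (Real.exp_pos _).le).trans ?_
  rw [mul_left_comm]
  refine mul_le_mul_of_nonneg_left (le_trans ?_ hn1) (by positivity)
  exact mul_le_mul_of_nonneg_right (le_mul_of_one_le_left (Real.exp_pos _).le hz1)
    (Real.rpow_nonneg (by linarith) _)

/-- The band of the level `x ≥ x0`: `Z` is at least four times `max x x⁻¹`. -/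
def largeBand (x : ℝ) : ℕ := bandOf (4 * max x x⁻¹)

open Classical in
/-- The levels `D ≍ x ≥ x0`, pairs in one cell above the band of the level. -/
theorem exists_sameLevel_le (M : ℕ) (hM : 1 ≤ M) (x0 δ : ℝ) (hx0 : 0 < x0) (hδ : 0 < δ)
    (hδ2 : δ ≤ 1 / 1000) :
    ∃ W : ℝ, 0 ≤ W ∧ ∀ (C : Ctx) (ξ K x : ℝ), C.par.M = M → C.Ok ξ K → x0 ≤ x →
      ∑ q ∈ C.S, ∑ r ∈ C.S.filter (fun r => q ≠ r ∧ (x < dist2 C.ψ q r ∧ dist2 C.ψ q r ≤ 2 * x) ∧
          SameCell C.k (C.par.thr (largeBand x)) q r), C.term q r ≤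
        W * (∑ q ∈ C.S, ∑ r ∈ C.S.filter (fun r =>
            q ≠ r ∧ (x < dist2 C.ψ q r ∧ dist2 C.ψ q r ≤ 2 * x)), wt C.ψ q * wt C.ψ r) +
          W * x ^ (-(1 / 100) : ℝ) +
          W * x ^ (δ - 1) * ∑ q ∈ C.S, ∑ r ∈ C.S.filter (fun r => r ≠ q ∧ dist2 C.ψ q r ≤ 2 * x ∧
              SameCell C.k (C.par.thr (largeBand x)) q r),
            wt C.ψ q * wt C.ψ r * (pC C.classes q r ^ 2 +
              C.exactSum (largeBand x) q r ^ 2) := by
  obtain ⟨L, hL1, hL⟩ := exists_prod_ratio_thr_le M δ hδ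
  obtain ⟨Cm, hCm0, hmom⟩ := exists_hFac_level_le
  set R : ℝ := 4 * (1 + 1 / x0 ^ 2) with hR
  have hR1 : 1 ≤ R := by
    have : (0 : ℝ) ≤ 1 / x0 ^ 2 := by positivity
    rw [hR]; linarith
  set Q : ℝ := 4 * L * R * (x0 ^ (δ - 1 / 2) * (x0 ^ (-(1 / 2) : ℝ) + 3)) with hQ
  have hQ0 : 0 ≤ Q := by positivity
  set W0 : ℝ := Real.exp 160 * (((4 + 3 / x0) * Real.exp 1 + Q) * Real.exp 1) with hW0
  have hW00 : 0 ≤ W0 := by positivity
  set W : ℝ := W0 * 3 + W0 * Cm + L * R with hW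
  have hW0' : 0 ≤ W := by positivity
  refine ⟨W, hW0', ?_⟩
  have hLpos : 0 < L := by linarith
  have hRpos : 0 < R := by linarith
  intro C ξ K x hCM hC hx
  have hx' : 0 < x := hx0.trans_le hx
  set X := 4 * max x x⁻¹ with hX
  have hmax1 : 1 ≤ max x x⁻¹ := by
    rcases le_total 1 x with h | h
    · exact h.trans (le_max_left _ _)
    · exact ((one_le_inv₀ hx').2 h).trans (le_max_right _ _)
  have hX1 : 1 ≤ X := by rw [hX]; linarith
  have hxX : x ≤ X := by rw [hX]; linarith [le_max_left x x⁻¹]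
  set j := largeBand x with hj
  set Y := C.par.thr j with hY
  have hYX : X ≤ (Y : ℝ) :=
    (bandOf_spec hX1).1.trans (by exact_mod_cast bandZ_le_thr C.par (hCM ▸ hM) j)
  have hY4 : (4 : ℝ) ≤ Y := by
    exact_mod_cast (four_le_bandZ j).trans (bandZ_le_thr C.par (hCM ▸ hM) j)
  have hXR : X ≤ R * x := by
    rw [hX, hR, mul_assoc]
    refine mul_le_mul_of_nonneg_left (max_le (le_mul_of_one_le_left hx'.le
      (le_add_of_nonneg_right (by positivity))) ?_) (by norm_num)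
    have h1 : x⁻¹ ≤ x / x0 ^ 2 := by
      rw [inv_eq_one_div, div_le_div_iff₀ hx' (by positivity)]
      nlinarith
    refine h1.trans ?_
    rw [add_mul, one_mul, one_div_mul_eq_div]
    linarith
  have hXd : X ^ δ ≤ R * x ^ δ := by
    refine (Real.rpow_le_rpow (by linarith) hXR hδ.le).trans ?_
    rw [Real.mul_rpow (by linarith) hx'.le]
    exact mul_le_mul_of_nonneg_right (Real.rpow_le_self_of_one_le hR1 (by linarith))
      (Real.rpow_nonneg hx'.le _)
  obtain ⟨hy4, hxz, hT⟩ := cutoff_props hx'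
  set y := Nat.log 4 ⌊Real.sqrt (8 * x)⌋₊ with hy
  have hyY : y ≤ Y := by
    have : (y : ℝ) ≤ Y := by linarith [hxX.trans hYX]
    exact_mod_cast this
  set z : ℝ := 2 * ((y : ℝ) + 1) with hz
  set s := 12 * (y + 1) with hs
  set k := Real.exp (-(s : ℝ)) with hk
  have hk0 : 0 ≤ k := (Real.exp_pos _).le
  have hU : ∀ Sp : Finset ℕ, (∀ p ∈ Sp, p.Prime ∧ p ≤ Y) → ∏ p ∈ Sp, ratio p ≤ L * R * x ^ δ := by
    intro Sp hSp
    refine (hL C.par X Sp hCM hX1 hSp).trans ?_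
    rw [mul_assoc]
    exact mul_le_mul_of_nonneg_left hXd (by linarith)
  have hTU : (∏ p ∈ loPrimes y, (p : ℝ)) * ∏ p ∈ midPrimes y Y, ratio p ≤ Q * x := by
    refine (mul_le_mul hT (hU _ fun p hp => ⟨prime_of_midPrimes hp,
      (mem_Ioc.1 (mem_filter.1 hp).1).2⟩) (prod_nonneg fun p _ => ratio_nonneg p)
      (by linarith [Real.sqrt_nonneg (8 * x)])).trans ?_
    have h := mul_le_mul_of_nonneg_left (cutoff_mul_le hx0 hx (by linarith : δ ≤ 1 / 2))
      (show 0 ≤ L * R by positivity)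
    have : 0 ≤ L * R * (x0 ^ (δ - 1 / 2) * (x0 ^ (-(1 / 2) : ℝ) + 3)) * x := by positivity
    calc (1 + Real.sqrt (8 * x)) * (L * R * x ^ δ) = L * R * ((1 + Real.sqrt (8 * x)) * x ^ δ) := by
          ring
      _ ≤ _ := h
      _ = L * R * (x0 ^ (δ - 1 / 2) * (x0 ^ (-(1 / 2) : ℝ) + 3)) * x := by ring
      _ ≤ 4 * (L * R * (x0 ^ (δ - 1 / 2) * (x0 ^ (-(1 / 2) : ℝ) + 3)) * x) := by linarith
      _ = _ := by rw [hQ]; ring
  have hwt : ∀ q, 0 ≤ wt C.ψ q := fun q => BilinearAux.wt_nonneg hC.psi_nonneg q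
  have hWW : ∀ q r, 0 ≤ wt C.ψ q * wt C.ψ r := fun q r => mul_nonneg (hwt q) (hwt r)
  -- one pair
  have hpair : ∀ q ∈ C.S, ∀ r ∈ C.S, x < dist2 C.ψ q r → dist2 C.ψ q r ≤ 2 * x →
      SameCell C.k Y q r → C.term q r ≤
        W0 * 3 * (wt C.ψ q * wt C.ψ r) +
          W0 * k * (wt C.ψ q * wt C.ψ r * hFac y (qd q r * qd r q) ^ (s + 1)) +
          L * R * x ^ (δ - 1) *
            (wt C.ψ q * wt C.ψ r * (pC C.classes q r ^ 2 + C.exactSum j q r ^ 2)) := by
    intro q hq r hr hxD hDx hsame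
    have hlog : Real.log (dist2 C.ψ q r) ≤ Y := by
      refine le_trans ?_ (hxX.trans hYX)
      refine (Real.log_le_log (hx'.trans hxD) hDx).trans ?_
      rw [Real.log_mul two_ne_zero hx'.ne']
      linarith [Real.log_two_lt_d9, Real.log_le_sub_one_of_pos hx']
    have e : L * R * x ^ δ / x = L * R * x ^ (δ - 1) := by
      rw [Real.rpow_sub_one hx'.ne', mul_div_assoc]
    rw [← e]
    exact C.term_le_of_sameCell hC s hx0 hx hq hr hxD hsame hlog hyY hQ0 hTU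
      (hU _ fun p hp => ⟨prime_of_loPrimes hp,
        Nat.le_of_lt_succ (mem_range.1 (mem_filter.1 hp).1)⟩)
  -- the level
  refine (sum_pairs_le3 C.S
    (P1 := fun q r => q ≠ r ∧ (x < dist2 C.ψ q r ∧ dist2 C.ψ q r ≤ 2 * x))
    (P2 := fun q r => q ≠ r ∧ dist2 C.ψ q r ≤ 2 * x)
    (P3 := fun q r => r ≠ q ∧ dist2 C.ψ q r ≤ 2 * x ∧ SameCell C.k Y q r)
    (mul_nonneg hW00 (by norm_num)) (mul_nonneg hW00 hk0) (by positivity) hWW
    (fun q r => mul_nonneg (hWW q r)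
      (pow_nonneg (zero_le_one.trans (BilinearAux.one_le_hFac _ _)) _))
    (fun q r => mul_nonneg (hWW q r) (add_nonneg (sq_nonneg _) (sq_nonneg _)))
    (fun q r h => ⟨h.1, h.2.1⟩) (fun q r h => ⟨h.1, h.2.1.2⟩)
    (fun q r h => ⟨h.1.symm, h.2.1.2, h.2.2⟩)
    (fun q hq r hr h => hpair q hq r hr h.2.1.1 h.2.1.2 h.2.2)).trans ?_
  have hW1 : W0 * 3 ≤ W := by rw [hW]; linarith [mul_nonneg hW00 hCm0, mul_pos hLpos hRpos]
  have hW2 : W0 * Cm ≤ W := by rw [hW]; linarith [mul_pos hLpos hRpos]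
  have hW3 : L * R ≤ W := by rw [hW]; linarith [mul_nonneg hW00 hCm0]
  refine add_le_add (add_le_add (mul_le_mul_of_nonneg_right hW1
    (sum_nonneg fun q _ => sum_nonneg fun r _ => hWW q r)) ?_)
    (mul_le_mul_of_nonneg_right (mul_le_mul_of_nonneg_right hW3 (Real.rpow_nonneg hx'.le _))
      (sum_nonneg fun q _ => sum_nonneg fun r _ => mul_nonneg (hWW q r)
        (add_nonneg (sq_nonneg _) (sq_nonneg _))))
  refine le_trans (le_of_eq (mul_assoc _ _ _)) ((mul_le_mul_of_nonneg_left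
    (hmom C.ψ C.S x y hC.pos hC.psi_nonneg hC.mass_le hx' hxz) hW00).trans ?_)
  rw [← mul_assoc]
  exact mul_le_mul_of_nonneg_right hW2 (Real.rpow_nonneg hx'.le _)

end Vale.Agent.P028.Full
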