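import Vale.Agent.P028.Main

/-!
Radii which do not tend to zero: every interval meets the approximation sets in a fixed proportion,
so the points missing all of them have no density point.
-/

noncomputable section

namespace Vale.Agent.P028.Full

open MeasureTheory Filter Metric
open scoped Topology ENNReal

/-- A long interval keeps a proportion `c` of the points near the shifted lattice. -/
private theorem volume_miss_le {q : ℕ} {γ c x r : ℝ} (hc : 0 < c) (hc1 : c ≤ 1 / 2)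
    (hr : 0 < r) (hq : 2 ≤ (q : ℝ) * r) :
    volume {y | y ∈ closedBall x r ∧ ∀ a : ℤ, c ≤ |(q : ℝ) * y - a - γ|} ≤
      ENNReal.ofReal ((1 - c / 2) * (2 * r)) := by
  have hq0 : (0 : ℝ) < q := by
    rcases Nat.eq_zero_or_pos q with h | h
    · rw [h, Nat.cast_zero, zero_mul] at hq; linarith
    · exact_mod_cast h
  set J : ℤ → Set ℝ := fun a => Set.Ioo ((a + γ - c) / q) ((a + γ + c) / q) with hJ
  set T := Finset.Icc ⌈(q : ℝ) * (x - r) - γ + c⌉ ⌊(q : ℝ) * (x + r) - γ - c⌋ with hT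
  have hsub : ∀ a ∈ T, J a ⊆ closedBall x r := by
    intro a ha y hy
    obtain ⟨h1, h2⟩ := Finset.mem_Icc.1 ha
    have h1' := (Int.le_ceil _).trans (Int.cast_le (R := ℝ).2 h1)
    have h2' := (Int.cast_le (R := ℝ).2 h2).trans (Int.floor_le _)
    obtain ⟨hy1, hy2⟩ := hy
    rw [div_lt_iff₀ hq0] at hy1
    rw [lt_div_iff₀ hq0] at hy2
    rw [mem_closedBall, Real.dist_eq, abs_le]
    constructor <;> refine le_of_mul_le_mul_left ?_ hq0 <;> linarith
  have hdisj : (T : Set ℤ).PairwiseDisjoint J := by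
    intro a _ b _ hab
    refine Set.disjoint_left.2 fun y hy hy' => hab ?_
    obtain ⟨h1, h2⟩ := hy
    obtain ⟨h3, h4⟩ := hy'
    rw [div_lt_iff₀ hq0] at h1 h3
    rw [lt_div_iff₀ hq0] at h2 h4
    have e1 : (a : ℝ) < (b + 1 : ℤ) := by push_cast; linarith
    have e2 : (b : ℝ) < (a + 1 : ℤ) := by push_cast; linarith
    rw [Int.cast_lt] at e1 e2
    omega
  have hvol : volume (⋃ a ∈ T, J a) = ENNReal.ofReal ((T.card : ℝ) * (2 * c / q)) := by
    rw [measure_biUnion_finset hdisj fun a _ => measurableSet_Ioo]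
    have e : ∀ a ∈ T, volume (J a) = ENNReal.ofReal (2 * c / q) := fun a _ => by
      rw [hJ, Real.volume_Ioo, ← sub_div]; ring_nf
    rw [Finset.sum_congr rfl e, Finset.sum_const, nsmul_eq_mul, ← ENNReal.ofReal_natCast,
      ← ENNReal.ofReal_mul (Nat.cast_nonneg _)]
  have hcard : 2 * r * q - 3 ≤ (T.card : ℝ) := by
    rw [hT, Int.card_Icc]
    set u := ⌊(q : ℝ) * (x + r) - γ - c⌋ + 1 - ⌈(q : ℝ) * (x - r) - γ + c⌉ with hu
    have h1 : ((u : ℤ) : ℝ) ≤ (u.toNat : ℝ) := by exact_mod_cast Int.self_le_toNat u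
    have h2 := Int.sub_one_lt_floor ((q : ℝ) * (x + r) - γ - c)
    have h3 := Int.ceil_lt_add_one ((q : ℝ) * (x - r) - γ + c)
    rw [hu] at h1 ⊢
    push_cast at h1
    linarith
  have hlow : ENNReal.ofReal (c * r) ≤ volume (⋃ a ∈ T, J a) := by
    rw [hvol]
    refine ENNReal.ofReal_le_ofReal ?_
    rw [← mul_div_assoc, le_div_iff₀ hq0]
    have := mul_le_mul_of_nonneg_left hcard hc.le
    nlinarith
  have hcover : {y | y ∈ closedBall x r ∧ ∀ a : ℤ, c ≤ |(q : ℝ) * y - a - γ|} ⊆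
      closedBall x r \ ⋃ a ∈ T, J a := by
    rintro y ⟨hy, hy'⟩
    refine ⟨hy, fun hmem => ?_⟩
    obtain ⟨a, -, h1, h2⟩ := Set.mem_iUnion₂.1 hmem
    rw [div_lt_iff₀ hq0] at h1
    rw [lt_div_iff₀ hq0] at h2
    exact not_lt.2 (hy' a) (abs_lt.2 ⟨by linarith, by linarith⟩)
  refine (measure_mono hcover).trans ?_
  have hU : MeasurableSet (⋃ a ∈ T, J a) :=
    T.measurableSet_biUnion fun a _ => measurableSet_Ioo
  rw [measure_sdiff (Set.iUnion₂_subset hsub) hU.nullMeasurableSet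
    (by rw [hvol]; exact ENNReal.ofReal_ne_top), Real.volume_closedBall]
  refine (tsub_le_tsub_left hlow _).trans ?_
  rw [← ENNReal.ofReal_sub _ (by positivity)]
  exact ENNReal.ofReal_le_ofReal (by nlinarith)

/-- Radii bounded below on an infinite set of moduli give full measure. -/
theorem null_compl_of_large (γ : ℝ) (ψ : ℕ → ℝ) (c : ℝ) (hc : 0 < c)
    (h : {q : ℕ | c ≤ ψ q}.Infinite) :
    volume (approxSet γ ψ)ᶜ = 0 := by
  set c' := min c (1 / 2) with hc'
  have hc'0 : 0 < c' := lt_min hc (by norm_num)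
  set Z : ℕ → Set ℝ := fun Q =>
    {y | ∀ q : ℕ, Q < q → c ≤ ψ q → ∀ a : ℤ, c' / 2 ≤ |(q : ℝ) * y - a - γ|} with hZ
  suffices hnull : ∀ Q, volume (Z Q) = 0 by
    refine measure_mono_null (fun y hy => ?_) (measure_iUnion_null hnull)
    simp only [approxSet, Set.mem_compl_iff, Set.mem_ofPred_eq, Set.not_infinite] at hy
    obtain ⟨Q, hQ⟩ := hy.bddAbove
    refine Set.mem_iUnion.2 ⟨Q, fun q hqQ hcq a => ?_⟩
    by_contra hlt
    have hmem : q ≤ Q := hQ ⟨by omega, a, by
      linarith [not_le.1 hlt, min_le_left c (1 / 2), hc'0]⟩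
    omega
  intro Q
  by_contra hne
  have hae := Besicovitch.ae_tendsto_measure_inter_div (volume : Measure ℝ) (Z Q)
  have : (ae (volume.restrict (Z Q))).NeBot := ae_neBot.2 (by
    intro h0
    rw [Measure.restrict_eq_zero] at h0
    exact hne h0)
  obtain ⟨x, hx⟩ := hae.exists
  have hb : (1 : ℝ≥0∞) ≤ ENNReal.ofReal (1 - c' / 2 / 2) := by
    refine le_of_tendsto hx ?_
    filter_upwards [self_mem_nhdsWithin] with r (hr : (0 : ℝ) < r)
    obtain ⟨q, hq, hqQ⟩ := h.exists_gt (max Q ⌈2 / r⌉₊)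
    have hq2 : 2 ≤ (q : ℝ) * r := by
      rw [← div_le_iff₀ hr]
      exact (Nat.le_ceil _).trans (Nat.cast_le.2 ((le_max_right _ _).trans hqQ.le))
    refine ENNReal.div_le_of_le_mul ?_
    rw [Real.volume_closedBall, ← ENNReal.ofReal_mul (by
      have := min_le_right c (1 / 2); linarith)]
    refine le_trans (measure_mono ?_) (volume_miss_le (γ := γ) (x := x) (q := q)
      (show 0 < c' / 2 by positivity) (by have := min_le_right c (1 / 2); linarith) hr hq2)
    rintro y ⟨hy, hy'⟩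
    exact ⟨hy', fun a => hy q (lt_of_le_of_lt (le_max_left _ _) hqQ) hq a⟩
  rw [ENNReal.one_le_ofReal] at hb
  linarith

end Vale.Agent.P028.Full
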