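import Vale.Agent.P028.Full.LevelProb

/-!
The level sum: each vertex is charged a bounded amount over all its active bands.

`cIdx` is the number of jumps which follow a band in spite of little present mass; it is rarely
large (`Level.prob_chains_ge_le`), so Cauchy charges a fibre only `(n + 1) ^ 2 ρ ^ n` times its mass.
For one vertex the active bands are then summed deterministically, each with the tilt of the mass
present below the start of its segment and of the mass between the band and the end of its segment.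
-/

noncomputable section

namespace Vale.Agent.P028.Full.Level

open Finset

/-- The charge of a fibre of index `n`. -/
def charge (ρ : ℝ) (n : ℕ) : ℝ := ((n : ℝ) + 1) ^ 2 * ρ ^ n

theorem charge_nonneg {ρ : ℝ} (hρ : 0 ≤ ρ) (n : ℕ) : 0 ≤ charge ρ n :=
  mul_nonneg (sq_nonneg _) (pow_nonneg hρ n)

theorem sum_inv_sq_le (s : Finset ℕ) : ∑ n ∈ s, 1 / ((n : ℝ) + 1) ^ 2 ≤ 2 := by
  have h : ∀ M : ℕ, ∑ n ∈ Finset.range M, 1 / ((n : ℝ) + 1) ^ 2 ≤ 2 - 1 / ((M : ℝ) + 1 / 2) := by
    intro M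
    induction M with
    | zero => norm_num
    | succ M ih =>
      rw [sum_range_succ]
      have hM : (0 : ℝ) ≤ M := Nat.cast_nonneg M
      have : 1 / ((M : ℝ) + 1) ^ 2 ≤ 1 / ((M : ℝ) + 1 / 2) - 1 / (((M + 1 : ℕ) : ℝ) + 1 / 2) := by
        push_cast
        rw [div_sub_div _ _ (by positivity) (by positivity), div_le_div_iff₀ (by positivity)
          (by positivity)]
        nlinarith
      linarith
  refine (sum_le_sum_of_subset_of_nonneg (Finset.subset_range_sup_succ s) fun n _ _ => by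
    positivity).trans ((h _).trans ?_)
  have : (0 : ℝ) ≤ 1 / (((s.sup id).succ : ℕ) + 1 / 2 : ℝ) := by positivity
  linarith

/-- The Cauchy inequality behind the charge. -/
theorem sq_sum_sqrt_le {ι : Type*} (B : Finset ι) (P m : ι → ℝ) (idx : ι → ℕ) {ρ : ℝ} (hρ : 0 < ρ)
    (hP : ∀ b ∈ B, 0 ≤ P b) (hm : ∀ b ∈ B, 0 ≤ m b)
    (hrare : ∀ n, ∑ b ∈ B.filter (fun b => idx b = n), P b ≤ ρ ^ n) :
    (∑ b ∈ B, Real.sqrt (P b * m b)) ^ 2 ≤ 2 * ∑ b ∈ B, charge ρ (idx b) * m b := by
  have hch : ∀ b, 0 < charge ρ (idx b) := fun b => mul_pos (by positivity) (pow_pos hρ _)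
  have hcs := sum_mul_sq_le_sq_mul_sq B (fun b => Real.sqrt (P b / charge ρ (idx b)))
    (fun b => Real.sqrt (charge ρ (idx b) * m b))
  refine le_trans (le_of_eq ?_) (hcs.trans (mul_le_mul ?_ (le_of_eq ?_)
    (sum_nonneg fun b _ => sq_nonneg _) zero_le_two))
  · congr 1
    refine sum_congr rfl fun b hb => ?_
    rw [← Real.sqrt_mul (div_nonneg (hP b hb) (hch b).le)]
    congr 1
    field_simp [(hch b).ne']
  · rw [sum_congr rfl fun b hb => Real.sq_sqrt (div_nonneg (hP b hb) (hch b).le),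
      ← sum_fiberwise_of_maps_to (g := idx) (fun b hb => mem_image_of_mem idx hb)]
    refine le_trans (sum_le_sum fun n _ => ?_) (sum_inv_sq_le (B.image idx))
    calc ∑ b ∈ B.filter (fun b => idx b = n), P b / charge ρ (idx b)
        = (∑ b ∈ B.filter (fun b => idx b = n), P b) / charge ρ n := by
          rw [sum_div]; exact sum_congr rfl fun b hb => by rw [(mem_filter.1 hb).2]
      _ ≤ ρ ^ n / charge ρ n := div_le_div_of_nonneg_right (hrare n) (charge_nonneg hρ.le n)
      _ = _ := by rw [charge]; field_simp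
  · exact sum_congr rfl fun b hb => Real.sq_sqrt (mul_nonneg (hch b).le (hm b hb))

/-- In an interval of unit mass few bands have a given index. -/
theorem card_idx_le {κ : ℝ} (hκ : 0 < κ) {M : ℕ} {T : ℕ → ℝ} (idx : ℕ → ℕ)
    (hidx : ∀ i m, 0 < m → i + m < M → T (i + m) - T i ≤ κ * m → m ≤ idx i)
    (I : Finset ℕ) (hI : ∀ i ∈ I, i < M) (hI1 : ∀ i ∈ I, ∀ j ∈ I, T i - T j ≤ 1) (n : ℕ) :
    ((I.filter (fun i => idx i = n)).card : ℝ) ≤ n + 2 + 1 / κ := by
  rcases (I.filter (fun i => idx i = n)).eq_empty_or_nonempty with h | h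
  · rw [h, card_empty, Nat.cast_zero]; positivity
  set J := I.filter (fun i => idx i = n) with hJ
  set a := J.min' h
  set b := J.max' h
  obtain ⟨ha, han⟩ := mem_filter.1 (J.min'_mem h)
  obtain ⟨hb, -⟩ := mem_filter.1 (J.max'_mem h)
  have hab : a ≤ b := J.min'_le b (J.max'_mem h)
  have hsub : J ⊆ Finset.Icc a b := fun i hi => mem_Icc.2 ⟨J.min'_le i hi, J.le_max' i hi⟩
  have hcard : (J.card : ℝ) ≤ (b - a : ℕ) + 1 := by
    calc (J.card : ℝ) ≤ ((Finset.Icc a b).card : ℝ) := by exact_mod_cast card_le_card hsub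
      _ = _ := by rw [Nat.card_Icc]; push_cast [Nat.sub_add_comm hab]; ring
  refine hcard.trans ?_
  by_contra hlt
  rw [not_le] at hlt
  have h1 : (n : ℝ) + 1 + 1 / κ < (b - a : ℕ) := by linarith
  have hn : n < b - a := by
    have : (n : ℝ) < (b - a : ℕ) := by linarith [one_div_pos.2 hκ]
    exact_mod_cast this
  have hκm : 1 ≤ κ * (b - a : ℕ) := by
    calc (1 : ℝ) = κ * (1 / κ) := by field_simp
      _ ≤ _ := mul_le_mul_of_nonneg_left (by linarith) hκ.le
  have := hidx a (b - a) (by omega) (by have := hI b hb; omega) (by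
    rw [Nat.add_sub_cancel' hab]
    linarith [hI1 b hb a ha])
  have han' : idx a = n := han
  omega

/-- The charges in an interval of unit mass. -/
theorem exists_sum_charge_le {ρ κ : ℝ} (hρ : 0 ≤ ρ) (hρ1 : ρ < 1) (hκ : 0 < κ) :
    ∃ A : ℝ, 0 ≤ A ∧ ∀ (M : ℕ) (T : ℕ → ℝ) (idx : ℕ → ℕ),
      (∀ i m, 0 < m → i + m < M → T (i + m) - T i ≤ κ * m → m ≤ idx i) →
      ∀ I : Finset ℕ, (∀ i ∈ I, i < M) → (∀ i ∈ I, ∀ j ∈ I, T i - T j ≤ 1) →
      ∑ i ∈ I, charge ρ (idx i) ≤ A := by
  have hsum : Summable fun n : ℕ => charge ρ n * ((n : ℝ) + 2 + 1 / κ) := by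
    have hn : ‖ρ‖ < 1 := by rwa [Real.norm_eq_abs, abs_of_nonneg hρ]
    have h := fun k : ℕ => summable_pow_mul_geometric_of_norm_lt_one k hn
    refine (((h 3).add ((h 2).mul_left (4 + 1 / κ))).add (((h 1).mul_left (5 + 2 / κ)).add
      ((h 0).mul_left (2 + 1 / κ)))).congr fun n => ?_
    simp only [charge]
    ring
  have hnn : ∀ n : ℕ, 0 ≤ charge ρ n * ((n : ℝ) + 2 + 1 / κ) := fun n =>
    mul_nonneg (charge_nonneg hρ n) (by positivity)
  refine ⟨∑' n : ℕ, charge ρ n * ((n : ℝ) + 2 + 1 / κ), tsum_nonneg hnn,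
    fun M T idx hidx I hI hI1 => ?_⟩
  rw [← sum_fiberwise_of_maps_to (g := idx) (fun i hi => mem_image_of_mem idx hi)]
  refine le_trans (sum_le_sum fun n _ => ?_) (hsum.sum_le_tsum _ fun n _ => hnn n)
  rw [sum_congr rfl (g := fun _ => charge ρ n) (fun i hi => by rw [(mem_filter.1 hi).2]), sum_const,
    nsmul_eq_mul, mul_comm]
  exact mul_le_mul_of_nonneg_left (card_idx_le hκ idx hidx I hI hI1 n) (charge_nonneg hρ n)

open Classical in
/-- One vertex: `s i` and `e i` are the first and the last active band of the segment of `i`, and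
`T` is the present mass. -/
theorem exists_vertex_le {ρ κ β : ℝ} (hρ : 0 ≤ ρ) (hρ1 : ρ < 1) (hκ : 0 < κ) (hβ : 0 < β) :
    ∃ A : ℝ, 0 ≤ A ∧ ∀ (M : ℕ) (T : ℕ → ℝ), Monotone T → 0 ≤ T 0 → ∀ idx s e : ℕ → ℕ,
      (∀ i m, 0 < m → i + m < M → T (i + m) - T i ≤ κ * m → m ≤ idx i) →
      (∀ i < M, s i ≤ i ∧ i ≤ e i) →
      (∀ i < M, ∀ j < M, s i < s j → e i ≤ s j) →
      (∀ i < M, ∀ j < M, s i = s j → e i = e j) →
      ∑ i ∈ Finset.range M,
        charge ρ (idx i) * Real.exp (-(β * (T (s i) + (T (e i) - T i)))) ≤ A := by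
  obtain ⟨A, hA, hA'⟩ := exists_sum_charge_le hρ hρ1 hκ
  set r := Real.exp (-β) with hr
  have hr0 : 0 ≤ r := (Real.exp_pos _).le
  have hr1 : r < 1 := Real.exp_lt_one_iff.2 (by linarith)
  set G := (1 - r)⁻¹ with hG
  have hG0 : 0 ≤ G := inv_nonneg.2 (by linarith)
  have hgeom : ∀ K : Finset ℕ, ∑ x ∈ K, r ^ x ≤ G := fun K => by
    refine ((summable_geometric_of_lt_one hr0 hr1).sum_le_tsum K fun x _ => by positivity).trans_eq ?_
    exact tsum_geometric_of_lt_one hr0 hr1
  refine ⟨G * (A + G * A), by positivity, fun M T hT hT0 idx s e hidx hse hord heq => ?_⟩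
  have hTn : ∀ i, 0 ≤ T i := fun i => hT0.trans (hT (Nat.zero_le i))
  set cl : ℕ → ℕ := fun i => ⌊T (s i)⌋₊ with hcl
  set bk : ℕ → ℕ := fun i => ⌊T (e i) - T i⌋₊ with hbk
  have hw : ∀ i ∈ Finset.range M,
      Real.exp (-(β * (T (s i) + (T (e i) - T i)))) ≤ r ^ cl i * r ^ bk i := by
    intro i hi
    have hd : 0 ≤ T (e i) - T i := sub_nonneg.2 (hT (hse i (mem_range.1 hi)).2)
    rw [hr, ← Real.exp_nat_mul, ← Real.exp_nat_mul, ← Real.exp_add]
    refine Real.exp_le_exp.2 ?_
    have h1 : ((cl i : ℕ) : ℝ) ≤ T (s i) := Nat.floor_le (hTn _)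
    have h2 : ((bk i : ℕ) : ℝ) ≤ T (e i) - T i := Nat.floor_le hd
    nlinarith
  set last : ℕ → Prop := fun i => ∀ j < M, cl j = cl i → s j ≤ s i with hlast
  have hclass : ∀ x : ℕ, ∑ i ∈ (Finset.range M).filter (fun i => cl i = x),
      charge ρ (idx i) * r ^ bk i ≤ A + G * A := by
    intro x
    rw [← sum_filter_not_add_sum_filter _ (fun i => last i)]
    refine add_le_add ?_ ?_
    · -- the segments which are not last lie in one unit interval
      refine le_trans (sum_le_sum fun i _ => mul_le_of_le_one_right (charge_nonneg hρ _)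
        (pow_le_one₀ hr0 hr1.le)) (hA' M T idx hidx _ (fun i hi => ?_) fun i hi j hj => ?_)
      · exact mem_range.1 (mem_filter.1 (mem_filter.1 hi).1).1
      have key : ∀ k ∈ ((Finset.range M).filter (fun i => cl i = x)).filter (fun i => ¬ last i),
          (x : ℝ) ≤ T k ∧ T k ≤ x + 1 := by
        intro k hk
        obtain ⟨hk1, hk2⟩ := mem_filter.1 hk
        obtain ⟨hkM, hkx⟩ := mem_filter.1 hk1
        simp only [hlast, not_forall, not_le] at hk2
        obtain ⟨l, hl, hlx, hlt⟩ := hk2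
        refine ⟨?_, ?_⟩
        · rw [← hkx]
          exact (Nat.floor_le (hTn _)).trans (hT (hse k (mem_range.1 hkM)).1)
        · refine (hT ((hse k (mem_range.1 hkM)).2.trans (hord k (mem_range.1 hkM) l hl hlt))).trans ?_
          rw [← hkx, ← hlx]
          exact (Nat.lt_floor_add_one _).le
      linarith [(key i hi).2, (key j hj).1]
    · -- the last segment, by the mass up to its end
      rw [← sum_fiberwise_of_maps_to (g := bk) (fun i hi => mem_image_of_mem bk hi)]
      refine le_trans (sum_le_sum (g := fun y => r ^ y * A) fun y _ => ?_) (by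
        rw [← sum_mul]; exact mul_le_mul_of_nonneg_right (hgeom _) hA)
      rw [sum_congr rfl (g := fun i => r ^ y * charge ρ (idx i))
        (fun i hi => by rw [(mem_filter.1 hi).2, mul_comm]), ← mul_sum]
      refine mul_le_mul_of_nonneg_left (hA' M T idx hidx _ (fun i hi => ?_) fun i hi j hj => ?_)
        (pow_nonneg hr0 y)
      · exact mem_range.1 (mem_filter.1 (mem_filter.1 (mem_filter.1 hi).1).1).1
      obtain ⟨hi1, hiy⟩ := mem_filter.1 hi
      obtain ⟨hj1, hjy⟩ := mem_filter.1 hj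
      obtain ⟨hi2, hil⟩ := mem_filter.1 hi1
      obtain ⟨hj2, hjl⟩ := mem_filter.1 hj1
      obtain ⟨hiM, hix⟩ := mem_filter.1 hi2
      obtain ⟨hjM, hjx⟩ := mem_filter.1 hj2
      rw [mem_range] at hiM hjM
      have hs : s i = s j :=
        le_antisymm (hjl i hiM (hix.trans hjx.symm)) (hil j hjM (hjx.trans hix.symm))
      have hee := heq i hiM j hjM hs
      have h1 : (y : ℝ) ≤ T (e i) - T i :=
        hiy ▸ Nat.floor_le (sub_nonneg.2 (hT (hse i hiM).2))
      have h2 : T (e j) - T j < y + 1 := hjy ▸ Nat.lt_floor_add_one _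
      rw [hee] at h1
      linarith
  calc ∑ i ∈ Finset.range M, charge ρ (idx i) * Real.exp (-(β * (T (s i) + (T (e i) - T i))))
      ≤ ∑ i ∈ Finset.range M, charge ρ (idx i) * (r ^ cl i * r ^ bk i) :=
        sum_le_sum fun i hi => mul_le_mul_of_nonneg_left (hw i hi) (charge_nonneg hρ _)
    _ = ∑ x ∈ (Finset.range M).image cl, r ^ x *
          ∑ i ∈ (Finset.range M).filter (fun i => cl i = x), charge ρ (idx i) * r ^ bk i := by
        rw [← sum_fiberwise_of_maps_to (g := cl) (fun i hi => mem_image_of_mem cl hi)]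
        refine sum_congr rfl fun x _ => ?_
        rw [mul_sum]
        exact sum_congr rfl fun i hi => by rw [(mem_filter.1 hi).2]; ring
    _ ≤ _ := by
        refine (sum_le_sum fun x _ => mul_le_mul_of_nonneg_left (hclass x) (pow_nonneg hr0 x)).trans ?_
        rw [← sum_mul]
        exact mul_le_mul_of_nonneg_right (hgeom _) (by positivity)

variable {N : ℕ} {Y : ℕ → ℕ} {w Δ : ℕ} {c lam : ℝ} {J : ℕ}

open Classical in
/-- The number of jumps which follow `k` with weight at least `θ ^ n`. -/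
def cIdx (N : ℕ) (Y : ℕ → ℕ) (w Δ : ℕ) (c lam θ : ℝ) (J k d : ℕ) : ℕ :=
  Nat.findGreatest (fun n => θ ^ n ≤ chains N Y w Δ c lam J n k d) J

theorem cIdx_congr (hY : Monotone Y) (hwΔ : w ≤ Δ) (θ : ℝ) (k d : ℕ) :
    cIdx N Y w Δ c lam θ J k (Nat.gcd d (part N Y k J)) = cIdx N Y w Δ c lam θ J k d := by
  unfold cIdx
  simp only [chains_congr hY hwΔ _ le_rfl]

theorem factorization_part (N : ℕ) (Y : ℕ → ℕ) (i j p : ℕ) (hp : Y i < p ∧ p ≤ Y j) :
    (part N Y i j).factorization p = N.factorization p := by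
  rw [part, Nat.factorization_prod (fun q hq =>
    pow_ne_zero _ (Nat.prime_of_mem_primeFactors (mem_filter.1 hq).1).ne_zero), Finsupp.finsetSum_apply]
  by_cases h : p ∈ N.primeFactors
  · rw [sum_eq_single_of_mem p (mem_filter.2 ⟨h, hp⟩) fun q hq hqp => by
      rw [(Nat.prime_of_mem_primeFactors (mem_filter.1 hq).1).factorization_pow,
        Finsupp.single_eq_of_ne hqp.symm]]
    rw [(Nat.prime_of_mem_primeFactors h).factorization_pow, Finsupp.single_eq_same]
  · rw [sum_eq_zero, eq_comm, ← Finsupp.notMem_support_iff, Nat.support_factorization]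
    · exact h
    · intro q hq
      rw [(Nat.prime_of_mem_primeFactors (mem_filter.1 hq).1).factorization_pow]
      exact Finsupp.single_eq_of_ne fun e => h (e ▸ (mem_filter.1 hq).1)

theorem part_centre {N N' : ℕ} {Y : ℕ → ℕ} (hY : Monotone Y) {k J i j : ℕ} (h1 : k ≤ i)
    (h3 : j ≤ J) (h : part N Y k J = part N' Y k J) : part N Y i j = part N' Y i j := by
  have key : ∀ p, Y i < p → p ≤ Y j → N.factorization p = N'.factorization p := fun p hp hp' => by
    rw [← factorization_part N Y k J p ⟨(hY h1).trans_lt hp, hp'.trans (hY h3)⟩, h,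
      factorization_part N' Y k J p ⟨(hY h1).trans_lt hp, hp'.trans (hY h3)⟩]
  refine prod_congr ?_ fun p hp => ?_
  · ext p
    simp only [mem_filter, ← Nat.support_factorization, Finsupp.mem_support_iff]
    constructor <;> rintro ⟨h0, hp, hp'⟩
    · exact ⟨key p hp hp' ▸ h0, hp, hp'⟩
    · exact ⟨(key p hp hp').symm ▸ h0, hp, hp'⟩
  · obtain ⟨-, hp1, hp2⟩ := mem_filter.1 hp
    rw [key p hp1 hp2]

theorem chains_centre {N N' : ℕ} (hY : Monotone Y) (n : ℕ) :
    ∀ {k : ℕ}, part N Y k J = part N' Y k J → ∀ d,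
      chains N Y w Δ c lam J n k d = chains N' Y w Δ c lam J n k d := by
  induction n with
  | zero => exact fun _ _ => rfl
  | succ n ih =>
    intro k h d
    simp only [chains]
    refine sum_congr rfl fun j hj => ?_
    obtain ⟨hj1, hj2⟩ := mem_Ioc.1 hj
    rw [ih (part_centre hY hj1.le le_rfl h)]
    congr 1
    unfold step
    rw [part_centre hY le_rfl hj2 h, part_centre hY (Nat.le_add_right k w) hj2 h]

/-- The index depends only on the centre above the band. -/
theorem cIdx_centre {N N' : ℕ} (hY : Monotone Y) {θ : ℝ} {k : ℕ}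
    (h : part N Y k J = part N' Y k J) (d : ℕ) :
    cIdx N Y w Δ c lam θ J k d = cIdx N' Y w Δ c lam θ J k d := by
  unfold cIdx
  simp only [chains_centre hY _ h]

/-- The index is rarely large. -/
theorem prob_cIdx_le (hY : Monotone Y) (hwΔ : w ≤ Δ) {q θ : ℝ} (hq : 0 ≤ q) (hθ : 0 < θ)
    (hstep : ∀ k, ∑ j ∈ Finset.Ioc k J, expect (part N Y k j) (step N Y w Δ c lam k j) ≤ q)
    (n k : ℕ) :
    ∑ d ∈ (part N Y k J).divisors.filter (fun d => cIdx N Y w Δ c lam θ J k d = n),
      prob (part N Y k J) d ≤ (q / θ) ^ n := by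
  classical
  refine le_trans ?_ (prob_chains_ge_le hY hwΔ hq hθ hstep n k)
  refine sum_le_sum_of_subset_of_nonneg (fun d hd => ?_) fun d _ _ => prob_nonneg _ _
  obtain ⟨hd1, hd2⟩ := mem_filter.1 hd
  refine mem_filter.2 ⟨hd1, ?_⟩
  rcases Nat.eq_zero_or_pos n with rfl | hn
  · simp [chains]
  · exact hd2 ▸ Nat.findGreatest_of_ne_zero rfl (by
      show cIdx N Y w Δ c lam θ J k d ≠ 0
      omega)

/-- A list of jumps is one of the chains. -/
theorem exp_le_chains (hw : 0 < Δ) (d : ℕ) (g : ℕ → ℝ) :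
    ∀ (m : ℕ) (h : ℕ → ℕ) (a : ℕ),
      (∀ i < m, h (a + i) + Δ ≤ h (a + i + 1) ∧ h (a + i + 1) ≤ J ∧
        c * 2 ^ h (a + i + 1) ≤ Real.log (Nat.gcd d (part N Y (h (a + i)) (h (a + i + 1)))) ∧
        present (part N Y (h (a + i) + w) (h (a + i + 1))) d ≤ g (a + i + 1) - g (a + i)) →
      0 ≤ lam →
      Real.exp (-(lam * (g (a + m) - g a))) ≤ chains N Y w Δ c lam J m (h a) d := by
  intro m
  induction m with
  | zero => intro h a _ _; simp [chains]
  | succ m ih =>
    intro h a hstep hl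
    obtain ⟨h1, h2, h3, h4⟩ := hstep 0 (Nat.succ_pos m)
    simp only [Nat.add_zero] at h1 h2 h3 h4
    have hmem : h (a + 1) ∈ Finset.Ioc (h a) J := mem_Ioc.2 ⟨by omega, h2⟩
    refine le_trans ?_ (single_le_sum (f := fun j => step N Y w Δ c lam (h a) j d *
      chains N Y w Δ c lam J m j d) (fun j _ => mul_nonneg (step_nonneg _ j d)
        (chains_nonneg m j d)) hmem)
    have hrec := ih h (a + 1) (fun i hi => by
      have := hstep (i + 1) (by omega)
      rwa [show a + (i + 1) = a + 1 + i by omega] at this) hl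
    rw [show a + (m + 1) = a + 1 + m by omega]
    calc Real.exp (-(lam * (g (a + 1 + m) - g a)))
        = Real.exp (-(lam * (g (a + 1) - g a))) *
            Real.exp (-(lam * (g (a + 1 + m) - g (a + 1)))) := by
          rw [← Real.exp_add]; ring_nf
      _ ≤ step N Y w Δ c lam (h a) (h (a + 1)) d * chains N Y w Δ c lam J m (h (a + 1)) d := by
          refine mul_le_mul ?_ hrec (Real.exp_pos _).le (step_nonneg _ _ _)
          rw [step, if_pos ⟨h1, h3⟩]
          exact Real.exp_le_exp.2 (neg_le_neg (mul_le_mul_of_nonneg_left h4 hl))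

/-- Active bands force the index. -/
theorem le_cIdx (hΔ : 0 < Δ) {θ κ : ℝ} (hl : 0 ≤ lam) (hθκ : θ ≤ Real.exp (-(lam * κ)))
    (hθ : 0 ≤ θ) (d : ℕ) (h : ℕ → ℕ) (g : ℕ → ℝ) (M : ℕ)
    (hjump : ∀ i, i + 1 < M → h i + Δ ≤ h (i + 1) ∧ h (i + 1) ≤ J ∧
      c * 2 ^ h (i + 1) ≤ Real.log (Nat.gcd d (part N Y (h i) (h (i + 1)))) ∧
      present (part N Y (h i + w) (h (i + 1))) d ≤ g (i + 1) - g i) :
    ∀ i m, 0 < m → i + m < M → g (i + m) - g i ≤ κ * m → m ≤ cIdx N Y w Δ c lam θ J (h i) d := by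
  intro i m hm him hg
  have hgrow : ∀ l, i + l < M → h i + l ≤ h (i + l) := by
    intro l
    induction l with
    | zero => exact fun _ => le_rfl
    | succ l ih =>
      intro hl'
      have := (hjump (i + l) (by omega)).1
      have := ih (by omega)
      rw [show i + (l + 1) = i + l + 1 from rfl]
      omega
  refine Nat.le_findGreatest ?_ ?_
  · have h1 := hgrow m him
    have h2 := (hjump (i + m - 1) (by omega)).2.1
    rw [Nat.sub_add_cancel (by omega : 1 ≤ i + m)] at h2
    omega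
  refine le_trans ?_ (exp_le_chains hΔ d g m h i (fun l hl' => hjump (i + l) (by omega)) hl)
  calc θ ^ m ≤ Real.exp (-(lam * κ)) ^ m := pow_le_pow_left₀ hθ hθκ m
    _ ≤ _ := by
        rw [← Real.exp_nat_mul]
        exact Real.exp_le_exp.2 (by nlinarith [mul_le_mul_of_nonneg_left hg hl])

end Vale.Agent.P028.Full.Level
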