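import Mathlib

/-!
Chains of jumps of a random deficiency are rare as long as little mass is present in the gaps.

A deficiency of `N` is a divisor `d`, with probability `φ (N / d) / N`, and the primes are cut into
bands `(Y i, Y (i + 1)]`. A jump from the band `i` to the band `j` asks for `log d` to be of size
`2 ^ j` on `(Y i, Y j]`; it is weighted by `exp (-λ s)`, `s` being the sum of `1 / p` over the primes
without deficiency in the gap `(Y (i + w), Y j]`. The weights of the chains of `n` jumps have mean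
at most `q ^ n`, `q = O (1 / λ)` once `Δ` is large: no bound on the mass of the primes is used.
-/

noncomputable section

namespace Vale.Agent.P028.Full.Level

open Finset

/-- The probability of a deficiency. -/
def prob (N d : ℕ) : ℝ := (Nat.totient (N / d) : ℝ) / N

/-- The mean over the deficiencies. -/
def expect (N : ℕ) (f : ℕ → ℝ) : ℝ := ∑ d ∈ N.divisors, prob N d * f d

/-- The mass of the primes of `M` without deficiency. -/
def present (M d : ℕ) : ℝ := ∑ p ∈ M.primeFactors.filter (fun p => ¬ p ∣ d), (1 : ℝ) / p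

/-- The part of `N` at the primes in `(Y i, Y j]`. -/
def part (N : ℕ) (Y : ℕ → ℕ) (i j : ℕ) : ℕ :=
  ∏ p ∈ N.primeFactors.filter (fun p => Y i < p ∧ p ≤ Y j), p ^ N.factorization p

/-- The weight of a jump. -/
def step (N : ℕ) (Y : ℕ → ℕ) (w Δ : ℕ) (c lam : ℝ) (i j d : ℕ) : ℝ :=
  if i + Δ ≤ j ∧ c * 2 ^ j ≤ Real.log (Nat.gcd d (part N Y i j))
  then Real.exp (-(lam * present (part N Y (i + w) j) d)) else 0

/-- The weight of the chains of `n` jumps from `k`. -/
def chains (N : ℕ) (Y : ℕ → ℕ) (w Δ : ℕ) (c lam : ℝ) (J : ℕ) : ℕ → ℕ → ℕ → ℝ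
  | 0, _, _ => 1
  | n + 1, k, d => ∑ j ∈ Finset.Ioc k J, step N Y w Δ c lam k j d * chains N Y w Δ c lam J n j d

theorem prob_nonneg (N d : ℕ) : 0 ≤ prob N d := by unfold prob; positivity

theorem expect_mono (N : ℕ) {f g : ℕ → ℝ} (h : ∀ d ∈ N.divisors, f d ≤ g d) :
    expect N f ≤ expect N g :=
  sum_le_sum fun d hd => mul_le_mul_of_nonneg_left (h d hd) (prob_nonneg N d)

theorem expect_nonneg (N : ℕ) {f : ℕ → ℝ} (h : ∀ d ∈ N.divisors, 0 ≤ f d) : 0 ≤ expect N f :=
  sum_nonneg fun d hd => mul_nonneg (prob_nonneg N d) (h d hd)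

theorem expect_add (N : ℕ) (f g : ℕ → ℝ) :
    expect N (fun d => f d + g d) = expect N f + expect N g := by
  simp only [expect, mul_add, sum_add_distrib]

theorem expect_sum {ι : Type*} (N : ℕ) (s : Finset ι) (f : ι → ℕ → ℝ) :
    expect N (fun d => ∑ i ∈ s, f i d) = ∑ i ∈ s, expect N (f i) := by
  simp only [expect, mul_sum]
  exact sum_comm

theorem expect_mul_const (N : ℕ) (f : ℕ → ℝ) (a : ℝ) :
    expect N (fun d => f d * a) = expect N f * a := by
  simp only [expect, sum_mul, mul_assoc]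

theorem expect_one {N : ℕ} (hN : 0 < N) : expect N (fun _ => 1) = 1 := by
  simp only [expect, prob, mul_one, ← sum_div]
  rw [← Nat.cast_sum, Nat.sum_div_divisors N Nat.totient, Nat.sum_totient]
  exact div_self (Nat.cast_ne_zero.2 hN.ne')

theorem expect_congr (N : ℕ) {f g : ℕ → ℝ} (h : ∀ d ∈ N.divisors, f d = g d) :
    expect N f = expect N g :=
  sum_congr rfl fun d hd => by rw [h d hd]

/-- Independence. -/
theorem expect_mul {A B : ℕ} (hA : 0 < A) (hB : 0 < B) (hAB : A.Coprime B) (F G : ℕ → ℝ) :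
    expect (A * B) (fun d => F (Nat.gcd d A) * G (Nat.gcd d B)) = expect A F * expect B G := by
  have hgcd : ∀ a b, a ∣ A → b ∣ B → Nat.gcd (a * b) A = a ∧ Nat.gcd (a * b) B = b :=
    fun a b ha hb =>
      ⟨by rw [Nat.Coprime.gcd_mul_right_cancel a ((hAB.symm.coprime_dvd_left hb)),
          Nat.gcd_eq_left ha],
        by rw [Nat.Coprime.gcd_mul_left_cancel b ((hAB.coprime_dvd_left ha)),
          Nat.gcd_eq_left hb]⟩
  rw [expect, expect, expect, sum_mul_sum, ← sum_product']
  refine (sum_nbij' (fun ab : ℕ × ℕ => ab.1 * ab.2) (fun d => (Nat.gcd d A, Nat.gcd d B))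
    ?_ ?_ ?_ ?_ ?_).symm
  · intro ab hab
    obtain ⟨h1, h2⟩ := mem_product.1 hab
    exact Nat.mem_divisors.2 ⟨Nat.mul_dvd_mul (Nat.dvd_of_mem_divisors h1)
      (Nat.dvd_of_mem_divisors h2), (Nat.mul_pos hA hB).ne'⟩
  · exact fun d _ => mem_product.2 ⟨Nat.mem_divisors.2 ⟨Nat.gcd_dvd_right _ _, hA.ne'⟩,
      Nat.mem_divisors.2 ⟨Nat.gcd_dvd_right _ _, hB.ne'⟩⟩
  · intro ab hab
    obtain ⟨h1, h2⟩ := mem_product.1 hab
    obtain ⟨e1, e2⟩ := hgcd _ _ (Nat.dvd_of_mem_divisors h1) (Nat.dvd_of_mem_divisors h2)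
    exact Prod.ext e1 e2
  · intro d hd
    show Nat.gcd d A * Nat.gcd d B = d
    rw [← Nat.Coprime.gcd_mul d hAB, Nat.gcd_eq_left (Nat.dvd_of_mem_divisors hd)]
  · intro ab hab
    obtain ⟨h1, h2⟩ := mem_product.1 hab
    have ha := Nat.dvd_of_mem_divisors h1
    have hb := Nat.dvd_of_mem_divisors h2
    obtain ⟨e1, e2⟩ := hgcd _ _ ha hb
    simp only [e1, e2, prob]
    rw [← Nat.div_mul_div_comm ha hb, Nat.totient_mul
      ((hAB.coprime_dvd_left (Nat.div_dvd_of_dvd ha)).coprime_dvd_right (Nat.div_dvd_of_dvd hb))]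
    push_cast
    ring

theorem expect_left {A B : ℕ} (hA : 0 < A) (hB : 0 < B) (hAB : A.Coprime B) (F : ℕ → ℝ) :
    expect (A * B) (fun d => F (Nat.gcd d A)) = expect A F := by
  have := expect_mul hA hB hAB F (fun _ => 1)
  simp only [mul_one, expect_one hB] at this
  exact this

theorem expect_right {A B : ℕ} (hA : 0 < A) (hB : 0 < B) (hAB : A.Coprime B) (G : ℕ → ℝ) :
    expect (A * B) (fun d => G (Nat.gcd d B)) = expect B G := by
  have := expect_mul hA hB hAB (fun _ => 1) G
  simp only [one_mul, expect_one hA] at this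
  exact this

theorem present_nonneg (M d : ℕ) : 0 ≤ present M d := by unfold present; positivity

theorem present_congr {M M' : ℕ} (hM : M ∣ M') (d : ℕ) :
    present M (Nat.gcd d M') = present M d := by
  refine sum_congr (filter_congr fun p hp => ?_) fun _ _ => rfl
  rw [Nat.dvd_gcd_iff, and_iff_left ((Nat.dvd_of_mem_primeFactors hp).trans hM)]

theorem present_mul {A B : ℕ} (hAB : A.Coprime B) (d : ℕ) :
    present (A * B) d = present A d + present B d := by
  rw [present, present, present, hAB.primeFactors_mul, filter_union, sum_union]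
  exact Finset.disjoint_filter_filter hAB.disjoint_primeFactors

/-- The tilt. -/
def tilt (lam : ℝ) (M : ℕ) : ℝ := expect M (fun d => Real.exp (-(lam * present M d)))

/-- The tilted logarithm. -/
def tiltLog (lam : ℝ) (M : ℕ) : ℝ :=
  expect M (fun d => Real.log d * Real.exp (-(lam * present M d)))

/-- The logarithm. -/
def meanLog (M : ℕ) : ℝ := expect M (fun d => Real.log d)

theorem log_gcd_mul {A B : ℕ} (hA : 0 < A) (hB : 0 < B) (hAB : A.Coprime B) (d : ℕ) :
    Real.log (Nat.gcd d (A * B)) = Real.log (Nat.gcd d A) + Real.log (Nat.gcd d B) := by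
  rw [hAB.gcd_mul d, Nat.cast_mul, Real.log_mul]
  · exact Nat.cast_ne_zero.2 (Nat.gcd_pos_of_pos_right d hA).ne'
  · exact Nat.cast_ne_zero.2 (Nat.gcd_pos_of_pos_right d hB).ne'

theorem tilt_mul (lam : ℝ) {A B : ℕ} (hA : 0 < A) (hB : 0 < B) (hAB : A.Coprime B) :
    tilt lam (A * B) = tilt lam A * tilt lam B := by
  rw [tilt, tilt, tilt, ← expect_mul hA hB hAB]
  refine expect_congr _ fun d _ => ?_
  rw [present_congr dvd_rfl, present_congr dvd_rfl, present_mul hAB, mul_add, neg_add, Real.exp_add]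

theorem tilt_nonneg (lam : ℝ) (M : ℕ) : 0 ≤ tilt lam M :=
  expect_nonneg M fun _ _ => (Real.exp_pos _).le

theorem tilt_le_one {lam : ℝ} (hl : 0 ≤ lam) {M : ℕ} (hM : 0 < M) : tilt lam M ≤ 1 := by
  refine (expect_mono M fun d _ => ?_).trans_eq (expect_one hM)
  exact Real.exp_le_one_iff.2 (neg_nonpos.2 (mul_nonneg hl (present_nonneg _ _)))

theorem tiltLog_mul (lam : ℝ) {A B : ℕ} (hA : 0 < A) (hB : 0 < B) (hAB : A.Coprime B) :
    tiltLog lam (A * B) = tiltLog lam A * tilt lam B + tilt lam A * tiltLog lam B := by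
  rw [tiltLog, tiltLog, tiltLog, tilt, tilt, ← expect_mul hA hB hAB, ← expect_mul hA hB hAB,
    ← expect_add]
  refine expect_congr _ fun d hd => ?_
  rw [present_congr dvd_rfl, present_congr dvd_rfl, present_mul hAB, mul_add, neg_add, Real.exp_add]
  have := log_gcd_mul hA hB hAB d
  rw [Nat.gcd_eq_left (Nat.dvd_of_mem_divisors hd)] at this
  rw [this]
  ring

theorem tiltLog_nonneg (lam : ℝ) (M : ℕ) : 0 ≤ tiltLog lam M :=
  expect_nonneg M fun d _ => mul_nonneg (Real.log_natCast_nonneg d) (Real.exp_pos _).le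

theorem meanLog_mul {A B : ℕ} (hA : 0 < A) (hB : 0 < B) (hAB : A.Coprime B) :
    meanLog (A * B) = meanLog A + meanLog B := by
  rw [meanLog, meanLog, meanLog, ← expect_left hA hB hAB, ← expect_right hA hB hAB, ← expect_add]
  refine expect_congr _ fun d hd => ?_
  have := log_gcd_mul hA hB hAB d
  rwa [Nat.gcd_eq_left (Nat.dvd_of_mem_divisors hd)] at this

theorem prime_pow_bounds {lam : ℝ} (hl : 0 ≤ lam) {p e : ℕ} (hp : p.Prime) (hp4 : 4 ≤ p)
    (he : 0 < e) (hlp : lam ≤ p) :
    meanLog (p ^ e) ≤ 2 * Real.log p / p ∧ tiltLog lam (p ^ e) ≤ 2 * Real.log p / p ∧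
      lam / (4 * p) ≤ 1 - tilt lam (p ^ e) := by
  have hp4' : (4 : ℝ) ≤ p := by exact_mod_cast hp4
  have hp0 : (0 : ℝ) < p := by linarith
  have hN : 0 < p ^ e := pow_pos hp.pos e
  have hprob : ∀ i ≤ e, prob (p ^ e) (p ^ i) ≤ (1 / (p : ℝ)) ^ i := by
    intro i hi
    rw [prob, Nat.pow_div hi hp.pos]
    calc (Nat.totient (p ^ (e - i)) : ℝ) / (p ^ e : ℕ)
        ≤ (p ^ (e - i) : ℕ) / ((p ^ e : ℕ) : ℝ) := by gcongr; exact_mod_cast Nat.totient_le _
      _ = _ := by
          push_cast
          rw [div_pow, one_pow, div_eq_div_iff (by positivity) (by positivity), one_mul, ← pow_add,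
            Nat.sub_add_cancel hi]
  have hmean : meanLog (p ^ e) ≤ 2 * Real.log p / p := by
    rw [meanLog, expect, Nat.divisors_prime_pow hp, sum_map]
    simp only [Function.Embedding.coeFn_mk]
    rw [sum_range_succ']
    simp only [pow_zero, Nat.cast_one, Real.log_one, mul_zero, add_zero, Nat.cast_pow,
      Real.log_pow]
    have hlog : 0 ≤ Real.log p := Real.log_natCast_nonneg p
    calc ∑ i ∈ range e, prob (p ^ e) (p ^ (i + 1)) * (((i + 1 : ℕ) : ℝ) * Real.log p)
        ≤ ∑ i ∈ range e, Real.log p / p * (2 / (p : ℝ)) ^ i := by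
          refine sum_le_sum fun i hi => ?_
          refine (mul_le_mul_of_nonneg_right (hprob _ (mem_range.1 hi))
            (by positivity)).trans ?_
          have h2 : ((i + 1 : ℕ) : ℝ) ≤ (2 : ℝ) ^ i := by
            exact_mod_cast (Nat.lt_two_pow_self (n := i))
          calc (1 / (p : ℝ)) ^ (i + 1) * (((i + 1 : ℕ) : ℝ) * Real.log p)
              ≤ (1 / (p : ℝ)) ^ (i + 1) * ((2 : ℝ) ^ i * Real.log p) := by gcongr
            _ = _ := by rw [pow_succ, div_pow, div_pow, one_pow]; field_simp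
      _ = Real.log p / p * ∑ i ∈ range e, (2 / (p : ℝ)) ^ i := by rw [mul_sum]
      _ ≤ Real.log p / p * 2 := by
          gcongr
          have hr1 : 2 / (p : ℝ) ≤ 1 / 2 := by rw [div_le_iff₀ hp0]; linarith
          rw [range_eq_Ico]
          refine (geom_sum_Ico_le_of_lt_one (by positivity) (by linarith)).trans ?_
          rw [pow_zero, div_le_iff₀ (by linarith)]
          linarith
      _ = _ := by ring
  refine ⟨hmean, le_trans (expect_mono _ fun d _ => mul_le_of_le_one_right
    (Real.log_natCast_nonneg d) (Real.exp_le_one_iff.2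
      (neg_nonpos.2 (mul_nonneg hl (present_nonneg _ _))))) hmean, ?_⟩
  have h1mem : 1 ∈ (p ^ e).divisors := Nat.one_mem_divisors.2 hN.ne'
  have hpres : present (p ^ e) 1 = 1 / (p : ℝ) := by
    rw [present, Nat.primeFactors_prime_pow he.ne' hp, filter_singleton,
      if_pos (by rw [Nat.dvd_one]; exact hp.one_lt.ne'), sum_singleton]
  have hge : prob (p ^ e) 1 * (1 - Real.exp (-(lam * present (p ^ e) 1))) ≤
      1 - tilt lam (p ^ e) := by
    conv_rhs => rw [← expect_one hN, tilt]
    simp only [expect, ← sum_sub_distrib]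
    rw [show ∑ d ∈ (p ^ e).divisors, (prob (p ^ e) d * 1 -
        prob (p ^ e) d * Real.exp (-(lam * present (p ^ e) d))) = ∑ d ∈ (p ^ e).divisors,
        prob (p ^ e) d * (1 - Real.exp (-(lam * present (p ^ e) d))) from
      sum_congr rfl fun d _ => by ring]
    exact single_le_sum (f := fun d => prob (p ^ e) d *
      (1 - Real.exp (-(lam * present (p ^ e) d)))) (fun d _ => mul_nonneg (prob_nonneg _ _) (sub_nonneg.2
      (Real.exp_le_one_iff.2 (neg_nonpos.2 (mul_nonneg hl (present_nonneg _ _)))))) h1mem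
  refine le_trans ?_ hge
  have hhalf : (1 / 2 : ℝ) ≤ prob (p ^ e) 1 := by
    rw [prob, Nat.div_one, le_div_iff₀ (by exact_mod_cast hN), Nat.totient_prime_pow hp he]
    push_cast [Nat.cast_sub hp.one_le]
    rw [show (p : ℝ) ^ e = (p : ℝ) ^ (e - 1) * p by rw [← pow_succ, Nat.sub_add_cancel he]]
    nlinarith [pow_pos hp0 (e - 1)]
  set z : ℝ := lam * present (p ^ e) 1 with hz
  have hz0 : 0 ≤ z := mul_nonneg hl (present_nonneg _ _)
  have hz1 : z ≤ 1 := by rw [hz, hpres, mul_one_div, div_le_one hp0]; exact hlp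
  have hexp : z / 2 ≤ 1 - Real.exp (-z) := by
    have h1 : Real.exp (-z) ≤ 1 / (1 + z) := by
      rw [Real.exp_neg, one_div]
      exact inv_anti₀ (by linarith) (by linarith [Real.add_one_le_exp z])
    have h2 : 1 / (1 + z) ≤ 1 - z / 2 := by
      rw [div_le_iff₀ (by linarith)]; nlinarith
    linarith
  calc lam / (4 * p) = 1 / 2 * (z / 2) := by rw [hz, hpres]; field_simp; ring
    _ ≤ _ := mul_le_mul hhalf hexp (by linarith) (prob_nonneg _ _)

/-- One band: the tilted logarithm is paid by the loss of the tilt. -/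
theorem tiltLog_le {lam X : ℝ} (hl : 4 ≤ lam) (hX : 0 ≤ X) (M : ℕ) (hM : 0 < M)
    (hp : ∀ p ∈ M.primeFactors, lam ≤ (p : ℝ) ∧ Real.log p ≤ X) :
    tiltLog lam M ≤ 8 * X / lam * (1 - tilt lam M) := by
  induction M using Nat.recOnPosPrimePosCoprime with
  | zero => simp at hM
  | one =>
    simp [tiltLog, tilt, expect, prob, present]
  | prime_pow p e hp' he =>
    obtain ⟨h1, h2⟩ := hp p (by rw [Nat.primeFactors_prime_pow he.ne' hp']; simp)
    obtain ⟨-, h3, h4⟩ := prime_pow_bounds (lam := lam) (by linarith) hp'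
      (by exact_mod_cast hl.trans h1) he h1
    have hl0 : 0 < lam := by linarith
    have hp0 : (0 : ℝ) < p := by exact_mod_cast hp'.pos
    refine h3.trans ((div_le_div_of_nonneg_right (by linarith : 2 * Real.log p ≤ 2 * X)
      hp0.le).trans ?_)
    calc 2 * X / p = 8 * X / lam * (lam / (4 * p)) := by field_simp; ring
      _ ≤ _ := mul_le_mul_of_nonneg_left h4 (by positivity)
  | coprime a b ha hb hab iha ihb =>
    have ha0 : 0 < a := by omega
    have hb0 : 0 < b := by omega
    rw [hab.primeFactors_mul] at hp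
    have ea := iha ha0 fun p h => hp p (mem_union_left _ h)
    have eb := ihb hb0 fun p h => hp p (mem_union_right _ h)
    rw [tiltLog_mul lam ha0 hb0 hab, tilt_mul lam ha0 hb0 hab]
    have hk : 0 ≤ 8 * X / lam := by positivity
    have a1 := tilt_le_one (lam := lam) (by linarith) ha0
    have b1 := tilt_le_one (lam := lam) (by linarith) hb0
    nlinarith [mul_le_mul_of_nonneg_right ea (tilt_nonneg lam b),
      mul_le_mul_of_nonneg_left eb (tilt_nonneg lam a),
      mul_nonneg hk (mul_nonneg (sub_nonneg.2 a1) (sub_nonneg.2 b1))]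

/-- The mean logarithm. -/
theorem meanLog_le {X : ℝ} (M : ℕ) (hM : 0 < M)
    (hp : ∀ p ∈ M.primeFactors, 4 ≤ p ∧ Real.log p ≤ X) :
    meanLog M ≤ 2 * X * ∑ p ∈ M.primeFactors, (1 : ℝ) / p := by
  induction M using Nat.recOnPosPrimePosCoprime with
  | zero => simp at hM
  | one => simp [meanLog, expect]
  | prime_pow p e hp' he =>
    obtain ⟨h1, h2⟩ := hp p (by rw [Nat.primeFactors_prime_pow he.ne' hp']; simp)
    refine (prime_pow_bounds (lam := 0) le_rfl hp' h1 he (Nat.cast_nonneg _)).1.trans ?_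
    rw [Nat.primeFactors_prime_pow he.ne' hp', sum_singleton, mul_one_div]
    gcongr
  | coprime a b ha hb hab iha ihb =>
    rw [hab.primeFactors_mul] at hp
    rw [meanLog_mul (by omega) (by omega) hab, hab.primeFactors_mul,
      sum_union hab.disjoint_primeFactors, mul_add]
    exact add_le_add (iha (by omega) fun p h => hp p (mem_union_left _ h))
      (ihb (by omega) fun p h => hp p (mem_union_right _ h))

theorem part_pos (N : ℕ) (Y : ℕ → ℕ) (i j : ℕ) : 0 < part N Y i j :=
  prod_pos fun _ hp => pow_pos (Nat.prime_of_mem_primeFactors (mem_filter.1 hp).1).pos _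

theorem mem_primeFactors_part {N : ℕ} {Y : ℕ → ℕ} {i j p : ℕ}
    (h : p ∈ (part N Y i j).primeFactors) : p ∈ N.primeFactors ∧ Y i < p ∧ p ≤ Y j := by
  have hp := Nat.prime_of_mem_primeFactors h
  obtain ⟨q, hq, hdvd⟩ :=
    (Nat.prime_iff.1 hp).exists_mem_finset_dvd (Nat.dvd_of_mem_primeFactors h)
  obtain ⟨hq1, hq2⟩ := mem_filter.1 hq
  rw [(Nat.prime_dvd_prime_iff_eq hp (Nat.prime_of_mem_primeFactors hq1)).1
    (hp.dvd_of_dvd_pow hdvd)]
  exact ⟨hq1, hq2⟩

theorem part_self (N : ℕ) (Y : ℕ → ℕ) (i : ℕ) : part N Y i i = 1 :=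
  prod_eq_one fun _ hp => absurd (mem_filter.1 hp).2 (fun h => absurd h.1 (not_lt.2 h.2))

theorem part_split (N : ℕ) {Y : ℕ → ℕ} (hY : Monotone Y) {i j l : ℕ} (hij : i ≤ j) (hjl : j ≤ l) :
    part N Y i j * part N Y j l = part N Y i l := by
  rw [part, part, part, ← prod_union]
  · refine prod_congr ?_ fun _ _ => rfl
    ext p
    simp only [mem_union, mem_filter]
    have h1 := hY hij
    have h2 := hY hjl
    constructor
    · rintro (⟨h, h3, h4⟩ | ⟨h, h3, h4⟩)
      · exact ⟨h, h3, h4.trans h2⟩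
      · exact ⟨h, h1.trans_lt h3, h4⟩
    · rintro ⟨h, h3, h4⟩
      rcases le_or_gt p (Y j) with h5 | h5
      · exact Or.inl ⟨h, h3, h5⟩
      · exact Or.inr ⟨h, h5, h4⟩
  · exact disjoint_filter.2 fun p _ h1 h2 => absurd h1.2 (not_le.2 h2.1)

theorem part_coprime (N : ℕ) (Y : ℕ → ℕ) (i j l : ℕ) :
    (part N Y i j).Coprime (part N Y j l) :=
  Nat.coprime_of_dvd fun _ hp h1 h2 => absurd
    (mem_primeFactors_part (Nat.mem_primeFactors.2 ⟨hp, h1, (part_pos N Y i j).ne'⟩)).2.2
    (not_le.2 (mem_primeFactors_part (Nat.mem_primeFactors.2 ⟨hp, h2, (part_pos N Y j l).ne'⟩)).2.1)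

theorem part_dvd_part (N : ℕ) {Y : ℕ → ℕ} (hY : Monotone Y) {i i' j' j : ℕ} (h1 : i ≤ i')
    (h2 : i' ≤ j') (h3 : j' ≤ j) : part N Y i' j' ∣ part N Y i j := by
  rw [← part_split N hY h1 (h2.trans h3), ← part_split N hY h2 h3]
  exact (dvd_mul_right _ _).trans (dvd_mul_left _ _)

variable {N : ℕ} {Y : ℕ → ℕ} {w Δ : ℕ} {c lam C B : ℝ} {J : ℕ}

theorem step_nonneg (i j d : ℕ) : 0 ≤ step N Y w Δ c lam i j d := by
  unfold step; split_ifs
  · exact (Real.exp_pos _).le
  · exact le_rfl

theorem chains_nonneg (n : ℕ) : ∀ k d, 0 ≤ chains N Y w Δ c lam J n k d := by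
  induction n with
  | zero => exact fun _ _ => zero_le_one
  | succ n ih => exact fun k d => sum_nonneg fun j _ => mul_nonneg (step_nonneg k j d) (ih j d)

theorem step_congr (hY : Monotone Y) (hwΔ : w ≤ Δ) {i i' j j' : ℕ} (h1 : i' ≤ i) (h2 : i ≤ j)
    (h3 : j ≤ j') (d : ℕ) :
    step N Y w Δ c lam i j (Nat.gcd d (part N Y i' j')) = step N Y w Δ c lam i j d := by
  unfold step
  rw [Nat.gcd_assoc, Nat.gcd_eq_right (part_dvd_part N hY h1 h2 h3)]
  by_cases h : i + Δ ≤ j
  · rw [present_congr (part_dvd_part N hY (by omega) (by omega) h3)]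
  · simp [h]

theorem chains_congr (hY : Monotone Y) (hwΔ : w ≤ Δ) (n : ℕ) :
    ∀ {k k' : ℕ}, k' ≤ k → ∀ d, chains N Y w Δ c lam J n k (Nat.gcd d (part N Y k' J)) =
      chains N Y w Δ c lam J n k d := by
  induction n with
  | zero => exact fun _ _ => rfl
  | succ n ih =>
    intro k k' hk d
    simp only [chains]
    refine sum_congr rfl fun j hj => ?_
    obtain ⟨hj1, hj2⟩ := mem_Ioc.1 hj
    rw [step_congr hY hwΔ hk hj1.le hj2, ih (hk.trans hj1.le)]

/-- All jumps from one band. -/
theorem sum_step_le (hY : Monotone Y) (hwΔ : w ≤ Δ) (hc : 0 < c) (hl : 4 ≤ lam) (hC : 0 ≤ C)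
    (hlo : lam ≤ Y 0) (hlog : ∀ j, Real.log (Y j) ≤ C * 2 ^ j)
    (hmass : ∀ k, ∑ p ∈ (part N Y k (k + w)).primeFactors, (1 : ℝ) / p ≤ B) (hB : 0 ≤ B) (k J : ℕ) :
    ∑ j ∈ Finset.Ioc k J, expect (part N Y k j) (step N Y w Δ c lam k j) ≤
      (16 * C / lam + 4 * C * B * 2 ^ w / 2 ^ Δ) / c := by
  have hl0 : 0 < lam := by linarith
  have hlogp : ∀ i j, ∀ p ∈ (part N Y i j).primeFactors,
      lam ≤ (p : ℝ) ∧ Real.log p ≤ C * 2 ^ j := by
    intro i j p hp
    obtain ⟨hp1, hp2, hp3⟩ := mem_primeFactors_part hp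
    have hp0 : (0 : ℝ) < p := by exact_mod_cast (Nat.prime_of_mem_primeFactors hp1).pos
    exact ⟨hlo.trans (by exact_mod_cast ((hY (Nat.zero_le i)).trans hp2.le)),
      (Real.log_le_log hp0 (by exact_mod_cast hp3)).trans (hlog j)⟩
  set g : ℕ → ℕ := fun j => part N Y (k + w) j with hg
  set A : ℝ := 16 * C / lam with hA
  have hA0 : 0 ≤ A := by positivity
  -- the gaps, by the potential
  have hpot : ∀ m, k + w ≤ m → ∑ j ∈ Finset.Ioc (k + w) m, tiltLog lam (g j) / 2 ^ j +
      tiltLog lam (g m) / 2 ^ m + A * tilt lam (g m) ≤ A := by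
    intro m hm
    induction m, hm using Nat.le_induction with
    | base => simp [hg, part_self, tiltLog, tilt, expect, prob, present]
    | succ m hm ih =>
      set b := part N Y m (m + 1) with hb
      have hgm : g (m + 1) = g m * b := (part_split N hY hm (Nat.le_succ m)).symm
      have hgpos : 0 < g m := part_pos _ _ _ _
      have hbpos : 0 < b := part_pos _ _ _ _
      have hcop : (g m).Coprime b := part_coprime _ _ _ _ _
      have hband := tiltLog_le hl (show 0 ≤ C * 2 ^ (m + 1) by positivity) b hbpos (hlogp _ _)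
      rw [sum_Ioc_succ_top hm, hgm, tiltLog_mul lam hgpos hbpos hcop, tilt_mul lam hgpos hbpos hcop]
      have hb1 := tilt_le_one (lam := lam) hl0.le hbpos
      have hG0 := tilt_nonneg lam (g m)
      have hL0 := tiltLog_nonneg lam (g m)
      set L := tiltLog lam (g m)
      set G := tilt lam (g m)
      set Lb := tiltLog lam b
      set gb := tilt lam b
      have h2 : (L * gb + G * Lb) / 2 ^ (m + 1) + (L * gb + G * Lb) / 2 ^ (m + 1) ≤
          L / 2 ^ m + A * G * (1 - gb) :=
        calc _ = (L * gb + G * Lb) / 2 ^ m := by rw [pow_succ]; field_simp; ring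
          _ ≤ (L + G * (8 * (C * 2 ^ (m + 1)) / lam * (1 - gb))) / 2 ^ m := by
              refine div_le_div_of_nonneg_right ?_ (by positivity)
              exact add_le_add (mul_le_of_le_one_right hL0 hb1)
                (mul_le_mul_of_nonneg_left hband hG0)
          _ = _ := by rw [hA, pow_succ]; field_simp; ring
      linarith
  -- one jump
  have hone : ∀ j ∈ Finset.Ioc k J, expect (part N Y k j) (step N Y w Δ c lam k j) ≤
      if k + Δ ≤ j then (meanLog (part N Y k (k + w)) + tiltLog lam (g j)) / 2 ^ j / c else 0 := by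
    intro j _
    by_cases hj : k + Δ ≤ j
    · rw [if_pos hj]
      set win := part N Y k (k + w) with hwin
      have hwpos : 0 < win := part_pos _ _ _ _
      have hgpos : 0 < g j := part_pos _ _ _ _
      have hcop : win.Coprime (g j) := part_coprime _ _ _ _ _
      have he : part N Y k j = win * g j := (part_split N hY (by omega) (by omega)).symm
      rw [meanLog, tiltLog, ← expect_left hwpos hgpos hcop, ← expect_right hwpos hgpos hcop,
        ← expect_add, div_div, div_eq_mul_inv, ← expect_mul_const, he]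
      refine expect_mono _ fun d _ => ?_
      rw [present_congr dvd_rfl, ← div_eq_mul_inv, le_div_iff₀ (by positivity)]
      have h1 : 0 ≤ Real.log ((Nat.gcd d win : ℕ) : ℝ) := Real.log_natCast_nonneg _
      have h2 : 0 ≤ Real.log ((Nat.gcd d (g j) : ℕ) : ℝ) := Real.log_natCast_nonneg _
      unfold step
      split_ifs with h
      · have hE := Real.exp_pos (-(lam * present (g j) d))
        have hE1 : Real.exp (-(lam * present (g j) d)) ≤ 1 :=
          Real.exp_le_one_iff.2 (neg_nonpos.2 (mul_nonneg hl0.le (present_nonneg _ _)))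
        have hle := h.2
        rw [he, log_gcd_mul hwpos hgpos hcop] at hle
        change Real.exp (-(lam * present (g j) d)) * _ ≤ _
        nlinarith [mul_le_mul_of_nonneg_left hle hE.le, mul_le_mul_of_nonneg_left hE1 h1]
      · have := (Real.exp_pos (-(lam * present (g j) d))).le
        rw [zero_mul]
        positivity
    · rw [if_neg hj]
      refine le_of_eq (sum_eq_zero fun d _ => ?_)
      simp [step, hj]
  -- sum up
  set win := part N Y k (k + w)
  have hL0 : meanLog win ≤ 2 * (C * 2 ^ (k + w)) * B := by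
    refine (meanLog_le win (part_pos _ _ _ _) fun p hp => ?_).trans
      (mul_le_mul_of_nonneg_left (hmass k) (by positivity))
    exact ⟨by exact_mod_cast hl.trans (hlogp _ _ p hp).1, (hlogp _ _ p hp).2⟩
  have hwin0 : 0 ≤ meanLog win := expect_nonneg _ fun d _ => Real.log_natCast_nonneg d
  have hgeo : ∀ m, k + Δ ≤ m → ∑ j ∈ Finset.Icc (k + Δ) m, (1 : ℝ) / 2 ^ j + 1 / 2 ^ m ≤
      2 / 2 ^ (k + Δ) := by
    intro m hm
    induction m, hm using Nat.le_induction with
    | base => rw [Icc_self, sum_singleton]; exact le_of_eq (by ring)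
    | succ m hm ih =>
      rw [sum_Icc_succ_top (by omega)]
      have : (1 : ℝ) / 2 ^ (m + 1) + 1 / 2 ^ (m + 1) = 1 / 2 ^ m := by rw [pow_succ]; field_simp; ring
      linarith
  have hwinsum : ∑ j ∈ Finset.Ioc k J, (if k + Δ ≤ j then meanLog win / 2 ^ j / c else 0) ≤
      4 * C * B * 2 ^ w / 2 ^ Δ / c := by
    rw [← sum_filter, ← sum_div]
    gcongr
    calc ∑ j ∈ (Finset.Ioc k J).filter (fun j => k + Δ ≤ j), meanLog win / 2 ^ j
        ≤ ∑ j ∈ Finset.Icc (k + Δ) (max J (k + Δ)), meanLog win / 2 ^ j :=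
          sum_le_sum_of_subset_of_nonneg (fun j hj => by
            simp only [mem_filter, mem_Ioc] at hj
            exact mem_Icc.2 ⟨hj.2, hj.1.2.trans (le_max_left _ _)⟩) fun j _ _ => by positivity
      _ = meanLog win * ∑ j ∈ Finset.Icc (k + Δ) (max J (k + Δ)), (1 : ℝ) / 2 ^ j := by
          rw [mul_sum]; exact sum_congr rfl fun j _ => by ring
      _ ≤ 2 * (C * 2 ^ (k + w)) * B * (2 / 2 ^ (k + Δ)) := by
          refine mul_le_mul hL0 ?_ (sum_nonneg fun j _ => by positivity) (by positivity)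
          have := hgeo (max J (k + Δ)) (le_max_right _ _)
          have : (0 : ℝ) ≤ 1 / 2 ^ max J (k + Δ) := by positivity
          linarith
      _ = _ := by rw [pow_add, pow_add]; field_simp; ring
  have hgapsum : ∑ j ∈ Finset.Ioc k J, (if k + Δ ≤ j then tiltLog lam (g j) / 2 ^ j / c else 0) ≤
      A / c := by
    rw [← sum_filter, ← sum_div]
    gcongr
    refine le_trans (sum_le_sum_of_subset_of_nonneg (t := Finset.Icc (k + w) (max J (k + w)))
      (fun j hj => ?_) fun j _ _ => div_nonneg (tiltLog_nonneg _ _) (by positivity)) ?_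
    · simp only [mem_filter, mem_Ioc] at hj
      exact mem_Icc.2 ⟨by omega, hj.1.2.trans (le_max_left _ _)⟩
    have h := hpot (max J (k + w)) (le_max_right _ _)
    rw [← Finset.sum_Ioc_add_eq_sum_Icc (le_max_right J (k + w))]
    have h0 : tiltLog lam (g (k + w)) = 0 := by
      simp [hg, part_self, tiltLog, expect, prob, present]
    have h1 : 0 ≤ tiltLog lam (g (max J (k + w))) / 2 ^ max J (k + w) :=
      div_nonneg (tiltLog_nonneg _ _) (by positivity)
    have h2 := mul_nonneg hA0 (tilt_nonneg lam (g (max J (k + w))))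
    rw [h0, zero_div, add_zero]
    linarith
  refine (sum_le_sum hone).trans (le_trans (le_of_eq ?_) ((add_le_add hgapsum hwinsum).trans_eq
    (by rw [hA]; ring)))
  rw [← sum_add_distrib]
  refine sum_congr rfl fun j _ => ?_
  split_ifs <;> ring

/-- The chains of `n` jumps have mean at most `q ^ n`. -/
theorem expect_chains_le (hY : Monotone Y) (hwΔ : w ≤ Δ) {q : ℝ} (hq : 0 ≤ q)
    (hstep : ∀ k, ∑ j ∈ Finset.Ioc k J, expect (part N Y k j) (step N Y w Δ c lam k j) ≤ q)
    (n : ℕ) : ∀ k, expect (part N Y k J) (chains N Y w Δ c lam J n k) ≤ q ^ n := by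
  induction n with
  | zero =>
    intro k
    rw [pow_zero]
    exact (expect_congr _ fun d _ => rfl).trans_le (expect_one (part_pos N Y k J)).le
  | succ n ih =>
    intro k
    simp only [chains]
    rw [expect_sum, pow_succ']
    refine le_trans ?_ (mul_le_mul_of_nonneg_right (hstep k) (pow_nonneg hq n))
    rw [sum_mul]
    refine sum_le_sum fun j hj => ?_
    obtain ⟨hj1, hj2⟩ := mem_Ioc.1 hj
    have he := part_split N hY hj1.le hj2
    calc expect (part N Y k J) (fun d =>
          step N Y w Δ c lam k j d * chains N Y w Δ c lam J n j d)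
        = expect (part N Y k j) (step N Y w Δ c lam k j) *
            expect (part N Y j J) (chains N Y w Δ c lam J n j) := by
          rw [← expect_mul (part_pos _ _ _ _) (part_pos _ _ _ _) (part_coprime _ _ _ _ _), he]
          refine expect_congr _ fun d _ => ?_
          rw [step_congr hY hwΔ le_rfl hj1.le le_rfl, chains_congr hY hwΔ n le_rfl]
      _ ≤ _ := mul_le_mul_of_nonneg_left (ih j) (expect_nonneg _ fun d _ => step_nonneg k j d)

open Classical in
/-- Heavy chains are rare. -/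
theorem prob_chains_ge_le (hY : Monotone Y) (hwΔ : w ≤ Δ) {q θ : ℝ} (hq : 0 ≤ q) (hθ : 0 < θ)
    (hstep : ∀ k, ∑ j ∈ Finset.Ioc k J, expect (part N Y k j) (step N Y w Δ c lam k j) ≤ q)
    (n k : ℕ) :
    ∑ d ∈ (part N Y k J).divisors.filter (fun d => θ ^ n ≤ chains N Y w Δ c lam J n k d),
      prob (part N Y k J) d ≤ (q / θ) ^ n := by
  rw [div_pow, le_div_iff₀ (pow_pos hθ n)]
  refine le_trans ?_ (expect_chains_le hY hwΔ hq hstep n k)
  rw [sum_mul]
  refine le_trans (sum_le_sum fun d hd =>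
    mul_le_mul_of_nonneg_left (mem_filter.1 hd).2 (prob_nonneg _ _)) ?_
  exact sum_le_sum_of_subset_of_nonneg (filter_subset _ _)
    fun d _ _ => mul_nonneg (prob_nonneg _ _) (chains_nonneg n k d)

end Vale.Agent.P028.Full.Level
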