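import Vale.Agent.P028.Full.Level

/-!
The level sum over vertices: the constants are chosen and the Cauchy charge is combined with the
bound for one vertex.

The bands are at the scale `a`, so that the first band can be chosen after the constants.
A vertex `v` has the centre `N v`, the deficiency `d v` and active bands `h v 0 < h v 1 < …` at
distances at least `Δ`, two consecutive ones being joined by a jump. The present mass leaves out the
windows of width `w` after the active bands.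
-/

noncomputable section

namespace Vale.Agent.P028.Full.Level

open Finset

/-- The present mass of `d` up to the band `h i`, without the windows after the active bands. -/
def gapMass (N : ℕ) (Y : ℕ → ℕ) (w : ℕ) (h : ℕ → ℕ) (M d : ℕ) (i : ℕ) : ℝ :=
  present (part N Y 0 (h 0)) d +
    ∑ l ∈ Finset.range (min i (M - 1)), present (part N Y (h l + w) (h (l + 1))) d

/-- The tilt of the band `h i` in the segment from `s i` to `e i`. -/
def levelWt (β : ℝ) (T : ℕ → ℝ) (s e : ℕ → ℕ) (i : ℕ) : ℝ :=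
  Real.exp (-(β * (T (s i) + (T (e i) - T i))))

theorem gapMass_mono (N : ℕ) (Y : ℕ → ℕ) (w : ℕ) (h : ℕ → ℕ) (M d : ℕ) :
    Monotone (gapMass N Y w h M d) := fun a b hab =>
  add_le_add le_rfl (sum_le_sum_of_subset_of_nonneg
    (range_subset_range.2 (by omega)) fun _ _ _ => present_nonneg _ _)

theorem gapMass_zero_nonneg (N : ℕ) (Y : ℕ → ℕ) (w : ℕ) (h : ℕ → ℕ) (M d : ℕ) :
    0 ≤ gapMass N Y w h M d 0 :=
  add_nonneg (present_nonneg _ _) (sum_nonneg fun _ _ => present_nonneg _ _)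

/-- The step bound is small for a large tilt and a large spacing. -/
theorem exists_step_small {c C B : ℝ} (hc : 0 < c) (w : ℕ) {ε : ℝ}
    (hε : 0 < ε) :
    ∃ (lam : ℝ) (Δ : ℕ), 4 ≤ lam ∧ w ≤ Δ ∧ 0 < Δ ∧
      (16 * C / lam + 4 * C * B * 2 ^ w / 2 ^ Δ) / c ≤ ε := by
  obtain ⟨Δ0, hΔ0⟩ := pow_unbounded_of_one_lt (8 * C * B * 2 ^ w / (ε * c)) (one_lt_two (α := ℝ))
  refine ⟨max 4 (32 * C / (ε * c)), max Δ0 w + 1, le_max_left _ _, by omega, by omega, ?_⟩
  have hεc : 0 < ε * c := mul_pos hε hc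
  set lam := max 4 (32 * C / (ε * c)) with hlam
  have hl0 : 0 < lam := lt_of_lt_of_le four_pos (le_max_left _ _)
  have h1 : 16 * C / lam ≤ ε * c / 2 := by
    rw [div_le_iff₀ hl0]
    have := (div_le_iff₀ hεc).1 (le_max_right 4 (32 * C / (ε * c)))
    rw [← hlam] at this
    linarith
  have h2 : 4 * C * B * 2 ^ w / 2 ^ (max Δ0 w + 1) ≤ ε * c / 2 := by
    rw [div_le_iff₀ (by positivity)]
    have h3 := (div_le_iff₀ hεc).1 hΔ0.le
    have h4 : (2 : ℝ) ^ Δ0 ≤ 2 ^ (max Δ0 w + 1) := pow_le_pow_right₀ one_le_two (by omega)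
    nlinarith
  rw [div_le_iff₀ hc]
  linarith

open Classical in
/-- The level sum. The families `cl k` are the cells of band `k` (the common part of the centre
above `Y k`), the fibres are given by the deficiency there. -/
theorem exists_levelSum_le {c C B β : ℝ} (hc : 0 < c) (hC : 0 ≤ C) (hB : 0 ≤ B) (hβ : 0 < β)
    (w : ℕ) :
    ∃ (lam : ℝ) (Δ : ℕ) (A : ℝ), w ≤ Δ ∧ 0 < Δ ∧ 0 ≤ A ∧
      ∀ (a : ℝ) (J : ℕ) (Y : ℕ → ℕ), 0 < a → Monotone Y → lam ≤ Y 0 →
        (∀ j, Real.log (Y j) ≤ a * C * 2 ^ j) →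
      ∀ (S : Finset ℕ) (N d : ℕ → ℕ) (F : ℕ → ℝ) (M : ℕ → ℕ) (h s e : ℕ → ℕ → ℕ),
        (∀ v ∈ S, 0 ≤ F v) →
        (∀ v ∈ S, ∀ k, ∑ p ∈ (part (N v) Y k (k + w)).primeFactors, (1 : ℝ) / p ≤ B) →
        (∀ v ∈ S, ∀ i, i + 1 < M v → h v i + Δ ≤ h v (i + 1) ∧ h v (i + 1) ≤ J ∧
          a * c * 2 ^ h v (i + 1) ≤
            Real.log (Nat.gcd (d v) (part (N v) Y (h v i) (h v (i + 1))))) →
        (∀ v ∈ S, ∀ i < M v, h v i ≤ J) →
        (∀ v ∈ S, ∀ i < M v, s v i ≤ i ∧ i ≤ e v i) →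
        (∀ v ∈ S, ∀ i < M v, ∀ j < M v, s v i < s v j → e v i ≤ s v j) →
        (∀ v ∈ S, ∀ i < M v, ∀ j < M v, s v i = s v j → e v i = e v j) →
        ∑ k ∈ Finset.range (J + 1), ∑ K ∈ S.image (fun v => part (N v) Y k J),
          (∑ b ∈ K.divisors, Real.sqrt (prob K b *
            ∑ v ∈ S.filter (fun v => part (N v) Y k J = K ∧ Nat.gcd (d v) K = b),
              ∑ i ∈ (Finset.range (M v)).filter (fun i => h v i = k),
                F v * levelWt β (gapMass (N v) Y w (h v) (M v) (d v)) (s v) (e v) i)) ^ 2 ≤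
          A * ∑ v ∈ S, F v := by
  obtain ⟨lam, Δ, hlam, hwΔ, hΔ, hq⟩ :=
    exists_step_small (C := C) (B := B) hc w (show (0 : ℝ) < 1 / 4 by norm_num)
  have hl0 : 0 < lam := by linarith
  -- `θ = 1 / 2`: the index has the rate `ρ = 1 / 2`
  set κ : ℝ := Real.log 2 / lam with hκ
  have hκ0 : 0 < κ := div_pos (Real.log_pos one_lt_two) hl0
  have hθκ : (1 / 2 : ℝ) ≤ Real.exp (-(lam * κ)) := by
    rw [hκ, mul_div_cancel₀ _ hl0.ne', Real.exp_neg, Real.exp_log two_pos, one_div]
  obtain ⟨A, hA, hA'⟩ := exists_vertex_le (ρ := 1 / 2) (by norm_num) (by norm_num) hκ0 hβ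
  refine ⟨lam, Δ, 2 * A, hwΔ, hΔ, by positivity, ?_⟩
  intro a J Y ha hY hlo hlog S N d F M h s e hF hmass hjump hJ hse hord heq
  set q : ℝ := 1 / 4 with hqdef
  set idx : ℕ → ℕ → ℕ → ℕ := fun n k x => cIdx n Y w Δ (a * c) lam (1 / 2) J k x with hidx
  set W : ℕ → ℕ → ℝ := fun v i =>
    F v * levelWt β (gapMass (N v) Y w (h v) (M v) (d v)) (s v) (e v) i with hW
  have hW0 : ∀ v ∈ S, ∀ i, 0 ≤ W v i := fun v hv i => mul_nonneg (hF v hv) (Real.exp_pos _).le
  set cen : ℕ → ℕ → ℕ := fun k v => part (N v) Y k J with hcen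
  set act : ℕ → ℕ → ℝ := fun k v =>
    ∑ i ∈ (Finset.range (M v)).filter (fun i => h v i = k), W v i with hact
  -- one cell
  have hcell : ∀ k, ∀ K ∈ S.image (cen k),
      (∑ b ∈ K.divisors, Real.sqrt (prob K b *
        ∑ v ∈ S.filter (fun v => cen k v = K ∧ Nat.gcd (d v) K = b), act k v)) ^ 2 ≤
      2 * ∑ v ∈ S.filter (fun v => cen k v = K), charge (1 / 2) (idx (N v) k (d v)) * act k v := by
    intro k K hK
    obtain ⟨u, hu, rfl⟩ := mem_image.1 hK
    have hstep : ∀ l, ∑ j ∈ Finset.Ioc l J,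
        expect (part (N u) Y l j) (step (N u) Y w Δ (a * c) lam l j) ≤ q := fun l =>
      (sum_step_le hY hwΔ (mul_pos ha hc) hlam (mul_nonneg ha.le hC) hlo hlog (hmass u hu) hB l
        J).trans (le_trans (le_of_eq (by field_simp)) hq)
    have hrare : ∀ n, ∑ b ∈ (cen k u).divisors.filter (fun b => idx (N u) k b = n),
        prob (cen k u) b ≤ (1 / 2 : ℝ) ^ n := fun n => by
      refine (prob_cIdx_le hY hwΔ (by norm_num) (by norm_num : (0 : ℝ) < 1 / 2) hstep n k).trans ?_
      rw [hqdef]; norm_num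
    refine (sq_sum_sqrt_le _ _ _ (fun b => idx (N u) k b) (by norm_num)
      (fun b _ => prob_nonneg _ b)
      (fun b _ => sum_nonneg fun v hv => sum_nonneg fun i _ => hW0 v (mem_filter.1 hv).1 i)
      hrare).trans (mul_le_mul_of_nonneg_left ?_ zero_le_two)
    rw [← sum_fiberwise_of_maps_to (s := S.filter (fun v => cen k v = cen k u))
      (t := (cen k u).divisors) (g := fun v => Nat.gcd (d v) (cen k u))
      (fun v _ => Nat.mem_divisors.2 ⟨Nat.gcd_dvd_right _ _, (part_pos _ _ _ _).ne'⟩)]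
    refine le_of_eq (sum_congr rfl fun b _ => ?_)
    rw [mul_sum, filter_filter]
    refine sum_congr rfl fun v hv => ?_
    obtain ⟨-, hvK, hvb⟩ := mem_filter.1 hv
    rw [← hvb]
    congr 2
    show cIdx (N u) Y w Δ (a * c) lam (1 / 2) J k (Nat.gcd (d v) (part (N u) Y k J)) =
      cIdx (N v) Y w Δ (a * c) lam (1 / 2) J k (d v)
    rw [cIdx_congr hY hwΔ]
    exact cIdx_centre hY hvK.symm (d v)
  -- one vertex
  have hvert : ∀ v ∈ S,
      ∑ k ∈ Finset.range (J + 1), charge (1 / 2) (idx (N v) k (d v)) * act k v ≤ A * F v := by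
    intro v hv
    set T := gapMass (N v) Y w (h v) (M v) (d v) with hT
    have hidxv : ∀ i m, 0 < m → i + m < M v → T (i + m) - T i ≤ κ * m →
        m ≤ idx (N v) (h v i) (d v) :=
      le_cIdx hΔ hl0.le hθκ (by norm_num) (d v) (h v) T (M v) fun i hi => by
        obtain ⟨h1, h2, h3⟩ := hjump v hv i hi
        refine ⟨h1, h2, h3, le_of_eq ?_⟩
        rw [hT, gapMass, gapMass, Nat.min_eq_left (by omega), Nat.min_eq_left (by omega),
          sum_range_succ]
        ring
    calc ∑ k ∈ Finset.range (J + 1), charge (1 / 2) (idx (N v) k (d v)) * act k v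
        = F v * ∑ i ∈ Finset.range (M v),
            charge (1 / 2) (idx (N v) (h v i) (d v)) * levelWt β T (s v) (e v) i := by
          rw [mul_sum, ← sum_fiberwise_of_maps_to (g := h v) (t := Finset.range (J + 1))
            (fun i hi => mem_range.2 (Nat.lt_succ_of_le (hJ v hv i (mem_range.1 hi))))]
          refine sum_congr rfl fun k _ => ?_
          simp only [hact, hW, mul_sum]
          refine sum_congr rfl fun i hi => ?_
          rw [(mem_filter.1 hi).2]
          ring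
      _ ≤ _ := by
          rw [mul_comm A]
          exact mul_le_mul_of_nonneg_left (hA' (M v) T (gapMass_mono _ _ _ _ _ _)
            (gapMass_zero_nonneg _ _ _ _ _ _) (fun i => idx (N v) (h v i) (d v)) (s v) (e v)
            hidxv (hse v hv) (hord v hv) (heq v hv)) (hF v hv)
  calc ∑ k ∈ Finset.range (J + 1), ∑ K ∈ S.image (cen k),
        (∑ b ∈ K.divisors, Real.sqrt (prob K b *
          ∑ v ∈ S.filter (fun v => cen k v = K ∧ Nat.gcd (d v) K = b), act k v)) ^ 2
      ≤ ∑ k ∈ Finset.range (J + 1), 2 * ∑ v ∈ S, charge (1 / 2) (idx (N v) k (d v)) * act k v := by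
        refine sum_le_sum fun k _ => (sum_le_sum (hcell k)).trans_eq ?_
        rw [← mul_sum, sum_fiberwise_of_maps_to (fun v hv => mem_image_of_mem _ hv)]
    _ ≤ _ := by
        rw [← mul_sum, sum_comm, mul_assoc, mul_sum S F A]
        exact mul_le_mul_of_nonneg_left (sum_le_sum hvert) zero_le_two

end Vale.Agent.P028.Full.Level
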