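import Mathlib

/-!
A sum over the steps of a finite filtration of a small set, met with an exponential tail.

On a finite weighted set the maps `π i` refine as `i` grows. For a weight `U` with values in
`[0, 1]` and nonnegative `H i` whose tails have bounded conditional exponential moments, the sum
over `i` of the mass of `U * H i`, weighted by a positive power of the conditional mass of `U`, is
bounded by the mass of `U`. The proof stops the filtration when the conditional mass first enters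
a dyadic level.
-/

noncomputable section

namespace Vale.Agent.P028.Full.Linear

open Finset

variable {α β : Type*} [DecidableEq β]

/-- The members of `Ω` with the value of `x` under `g`. -/
def fibre (Ω : Finset α) (g : α → β) (x : α) : Finset α := Ω.filter (fun y => g y = g x)

/-- The conditional mean of `f` given `g`. -/
def cond (Ω : Finset α) (w : α → ℝ) (g : α → β) (f : α → ℝ) (x : α) : ℝ :=
  (∑ y ∈ fibre Ω g x, w y * f y) / ∑ y ∈ fibre Ω g x, w y

variable {Ω : Finset α} {w : α → ℝ}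

theorem cond_congr (g : α → β) (f : α → ℝ) {x y : α} (h : g x = g y) :
    cond Ω w g f x = cond Ω w g f y := by
  simp only [cond, fibre, h]

theorem cond_nonneg (hw : ∀ x ∈ Ω, 0 ≤ w x) (g : α → β) {f : α → ℝ} (hf : ∀ x ∈ Ω, 0 ≤ f x)
    (x : α) : 0 ≤ cond Ω w g f x :=
  div_nonneg (sum_nonneg fun y hy => mul_nonneg (hw y (mem_filter.1 hy).1) (hf y (mem_filter.1 hy).1))
    (sum_nonneg fun y hy => hw y (mem_filter.1 hy).1)

theorem cond_le (hw : ∀ x ∈ Ω, 0 ≤ w x) (g : α → β) {f : α → ℝ} {c : ℝ} (hc : 0 ≤ c) {x : α}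
    (hf : ∑ y ∈ fibre Ω g x, w y * f y ≤ c * ∑ y ∈ fibre Ω g x, w y) : cond Ω w g f x ≤ c := by
  rcases eq_or_lt_of_le (sum_nonneg fun y (hy : y ∈ fibre Ω g x) => hw y (mem_filter.1 hy).1) with
    h | h
  · rw [cond, ← h, div_zero]; exact hc
  · rw [cond, div_le_iff₀ h]; exact hf

theorem cond_le_one (hw : ∀ x ∈ Ω, 0 ≤ w x) (g : α → β) {f : α → ℝ} (hf : ∀ x ∈ Ω, f x ≤ 1)
    (x : α) : cond Ω w g f x ≤ 1 :=
  cond_le hw g zero_le_one (by
    rw [one_mul]
    exact sum_le_sum fun y hy =>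
      mul_le_of_le_one_right (hw y (mem_filter.1 hy).1) (hf y (mem_filter.1 hy).1))

theorem cond_mul_sum (hw : ∀ x ∈ Ω, 0 ≤ w x) (g : α → β) (f : α → ℝ) (x : α) :
    cond Ω w g f x * ∑ y ∈ fibre Ω g x, w y = ∑ y ∈ fibre Ω g x, w y * f y := by
  rcases eq_or_ne (∑ y ∈ fibre Ω g x, w y) 0 with h | h
  · have hz : ∀ y ∈ fibre Ω g x, w y = 0 :=
      (sum_eq_zero_iff_of_nonneg fun y hy => hw y (mem_filter.1 hy).1).1 h
    rw [h, mul_zero]
    exact (sum_eq_zero fun y hy => by rw [hz y hy, zero_mul]).symm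
  · rw [cond, div_mul_cancel₀ _ h]

/-- Averaging: a product with a function of `g` may be replaced by the conditional mean. -/
theorem sum_cond_mul (hw : ∀ x ∈ Ω, 0 ≤ w x) (g : α → β) (f h : α → ℝ)
    (hh : ∀ x ∈ Ω, ∀ y ∈ Ω, g x = g y → h x = h y) :
    ∑ x ∈ Ω, w x * (cond Ω w g f x * h x) = ∑ x ∈ Ω, w x * (f x * h x) := by
  classical
  rw [← sum_fiberwise_of_maps_to (g := g) (fun x hx => mem_image_of_mem g hx),
    ← sum_fiberwise_of_maps_to (g := g) (fun x hx => mem_image_of_mem g hx)]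
  refine sum_congr rfl fun b hb => ?_
  obtain ⟨x, hx, rfl⟩ := mem_image.1 hb
  have hh' : ∀ y ∈ fibre Ω g x, h y = h x := fun y hy =>
    hh y (mem_filter.1 hy).1 x hx (mem_filter.1 hy).2
  calc ∑ y ∈ fibre Ω g x, w y * (cond Ω w g f y * h y)
      = h x * (cond Ω w g f x * ∑ y ∈ fibre Ω g x, w y) := by
        rw [mul_sum, mul_sum]
        refine sum_congr rfl fun y hy => ?_
        rw [hh' y hy, cond_congr g f (mem_filter.1 hy).2]; ring
    _ = ∑ y ∈ fibre Ω g x, w y * (f y * h y) := by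
        rw [cond_mul_sum hw, mul_sum]
        exact sum_congr rfl fun y hy => by rw [hh' y hy]; ring

/-- Where the tail is large, the exponential pays. -/
theorem tail_mul_le {U N t : ℝ} (hU : 0 ≤ U) (hU1 : U ≤ 1) (hN : 0 ≤ N) (ht : 0 < t) (l : ℕ) :
    U * N ≤ t⁻¹ * (2 * ((l : ℝ) + 1) * U + (2⁻¹ : ℝ) ^ l * Real.exp (t * N)) := by
  have hp : 0 ≤ (2⁻¹ : ℝ) ^ l * Real.exp (t * N) := by positivity
  suffices h : t * N * U ≤ 2 * ((l : ℝ) + 1) * U + (2⁻¹ : ℝ) ^ l * Real.exp (t * N) by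
    calc U * N = t⁻¹ * (t * N * U) := by field_simp
      _ ≤ _ := mul_le_mul_of_nonneg_left h (inv_nonneg.2 ht.le)
  by_cases hx : t * N ≤ 2 * ((l : ℝ) + 1)
  · nlinarith
  refine (mul_le_of_le_one_right (mul_nonneg ht.le hN) hU1).trans (le_trans ?_
    (le_add_of_nonneg_left (by positivity)))
  have h1 : t * N ≤ Real.exp (t * N / 2) := by
    have := Real.quadratic_le_exp_of_nonneg (show 0 ≤ t * N / 2 by positivity)
    nlinarith [sq_nonneg (t * N / 2 - 1)]
  have h2 : (2 : ℝ) ^ l ≤ Real.exp (t * N / 2) :=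
    calc (2 : ℝ) ^ l ≤ Real.exp 1 ^ l := by gcongr; linarith [Real.add_one_le_exp (1 : ℝ)]
      _ = Real.exp l := by rw [← Real.exp_nat_mul, mul_one]
      _ ≤ _ := Real.exp_le_exp.2 (by linarith)
  rw [inv_pow, ← div_eq_inv_mul, le_div_iff₀ (by positivity)]
  calc t * N * 2 ^ l ≤ Real.exp (t * N / 2) * Real.exp (t * N / 2) :=
        mul_le_mul h1 h2 (by positivity) (Real.exp_pos _).le
    _ = Real.exp (t * N) := by rw [← Real.exp_add]; ring_nf

theorem summable_level {θ : ℝ} (hθ : 0 < θ) (a b : ℝ) :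
    Summable fun l : ℕ => (a * l + b) * ((2⁻¹ : ℝ) ^ θ) ^ l := by
  have h1 : ‖(2⁻¹ : ℝ) ^ θ‖ < 1 := by
    rw [Real.norm_eq_abs, abs_of_pos (Real.rpow_pos_of_pos (by norm_num) _)]
    exact Real.rpow_lt_one (by norm_num) (by norm_num) hθ
  have h2 := summable_pow_mul_geometric_of_norm_lt_one 1 h1
  have h3 := summable_pow_mul_geometric_of_norm_lt_one 0 h1
  exact ((h2.mul_left a).add (h3.mul_left b)).congr fun l => by ring

open Classical in
/-- The filtration lemma. -/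
theorem exists_linear_le {θ t C : ℝ} (hθ : 0 < θ) (ht : 0 < t) (hC : 0 ≤ C) :
    ∃ A : ℝ, 0 ≤ A ∧ ∀ (Ω : Finset α) (w U : α → ℝ) (H : ℕ → α → ℝ) (π : ℕ → α → β) (K : ℕ),
      (∀ x ∈ Ω, 0 ≤ w x) → (∀ x ∈ Ω, 0 ≤ U x ∧ U x ≤ 1) → (∀ i, ∀ x ∈ Ω, 0 ≤ H i x) →
      (∀ i j, i ≤ j → ∀ x ∈ Ω, ∀ y ∈ Ω, π j x = π j y → π i x = π i y) →
      (∀ i < K, ∀ x ∈ Ω,
        ∑ y ∈ fibre Ω (π i) x, w y * Real.exp (t * ∑ j ∈ Finset.Ico i K, H j y) ≤
          C * ∑ y ∈ fibre Ω (π i) x, w y) →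
      ∑ i ∈ Finset.range K, ∑ x ∈ Ω, w x * (U x * H i x * cond Ω w (π i) U x ^ θ) ≤
        A * ∑ x ∈ Ω, w x * U x := by
  set r : ℝ := (2⁻¹ : ℝ) ^ θ with hr
  have hr0 : 0 ≤ r := Real.rpow_nonneg (by norm_num) _
  refine ⟨∑' l : ℕ, (2 / t * l + (2 + 2 * C) / t) * r ^ l, tsum_nonneg fun l => by positivity,
    fun Ω w U H π K hw hU hH href hexp => ?_⟩
  set p : ℕ → α → ℝ := fun i x => cond Ω w (π i) U x with hp
  have hp0 : ∀ i x, 0 ≤ p i x := fun i x => cond_nonneg hw _ (fun y hy => (hU y hy).1) x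
  have hp1 : ∀ i x, p i x ≤ 1 := fun i x => cond_le_one hw _ (fun y hy => (hU y hy).2) x
  set lev : ℕ → ℕ → α → Prop :=
    fun l i x => (2⁻¹ : ℝ) ^ (l + 1) < p i x ∧ p i x ≤ (2⁻¹ : ℝ) ^ l with hlev
  have hex : ∀ i x, 0 < p i x → ∃ l : ℕ, lev l i x := by
    intro i x hx
    obtain ⟨l, hl, hl'⟩ := exists_nat_pow_near_of_lt_one hx (hp1 i x)
      (show (0 : ℝ) < 2⁻¹ by norm_num) (by norm_num)
    exact ⟨l, hl, hl'⟩
  -- choose a bound for the levels which occur
  set L : ℕ := ((Finset.range K ×ˢ Ω).sup fun ix =>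
    if h : 0 < p ix.1 ix.2 then Nat.find (hex ix.1 ix.2 h) else 0) + 1 with hL
  have hp0θ : ∀ i x, p i x = 0 → p i x ^ θ = 0 := fun i x h => by rw [h, Real.zero_rpow hθ.ne']
  -- each term is bounded by the sum over the levels
  have hpt : ∀ i ∈ Finset.range K, ∀ x ∈ Ω, p i x ^ θ ≤
      ∑ l ∈ Finset.range L, if lev l i x then r ^ l else 0 := by
    intro i hi x hx
    have hnn : ∀ l : ℕ, 0 ≤ if lev l i x then r ^ l else 0 := fun l => by
      split_ifs
      · positivity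
      · exact le_rfl
    rcases eq_or_lt_of_le (hp0 i x) with h | h
    · rw [hp0θ i x h.symm]; exact sum_nonneg fun l _ => hnn l
    have hmem : Nat.find (hex i x h) ∈ Finset.range L := by
      refine Finset.mem_range.2 (Nat.lt_succ_of_le ?_)
      have := Finset.le_sup (f := fun ix : ℕ × α =>
        if h : 0 < p ix.1 ix.2 then Nat.find (hex ix.1 ix.2 h) else 0)
        (Finset.mem_product.2 (⟨hi, hx⟩ : (i, x).1 ∈ Finset.range K ∧ (i, x).2 ∈ Ω))
      simpa only [dif_pos h] using this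
    refine le_trans ?_ (single_le_sum (fun l _ => hnn l) hmem)
    obtain ⟨-, hl⟩ := Nat.find_spec (hex i x h)
    rw [if_pos (Nat.find_spec (hex i x h))]
    refine (Real.rpow_le_rpow (hp0 i x) hl hθ.le).trans_eq ?_
    rw [hr, ← Real.rpow_natCast, ← Real.rpow_mul (by norm_num), mul_comm,
      Real.rpow_mul (by norm_num), Real.rpow_natCast]
  -- one level
  have hone : ∀ l : ℕ, ∑ i ∈ Finset.range K, ∑ x ∈ Ω,
      w x * (U x * H i x * if lev l i x then r ^ l else 0) ≤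
        (2 / t * l + (2 + 2 * C) / t) * r ^ l * ∑ x ∈ Ω, w x * U x := by
    intro l
    -- `x` first enters the level at step `i`
    set fst : ℕ → α → Prop := fun i x => lev l i x ∧ ∀ j < i, ¬ lev l j x with hfst
    have hmeas : ∀ i, ∀ x ∈ Ω, ∀ y ∈ Ω, π i x = π i y → (fst i x ↔ fst i y) := by
      intro i x hx y hy h
      have hlevEq : ∀ j ≤ i, (lev l j x ↔ lev l j y) := fun j hj => by
        simp only [hlev, hp, cond_congr (π j) U (href j i hj x hx y hy h)]
      exact and_congr (hlevEq i le_rfl)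
        ⟨fun h' j hj => fun h'' => h' j hj ((hlevEq j hj.le).2 h''),
          fun h' j hj => fun h'' => h' j hj ((hlevEq j hj.le).1 h'')⟩
    set one : ℕ → α → ℝ := fun i x => if fst i x then 1 else 0 with hone'
    have hone0 : ∀ i x, 0 ≤ one i x := fun i x => by
      simp only [hone']; split_ifs <;> norm_num
    have hsum1 : ∀ x, ∑ i ∈ Finset.range K, one i x ≤ 1 := fun x => by
      simp only [hone']
      rw [sum_boole]
      refine Nat.cast_le_one.2 (card_le_one.2 fun i hi j hj => ?_)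
      obtain ⟨-, hi1, hi2⟩ := mem_filter.1 hi
      obtain ⟨-, hj1, hj2⟩ := mem_filter.1 hj
      exact le_antisymm (le_of_not_gt fun h => hi2 j h hj1) (le_of_not_gt fun h => hj2 i h hi1)
    -- after the entry only the tail matters
    have htail : ∀ x ∈ Ω, ∑ i ∈ Finset.range K, H i x * (if lev l i x then (1 : ℝ) else 0) ≤
        ∑ i ∈ Finset.range K, one i x * ∑ j ∈ Finset.Ico i K, H j x := by
      intro x hx
      by_cases h : ∃ i < K, lev l i x
      · obtain ⟨hK, hi⟩ := Nat.find_spec h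
        have hmin : ∀ j < Nat.find h, ¬ lev l j x := fun j hj hl =>
          Nat.find_min h hj ⟨hj.trans hK, hl⟩
        refine le_trans ?_ (single_le_sum (fun i _ => mul_nonneg (hone0 i x)
          (sum_nonneg fun j _ => hH j x hx)) (Finset.mem_range.2 hK))
        rw [show one (Nat.find h) x = 1 from if_pos ⟨hi, hmin⟩, one_mul,
          ← sum_subset (s₁ := Finset.Ico (Nat.find h) K) (s₂ := Finset.range K)]
        · exact sum_le_sum fun j _ => by
            split_ifs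
            · rw [mul_one]
            · rw [mul_zero]; exact hH j x hx
        · exact fun j hj => Finset.mem_range.2 (Finset.mem_Ico.1 hj).2
        · intro j hj hj'
          rw [if_neg, mul_zero]
          refine hmin j (lt_of_not_ge fun hle => hj' (Finset.mem_Ico.2 ⟨hle, ?_⟩))
          exact Finset.mem_range.1 hj
      · refine le_trans (le_of_eq (sum_eq_zero fun i hi => ?_)) (sum_nonneg fun i _ =>
          mul_nonneg (hone0 i x) (sum_nonneg fun j _ => hH j x hx))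
        rw [if_neg fun hl => h ⟨i, Finset.mem_range.1 hi, hl⟩, mul_zero]
    -- the tail from the entry on, given the past
    set M : ℕ → α → ℝ :=
      fun i => cond Ω w (π i) fun x => Real.exp (t * ∑ j ∈ Finset.Ico i K, H j x) with hM
    have hstep : ∀ i ∈ Finset.range K,
        ∑ x ∈ Ω, w x * (U x * (∑ j ∈ Finset.Ico i K, H j x) * one i x) ≤
          (2 / t * l + (2 + 2 * C) / t) * ∑ x ∈ Ω, w x * (U x * one i x) := by
      intro i hi
      have hm : ∀ x ∈ Ω, ∀ y ∈ Ω, π i x = π i y → one i x = one i y := fun x hx y hy h => by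
        simp only [hone', hmeas i x hx y hy h]
      have hE : ∑ x ∈ Ω, w x * ((2⁻¹ : ℝ) ^ l * Real.exp (t * ∑ j ∈ Finset.Ico i K, H j x) *
          one i x) ≤ 2 * C * ∑ x ∈ Ω, w x * (U x * one i x) := by
        rw [← sum_cond_mul hw (π i) U (one i) hm, mul_sum]
        calc ∑ x ∈ Ω, w x * ((2⁻¹ : ℝ) ^ l * Real.exp (t * ∑ j ∈ Finset.Ico i K, H j x) * one i x)
            = (2⁻¹ : ℝ) ^ l * ∑ x ∈ Ω,
                w x * (Real.exp (t * ∑ j ∈ Finset.Ico i K, H j x) * one i x) := by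
              rw [mul_sum]; exact sum_congr rfl fun x _ => by ring
          _ = (2⁻¹ : ℝ) ^ l * ∑ x ∈ Ω, w x * (M i x * one i x) := by
              rw [← sum_cond_mul hw (π i) _ (one i) hm]
          _ ≤ _ := by
              rw [mul_sum]
              refine sum_le_sum fun x hx => ?_
              by_cases hf : fst i x
              · have hMC : M i x ≤ C := cond_le hw _ hC (hexp i (Finset.mem_range.1 hi) x hx)
                have hlo : (2⁻¹ : ℝ) ^ l * 2⁻¹ ≤ p i x := by rw [← pow_succ]; exact hf.1.1.le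
                have h2 : (2⁻¹ : ℝ) ^ l * M i x ≤ 2 * C * p i x := by
                  have hpw : (0 : ℝ) ≤ (2⁻¹ : ℝ) ^ l := by positivity
                  nlinarith
                have h0 : 0 ≤ w x * one i x := mul_nonneg (hw x hx) (hone0 i x)
                calc (2⁻¹ : ℝ) ^ l * (w x * (M i x * one i x))
                    = (2⁻¹ : ℝ) ^ l * M i x * (w x * one i x) := by ring
                  _ ≤ 2 * C * p i x * (w x * one i x) := mul_le_mul_of_nonneg_right h2 h0
                  _ = _ := by simp only [hp]; ring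
              · rw [show one i x = 0 from if_neg hf]; simp
      calc ∑ x ∈ Ω, w x * (U x * (∑ j ∈ Finset.Ico i K, H j x) * one i x)
          ≤ ∑ x ∈ Ω, w x * (t⁻¹ * (2 * ((l : ℝ) + 1) * U x +
              (2⁻¹ : ℝ) ^ l * Real.exp (t * ∑ j ∈ Finset.Ico i K, H j x)) * one i x) :=
            sum_le_sum fun x hx => mul_le_mul_of_nonneg_left (mul_le_mul_of_nonneg_right
              (tail_mul_le (hU x hx).1 (hU x hx).2 (sum_nonneg fun j _ => hH j x hx) ht l)
              (hone0 i x)) (hw x hx)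
        _ = t⁻¹ * (2 * ((l : ℝ) + 1)) * (∑ x ∈ Ω, w x * (U x * one i x)) + t⁻¹ *
              ∑ x ∈ Ω, w x * ((2⁻¹ : ℝ) ^ l * Real.exp (t * ∑ j ∈ Finset.Ico i K, H j x) *
                one i x) := by
            rw [mul_sum, mul_sum, ← sum_add_distrib]
            exact sum_congr rfl fun x _ => by ring
        _ ≤ t⁻¹ * (2 * ((l : ℝ) + 1)) * (∑ x ∈ Ω, w x * (U x * one i x)) +
              t⁻¹ * (2 * C * ∑ x ∈ Ω, w x * (U x * one i x)) := by
            have := mul_le_mul_of_nonneg_left hE (inv_nonneg.2 ht.le)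
            linarith
        _ = _ := by ring
    calc ∑ i ∈ Finset.range K, ∑ x ∈ Ω, w x * (U x * H i x * if lev l i x then r ^ l else 0)
        = r ^ l * ∑ x ∈ Ω, w x * U x *
            ∑ i ∈ Finset.range K, H i x * (if lev l i x then (1 : ℝ) else 0) := by
          rw [sum_comm, mul_sum]
          refine sum_congr rfl fun x _ => ?_
          rw [mul_sum, mul_sum]
          refine sum_congr rfl fun i _ => ?_
          split_ifs <;> ring
      _ ≤ r ^ l * ∑ x ∈ Ω, w x * U x *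
            ∑ i ∈ Finset.range K, one i x * ∑ j ∈ Finset.Ico i K, H j x :=
          mul_le_mul_of_nonneg_left (sum_le_sum fun x hx => mul_le_mul_of_nonneg_left (htail x hx)
            (mul_nonneg (hw x hx) (hU x hx).1)) (by positivity)
      _ = r ^ l * ∑ i ∈ Finset.range K,
            ∑ x ∈ Ω, w x * (U x * (∑ j ∈ Finset.Ico i K, H j x) * one i x) := by
          rw [sum_comm (s := Finset.range K)]
          congr 1
          refine sum_congr rfl fun x _ => ?_
          rw [mul_sum]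
          exact sum_congr rfl fun i _ => by ring
      _ ≤ r ^ l * ∑ i ∈ Finset.range K,
            (2 / t * l + (2 + 2 * C) / t) * ∑ x ∈ Ω, w x * (U x * one i x) :=
          mul_le_mul_of_nonneg_left (sum_le_sum hstep) (by positivity)
      _ ≤ _ := by
          rw [← mul_sum, ← mul_assoc, mul_comm (r ^ l), sum_comm]
          refine mul_le_mul_of_nonneg_left (sum_le_sum fun x hx => ?_) (by positivity)
          calc ∑ i ∈ Finset.range K, w x * (U x * one i x)
              = w x * U x * ∑ i ∈ Finset.range K, one i x := by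
                rw [mul_sum]; exact sum_congr rfl fun i _ => by ring
            _ ≤ w x * U x := mul_le_of_le_one_right (mul_nonneg (hw x hx) (hU x hx).1) (hsum1 x)
  calc ∑ i ∈ Finset.range K, ∑ x ∈ Ω, w x * (U x * H i x * cond Ω w (π i) U x ^ θ)
      ≤ ∑ i ∈ Finset.range K, ∑ x ∈ Ω, ∑ l ∈ Finset.range L,
          w x * (U x * H i x * if lev l i x then r ^ l else 0) :=
        sum_le_sum fun i hi => sum_le_sum fun x hx => by
          rw [← mul_sum, ← mul_sum]
          exact mul_le_mul_of_nonneg_left (mul_le_mul_of_nonneg_left (hpt i hi x hx)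
            (mul_nonneg (hU x hx).1 (hH i x hx))) (hw x hx)
    _ = ∑ l ∈ Finset.range L, ∑ i ∈ Finset.range K, ∑ x ∈ Ω,
          w x * (U x * H i x * if lev l i x then r ^ l else 0) := by
        simp only [sum_comm (s := Ω) (t := Finset.range L)]
        rw [sum_comm]
    _ ≤ ∑ l ∈ Finset.range L, (2 / t * l + (2 + 2 * C) / t) * r ^ l * ∑ x ∈ Ω, w x * U x :=
        sum_le_sum fun l _ => hone l
    _ ≤ _ := by
        rw [← sum_mul]
        exact mul_le_mul_of_nonneg_right ((summable_level hθ _ _).sum_le_tsum _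
          fun l _ => by positivity) (sum_nonneg fun x hx => mul_nonneg (hw x hx) (hU x hx).1)

/-- One step: the mean of `U * H` given `g` is at most a constant times `p ^ θ`. -/
theorem exists_cond_mul_le {θ t C : ℝ} (hθ : 0 < θ) (hθ1 : θ < 1) (ht : 0 < t) (hC : 0 ≤ C) :
    ∃ A : ℝ, 0 ≤ A ∧ ∀ (Ω : Finset α) (w U H : α → ℝ) (g : α → β) (x : α),
      (∀ y ∈ Ω, 0 ≤ w y) → (∀ y ∈ Ω, 0 ≤ U y ∧ U y ≤ 1) → (∀ y ∈ Ω, 0 ≤ H y) →
      ∑ y ∈ fibre Ω g x, w y * Real.exp (t * H y) ≤ C * ∑ y ∈ fibre Ω g x, w y →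
      cond Ω w g (fun y => U y * H y) x ≤ A * cond Ω w g U x ^ θ := by
  have hθ' : (0 : ℝ) < 1 - θ := by linarith
  set r : ℝ := (2⁻¹ : ℝ) ^ (1 - θ) with hr
  have hr0 : 0 ≤ r := Real.rpow_nonneg (by norm_num) _
  have hnn : ∀ l : ℕ, 0 ≤ (2 / t * l + (2 + 2 * C) / t) * r ^ l := fun l => by positivity
  refine ⟨∑' l : ℕ, (2 / t * l + (2 + 2 * C) / t) * r ^ l, tsum_nonneg hnn,
    fun Ω w U H g x hw hU hH hexp => ?_⟩
  set p : ℝ := cond Ω w g U x with hp
  have hp0 : 0 ≤ p := cond_nonneg hw g (fun y hy => (hU y hy).1) x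
  rcases eq_or_lt_of_le hp0 with h | h
  · rw [← h, Real.zero_rpow hθ.ne', mul_zero]
    refine cond_le hw g le_rfl (le_of_eq ?_)
    rw [zero_mul]
    refine sum_eq_zero fun y hy => ?_
    have hsum : ∑ z ∈ fibre Ω g x, w z * U z = 0 := by
      rw [← cond_mul_sum hw g U x, ← hp, ← h, zero_mul]
    have := (sum_eq_zero_iff_of_nonneg fun z hz =>
      mul_nonneg (hw z (mem_filter.1 hz).1) (hU z (mem_filter.1 hz).1).1).1 hsum y hy
    rw [← mul_assoc, this, zero_mul]
  obtain ⟨l, hl, hl'⟩ := exists_nat_pow_near_of_lt_one h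
    (cond_le_one hw g (fun y hy => (hU y hy).2) x) (show (0 : ℝ) < 2⁻¹ by norm_num) (by norm_num)
  have hmain : cond Ω w g (fun y => U y * H y) x ≤ (2 / t * l + (2 + 2 * C) / t) * p := by
    refine cond_le hw g (by positivity) ?_
    calc ∑ y ∈ fibre Ω g x, w y * (U y * H y)
        ≤ ∑ y ∈ fibre Ω g x, w y *
            (t⁻¹ * (2 * ((l : ℝ) + 1) * U y + (2⁻¹ : ℝ) ^ l * Real.exp (t * H y))) :=
          sum_le_sum fun y hy => mul_le_mul_of_nonneg_left (tail_mul_le (hU y (mem_filter.1 hy).1).1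
            (hU y (mem_filter.1 hy).1).2 (hH y (mem_filter.1 hy).1) ht l) (hw y (mem_filter.1 hy).1)
      _ = t⁻¹ * (2 * ((l : ℝ) + 1)) * (∑ y ∈ fibre Ω g x, w y * U y) +
            t⁻¹ * (2⁻¹ : ℝ) ^ l * ∑ y ∈ fibre Ω g x, w y * Real.exp (t * H y) := by
          rw [mul_sum, mul_sum, ← sum_add_distrib]
          exact sum_congr rfl fun y _ => by ring
      _ ≤ t⁻¹ * (2 * ((l : ℝ) + 1)) * (p * ∑ y ∈ fibre Ω g x, w y) +
            t⁻¹ * (2 * p) * (C * ∑ y ∈ fibre Ω g x, w y) := by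
          have hW : 0 ≤ ∑ y ∈ fibre Ω g x, w y :=
            sum_nonneg fun y hy => hw y (mem_filter.1 hy).1
          have h2 : (2⁻¹ : ℝ) ^ l ≤ 2 * p := by rw [pow_succ] at hl; linarith
          refine add_le_add (le_of_eq (by rw [hp, cond_mul_sum hw])) ?_
          refine (mul_le_mul_of_nonneg_left hexp (by positivity)).trans ?_
          exact mul_le_mul_of_nonneg_right (mul_le_mul_of_nonneg_left h2 (by positivity))
            (by positivity)
      _ = _ := by ring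
  refine hmain.trans ?_
  have hsplit : p = p ^ (1 - θ) * p ^ θ := by
    rw [← Real.rpow_add h, sub_add_cancel, Real.rpow_one]
  have hpow : p ^ (1 - θ) ≤ r ^ l := by
    refine (Real.rpow_le_rpow hp0 hl' hθ'.le).trans_eq ?_
    rw [hr, ← Real.rpow_natCast, ← Real.rpow_mul (by norm_num), mul_comm,
      Real.rpow_mul (by norm_num), Real.rpow_natCast]
  conv_lhs => rw [hsplit, ← mul_assoc]
  refine mul_le_mul_of_nonneg_right (le_trans ?_ ((summable_level hθ' _ _).le_tsum l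
    fun j _ => hnn j)) (Real.rpow_nonneg hp0 _)
  exact mul_le_mul_of_nonneg_left hpow (by positivity)

/-- The squares of the means are summable. -/
theorem exists_linear_sq_le {t C : ℝ} (ht : 0 < t) (hC : 0 ≤ C) :
    ∃ A : ℝ, 0 ≤ A ∧ ∀ (Ω : Finset α) (w U : α → ℝ) (H : ℕ → α → ℝ) (π : ℕ → α → β) (K : ℕ),
      (∀ x ∈ Ω, 0 ≤ w x) → (∀ x ∈ Ω, 0 ≤ U x ∧ U x ≤ 1) → (∀ i, ∀ x ∈ Ω, 0 ≤ H i x) →
      (∀ i j, i ≤ j → ∀ x ∈ Ω, ∀ y ∈ Ω, π j x = π j y → π i x = π i y) →
      (∀ i < K, ∀ x ∈ Ω,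
        ∑ y ∈ fibre Ω (π i) x, w y * Real.exp (t * ∑ j ∈ Finset.Ico i K, H j y) ≤
          C * ∑ y ∈ fibre Ω (π i) x, w y) →
      ∑ i ∈ Finset.range K, ∑ x ∈ Ω, w x * cond Ω w (π i) (fun y => U y * H i y) x ^ 2 ≤
        A * ∑ x ∈ Ω, w x * U x := by
  obtain ⟨A₁, hA₁, h1⟩ := exists_linear_le (α := α) (β := β) (θ := 1 / 2) (by norm_num) ht hC
  obtain ⟨A₂, hA₂, h2⟩ :=
    exists_cond_mul_le (α := α) (β := β) (θ := 1 / 2) (by norm_num) (by norm_num) ht hC
  refine ⟨A₂ * A₁, mul_nonneg hA₂ hA₁, fun Ω w U H π K hw hU hH href hexp => ?_⟩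
  calc ∑ i ∈ Finset.range K, ∑ x ∈ Ω, w x * cond Ω w (π i) (fun y => U y * H i y) x ^ 2
      = ∑ i ∈ Finset.range K, ∑ x ∈ Ω,
          w x * (U x * H i x * cond Ω w (π i) (fun y => U y * H i y) x) :=
        sum_congr rfl fun i _ => by
          simp only [sq]
          exact sum_cond_mul hw (π i) _ _ fun x _ y _ h => cond_congr (π i) _ h
    _ ≤ ∑ i ∈ Finset.range K, ∑ x ∈ Ω,
          A₂ * (w x * (U x * H i x * cond Ω w (π i) U x ^ (1 / 2 : ℝ))) := by
        refine sum_le_sum fun i hi => sum_le_sum fun x hx => ?_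
        have hexp1 : ∑ y ∈ fibre Ω (π i) x, w y * Real.exp (t * H i y) ≤
            C * ∑ y ∈ fibre Ω (π i) x, w y :=
          (sum_le_sum fun y hy => mul_le_mul_of_nonneg_left (Real.exp_le_exp.2
            (mul_le_mul_of_nonneg_left (single_le_sum (f := fun j => H j y)
              (fun j _ => hH j y (mem_filter.1 hy).1)
              (Finset.mem_Ico.2 ⟨le_rfl, Finset.mem_range.1 hi⟩)) ht.le))
            (hw y (mem_filter.1 hy).1)).trans (hexp i (Finset.mem_range.1 hi) x hx)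
        calc w x * (U x * H i x * cond Ω w (π i) (fun y => U y * H i y) x)
            ≤ w x * (U x * H i x * (A₂ * cond Ω w (π i) U x ^ (1 / 2 : ℝ))) :=
              mul_le_mul_of_nonneg_left (mul_le_mul_of_nonneg_left
                (h2 Ω w U (H i) (π i) x hw hU (hH i) hexp1)
                (mul_nonneg (hU x hx).1 (hH i x hx))) (hw x hx)
          _ = _ := by ring
    _ ≤ A₂ * A₁ * ∑ x ∈ Ω, w x * U x := by
        simp only [← mul_sum]
        rw [mul_assoc]
        exact mul_le_mul_of_nonneg_left (h1 Ω w U H π K hw hU hH href hexp) hA₂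

/-- Two small sets: the sum over the steps is at most the geometric mean of their masses. -/
theorem exists_linear_pair_le {t C : ℝ} (ht : 0 < t) (hC : 0 ≤ C) :
    ∃ A : ℝ, 0 ≤ A ∧ ∀ (Ω : Finset α) (w U U' : α → ℝ) (H H' : ℕ → α → ℝ) (π : ℕ → α → β)
      (K : ℕ),
      (∀ x ∈ Ω, 0 ≤ w x) → (∀ x ∈ Ω, 0 ≤ U x ∧ U x ≤ 1) → (∀ x ∈ Ω, 0 ≤ U' x ∧ U' x ≤ 1) →
      (∀ i, ∀ x ∈ Ω, 0 ≤ H i x) → (∀ i, ∀ x ∈ Ω, 0 ≤ H' i x) →
      (∀ i j, i ≤ j → ∀ x ∈ Ω, ∀ y ∈ Ω, π j x = π j y → π i x = π i y) →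
      (∀ i < K, ∀ x ∈ Ω,
        ∑ y ∈ fibre Ω (π i) x, w y * Real.exp (t * ∑ j ∈ Finset.Ico i K, H j y) ≤
          C * ∑ y ∈ fibre Ω (π i) x, w y) →
      (∀ i < K, ∀ x ∈ Ω,
        ∑ y ∈ fibre Ω (π i) x, w y * Real.exp (t * ∑ j ∈ Finset.Ico i K, H' j y) ≤
          C * ∑ y ∈ fibre Ω (π i) x, w y) →
      ∑ i ∈ Finset.range K, ∑ x ∈ Ω, w x * (cond Ω w (π i) (fun y => U y * H i y) x *
          cond Ω w (π i) (fun y => U' y * H' i y) x) ≤
        A * Real.sqrt ((∑ x ∈ Ω, w x * U x) * ∑ x ∈ Ω, w x * U' x) := by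
  obtain ⟨A, hA, h⟩ := exists_linear_sq_le (α := α) (β := β) ht hC
  refine ⟨A, hA, fun Ω w U U' H H' π K hw hU hU' hH hH' href hexp hexp' => ?_⟩
  have e1 := h Ω w U H π K hw hU hH href hexp
  have e2 := h Ω w U' H' π K hw hU' hH' href hexp'
  rw [← sum_product'] at e1 e2 ⊢
  have hsq : ∀ ix ∈ Finset.range K ×ˢ Ω, Real.sqrt (w ix.2) * Real.sqrt (w ix.2) = w ix.2 :=
    fun ix hix => Real.mul_self_sqrt (hw _ (mem_product.1 hix).2)
  refine (le_of_eq ?_).trans ((Real.sum_mul_le_sqrt_mul_sqrt (Finset.range K ×ˢ Ω)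
    (fun ix => Real.sqrt (w ix.2) * cond Ω w (π ix.1) (fun y => U y * H ix.1 y) ix.2)
    (fun ix => Real.sqrt (w ix.2) * cond Ω w (π ix.1) (fun y => U' y * H' ix.1 y) ix.2)).trans ?_)
  · exact sum_congr rfl fun ix hix => by rw [mul_mul_mul_comm, hsq ix hix]
  have hsum : ∀ q : ℕ × α → ℝ, ∑ ix ∈ Finset.range K ×ˢ Ω, (Real.sqrt (w ix.2) * q ix) ^ 2 =
      ∑ ix ∈ Finset.range K ×ˢ Ω, w ix.2 * q ix ^ 2 := fun q => sum_congr rfl fun ix hix => by
    rw [mul_pow, sq (Real.sqrt _), hsq ix hix]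
  rw [hsum, hsum]
  have hu : ∀ V : α → ℝ, (∀ x ∈ Ω, 0 ≤ V x ∧ V x ≤ 1) → 0 ≤ ∑ x ∈ Ω, w x * V x :=
    fun V hV => sum_nonneg fun x hx => mul_nonneg (hw x hx) (hV x hx).1
  calc Real.sqrt (∑ ix ∈ Finset.range K ×ˢ Ω,
          w ix.2 * cond Ω w (π ix.1) (fun y => U y * H ix.1 y) ix.2 ^ 2) *
        Real.sqrt (∑ ix ∈ Finset.range K ×ˢ Ω,
          w ix.2 * cond Ω w (π ix.1) (fun y => U' y * H' ix.1 y) ix.2 ^ 2)
      ≤ Real.sqrt (A * ∑ x ∈ Ω, w x * U x) * Real.sqrt (A * ∑ x ∈ Ω, w x * U' x) :=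
        mul_le_mul (Real.sqrt_le_sqrt e1) (Real.sqrt_le_sqrt e2) (Real.sqrt_nonneg _)
          (Real.sqrt_nonneg _)
    _ = _ := by
        rw [Real.sqrt_mul hA, Real.sqrt_mul hA, Real.sqrt_mul (hu U hU), mul_mul_mul_comm,
          Real.mul_self_sqrt hA]

end Vale.Agent.P028.Full.Linear
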