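import Vale.Agent.P028.Full.Pairs

/-!
The moment bound for the anatomy factors `pC * wCoin` of the pairs which lie in one cell above a
threshold: every power of them costs only a small power of the band of the threshold.  By Hölder this turns a
gain for the plain weights into a gain for the second moment.
-/

noncomputable section

namespace Vale.Agent.P028.Full

open Finset

/-- The sum of the powers `u` of the anatomy factor over the admissible coincidences. -/
def Ctx.facSum (C : Ctx) (u : ℕ) (q r : ℕ) : ℝ :=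
  ∑ n ∈ admN C.γ C.ψ C.classes q r, (pC C.classes q r * wCoin C.classes q r n) ^ u

open Classical in
/-- Pairs of level at most `x` in one cell above `Y_k`: a power of the factor costs
`Z_{k+1} ^ ε`. -/
theorem exists_facMoment_le :
    ∃ ξ0 : ℝ, 0 < ξ0 ∧ ∀ ξ : ℝ, 0 < ξ → ξ ≤ ξ0 → ∀ u : ℕ,
      ∃ M0 : ℕ, ∀ M : ℕ, M0 ≤ M → ∀ c K ε : ℝ, 0 < c → 0 < ε → ∃ B x1 : ℝ, 0 < x1 ∧
        ∀ C : Ctx, C.par = ⟨M, c⟩ → C.Ok ξ K → ∀ x : ℝ, 0 < x → x ≤ x1 →
          ∀ k : ℕ, bandOf x⁻¹ ≤ k →
            ∑ q ∈ C.S, ∑ r ∈ C.S.filter (fun r =>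
                r ≠ q ∧ dist2 C.ψ q r ≤ x ∧ SameCell C.k (C.par.thr k) q r),
              wt C.ψ q * wt C.ψ r * C.facSum u q r ≤
              B * x ^ (1 - 2 * ξ) * (bandZ (k + 1) : ℝ) ^ ε := by
  sorry

end Vale.Agent.P028.Full
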