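import Vale.Agent.P028.BilinearAux

/-!
Smooth numbers have a small sum of `a ^ (-s)`: Rankin's device.
-/

noncomputable section

namespace Vale.Agent.P028.Full

open Finset

/-- The Euler product over the primes up to `y`. -/
theorem sum_smooth_rpow_le {t : ℝ} (ht : 0 < t) (y : ℕ) (A : Finset ℕ)
    (hA : ∀ a ∈ A, 0 < a ∧ ∀ p ∈ a.primeFactors, p ≤ y) :
    ∑ a ∈ A, (a : ℝ) ^ (-t) ≤
      ∏ p ∈ (Finset.range (y + 1)).filter Nat.Prime, (1 - (p : ℝ) ^ (-t))⁻¹ := by
  set P := (Finset.range (y + 1)).filter Nat.Prime with hP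
  set M := A.sup id with hM
  set E : ℕ → ℕ → ℕ := fun a p => a.factorization p with hE
  have hPprime : ∀ p ∈ P, p.Prime := fun p hp => (Finset.mem_filter.1 hp).2
  have hgeo : ∀ p ∈ P, ∑ i ∈ Finset.range (M + 1), ((p : ℝ) ^ (-t)) ^ i ≤
      (1 - (p : ℝ) ^ (-t))⁻¹ := by
    intro p hp
    have h2 : (1 : ℝ) < p := by exact_mod_cast (hPprime p hp).one_lt
    have hu1 : (p : ℝ) ^ (-t) < 1 := Real.rpow_lt_one_of_one_lt_of_neg h2 (by linarith)
    rw [Finset.range_eq_Ico]
    exact (geom_sum_Ico_le_of_lt_one (Real.rpow_nonneg (Nat.cast_nonneg p) _) hu1).trans_eq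
      (by rw [pow_zero, one_div])
  have hprod : ∀ a ∈ A, (a : ℝ) ^ (-t) = ∏ p ∈ P, ((p : ℝ) ^ (-t)) ^ E a p := by
    intro a ha
    obtain ⟨ha0, has⟩ := hA a ha
    have hsub : a.primeFactors ⊆ P := fun p hp => Finset.mem_filter.2
      ⟨Finset.mem_range.2 (Nat.lt_succ_of_le (has p hp)), Nat.prime_of_mem_primeFactors hp⟩
    have e : a = ∏ p ∈ P, p ^ a.factorization p := by
      conv_lhs => rw [← Nat.prod_factorization_pow_eq_self ha0.ne']
      rw [Finsupp.prod, Nat.support_factorization]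
      refine Finset.prod_subset hsub fun p _ hp => ?_
      rw [Finsupp.notMem_support_iff.1 (by rwa [Nat.support_factorization]), pow_zero]
    conv_lhs => rw [e]
    push_cast
    rw [← Real.finsetProd_rpow _ _ fun p _ => by positivity]
    refine Finset.prod_congr rfl fun p _ => ?_
    rw [← Real.rpow_natCast, ← Real.rpow_natCast, ← Real.rpow_mul (Nat.cast_nonneg p),
      ← Real.rpow_mul (Nat.cast_nonneg p), mul_comm]
  calc ∑ a ∈ A, (a : ℝ) ^ (-t)
      = ∑ a ∈ A, ∏ x ∈ P.attach, ((x.1 : ℝ) ^ (-t)) ^ E a x.1 := by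
        refine Finset.sum_congr rfl fun a ha => ?_
        rw [hprod a ha, ← Finset.prod_attach]
    _ = ∑ f ∈ A.image (fun a => fun p (_ : p ∈ P) => E a p),
          ∏ x ∈ P.attach, ((x.1 : ℝ) ^ (-t)) ^ f x.1 x.2 := by
        rw [Finset.sum_image]
        intro a ha b hb hab
        refine Nat.eq_of_factorization_eq (hA a ha).1.ne' (hA b hb).1.ne' fun p => ?_
        by_cases hp : p ∈ P
        · exact congrFun (congrFun hab p) hp
        · have hz : ∀ c ∈ A, c.factorization p = 0 := fun c hc => by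
            by_contra h0
            have hm : p ∈ c.primeFactors := by
              rw [← Nat.support_factorization]; exact Finsupp.mem_support_iff.2 h0
            exact hp (Finset.mem_filter.2 ⟨Finset.mem_range.2
              (Nat.lt_succ_of_le ((hA c hc).2 p hm)), Nat.prime_of_mem_primeFactors hm⟩)
          rw [hz a ha, hz b hb]
    _ ≤ ∑ f ∈ P.pi (fun _ => Finset.range (M + 1)),
          ∏ x ∈ P.attach, ((x.1 : ℝ) ^ (-t)) ^ f x.1 x.2 := by
        refine Finset.sum_le_sum_of_subset_of_nonneg (fun f hf => ?_) fun f _ _ =>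
          Finset.prod_nonneg fun x _ => pow_nonneg (Real.rpow_nonneg (Nat.cast_nonneg _) _) _
        obtain ⟨a, ha, rfl⟩ := Finset.mem_image.1 hf
        refine Finset.mem_pi.2 fun p _ => Finset.mem_range.2 (Nat.lt_succ_of_le ?_)
        exact (Nat.factorization_lt p (hA a ha).1.ne').le.trans (Finset.le_sup (f := id) ha)
    _ = ∏ p ∈ P, ∑ i ∈ Finset.range (M + 1), ((p : ℝ) ^ (-t)) ^ i :=
        (Finset.prod_sum P (fun _ => Finset.range (M + 1))
          (fun p i => ((p : ℝ) ^ (-t)) ^ i)).symm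
    _ ≤ _ := Finset.prod_le_prod (fun p _ => Finset.sum_nonneg fun i _ =>
        pow_nonneg (Real.rpow_nonneg (Nat.cast_nonneg _) _) _) hgeo

/-- The Euler product with exponent `t` costs only `exp (C * y ^ (1 - t))`. -/
theorem exists_smooth_sum_le {s η : ℝ} (hη : 0 ≤ η) (hηs : η < s) (hs1 : s - η < 1) :
    ∃ C : ℝ, 0 ≤ C ∧ ∀ (y : ℕ) (U : ℝ) (A : Finset ℕ), 0 < U →
      (∀ a ∈ A, U ≤ (a : ℝ) ∧ ∀ p ∈ a.primeFactors, p ≤ y) →
      ∑ a ∈ A, (a : ℝ) ^ (-s) ≤ U ^ (-η) * Real.exp (C * (y : ℝ) ^ (1 - (s - η))) := by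
  set t := s - η with htd
  have ht : 0 < t := by linarith
  have h2 : (2 : ℝ) ^ (-t) < 1 := Real.rpow_lt_one_of_one_lt_of_neg one_lt_two (by linarith)
  set c : ℝ := (1 - (2 : ℝ) ^ (-t))⁻¹ with hc
  have hc0 : 0 ≤ c := inv_nonneg.2 (by linarith)
  refine ⟨c / (1 - t), div_nonneg hc0 (by linarith), ?_⟩
  intro y U A hU hA
  set P := (Finset.range (y + 1)).filter Nat.Prime with hP
  have hstep : ∀ a ∈ A, (a : ℝ) ^ (-s) ≤ U ^ (-η) * (a : ℝ) ^ (-t) := by
    intro a ha
    have ha0 : (0 : ℝ) < a := hU.trans_le (hA a ha).1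
    rw [show -s = -η + -t by rw [htd]; ring, Real.rpow_add ha0]
    exact mul_le_mul_of_nonneg_right (Real.rpow_le_rpow_of_nonpos hU (hA a ha).1 (by linarith))
      (Real.rpow_nonneg ha0.le _)
  refine (Finset.sum_le_sum hstep).trans ?_
  rw [← Finset.mul_sum]
  refine mul_le_mul_of_nonneg_left ((sum_smooth_rpow_le ht y A fun a ha =>
    ⟨by exact_mod_cast hU.trans_le (hA a ha).1, (hA a ha).2⟩).trans ?_) (Real.rpow_nonneg hU.le _)
  have hfac : ∀ p ∈ P, (1 - (p : ℝ) ^ (-t))⁻¹ ≤ Real.exp (c * (p : ℝ) ^ (-t)) := by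
    intro p hp
    have hp2 : (2 : ℝ) ≤ p := by exact_mod_cast (Finset.mem_filter.1 hp).2.two_le
    set u := (p : ℝ) ^ (-t)
    have hu0 : 0 ≤ u := Real.rpow_nonneg (Nat.cast_nonneg _) _
    have hu2 : u ≤ (2 : ℝ) ^ (-t) := Real.rpow_le_rpow_of_nonpos two_pos hp2 (by linarith)
    have h1u : 0 < 1 - u := by linarith
    refine le_trans ?_ (Real.add_one_le_exp _)
    rw [inv_eq_one_div, div_le_iff₀ h1u]
    have hcle : (1 - u)⁻¹ ≤ c := inv_anti₀ (by linarith) (by linarith)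
    have : 1 ≤ c * (1 - u) := by
      rw [← div_le_iff₀ h1u, one_div]; exact hcle
    nlinarith
  refine (Finset.prod_le_prod (fun p hp => ?_) hfac).trans ?_
  · have hp2 : (1 : ℝ) < p := by exact_mod_cast (Finset.mem_filter.1 hp).2.one_lt
    exact inv_nonneg.2 (by
      linarith [Real.rpow_lt_one_of_one_lt_of_neg hp2 (by linarith : -t < 0)])
  rw [← Real.exp_sum, Real.exp_le_exp, ← Finset.mul_sum, div_mul_eq_mul_div,
    mul_div_assoc]
  refine mul_le_mul_of_nonneg_left ?_ hc0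
  calc ∑ p ∈ P, (p : ℝ) ^ (-t) ≤ ∑ p ∈ (Finset.range y).image (fun j : ℕ => j + 1),
        (p : ℝ) ^ (-t) := by
        refine Finset.sum_le_sum_of_subset_of_nonneg (fun p hp => ?_)
          fun p _ _ => Real.rpow_nonneg (Nat.cast_nonneg p) _
        obtain ⟨hp, hpp⟩ := Finset.mem_filter.1 hp
        have := Finset.mem_range.1 hp
        have := hpp.two_le
        exact Finset.mem_image.2 ⟨p - 1, Finset.mem_range.2 (by omega), by omega⟩
    _ = ∑ j ∈ Finset.range y, ((j : ℝ) + 1) ^ (-t) := by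
        rw [Finset.sum_image (fun a _ b _ h => by simpa using h)]
        push_cast
        rfl
    _ ≤ (y : ℝ) ^ (1 - t) / (1 - t) := ?_
  exact Vale.Agent.P028.BilinearAux.sum_range_rpow_neg_le ht hs1 y

end Vale.Agent.P028.Full
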