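import Vale.Agent.P028.Full.MomentEvent
import Vale.Agent.P028.T2.PTail
import Vale.Agent.P028.Full.RankinSum

/-!
Pairs with a quotient whose part below a threshold `Y` exceeds `N` gain a power of
`N ^ (1 / log Y)`: a deviation with a large smooth part is rare.
-/

noncomputable section

namespace Vale.Agent.P028.Full

open Finset BilinearAux

/-- The part of `n` made of the primes up to `Y`. -/
def smPart (Y n : ℕ) : ℕ := n.factorization.prod fun p e => if p ≤ Y then p ^ e else 1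

/-- The part of `n` made of the primes above `Y`. -/
def roPart (Y n : ℕ) : ℕ := n.factorization.prod fun p e => if p ≤ Y then 1 else p ^ e

theorem smPart_mul (Y : ℕ) {m n : ℕ} (hm : m ≠ 0) (hn : n ≠ 0) :
    smPart Y (m * n) = smPart Y m * smPart Y n := by
  rw [smPart, Nat.factorization_mul hm hn]
  refine Finsupp.prod_add_index' (fun p => ?_) fun p b c => ?_
  · split_ifs <;> simp
  · split_ifs <;> simp [pow_add]

theorem smPart_pos (Y n : ℕ) : 0 < smPart Y n := by
  simp only [smPart, Finsupp.prod]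
  refine Finset.prod_pos fun p hp => ?_
  split_ifs
  · exact pow_pos (Nat.prime_of_mem_primeFactors (by rwa [← Nat.support_factorization])).pos _
  · exact one_pos

theorem roPart_pos (Y n : ℕ) : 0 < roPart Y n := by
  simp only [roPart, Finsupp.prod]
  refine Finset.prod_pos fun p hp => ?_
  split_ifs
  · exact one_pos
  · exact pow_pos (Nat.prime_of_mem_primeFactors (by rwa [← Nat.support_factorization])).pos _

theorem smPart_mul_roPart (Y : ℕ) {n : ℕ} (hn : n ≠ 0) : smPart Y n * roPart Y n = n := by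
  rw [smPart, roPart, ← Finsupp.prod_mul]
  conv_rhs => rw [← Nat.prod_factorization_pow_eq_self hn]
  exact Finsupp.prod_congr fun p _ => by split_ifs <;> simp

theorem smPart_le (Y : ℕ) {n : ℕ} (hn : n ≠ 0) : smPart Y n ≤ n :=
  le_of_le_of_eq (Nat.le_mul_of_pos_right _ (roPart_pos Y n)) (smPart_mul_roPart Y hn)

theorem le_of_mem_smPart {Y n p : ℕ} (hp : p ∈ (smPart Y n).primeFactors) : p ≤ Y := by
  obtain ⟨hpp, hd, -⟩ := Nat.mem_primeFactors.1 hp
  obtain ⟨q, hq, hpq⟩ := (Nat.prime_iff.1 hpp).exists_mem_finset_dvd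
    (by simpa only [smPart, roPart, Finsupp.prod] using hd)
  split_ifs at hpq with h
  · have hq' := Nat.prime_of_mem_primeFactors (by rwa [← Nat.support_factorization])
    obtain rfl := (Nat.prime_dvd_prime_iff_eq hpp hq').1 (hpp.dvd_of_dvd_pow hpq)
    exact h
  · exact absurd (Nat.le_of_dvd one_pos hpq) (by have := hpp.two_le; omega)

theorem lt_of_mem_roPart {Y n p : ℕ} (hp : p ∈ (roPart Y n).primeFactors) : Y < p := by
  obtain ⟨hpp, hd, -⟩ := Nat.mem_primeFactors.1 hp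
  obtain ⟨q, hq, hpq⟩ := (Nat.prime_iff.1 hpp).exists_mem_finset_dvd
    (by simpa only [smPart, roPart, Finsupp.prod] using hd)
  split_ifs at hpq with h
  · exact absurd (Nat.le_of_dvd one_pos hpq) (by have := hpp.two_le; omega)
  · have hq' := Nat.prime_of_mem_primeFactors (by rwa [← Nat.support_factorization])
    obtain rfl := (Nat.prime_dvd_prime_iff_eq hpp hq').1 (hpp.dvd_of_dvd_pow hpq)
    omega

theorem smPart_coprime_roPart (Y n : ℕ) : Nat.Coprime (smPart Y n) (roPart Y n) := by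
  rw [Nat.coprime_iff_gcd_eq_one]
  by_contra h
  obtain ⟨p, hp, hpd⟩ := Nat.exists_prime_and_dvd h
  have h1 := le_of_mem_smPart (Nat.mem_primeFactors.2
    ⟨hp, hpd.trans (Nat.gcd_dvd_left _ _), (smPart_pos Y n).ne'⟩)
  have h2 := lt_of_mem_roPart (Nat.mem_primeFactors.2
    ⟨hp, hpd.trans (Nat.gcd_dvd_right _ _), (roPart_pos Y n).ne'⟩)
  omega

/-- `log (Y + 3) + 1`. -/
def smLog (Y : ℕ) : ℝ := Real.log ((Y : ℝ) + 3) + 1

theorem one_le_smLog (Y : ℕ) : 1 ≤ smLog Y := by
  rw [smLog]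
  linarith [Real.log_nonneg (show (1 : ℝ) ≤ (Y : ℝ) + 3 by linarith [Nat.cast_nonneg (α := ℝ) Y])]

/-- The exponent of Rankin's device below `Y`. -/
def smEta (ξ : ℝ) (Y : ℕ) : ℝ := min (evSlack ξ) (1 / smLog Y)

/-- An exponential of `∑ 1 / p` below `Y` is a power of `log Y`. -/
theorem exists_exp_sum_inv_le (c : ℝ) (hc : 0 ≤ c) :
    ∃ B e : ℝ, 1 ≤ B ∧ 0 ≤ e ∧ ∀ (Y : ℕ) (T : Finset ℕ), (∀ p ∈ T, p.Prime ∧ p ≤ Y) →
      Real.exp (c * ∑ p ∈ T, (1 : ℝ) / p) ≤ B * smLog Y ^ e := by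
  obtain ⟨C, hC0, hC⟩ := exists_prod_one_add_inv_prime_le
  refine ⟨Real.exp (c * C), c * C, Real.one_le_exp (by positivity), by positivity, fun Y T hT => ?_⟩
  have h1 : ∑ p ∈ T, (1 : ℝ) / p ≤ C * (1 + Real.log (Real.log ((Y + 3 : ℕ) : ℝ))) := by
    refine (sum_le_sum_of_subset_of_nonneg (fun p hp => ?_) fun p _ _ => by positivity).trans
      (hC (Y + 3) (by omega))
    exact mem_filter.2 ⟨mem_range.2 (by have := (hT p hp).2; omega), (hT p hp).1⟩
  push_cast at h1
  have hl : 0 < Real.log ((Y : ℝ) + 3) :=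
    Real.log_pos (by linarith [Nat.cast_nonneg (α := ℝ) Y])
  have h2 : Real.log (Real.log ((Y : ℝ) + 3)) ≤ Real.log (smLog Y) :=
    Real.log_le_log hl (by rw [smLog]; linarith)
  rw [Real.rpow_def_of_pos (zero_lt_one.trans_le (one_le_smLog Y)), ← Real.exp_add,
    Real.exp_le_exp]
  calc c * ∑ p ∈ T, (1 : ℝ) / p ≤ c * (C * (1 + Real.log (Real.log ((Y : ℝ) + 3)))) :=
        mul_le_mul_of_nonneg_left h1 hc
    _ ≤ c * (C * (1 + Real.log (smLog Y))) := by gcongr
    _ = _ := by ring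

theorem rpow_smEta_le {ξ : ℝ} (hξ : 0 ≤ ξ) {Y p : ℕ} (hp : 0 < p) (hpY : p ≤ Y) :
    (p : ℝ) ^ smEta ξ Y ≤ 3 := by
  have hl := one_le_smLog Y
  have hη0 : 0 ≤ smEta ξ Y := le_min (by rw [evSlack]; positivity) (by positivity)
  refine le_trans ?_ Real.exp_one_lt_three.le
  rw [Real.rpow_def_of_pos (by exact_mod_cast hp), Real.exp_le_exp]
  have h1 : Real.log (p : ℝ) ≤ smLog Y := by
    have : Real.log (p : ℝ) ≤ Real.log ((Y : ℝ) + 3) :=
      Real.log_le_log (by exact_mod_cast hp) (by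
        have : (p : ℝ) ≤ Y := by exact_mod_cast hpY
        linarith)
    rw [smLog]; linarith
  calc Real.log (p : ℝ) * smEta ξ Y ≤ smLog Y * (1 / smLog Y) :=
        mul_le_mul h1 (min_le_right _ _) hη0 (by linarith)
    _ = 1 := mul_one_div_cancel (by linarith)

/-- The reciprocals of the smooth numbers above `L`. -/
theorem exists_smooth_inv_le (ξ : ℝ) (hξ : 0 < ξ) (hξ1 : ξ ≤ 1 / 100) :
    ∃ B e : ℝ, 1 ≤ B ∧ 0 ≤ e ∧ ∀ (Y : ℕ) (L : ℝ) (A : Finset ℕ), 1 ≤ L →
      (∀ m ∈ A, L < (m : ℝ) ∧ ∀ p ∈ m.primeFactors, p ≤ Y) →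
      ∑ m ∈ A, 1 / (m : ℝ) ≤ B * smLog Y ^ e * L ^ (-smEta ξ Y) := by
  set c : ℝ := (1 - (2 : ℝ) ^ (-(3 / 4) : ℝ))⁻¹ with hc
  have h2 : (2 : ℝ) ^ (-(3 / 4) : ℝ) < 1 :=
    Real.rpow_lt_one_of_one_lt_of_neg one_lt_two (by norm_num)
  have hc0 : 0 ≤ c := inv_nonneg.2 (by linarith)
  obtain ⟨B, e, hB, he, hexp⟩ := exists_exp_sum_inv_le (3 * c) (by positivity)
  refine ⟨B, e, hB, he, fun Y L A hL hA => ?_⟩
  set η := smEta ξ Y with hη
  have hη0 : 0 ≤ η := le_min (by rw [evSlack]; positivity)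
    (div_nonneg zero_le_one (zero_le_one.trans (one_le_smLog Y)))
  have hη4 : η ≤ 1 / 4 := (min_le_left _ _).trans (by rw [evSlack]; linarith)
  set P := (Finset.range (Y + 1)).filter Nat.Prime with hP
  have hPp : ∀ p ∈ P, p.Prime ∧ p ≤ Y := fun p hp =>
    ⟨(mem_filter.1 hp).2, Nat.le_of_lt_succ (mem_range.1 (mem_filter.1 hp).1)⟩
  have h1 : ∑ m ∈ A, 1 / (m : ℝ) ≤ L ^ (-η) * ∑ m ∈ A, (m : ℝ) ^ (-(1 - η)) := by
    rw [mul_sum]
    refine sum_le_sum fun m hm => ?_
    have hm0 : (0 : ℝ) < m := by linarith [(hA m hm).1]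
    rw [one_div, ← Real.rpow_neg_one, show (-1 : ℝ) = -η + -(1 - η) by ring, Real.rpow_add hm0]
    exact mul_le_mul_of_nonneg_right (Real.rpow_le_rpow_of_nonpos (by linarith) (hA m hm).1.le
      (by linarith)) (Real.rpow_nonneg hm0.le _)
  refine h1.trans ?_
  rw [mul_comm (B * smLog Y ^ e)]
  refine mul_le_mul_of_nonneg_left ((sum_smooth_rpow_le (by linarith) Y A fun a ha =>
    ⟨by exact_mod_cast lt_of_le_of_lt (zero_le_one.trans hL) (hA a ha).1, (hA a ha).2⟩).trans
      (le_trans ?_ (hexp Y P hPp))) (Real.rpow_nonneg (by linarith) _)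
  rw [mul_sum, Real.exp_sum]
  refine prod_le_prod (fun p hp => ?_) fun p hp => ?_
  · have hp2 : (1 : ℝ) < p := by exact_mod_cast (hPp p hp).1.one_lt
    exact inv_nonneg.2 (by
      linarith [Real.rpow_lt_one_of_one_lt_of_neg hp2 (by linarith : -(1 - η) < 0)])
  · obtain ⟨hpp, hpY⟩ := hPp p hp
    have hp2 : (2 : ℝ) ≤ p := by exact_mod_cast hpp.two_le
    set u := (p : ℝ) ^ (-(1 - η)) with hu
    have hu0 : 0 ≤ u := Real.rpow_nonneg (Nat.cast_nonneg _) _
    have hu2 : u ≤ (2 : ℝ) ^ (-(3 / 4) : ℝ) := by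
      calc u ≤ (p : ℝ) ^ (-(3 / 4) : ℝ) :=
            Real.rpow_le_rpow_of_exponent_le (by linarith) (by linarith)
        _ ≤ _ := Real.rpow_le_rpow_of_nonpos two_pos hp2 (by norm_num)
    have h1u : 0 < 1 - u := by linarith
    have hu3 : u ≤ 3 * (1 / (p : ℝ)) := by
      rw [hu, show -(1 - η) = η - 1 by ring, Real.rpow_sub (by linarith), Real.rpow_one,
        mul_one_div]
      exact div_le_div_of_nonneg_right (rpow_smEta_le hξ.le hpp.pos hpY) (by linarith)
    refine le_trans ?_ (Real.add_one_le_exp _)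
    rw [inv_eq_one_div, div_le_iff₀ h1u]
    have hcle : (1 - u)⁻¹ ≤ c := inv_anti₀ (by linarith) (by linarith)
    have : 1 ≤ c * (1 - u) := by
      rw [← div_le_iff₀ h1u, one_div]; exact hcle
    nlinarith [mul_le_mul_of_nonneg_left hu3 (mul_nonneg hc0 h1u.le)]

/-- The downward deviations with a large part below `Y`. -/
theorem exists_smooth_down_le (ξ : ℝ) (hξ : 0 < ξ) (hξ1 : ξ ≤ 1 / 100) :
    ∃ B e : ℝ, 1 ≤ B ∧ 0 ≤ e ∧ ∀ (Y N : ℕ) (L : ℝ) (A : Finset ℕ), 0 < N → 1 ≤ L →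
      A ⊆ N.divisors → (∀ d ∈ A, L < (smPart Y d : ℝ)) →
      (Nat.totient N : ℝ) / N * ∑ d ∈ A, 1 / (Nat.totient d : ℝ) ≤
        B * smLog Y ^ e * L ^ (-smEta ξ Y) := by
  obtain ⟨D₀, hD₀⟩ := exists_centre_sum_le
  obtain ⟨B, e, hB, he, hexp⟩ := exists_exp_sum_inv_le 5 (by norm_num)
  refine ⟨max D₀ 1 * B, e, one_le_mul_of_one_le_of_one_le (le_max_right _ _) hB, he, ?_⟩
  intro Y N L A hN hL hAN hA
  set η := smEta ξ Y with hη
  have hη0 : 0 ≤ η := le_min (by rw [evSlack]; positivity)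
    (div_nonneg zero_le_one (zero_le_one.trans (one_le_smLog Y)))
  have hη4 : η ≤ 1 / 4 := (min_le_left _ _).trans (by rw [evSlack]; linarith)
  set Ns := smPart Y N with hNs
  set Nr := roPart Y N with hNr
  have hsplit : Ns * Nr = N := smPart_mul_roPart Y hN.ne'
  have hco : Nat.Coprime Ns Nr := smPart_coprime_roPart Y N
  have hkey : (Nat.totient N : ℝ) / N * ∑ d ∈ N.divisors, (smPart Y d : ℝ) ^ η / Nat.totient d ≤
      max D₀ 1 * B * smLog Y ^ e := by
    let f : ArithmeticFunction ℝ := ⟨fun d => if d = 0 then 0 else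
      (smPart Y d : ℝ) ^ η / Nat.totient d, by simp⟩
    have hf : f.IsMultiplicative := by
      refine ArithmeticFunction.IsMultiplicative.iff_ne_zero.2 ⟨by simp [f, smPart], ?_⟩
      intro m n hm hn hmn
      simp only [f, ArithmeticFunction.coe_mk, hm, hn, mul_ne_zero hm hn, if_false]
      rw [Nat.totient_mul hmn, smPart_mul Y hm hn, Nat.cast_mul, Nat.cast_mul,
        Real.mul_rpow (Nat.cast_nonneg _) (Nat.cast_nonneg _), mul_div_mul_comm]
    have hz : ∀ n : ℕ, 0 < n →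
        ∑ d ∈ n.divisors, (smPart Y d : ℝ) ^ η / Nat.totient d =
          (f * (ArithmeticFunction.zeta : ArithmeticFunction ℝ)) n := by
      intro n hn
      rw [ArithmeticFunction.coe_mul_zeta_apply]
      refine sum_congr rfl fun d hd => ?_
      simp [f, (Nat.pos_of_mem_divisors hd).ne']
    have hmul := (hf.mul (ArithmeticFunction.isMultiplicative_zeta.natCast)).map_mul_of_coprime hco
    rw [hsplit] at hmul
    have hpr : 0 < Ns ∧ 0 < Nr := ⟨smPart_pos Y N, roPart_pos Y N⟩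
    rw [hz N hN, hmul, ← hz Ns hpr.1, ← hz Nr hpr.2]
    have hro : ∑ d ∈ Nr.divisors, (smPart Y d : ℝ) ^ η / Nat.totient d =
        ∑ d ∈ Nr.divisors, 1 / (Nat.totient d : ℝ) := by
      refine sum_congr rfl fun d hd => ?_
      have : smPart Y d = 1 := by
        simp only [smPart, Finsupp.prod]
        refine Finset.prod_eq_one fun p hp => if_neg (not_le.2 ?_)
        rw [Nat.support_factorization] at hp
        exact lt_of_mem_roPart (Nat.primeFactors_mono (Nat.dvd_of_mem_divisors hd) hpr.2.ne' hp)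
      rw [this, Nat.cast_one, Real.one_rpow]
    have hsm : (Nat.totient Ns : ℝ) / Ns * ∑ d ∈ Ns.divisors, (smPart Y d : ℝ) ^ η / Nat.totient d ≤
        B * smLog Y ^ e := by
      refine le_trans (mul_le_mul_of_nonneg_left (sum_le_sum fun d hd => div_le_div_of_nonneg_right
        (Real.rpow_le_rpow (Nat.cast_nonneg _)
          (Nat.cast_le.2 (smPart_le Y (Nat.pos_of_mem_divisors hd).ne')) hη0) (Nat.cast_nonneg _))
        (by positivity)) ((T2.tailSum_le_prod hη4 Ns hpr.1).trans ?_)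
      refine le_trans ?_ (hexp Y Ns.primeFactors fun p hp =>
        ⟨Nat.prime_of_mem_primeFactors hp, le_of_mem_smPart hp⟩)
      rw [mul_sum, Real.exp_sum]
      refine prod_le_prod (fun p hp =>
        T2.tailFac_nonneg (Nat.prime_of_mem_primeFactors hp).two_le) fun p hp => ?_
      refine le_trans ?_ (Real.add_one_le_exp _)
      have hpp := Nat.prime_of_mem_primeFactors hp
      have hp0 : (0 : ℝ) < p := by exact_mod_cast hpp.pos
      have h1 : ((p : ℝ) ^ η - 1) / p ≤ 2 * (1 / (p : ℝ)) := by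
        rw [mul_one_div]
        exact div_le_div_of_nonneg_right
          (by linarith [rpow_smEta_le hξ.le hpp.pos (le_of_mem_smPart hp)]) hp0.le
      have h2 : (p : ℝ) ^ (-(3 : ℝ) / 2) ≤ 1 / p := by
        rw [one_div, ← Real.rpow_neg_one]
        exact Real.rpow_le_rpow_of_exponent_le (by exact_mod_cast hpp.one_le) (by norm_num)
      rw [T2.tailFac]
      linarith
    have hro' : (Nat.totient Nr : ℝ) / Nr * ∑ d ∈ Nr.divisors, 1 / (Nat.totient d : ℝ) ≤
        max D₀ 1 := (hD₀ Nr hpr.2).trans (le_max_left _ _)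
    rw [hro]
    have htot : (Nat.totient N : ℝ) / N =
        (Nat.totient Ns : ℝ) / Ns * ((Nat.totient Nr : ℝ) / Nr) := by
      rw [← hsplit, Nat.totient_mul hco, Nat.cast_mul, Nat.cast_mul, mul_div_mul_comm]
    rw [htot]
    calc _ = ((Nat.totient Ns : ℝ) / Ns *
            ∑ d ∈ Ns.divisors, (smPart Y d : ℝ) ^ η / Nat.totient d) *
          ((Nat.totient Nr : ℝ) / Nr * ∑ d ∈ Nr.divisors, 1 / (Nat.totient d : ℝ)) := by ring
      _ ≤ B * smLog Y ^ e * max D₀ 1 :=
          mul_le_mul hsm hro' (by positivity) (mul_nonneg (by linarith)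
            (Real.rpow_nonneg (zero_le_one.trans (one_le_smLog Y)) _))
      _ = _ := by ring
  calc (Nat.totient N : ℝ) / N * ∑ d ∈ A, 1 / (Nat.totient d : ℝ)
      ≤ (Nat.totient N : ℝ) / N *
          ∑ d ∈ A, L ^ (-η) * ((smPart Y d : ℝ) ^ η / Nat.totient d) := by
        refine mul_le_mul_of_nonneg_left (sum_le_sum fun d hd => ?_) (by positivity)
        rw [← mul_div_assoc]
        refine div_le_div_of_nonneg_right ?_ (Nat.cast_nonneg _)
        rw [Real.rpow_neg (by linarith), inv_mul_eq_div, one_le_div (by positivity)]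
        exact Real.rpow_le_rpow (by linarith) (hA d hd).le hη0
    _ = L ^ (-η) * ((Nat.totient N : ℝ) / N *
          ∑ d ∈ A, (smPart Y d : ℝ) ^ η / Nat.totient d) := by rw [← mul_sum]; ring
    _ ≤ L ^ (-η) * ((Nat.totient N : ℝ) / N *
          ∑ d ∈ N.divisors, (smPart Y d : ℝ) ^ η / Nat.totient d) := by
        refine mul_le_mul_of_nonneg_left (mul_le_mul_of_nonneg_left (sum_le_sum_of_subset_of_nonneg
          hAN fun d _ _ => by positivity) (by positivity)) (Real.rpow_nonneg (by linarith) _)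
    _ ≤ L ^ (-η) * (max D₀ 1 * B * smLog Y ^ e) :=
        mul_le_mul_of_nonneg_left hkey (Real.rpow_nonneg (by linarith) _)
    _ = _ := by ring

/-- Deviations with a large part below `Y` on one side, summed with a test function. -/
theorem sum_side_le2 {P S U V W : Finset ℕ} {i j k : ℕ → ℕ} (h : FinState P S U V W i j)
    (W' T Ds : Finset ℕ) (hsub : W' ⊆ W) (hT : ∀ w ∈ W', upDev U k w ∈ T)
    (hDs : ∀ w ∈ W', downDev U k w ∈ Ds) (Fc : ℕ → ℝ) (hFc : ∀ c, 0 ≤ Fc c) {B D : ℝ}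
    (hB : ∑ c ∈ T, Fc c ≤ B)
    (hD : (Nat.totient (centre U k) : ℝ) / centre U k *
      ∑ d ∈ Ds, 1 / (Nat.totient d : ℝ) ≤ D) :
    ∑ w ∈ W', (Nat.totient (centre U k) : ℝ) / centre U k / Nat.totient (downDev U k w) *
      Fc (upDev U k w) ≤ D * B := by
  set Ω : ℝ := (Nat.totient (centre U k) : ℝ) / centre U k
  calc ∑ w ∈ W', Ω / Nat.totient (downDev U k w) * Fc (upDev U k w)
      = ∑ q ∈ W'.image (fun w => (upDev U k w, downDev U k w)),
          Ω / Nat.totient q.2 * Fc q.1 := by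
        rw [Finset.sum_image ((dev_injOn h).2.mono (by exact_mod_cast hsub))]
    _ ≤ ∑ q ∈ T ×ˢ Ds, Ω / Nat.totient q.2 * Fc q.1 := by
        refine Finset.sum_le_sum_of_subset_of_nonneg ?_ fun q _ _ =>
          mul_nonneg (div_nonneg (by positivity) (Nat.cast_nonneg _)) (hFc _)
        intro q hq
        obtain ⟨w, hw, rfl⟩ := Finset.mem_image.1 hq
        exact Finset.mem_product.2 ⟨hT w hw, hDs w hw⟩
    _ = (Ω * ∑ d ∈ Ds, 1 / (Nat.totient d : ℝ)) * ∑ c ∈ T, Fc c := by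
        rw [Finset.sum_product, Finset.mul_sum]
        refine Finset.sum_congr rfl fun c _ => ?_
        rw [Finset.mul_sum, Finset.sum_mul]
        exact Finset.sum_congr rfl fun d _ => by ring
    _ ≤ D * B := mul_le_mul hD hB (Finset.sum_nonneg fun c _ => hFc c)
        (le_trans (mul_nonneg (by positivity) (Finset.sum_nonneg fun d _ => by positivity)) hD)

theorem sum_union_le_add {s t : Finset ℕ} {f : ℕ → ℝ} (hf : ∀ i, 0 ≤ f i) :
    ∑ i ∈ s ∪ t, f i ≤ ∑ i ∈ s, f i + ∑ i ∈ t, f i := by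
  rw [← Finset.sum_union_inter]
  exact le_add_of_nonneg_right (Finset.sum_nonneg fun i _ => hf i)

theorem downDev_mem_divisors {P S U V W : Finset ℕ} {i j k : ℕ → ℕ}
    (h : FinState P S U V W i j) (w : ℕ) : downDev U k w ∈ (centre U k).divisors := by
  have hU := h.prime_U
  have hcp : 0 < centre U k := prodPow_pos hU k
  refine Nat.mem_divisors.2 ⟨?_, hcp.ne'⟩
  refine (Nat.factorization_le_iff_dvd (downDev_pos hU k w).ne' hcp.ne').1 fun p => ?_
  rw [downDev, centre, factorization_prodPow hU, factorization_prodPow hU]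
  split_ifs <;> omega

/-- The two ratio sums over deviations with a large part below `Y`. -/
theorem exists_smooth_up_le (ξ : ℝ) (hξ : 0 < ξ) (hξ1 : ξ ≤ 1 / 100) :
    ∃ B e : ℝ, 1 ≤ B ∧ 0 ≤ e ∧ ∀ (Y a : ℕ) (L : ℝ) (T : Finset ℕ), 1 ≤ L → 0 < a →
      (∀ c ∈ T, 1 ≤ c ∧ L < (smPart Y c : ℝ)) →
      ((∀ c ∈ T, c ≤ a) → ∑ c ∈ T, ((a : ℝ) / c) ^ evLow ξ / a ≤
          B * smLog Y ^ e * L ^ (-smEta ξ Y)) ∧
      ((∀ c ∈ T, a ≤ c) → ∑ c ∈ T, ((a : ℝ) / c) ^ evHigh ξ / a ≤
          B * smLog Y ^ e * L ^ (-smEta ξ Y)) := by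
  obtain ⟨B, e, hB, he, hinv⟩ := exists_smooth_inv_le ξ hξ hξ1
  set s := evLow ξ with hsd
  set t := evHigh ξ with htd
  have h1 : 0 < 1 - ξ := by linarith
  have hs0 : 0 < s := by rw [hsd, evLow, alphaX]; apply div_pos <;> linarith
  have hs1 : s < 1 := by rw [hsd, evLow, alphaX, div_lt_one h1]; linarith
  have ht1 : 1 < t := by rw [htd, evHigh, one_lt_div h1]; linarith
  set Cs : ℝ := max 1 (max (1 / (1 - s)) (1 + 1 / (t - 1))) with hCs
  refine ⟨Cs * B, e, one_le_mul_of_one_le_of_one_le (le_max_left _ _) hB, he, ?_⟩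
  intro Y a L T hL ha hT
  have ha' : (0 : ℝ) < a := by exact_mod_cast ha
  set A := T.image (smPart Y) with hA
  have hmain : ∀ v : ℝ, (∀ m ∈ A, ∑ c ∈ T.filter (fun c => smPart Y c = m), ((a : ℝ) / c) ^ v ≤
      Cs * ((a : ℝ) / m)) →
      ∑ c ∈ T, ((a : ℝ) / c) ^ v / a ≤ Cs * B * smLog Y ^ e * L ^ (-smEta ξ Y) := by
    intro v hv
    rw [← Finset.sum_div, div_le_iff₀ ha',
      ← sum_fiberwise_of_maps_to (g := smPart Y) (t := A) fun c hc => mem_image_of_mem _ hc]
    refine (sum_le_sum hv).trans ?_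
    have h := hinv Y L A hL fun m hm => by
      obtain ⟨c, hc, rfl⟩ := mem_image.1 hm
      exact ⟨(hT c hc).2, fun p hp => le_of_mem_smPart hp⟩
    have := mul_le_mul_of_nonneg_left h (show 0 ≤ Cs * (a : ℝ) by positivity)
    calc ∑ m ∈ A, Cs * ((a : ℝ) / m) = Cs * (a : ℝ) * ∑ m ∈ A, 1 / (m : ℝ) := by
          rw [mul_sum]; exact sum_congr rfl fun m _ => by ring
      _ ≤ _ := this
      _ = _ := by ring
  have hfib : ∀ (v : ℝ) (m : ℕ), m ∈ A → (∀ T' : Finset ℕ,
      (∀ l ∈ T', 1 ≤ l ∧ ∃ c ∈ T, c = m * l) → ∑ l ∈ T', (((a : ℝ) / m) / l) ^ v ≤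
      Cs * ((a : ℝ) / m)) →
      ∑ c ∈ T.filter (fun c => smPart Y c = m), ((a : ℝ) / c) ^ v ≤ Cs * ((a : ℝ) / m) := by
    intro v m hm hl
    obtain ⟨c0, hc0, rfl⟩ := mem_image.1 hm
    set m := smPart Y c0
    have hval : ∀ c ∈ T.filter (fun c => smPart Y c = m), m * roPart Y c = c := fun c hc => by
      obtain ⟨h1, h2⟩ := mem_filter.1 hc
      rw [← h2]; exact smPart_mul_roPart Y (by have := (hT c h1).1; omega)
    refine le_trans (le_of_eq ?_) (hl ((T.filter (fun c => smPart Y c = m)).image (roPart Y)) ?_)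
    · rw [sum_image fun c hc c' hc' e => by rw [← hval c hc, ← hval c' hc', e]]
      refine sum_congr rfl fun c hc => ?_
      conv_lhs => rw [← hval c hc]
      rw [Nat.cast_mul, div_div]
    · intro l hl'
      obtain ⟨c, hc, rfl⟩ := mem_image.1 hl'
      exact ⟨roPart_pos Y c, c, (mem_filter.1 hc).1, (hval c hc).symm⟩
  have hmpos : ∀ m ∈ A, (0 : ℝ) < m := fun m hm => by
    obtain ⟨c, -, rfl⟩ := mem_image.1 hm
    exact_mod_cast smPart_pos Y c
  refine ⟨fun hle => hmain s fun m hm => hfib s m hm fun T' hT' => ?_,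
    fun hge => hmain t fun m hm => hfib t m hm fun T' hT' => ?_⟩
  · have hX : 0 < (a : ℝ) / m := div_pos ha' (hmpos m hm)
    refine (sum_small_le hs0 hs1 hX T' fun l hl => ⟨(hT' l hl).1, ?_⟩).trans ?_
    · obtain ⟨-, c, hc, rfl⟩ := hT' l hl
      rw [le_div_iff₀ (hmpos m hm)]
      calc (l : ℝ) * m = ((m * l : ℕ) : ℝ) := by push_cast; ring
        _ ≤ _ := by exact_mod_cast hle _ hc
    · rw [← one_div_mul_eq_div]
      exact mul_le_mul_of_nonneg_right ((le_max_left _ _).trans (le_max_right _ _)) hX.le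
  · have hX : 0 < (a : ℝ) / m := div_pos ha' (hmpos m hm)
    refine (sum_tail_le ht1 hX T' fun l hl => ⟨(hT' l hl).1, ?_⟩).trans ?_
    · obtain ⟨-, c, hc, rfl⟩ := hT' l hl
      rw [div_le_iff₀ (hmpos m hm)]
      calc (a : ℝ) ≤ ((m * l : ℕ) : ℝ) := by exact_mod_cast hge _ hc
        _ = _ := by push_cast; ring
    · exact mul_le_mul_of_nonneg_right ((le_max_right _ _).trans (le_max_right _ _)) hX.le

open Classical in
/-- Pairs of level at most `x` with a quotient whose part below `Y` exceeds `N`. -/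
theorem exists_smooth_event_le (ξ : ℝ) (hξ : 0 < ξ) (hξ1 : ξ ≤ 1 / 100) :
    ∃ B e : ℝ, 0 ≤ B ∧ 0 ≤ e ∧ ∀ (f f' : ℕ → ℝ) (V₀ W₀ : Finset ℕ) (x N : ℝ) (Y : ℕ),
      (∀ v ∈ V₀, 0 < v) → (∀ w ∈ W₀, 0 < w) → (∀ q, 0 ≤ f q) → (∀ q, 0 ≤ f' q) →
      0 < x → 1 ≤ N →
      ∑ v ∈ V₀, ∑ w ∈ W₀.filter (fun w => dist2' f f' v w ≤ x ∧
          (N < (smPart Y (qd v w) : ℝ) ∨ N < (smPart Y (qd w v) : ℝ))), wt f v * wt f' w ≤
        B * (smLog Y ^ e * N ^ (-smEta ξ Y / 3)) ^ (1 / 3 : ℝ) * x ^ (1 - ξ) *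
          massFac ξ (mass f V₀) (mass f' W₀) := by
  obtain ⟨C, hC0, hC⟩ := exists_event_le ξ hξ hξ1
  obtain ⟨Bs, hBs1, hBs⟩ := exists_side_crude_le ξ hξ hξ1
  obtain ⟨Bd, ed, hBd, hed, hdown⟩ := exists_smooth_down_le ξ hξ hξ1
  obtain ⟨Bu, eu, hBu, heu, hup⟩ := exists_smooth_up_le ξ hξ hξ1
  obtain ⟨D₀, hD₀⟩ := exists_centre_sum_le
  set t := evHigh ξ
  set s := evLow ξ
  have h1 : 0 < 1 - ξ := by linarith
  have hs0 : 0 < s := by simp only [s, evLow, alphaX]; apply div_pos <;> linarith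
  have hs1 : s < 1 := by simp only [s, evLow, alphaX]; rw [div_lt_one h1]; linarith
  have ht1 : 1 < t := by simp only [t, evHigh]; rw [one_lt_div h1]; linarith
  set Cs : ℝ := max 1 (max (1 / (1 - s)) (1 + 1 / (t - 1))) with hCsd
  set D := max D₀ 1 with hDd
  set B0 := Bd * Cs + D * Bu with hB0d
  set e := ed + eu with hed'
  have hB0 : 1 ≤ B0 := by
    have : 1 ≤ Bd * Cs := one_le_mul_of_one_le_of_one_le hBd (le_max_left _ _)
    have : 0 ≤ D * Bu := mul_nonneg (zero_le_one.trans (le_max_right _ _)) (by linarith)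
    linarith
  refine ⟨C * B0 ^ (1 / 3 : ℝ), e, by positivity, by linarith, ?_⟩
  intro f f' V₀ W₀ x N Y hV₀ hW₀ hf hf' hx hN
  have hl := one_le_smLog Y
  set η := smEta ξ Y with hη
  have hη0 : 0 ≤ η := le_min (by rw [evSlack]; positivity) (by positivity)
  set L := N ^ (1 / 3 : ℝ) with hLd
  have hL : 1 ≤ L := Real.one_le_rpow hN (by norm_num)
  set g0 := B0 * (smLog Y ^ e * L ^ (-η)) with hg0
  set g := min 1 g0 with hg
  have hg00 : 0 ≤ g0 := by positivity
  have hgLη : L ^ (-η) ≤ g0 := by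
    rw [hg0]
    calc L ^ (-η) = 1 * (1 * L ^ (-η)) := by ring
      _ ≤ _ := by
          gcongr
          exact Real.one_le_rpow hl (by linarith)
  have hLN : L * L * L = N := by
    rw [hLd, ← Real.rpow_add (by linarith), ← Real.rpow_add (by linarith)]
    norm_num
  set E : ℕ → ℕ → Prop := fun v w => N < (smPart Y (qd v w) : ℝ) ∨ N < (smPart Y (qd w v) : ℝ)
  have hmk : ∀ (f f' : ℕ → ℝ) (E : ℕ → ℕ → Prop),
      (∀ v w, E v w → N < (smPart Y (qd v w) : ℝ) ∨ N < (smPart Y (qd w v) : ℝ)) →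
      ∀ (P S U V W : Finset ℕ) (i j k : ℕ → ℕ), FinState P S U V W i j →
      (((fixedPart (P \ U) i j * fixedPart (P \ U) j i : ℕ) : ℝ) ^ (-evSlack ξ) ≤ g) ∨
        EventGain ξ g x f f' E U k V W := by
    intro f f' E hE P S U V W i j k h
    set QR : ℝ := ((fixedPart (P \ U) i j * fixedPart (P \ U) j i : ℕ) : ℝ) with hQR
    have hQR1 : 1 ≤ QR := by
      rw [hQR]; exact_mod_cast Nat.mul_pos (fixedPart_pos h.prime_sdiff i j)
        (fixedPart_pos h.prime_sdiff j i)
    have hneg : QR ^ (-evSlack ξ) ≤ 1 :=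
      Real.rpow_le_one_of_one_le_of_nonpos hQR1 (by rw [evSlack]; linarith)
    rcases le_or_gt 1 g0 with hbig | hsmall
    · exact Or.inl (by rw [hg, min_eq_left hbig]; exact hneg)
    rcases le_or_gt L QR with hQ | hQ
    · refine Or.inl ?_
      rw [hg, min_eq_right hsmall.le]
      refine le_trans ?_ hgLη
      calc QR ^ (-evSlack ξ) ≤ QR ^ (-η) :=
            Real.rpow_le_rpow_of_exponent_le hQR1 (by
              have := min_le_left (evSlack ξ) (1 / smLog Y); rw [hη, smEta]; linarith)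
        _ ≤ L ^ (-η) := Real.rpow_le_rpow_of_nonpos (by linarith) hQ (by linarith)
    refine Or.inr ⟨fun _ w => L < (smPart Y (downDev U k w) : ℝ) ∨
      L < (smPart Y (upDev U k w) : ℝ), ?_⟩
    have hU := h.prime_U
    have hdown' : (Nat.totient (centre U k) : ℝ) / centre U k *
        ∑ d ∈ (centre U k).divisors.filter (fun d => L < (smPart Y d : ℝ)),
          1 / (Nat.totient d : ℝ) ≤ Bd * smLog Y ^ ed * L ^ (-η) :=
      hdown Y (centre U k) L _ (prodPow_pos hU k) hL (Finset.filter_subset _ _)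
        fun d hd => (Finset.mem_filter.1 hd).2
    have hall : (Nat.totient (centre U k) : ℝ) / centre U k *
        ∑ d ∈ (centre U k).divisors, 1 / (Nat.totient d : ℝ) ≤ D :=
      (hD₀ _ (prodPow_pos hU k)).trans (le_max_left _ _)
    have hpe : smLog Y ^ ed ≤ smLog Y ^ e := Real.rpow_le_rpow_of_exponent_le hl (by linarith)
    have hpu : smLog Y ^ eu ≤ smLog Y ^ e := Real.rpow_le_rpow_of_exponent_le hl (by linarith)
    have hgle : Bd * smLog Y ^ ed * L ^ (-η) * Cs + D * (Bu * smLog Y ^ eu * L ^ (-η)) ≤ g := by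
      rw [hg, min_eq_right hsmall.le, hg0, hB0d]
      have hLe : 0 ≤ L ^ (-η) := by positivity
      have hCs0 : 0 ≤ Cs := zero_le_one.trans (le_max_left _ _)
      have hD0 : 0 ≤ D := zero_le_one.trans (le_max_right _ _)
      have q1 := mul_le_mul_of_nonneg_left hpe (show 0 ≤ Bd * Cs * L ^ (-η) by
        exact mul_nonneg (mul_nonneg (by linarith) hCs0) hLe)
      have q2 := mul_le_mul_of_nonneg_left hpu (show 0 ≤ D * Bu * L ^ (-η) by
        exact mul_nonneg (mul_nonneg hD0 (by linarith)) hLe)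
      linarith
    refine ⟨fun v hv => le_trans ?_ hgle, fun w hw => le_trans ?_ hgle⟩
    · set a := upDev U k v with had
      have ha : 0 < a := upDev_pos hU k v
      have ha' : (0 : ℝ) < a := by exact_mod_cast ha
      have hFc : ∀ c : ℕ, 0 ≤ ((a : ℝ) / c) ^ s / a := fun c =>
        div_nonneg (Real.rpow_nonneg (by positivity) _) ha'.le
      have hcrude : ∑ c ∈ Finset.Icc 1 a, ((a : ℝ) / c) ^ s / a ≤ Cs := by
        rw [← Finset.sum_div, div_le_iff₀ ha']
        refine (sum_small_le hs0 hs1 ha' _ fun c hc => ⟨(Finset.mem_Icc.1 hc).1,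
          by exact_mod_cast (Finset.mem_Icc.1 hc).2⟩).trans ?_
        rw [← one_div_mul_eq_div]
        exact mul_le_mul_of_nonneg_right ((le_max_left _ _).trans (le_max_right _ _)) ha'.le
      set W1 := W.filter (fun w => upDev U k w ≤ a ∧ L < (smPart Y (downDev U k w) : ℝ))
      set W2 := W.filter (fun w => upDev U k w ≤ a ∧ L < (smPart Y (upDev U k w) : ℝ))
      refine le_trans (Finset.sum_le_sum_of_subset_of_nonneg (t := W1 ∪ W2) (fun w hw => ?_)
        fun w _ _ => sideW_nonneg _ _ _ _ _) (le_trans (sum_union_le_add (fun w =>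
          sideW_nonneg U k _ v w)) (add_le_add ?_ ?_))
      · simp only [Finset.mem_filter] at hw
        obtain ⟨hw1, -, hA, -, -, hle⟩ := hw
        rcases hA with hA | hA
        · exact Finset.mem_union_left _ (Finset.mem_filter.2 ⟨hw1, hle, hA⟩)
        · exact Finset.mem_union_right _ (Finset.mem_filter.2 ⟨hw1, hle, hA⟩)
      · refine sum_side_le2 h W1 (Finset.Icc 1 a) _ (Finset.filter_subset _ _) (fun w hw =>
          Finset.mem_Icc.2 ⟨upDev_pos hU k w, (Finset.mem_filter.1 hw).2.1⟩) (fun w hw =>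
          Finset.mem_filter.2 ⟨downDev_mem_divisors h w, (Finset.mem_filter.1 hw).2.2⟩)
          _ hFc hcrude hdown'
      · refine sum_side_le2 h W2 ((Finset.Icc 1 a).filter fun c => L < (smPart Y c : ℝ)) _
          (Finset.filter_subset _ _) (fun w hw => Finset.mem_filter.2
            ⟨Finset.mem_Icc.2 ⟨upDev_pos hU k w, (Finset.mem_filter.1 hw).2.1⟩,
              (Finset.mem_filter.1 hw).2.2⟩) (fun w _ => downDev_mem_divisors h w)
          _ hFc ?_ hall
        exact (hup Y a L _ hL ha fun c hc => ⟨(Finset.mem_Icc.1 (Finset.mem_filter.1 hc).1).1,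
          (Finset.mem_filter.1 hc).2⟩).1 fun c hc =>
            (Finset.mem_Icc.1 (Finset.mem_filter.1 hc).1).2
    · set a := upDev U k w with had
      have ha : 0 < a := upDev_pos hU k w
      have ha' : (0 : ℝ) < a := by exact_mod_cast ha
      have hFc : ∀ c : ℕ, 0 ≤ ((a : ℝ) / c) ^ t / a := fun c =>
        div_nonneg (Real.rpow_nonneg (by positivity) _) ha'.le
      have hcrude : ∑ c ∈ Finset.Icc a (V.sup (upDev U k)), ((a : ℝ) / c) ^ t / a ≤ Cs := by
        rw [← Finset.sum_div, div_le_iff₀ ha']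
        refine (sum_tail_le ht1 ha' _ fun c hc => ⟨le_trans ha (Finset.mem_Icc.1 hc).1,
          by exact_mod_cast (Finset.mem_Icc.1 hc).1⟩).trans ?_
        exact mul_le_mul_of_nonneg_right ((le_max_right _ _).trans (le_max_right _ _)) ha'.le
      set V1 := V.filter (fun v => a ≤ upDev U k v ∧ L < (smPart Y (downDev U k v) : ℝ))
      set V2 := V.filter (fun v => a ≤ upDev U k v ∧ L < (smPart Y (upDev U k v) : ℝ))
      refine le_trans (Finset.sum_le_sum_of_subset_of_nonneg (t := V1 ∪ V2) (fun v hv => ?_)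
        fun v _ _ => sideW_nonneg _ _ _ _ _) (le_trans (sum_union_le_add (fun v =>
          sideW_nonneg U k _ w v)) (add_le_add ?_ ?_))
      · simp only [Finset.mem_filter] at hv
        obtain ⟨hv1, hEv, hA, hk, -, hle⟩ := hv
        simp only [not_or, not_lt] at hA
        obtain ⟨e1, e2⟩ := qd_eq_of_finState h hv1 hw hk
        have hfix : ∀ i j : ℕ → ℕ, 0 < fixedPart (P \ U) i j := fun i j =>
          fixedPart_pos h.prime_sdiff i j
        have hsmQ : ∀ m : ℕ, 0 < m → (m : ℝ) ≤ QR → (smPart Y m : ℝ) < L := fun m hm hle' =>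
          lt_of_le_of_lt ((Nat.cast_le.2 (smPart_le Y hm.ne')).trans hle') hQ
        have hQle1 : (fixedPart (P \ U) i j : ℝ) ≤ QR := by
          rw [hQR]; exact_mod_cast Nat.le_mul_of_pos_right _ (hfix j i)
        have hQle2 : (fixedPart (P \ U) j i : ℝ) ≤ QR := by
          rw [hQR]; exact_mod_cast Nat.le_mul_of_pos_left _ (hfix i j)
        have hsplit : ∀ Q c d : ℕ, 0 < Q → 0 < c → 0 < d → (smPart Y Q : ℝ) < L →
            N < (smPart Y (Q * (c * d)) : ℝ) → L < (smPart Y c : ℝ) ∨ L < (smPart Y d : ℝ) := by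
          intro Q c d hQ0 hc0 hd0 hQL hN'
          by_contra hno
          simp only [not_or, not_lt] at hno
          rw [smPart_mul Y hQ0.ne' (Nat.mul_pos hc0 hd0).ne', smPart_mul Y hc0.ne' hd0.ne',
            ← mul_assoc] at hN'
          push_cast at hN'
          have := mul_le_mul (mul_le_mul hQL.le hno.1 (Nat.cast_nonneg _) (by linarith)) hno.2
            (Nat.cast_nonneg _) (by positivity)
          linarith
        rcases hE v w hEv with hN' | hN'
        · rw [e1] at hN'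
          rcases hsplit _ _ _ (hfix i j) (upDev_pos hU k v) (downDev_pos hU k w)
            (hsmQ _ (hfix i j) hQle1) hN' with h' | h'
          · exact Finset.mem_union_right _ (Finset.mem_filter.2 ⟨hv1, hle, h'⟩)
          · linarith [hA.1]
        · rw [e2] at hN'
          rcases hsplit _ _ _ (hfix j i) (upDev_pos hU k w) (downDev_pos hU k v)
            (hsmQ _ (hfix j i) hQle2) hN' with h' | h'
          · linarith [hA.2]
          · exact Finset.mem_union_left _ (Finset.mem_filter.2 ⟨hv1, hle, h'⟩)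
      · refine sum_side_le2 h.symm V1 (Finset.Icc a (V.sup (upDev U k))) _
          (Finset.filter_subset _ _) (fun v hv => Finset.mem_Icc.2
            ⟨(Finset.mem_filter.1 hv).2.1, Finset.le_sup (Finset.mem_filter.1 hv).1⟩) (fun v hv =>
          Finset.mem_filter.2 ⟨downDev_mem_divisors h v, (Finset.mem_filter.1 hv).2.2⟩)
          _ hFc hcrude hdown'
      · refine sum_side_le2 h.symm V2
          ((Finset.Icc a (V.sup (upDev U k))).filter fun c => L < (smPart Y c : ℝ)) _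
          (Finset.filter_subset _ _) (fun v hv => Finset.mem_filter.2
            ⟨Finset.mem_Icc.2 ⟨(Finset.mem_filter.1 hv).2.1,
              Finset.le_sup (Finset.mem_filter.1 hv).1⟩,
              (Finset.mem_filter.1 hv).2.2⟩) (fun v _ => downDev_mem_divisors h v)
          _ hFc ?_ hall
        exact (hup Y a L _ hL ha fun c hc => ⟨le_trans ha
          (Finset.mem_Icc.1 (Finset.mem_filter.1 hc).1).1, (Finset.mem_filter.1 hc).2⟩).2
            fun c hc => (Finset.mem_Icc.1 (Finset.mem_filter.1 hc).1).1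
  have hg01 : 0 ≤ g := le_min zero_le_one hg00
  have h := hC f f' V₀ W₀ x g E hV₀ hW₀ hf hf' hx hg01 (min_le_left _ _)
    (fun P S U V W i j k hst _ _ => hmk f f' E (fun v w hh => hh) P S U V W i j k hst)
    (fun P S U V W i j k hst _ _ => hmk f' f (fun v w => E w v) (fun v w hh => hh.symm)
      P S U V W i j k hst)
  have hgg : g ^ (1 / 3 : ℝ) ≤
      B0 ^ (1 / 3 : ℝ) * (smLog Y ^ e * N ^ (-η / 3)) ^ (1 / 3 : ℝ) := by
    refine (Real.rpow_le_rpow hg01 (min_le_right _ _) (by norm_num)).trans_eq ?_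
    rw [hg0, Real.mul_rpow (by linarith) (by positivity)]
    rw [hLd, ← Real.rpow_mul (by linarith), show (1 / 3 : ℝ) * -η = -η / 3 by ring]
  have hmf : 0 ≤ massFac ξ (mass f V₀) (mass f' W₀) := by
    have := BilinearAux.mass_nonneg hf V₀
    have := BilinearAux.mass_nonneg hf' W₀
    rw [massFac]; positivity
  refine le_trans (le_trans (le_of_eq ?_) h) ?_
  · simp only [E]
  calc C * g ^ (1 / 3 : ℝ) * x ^ (1 - ξ) * massFac ξ (mass f V₀) (mass f' W₀)
    ≤ C * (B0 ^ (1 / 3 : ℝ) * (smLog Y ^ e * N ^ (-η / 3)) ^ (1 / 3 : ℝ)) * x ^ (1 - ξ) *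
          massFac ξ (mass f V₀) (mass f' W₀) := by gcongr
    _ = _ := by ring

end Vale.Agent.P028.Full
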