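import Vale.Agent.P028.Full.MomentSmooth

/-!
Pairs in which a prescribed divisor, chosen from a short list depending only on the deficiency of
`v` above a threshold, divides `r' / b`: they gain a power of the divisor.
-/

noncomputable section

namespace Vale.Agent.P028.Full

open Finset BilinearAux

/-- The deficiency of `v` from the centre `K` at the primes of `H`. -/
def hiDef (K : ℕ → ℕ) (H : Finset ℕ) (v : ℕ) : ℕ := ∏ p ∈ H, p ^ (K p - v.factorization p)

/-- The centre `K` on `H`, and `k` elsewhere. -/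
def hiOv (K : ℕ → ℕ) (H : Finset ℕ) (k : ℕ → ℕ) : ℕ → ℕ := fun p => if p ∈ H then K p else k p

/-- The weight of a candidate divisor. -/
def candW (e : ℕ) : ℝ := (e.divisors.card : ℝ) ^ 2 / (e : ℝ) ^ (1 / 3 : ℝ)

/-- The divisors of `e` which are at least its cube root. -/
def bigDivs (e : ℕ) : Finset ℕ :=
  e.divisors.filter (fun m => (e : ℝ) ^ (1 / 3 : ℝ) ≤ (m : ℝ))

theorem candW_nonneg (e : ℕ) : 0 ≤ candW e := by unfold candW; positivity

theorem sum_biUnion_le_sum {ι : Type*} [DecidableEq ι] (s : Finset ι) (t : ι → Finset ℕ)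
    {f : ℕ → ℝ} (hf : ∀ i, 0 ≤ f i) :
    ∑ i ∈ s.biUnion t, f i ≤ ∑ e ∈ s, ∑ i ∈ t e, f i := by
  induction s using Finset.induction with
  | empty => simp
  | @insert a s ha ih =>
    rw [Finset.biUnion_insert, Finset.sum_insert ha]
    exact (sum_union_le_add hf).trans (by linarith)

theorem sum_bigDivs_le {e : ℕ} (he : 0 < e) :
    ∑ m ∈ bigDivs e, (m.divisors.card : ℝ) / m ≤ candW e := by
  have h3 : (0 : ℝ) < (e : ℝ) ^ (1 / 3 : ℝ) := Real.rpow_pos_of_pos (by exact_mod_cast he) _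
  calc ∑ m ∈ bigDivs e, (m.divisors.card : ℝ) / m
      ≤ ∑ _m ∈ bigDivs e, (e.divisors.card : ℝ) / (e : ℝ) ^ (1 / 3 : ℝ) := by
        refine Finset.sum_le_sum fun m hm => ?_
        obtain ⟨hm1, hm2⟩ := Finset.mem_filter.1 hm
        refine div_le_div₀ (Nat.cast_nonneg _) ?_ h3 hm2
        exact_mod_cast Finset.card_le_card
          (Nat.divisors_subset_of_dvd he.ne' (Nat.dvd_of_mem_divisors hm1))
    _ ≤ _ := by
        rw [Finset.sum_const, nsmul_eq_mul, candW, sq, mul_div_assoc]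
        refine mul_le_mul_of_nonneg_right ?_ (by positivity)
        exact_mod_cast Finset.card_le_card (Finset.filter_subset _ _)

theorem sum_bigDivs_inv_le {e : ℕ} (he : 0 < e) :
    ∑ m ∈ bigDivs e, 1 / (m : ℝ) ≤ candW e := by
  refine le_trans (Finset.sum_le_sum fun m hm => ?_) (sum_bigDivs_le he)
  refine div_le_div_of_nonneg_right ?_ (Nat.cast_nonneg _)
  have hm0 : 0 < m := Nat.pos_of_mem_divisors (Finset.mem_filter.1 hm).1
  exact_mod_cast Finset.card_pos.2 ⟨1, Nat.mem_divisors.2 ⟨one_dvd _, hm0.ne'⟩⟩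

/-- A divisor of a product of three has a large common divisor with one of the last two. -/
theorem exists_bigDiv {e R c l : ℕ} {L : ℝ} (he : L * L * L ≤ (e : ℝ)) (he0 : 0 < e) (hL : 0 ≤ L)
    (hR : 0 < R) (hRL : (R : ℝ) < L) (h : e ∣ R * (c * l)) :
    (∃ m ∈ bigDivs e, m ∣ c) ∨ ∃ m ∈ bigDivs e, m ∣ l := by
  by_contra hno
  simp only [not_or, not_exists, not_and] at hno
  have hsmall : ∀ z : ℕ, (∀ m ∈ bigDivs e, ¬ m ∣ z) →
      (Nat.gcd e z : ℝ) < (e : ℝ) ^ (1 / 3 : ℝ) := by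
    intro z hz
    by_contra hge
    exact hz _ (Finset.mem_filter.2 ⟨Nat.mem_divisors.2 ⟨Nat.gcd_dvd_left _ _, he0.ne'⟩,
      not_lt.1 hge⟩) (Nat.gcd_dvd_right _ _)
  have h1 : e ≤ Nat.gcd e R * (Nat.gcd e c * Nat.gcd e l) := by
    have hd : Nat.gcd e (R * (c * l)) ∣ Nat.gcd e R * (Nat.gcd e c * Nat.gcd e l) :=
      (Nat.gcd_mul_right_dvd_mul_gcd _ _ _).trans
        (mul_dvd_mul_left _ (Nat.gcd_mul_right_dvd_mul_gcd _ _ _))
    rw [Nat.gcd_eq_left h] at hd
    exact Nat.le_of_dvd (Nat.mul_pos (Nat.gcd_pos_of_pos_left _ he0)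
      (Nat.mul_pos (Nat.gcd_pos_of_pos_left _ he0) (Nat.gcd_pos_of_pos_left _ he0))) hd
  have hR' : (Nat.gcd e R : ℝ) ≤ R := by
    exact_mod_cast Nat.le_of_dvd hR (Nat.gcd_dvd_right _ _)
  have hgR : (Nat.gcd e R : ℝ) < L := lt_of_le_of_lt hR' hRL
  have hL3 : L ≤ (e : ℝ) ^ (1 / 3 : ℝ) := by
    calc L = (L ^ (3 : ℝ)) ^ (1 / 3 : ℝ) := by rw [← Real.rpow_mul hL]; norm_num
      _ ≤ _ := Real.rpow_le_rpow (by positivity) (by
        rw [show L ^ (3 : ℝ) = L ^ (3 : ℕ) by exact_mod_cast Real.rpow_natCast L 3]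
        linarith [show L ^ 3 = L * L * L by ring]) (by norm_num)
  have h1' : (e : ℝ) ≤ (Nat.gcd e R : ℝ) * ((Nat.gcd e c : ℝ) * Nat.gcd e l) := by exact_mod_cast h1
  have h3 : (e : ℝ) ^ (1 / 3 : ℝ) * ((e : ℝ) ^ (1 / 3 : ℝ) * (e : ℝ) ^ (1 / 3 : ℝ)) = e := by
    rw [← Real.rpow_add (by exact_mod_cast he0), ← Real.rpow_add (by exact_mod_cast he0)]
    norm_num
  have hgc := hsmall c hno.1
  have hgl := hsmall l hno.2
  have hlt : (Nat.gcd e R : ℝ) * ((Nat.gcd e c : ℝ) * Nat.gcd e l) <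
      (e : ℝ) ^ (1 / 3 : ℝ) * ((e : ℝ) ^ (1 / 3 : ℝ) * (e : ℝ) ^ (1 / 3 : ℝ)) :=
    mul_lt_mul'' (hgR.trans_le hL3) (mul_lt_mul'' hgc hgl (Nat.cast_nonneg _) (Nat.cast_nonneg _))
      (Nat.cast_nonneg _) (by positivity)
  linarith

/-- The ratio sums over multiples of the big divisors of a list. -/
theorem exists_up_mult_le (ξ : ℝ) (hξ : 0 < ξ) (hξ1 : ξ ≤ 1 / 100) :
    ∃ B : ℝ, 1 ≤ B ∧ ∀ (a : ℕ) (Cd : Finset ℕ) (T : Finset ℕ), 0 < a → (∀ e ∈ Cd, 0 < e) →
      (∀ c ∈ T, 1 ≤ c ∧ ∃ e ∈ Cd, ∃ m ∈ bigDivs e, m ∣ c) →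
      ((∀ c ∈ T, c ≤ a) → ∑ c ∈ T, ((a : ℝ) / c) ^ evLow ξ / a ≤ B * ∑ e ∈ Cd, candW e) ∧
      ((∀ c ∈ T, a ≤ c) → ∑ c ∈ T, ((a : ℝ) / c) ^ evHigh ξ / a ≤ B * ∑ e ∈ Cd, candW e) := by
  set s := evLow ξ with hsd
  set t := evHigh ξ with htd
  have h1 : 0 < 1 - ξ := by linarith
  have hs0 : 0 < s := by rw [hsd, evLow, alphaX]; apply div_pos <;> linarith
  have hs1 : s < 1 := by rw [hsd, evLow, alphaX, div_lt_one h1]; linarith
  have ht1 : 1 < t := by rw [htd, evHigh, one_lt_div h1]; linarith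
  set Cs : ℝ := max 1 (max (1 / (1 - s)) (1 + 1 / (t - 1))) with hCs
  refine ⟨Cs, le_max_left _ _, ?_⟩
  intro a Cd T ha hCd hT
  have ha' : (0 : ℝ) < a := by exact_mod_cast ha
  have hCs0 : 0 ≤ Cs := zero_le_one.trans (le_max_left _ _)
  have hmain : ∀ v : ℝ, (∀ m : ℕ, 0 < m →
      ∑ l ∈ (T.filter (m ∣ ·)).image (· / m), (((a : ℝ) / m) / l) ^ v ≤ Cs * ((a : ℝ) / m)) →
      ∑ c ∈ T, ((a : ℝ) / c) ^ v / a ≤ Cs * ∑ e ∈ Cd, candW e := by
    intro v hv
    have hpos : ∀ c : ℕ, 0 ≤ ((a : ℝ) / c) ^ v / a := fun c =>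
      div_nonneg (Real.rpow_nonneg (by positivity) _) ha'.le
    refine (Finset.sum_le_sum_of_subset_of_nonneg
      (t := Cd.biUnion fun e => (bigDivs e).biUnion fun m => T.filter (m ∣ ·))
      (fun c hc => ?_) fun c _ _ => hpos c).trans ((sum_biUnion_le_sum _ _ hpos).trans ?_)
    · obtain ⟨-, e, he, m, hm, hmc⟩ := hT c hc
      exact Finset.mem_biUnion.2 ⟨e, he, Finset.mem_biUnion.2 ⟨m, hm,
        Finset.mem_filter.2 ⟨hc, hmc⟩⟩⟩
    rw [Finset.mul_sum]
    refine Finset.sum_le_sum fun e he => (sum_biUnion_le_sum _ _ hpos).trans ?_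
    refine le_trans (Finset.sum_le_sum fun m hm => ?_)
      ((Finset.mul_sum _ _ _).symm.le.trans (mul_le_mul_of_nonneg_left
        (sum_bigDivs_inv_le (hCd e he)) hCs0))
    have hm0 : 0 < m := Nat.pos_of_mem_divisors (Finset.mem_filter.1 hm).1
    have hm' : (0 : ℝ) < m := by exact_mod_cast hm0
    rw [← Finset.sum_div, div_le_iff₀ ha']
    refine le_trans (le_of_eq ?_) ((hv m hm0).trans_eq ?_)
    · rw [Finset.sum_image fun c hc c' hc' e => by
        rw [← Nat.div_mul_cancel (Finset.mem_filter.1 hc).2, e,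
          Nat.div_mul_cancel (Finset.mem_filter.1 hc').2]]
      refine Finset.sum_congr rfl fun c hc => ?_
      rw [Nat.cast_div (Finset.mem_filter.1 hc).2 hm'.ne', div_div,
        mul_div_cancel₀ _ hm'.ne']
    · field_simp
  refine ⟨fun hle => hmain s fun m hm => ?_, fun hge => hmain t fun m hm => ?_⟩
  · have hX : 0 < (a : ℝ) / m := div_pos ha' (by exact_mod_cast hm)
    refine (sum_small_le hs0 hs1 hX _ fun l hl => ?_).trans ?_
    · obtain ⟨c, hc, rfl⟩ := Finset.mem_image.1 hl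
      obtain ⟨hcT, hmc⟩ := Finset.mem_filter.1 hc
      refine ⟨Nat.div_pos (Nat.le_of_dvd (hT c hcT).1 hmc) hm, ?_⟩
      rw [Nat.cast_div hmc (by exact_mod_cast hm.ne')]
      exact div_le_div_of_nonneg_right (by exact_mod_cast hle c hcT) (Nat.cast_nonneg _)
    · rw [← one_div_mul_eq_div]
      exact mul_le_mul_of_nonneg_right ((le_max_left _ _).trans (le_max_right _ _)) hX.le
  · have hX : 0 < (a : ℝ) / m := div_pos ha' (by exact_mod_cast hm)
    refine (sum_tail_le ht1 hX _ fun l hl => ?_).trans ?_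
    · obtain ⟨c, hc, rfl⟩ := Finset.mem_image.1 hl
      obtain ⟨hcT, hmc⟩ := Finset.mem_filter.1 hc
      refine ⟨Nat.div_pos (Nat.le_of_dvd (hT c hcT).1 hmc) hm, ?_⟩
      rw [Nat.cast_div hmc (by exact_mod_cast hm.ne')]
      exact div_le_div_of_nonneg_right (by exact_mod_cast hge c hcT) (Nat.cast_nonneg _)
    · exact mul_le_mul_of_nonneg_right ((le_max_right _ _).trans (le_max_right _ _)) hX.le

/-- Downward deviations whose part outside `H` is divisible by a big divisor of a candidate, the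
list of candidates depending on the part in `H`. -/
theorem exists_down_cand_le :
    ∃ D : ℝ, 1 ≤ D ∧ ∀ (Nh Nl : ℕ) (A : Finset ℕ) (cand : ℕ → Finset ℕ) (G : ℝ),
      0 < Nh → 0 < Nl → Nat.Coprime Nh Nl → (∀ h, ∀ e ∈ cand h, 0 < e) →
      (∀ h, ∑ e ∈ cand h, candW e ≤ G) →
      (∀ d ∈ A, ∃ h l : ℕ, h ∣ Nh ∧ l ∣ Nl ∧ d = h * l ∧
        ∃ e ∈ cand h, ∃ m ∈ bigDivs e, m ∣ l) →
      (Nat.totient (Nh * Nl) : ℝ) / (Nh * Nl : ℕ) * ∑ d ∈ A, 1 / (Nat.totient d : ℝ) ≤ D * G := by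
  obtain ⟨D₀, hD₀⟩ := exists_centre_sum_le
  set D₁ := max D₀ 1 with hD₁
  have hD10 : 0 ≤ D₁ := zero_le_one.trans (le_max_right _ _)
  refine ⟨D₁ * D₁, one_le_mul_of_one_le_of_one_le (le_max_right _ _) (le_max_right _ _), ?_⟩
  intro Nh Nl A cand G hh hl hco hcand hG hA
  classical
  set Ls : ℕ → Finset ℕ := fun h => (cand h).biUnion fun e => (bigDivs e).biUnion fun m =>
    Nl.divisors.filter (m ∣ ·)
  have hsub : A ⊆ (Nh.divisors.sigma Ls).image (fun z => z.1 * z.2) := by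
    intro d hd
    obtain ⟨h, l, h1, h2, h3, e, he, m, hm, hml⟩ := hA d hd
    exact Finset.mem_image.2 ⟨⟨h, l⟩, Finset.mem_sigma.2 ⟨Nat.mem_divisors.2 ⟨h1, hh.ne'⟩,
      Finset.mem_biUnion.2 ⟨e, he, Finset.mem_biUnion.2 ⟨m, hm,
        Finset.mem_filter.2 ⟨Nat.mem_divisors.2 ⟨h2, hl.ne'⟩, hml⟩⟩⟩⟩, h3.symm⟩
  have hmul : ∀ m : ℕ, m ∣ Nl →
      (Nat.totient Nl : ℝ) / Nl * ∑ l ∈ Nl.divisors.filter (m ∣ ·), 1 / (Nat.totient l : ℝ) ≤
        D₁ * ((m.divisors.card : ℝ) / m) := by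
    intro m hm
    have hm0 : 0 < m := Nat.pos_of_dvd_of_pos hm hl
    have hφ : (0 : ℝ) < Nat.totient m := by exact_mod_cast Nat.totient_pos.2 hm0
    have h1 : ∑ l ∈ Nl.divisors.filter (m ∣ ·), 1 / (Nat.totient l : ℝ) ≤
        1 / (Nat.totient m : ℝ) * ∑ t ∈ Nl.divisors, 1 / (Nat.totient t : ℝ) := by
      rw [Finset.mul_sum]
      refine le_trans (Finset.sum_le_sum (g := fun l =>
        1 / (Nat.totient m : ℝ) * (1 / (Nat.totient (l / m) : ℝ))) fun l hl' => ?_) ?_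
      · obtain ⟨hl1, t, rfl⟩ := Finset.mem_filter.1 hl'
        have ht : 0 < t := Nat.pos_of_mul_pos_left (Nat.pos_of_mem_divisors hl1)
        rw [Nat.mul_div_cancel_left _ hm0, one_div_mul_one_div]
        refine one_div_le_one_div_of_le (mul_pos hφ (by exact_mod_cast Nat.totient_pos.2 ht)) ?_
        exact_mod_cast Nat.totient_super_multiplicative m t
      · refine le_trans (le_of_eq (Finset.sum_image (g := fun l => l / m)
          (f := fun t => 1 / (Nat.totient m : ℝ) * (1 / (Nat.totient t : ℝ)))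
          fun l hl' l' hl'' e => ?_).symm)
          (Finset.sum_le_sum_of_subset_of_nonneg (fun t ht => ?_) fun t _ _ => by positivity)
        · dsimp only at e
          rw [← Nat.div_mul_cancel (Finset.mem_filter.1 hl').2, e,
            Nat.div_mul_cancel (Finset.mem_filter.1 hl'').2]
        · obtain ⟨l, hl', rfl⟩ := Finset.mem_image.1 ht
          obtain ⟨hl1, hml⟩ := Finset.mem_filter.1 hl'
          exact Nat.mem_divisors.2 ⟨(Nat.div_dvd_of_dvd hml).trans (Nat.dvd_of_mem_divisors hl1),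
            hl.ne'⟩
    have h2 : 1 / (Nat.totient m : ℝ) ≤ (m.divisors.card : ℝ) / m := by
      have := div_totient_le_card_divisors m hm0
      rw [div_le_iff₀ hφ] at this
      rw [div_le_div_iff₀ hφ (by exact_mod_cast hm0)]
      linarith
    calc _ ≤ (Nat.totient Nl : ℝ) / Nl *
          (1 / (Nat.totient m : ℝ) * ∑ t ∈ Nl.divisors, 1 / (Nat.totient t : ℝ)) :=
          mul_le_mul_of_nonneg_left h1 (by positivity)
      _ = 1 / (Nat.totient m : ℝ) *
          ((Nat.totient Nl : ℝ) / Nl * ∑ t ∈ Nl.divisors, 1 / (Nat.totient t : ℝ)) := by ring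
      _ ≤ (m.divisors.card : ℝ) / m * D₁ :=
          mul_le_mul h2 ((hD₀ Nl hl).trans (le_max_left _ _)) (by positivity) (by positivity)
      _ = _ := mul_comm _ _
  have hpos : ∀ l : ℕ, 0 ≤ (Nat.totient Nl : ℝ) / Nl * (1 / (Nat.totient l : ℝ)) :=
    fun l => by positivity
  have hLs : ∀ h, (Nat.totient Nl : ℝ) / Nl * ∑ l ∈ Ls h, 1 / (Nat.totient l : ℝ) ≤ D₁ * G := by
    intro h
    rw [Finset.mul_sum]
    refine (sum_biUnion_le_sum _ _ hpos).trans (le_trans (Finset.sum_le_sum fun e he => ?_)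
      ((Finset.mul_sum _ _ _).symm.le.trans (mul_le_mul_of_nonneg_left (hG h) hD10)))
    refine (sum_biUnion_le_sum _ _ hpos).trans (le_trans (Finset.sum_le_sum fun m _ => ?_)
      ((Finset.mul_sum _ _ _).symm.le.trans (mul_le_mul_of_nonneg_left
        (sum_bigDivs_le (hcand h e he)) hD10)))
    by_cases hmN : m ∣ Nl
    · rw [← Finset.mul_sum]; exact hmul m hmN
    · rw [Finset.filter_false_of_mem fun l hl' hml =>
        hmN (hml.trans (Nat.dvd_of_mem_divisors hl')), Finset.sum_empty]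
      positivity
  have hG0 : 0 ≤ G := le_trans (Finset.sum_nonneg fun e _ => candW_nonneg e) (hG 0)
  calc (Nat.totient (Nh * Nl) : ℝ) / (Nh * Nl : ℕ) * ∑ d ∈ A, 1 / (Nat.totient d : ℝ)
      ≤ (Nat.totient (Nh * Nl) : ℝ) / (Nh * Nl : ℕ) *
          ∑ z ∈ Nh.divisors.sigma Ls, 1 / (Nat.totient (z.1 * z.2) : ℝ) := by
        refine mul_le_mul_of_nonneg_left ((Finset.sum_le_sum_of_subset_of_nonneg hsub fun d _ _ =>
          by positivity).trans (Finset.sum_image_le_of_nonneg fun d _ => by positivity))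
          (by positivity)
    _ = (Nat.totient Nh : ℝ) / Nh * ∑ h ∈ Nh.divisors, 1 / (Nat.totient h : ℝ) *
          ((Nat.totient Nl : ℝ) / Nl * ∑ l ∈ Ls h, 1 / (Nat.totient l : ℝ)) := by
        rw [Finset.sum_sigma, Nat.totient_mul hco, Finset.mul_sum, Finset.mul_sum]
        refine Finset.sum_congr rfl fun h hh' => ?_
        simp only [Finset.mul_sum]
        refine Finset.sum_congr rfl fun l hl' => ?_
        obtain ⟨e, -, hl''⟩ := Finset.mem_biUnion.1 hl'
        obtain ⟨m, -, hl'''⟩ := Finset.mem_biUnion.1 hl''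
        have hlN := Nat.dvd_of_mem_divisors (Finset.mem_filter.1 hl''').1
        rw [Nat.totient_mul ((hco.coprime_dvd_left (Nat.dvd_of_mem_divisors hh')).coprime_dvd_right
          hlN)]
        push_cast
        ring
    _ ≤ (Nat.totient Nh : ℝ) / Nh * ∑ h ∈ Nh.divisors, 1 / (Nat.totient h : ℝ) * (D₁ * G) :=
        mul_le_mul_of_nonneg_left (Finset.sum_le_sum fun h _ =>
          mul_le_mul_of_nonneg_left (hLs h) (by positivity)) (by positivity)
    _ = ((Nat.totient Nh : ℝ) / Nh * ∑ h ∈ Nh.divisors, 1 / (Nat.totient h : ℝ)) * (D₁ * G) := by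
        rw [← Finset.sum_mul]; ring
    _ ≤ D₁ * (D₁ * G) := mul_le_mul_of_nonneg_right ((hD₀ Nh hh).trans (le_max_left _ _))
        (mul_nonneg hD10 hG0)
    _ = _ := by ring

/-- The split of a downward deviation at the primes of `H`. -/
theorem downDev_split (U H : Finset ℕ) (K k : ℕ → ℕ) (v : ℕ) :
    downDev U (hiOv K H k) v = hiDef K (U ∩ H) v * downDev (U \ H) k v := by
  rw [downDev, ← Finset.prod_inter_mul_prod_sdiff U H]
  refine congr_arg₂ (· * ·) (Finset.prod_congr rfl fun p hp => ?_)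
    (Finset.prod_congr rfl fun p hp => ?_)
  · rw [hiOv, if_pos (Finset.mem_inter.1 hp).2]
  · rw [hiOv, if_neg (Finset.mem_sdiff.1 hp).2]

theorem centre_split (U H : Finset ℕ) (K k : ℕ → ℕ) :
    centre U (hiOv K H k) = (∏ p ∈ U ∩ H, p ^ K p) * centre (U \ H) k := by
  rw [centre, ← Finset.prod_inter_mul_prod_sdiff U H]
  refine congr_arg₂ (· * ·) (Finset.prod_congr rfl fun p hp => ?_)
    (Finset.prod_congr rfl fun p hp => ?_)
  · rw [hiOv, if_pos (Finset.mem_inter.1 hp).2]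
  · rw [hiOv, if_neg (Finset.mem_sdiff.1 hp).2]

theorem hiDef_split (U H : Finset ℕ) (K : ℕ → ℕ) (v : ℕ) :
    hiDef K H v = hiDef K (H \ U) v * hiDef K (U ∩ H) v := by
  rw [hiDef, hiDef, hiDef, Finset.inter_comm, mul_comm, Finset.prod_inter_mul_prod_sdiff]

open Classical in
/-- Pairs of level at most `x` in which a candidate of the deficiency of `v` on `H` divides
`r' / b`. -/
theorem exists_div_event_le (ξ : ℝ) (hξ : 0 < ξ) (hξ1 : ξ ≤ 1 / 100) :
    ∃ B : ℝ, 0 ≤ B ∧ ∀ (f f' : ℕ → ℝ) (V₀ W₀ H : Finset ℕ) (x L G : ℝ) (K : ℕ → ℕ)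
      (cand : ℕ → Finset ℕ),
      (∀ v ∈ V₀, 0 < v) → (∀ w ∈ W₀, 0 < w) → (∀ p ∈ H, p.Prime) →
      (∀ q, 0 ≤ f q) → (∀ q, 0 ≤ f' q) → 0 < x → 1 ≤ L →
      (∀ b, ∀ e ∈ cand b, L * L * L ≤ (e : ℝ)) → (∀ b, ∑ e ∈ cand b, candW e ≤ G) →
      ∑ v ∈ V₀, ∑ w ∈ W₀.filter (fun w => dist2' f f' v w ≤ x ∧
          (∀ p ∈ H, v.factorization p = K p ∨ w.factorization p = K p) ∧
          ∃ e ∈ cand (hiDef K H v), e * hiDef K H v ∣ qd w v), wt f v * wt f' w ≤
        B * (G + L ^ (-evSlack ξ)) ^ (1 / 3 : ℝ) * x ^ (1 - ξ) *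
          massFac ξ (mass f V₀) (mass f' W₀) := by
  obtain ⟨C, hC0, hC⟩ := exists_event_override_le ξ hξ hξ1
  obtain ⟨Bu, hBu, hup⟩ := exists_up_mult_le ξ hξ hξ1
  obtain ⟨Bd, hBd, hdown⟩ := exists_down_cand_le
  obtain ⟨D₀, hD₀⟩ := exists_centre_sum_le
  set D := max D₀ 1 with hDd
  set s := evLow ξ with hsd
  set t := evHigh ξ with htd
  have h1 : 0 < 1 - ξ := by linarith
  have hs0 : 0 < s := by rw [hsd, evLow, alphaX]; apply div_pos <;> linarith
  have hs1 : s < 1 := by rw [hsd, evLow, alphaX, div_lt_one h1]; linarith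
  have ht1 : 1 < t := by rw [htd, evHigh, one_lt_div h1]; linarith
  set Cs : ℝ := max 1 (max (1 / (1 - s)) (1 + 1 / (t - 1))) with hCsd
  have hCs0 : 0 ≤ Cs := zero_le_one.trans (le_max_left _ _)
  have hD0 : 0 ≤ D := zero_le_one.trans (le_max_right _ _)
  set B0 := max 1 (max (D * Bu) (Bd * Cs)) with hB0d
  have hB0 : 1 ≤ B0 := le_max_left _ _
  refine ⟨C * B0 ^ (1 / 3 : ℝ), by positivity, ?_⟩
  intro f f' V₀ W₀ H x L G K cand hV₀ hW₀ hH hf hf' hx hL hbig hG
  have hG0 : 0 ≤ G := le_trans (Finset.sum_nonneg fun e _ => candW_nonneg e) (hG 0)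
  have hcand0 : ∀ b, ∀ e ∈ cand b, 0 < e := fun b e he => by
    have h3 : (1 : ℝ) ≤ L * L * L :=
      one_le_mul_of_one_le_of_one_le (one_le_mul_of_one_le_of_one_le hL hL) hL
    exact_mod_cast lt_of_lt_of_le zero_lt_one (h3.trans (hbig b e he))
  have hL0 : 0 ≤ L ^ (-evSlack ξ) := Real.rpow_nonneg (by linarith) _
  set g0 := B0 * (G + L ^ (-evSlack ξ)) with hg0
  set g := min 1 g0 with hg
  have hg00 : 0 ≤ g0 := mul_nonneg (by linarith) (by linarith)
  set E : ℕ → ℕ → Prop := fun v w => (∀ p ∈ H, v.factorization p = K p ∨ w.factorization p = K p) ∧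
    ∃ e ∈ cand (hiDef K H v), e * hiDef K H v ∣ qd w v with hE
  -- in a state the candidate divides `R c l`
  have key : ∀ {P S U V W : Finset ℕ} {i j k : ℕ → ℕ}, FinState P S U V W i j →
      ∀ v ∈ V, ∀ w ∈ W, NoCoDev U (hiOv K H k) v w → E v w →
      (fixedPart (P \ U) j i : ℝ) < L →
      (∃ e ∈ cand (hiDef K H v), ∃ m ∈ bigDivs e, m ∣ upDev U (hiOv K H k) w) ∨
      (∃ e ∈ cand (hiDef K H v), ∃ m ∈ bigDivs e, m ∣ downDev (U \ H) k v) := by
    intro P S U V W i j k h v hv w hw hk hE' hR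
    obtain ⟨-, e, he, hdvd⟩ := hE'
    have e2 := (qd_eq_of_finState h hv hw hk).2
    rw [e2, downDev_split, hiDef_split U H K v] at hdvd
    have hU' : ∀ p ∈ U ∩ H, p.Prime := fun p hp => h.prime_U p (Finset.mem_inter.1 hp).1
    have hh0 : 0 < hiDef K (U ∩ H) v := prodPow_pos hU' _
    have hd : e * hiDef K (H \ U) v ∣ fixedPart (P \ U) j i *
        (upDev U (hiOv K H k) w * downDev (U \ H) k v) := by
      refine Nat.dvd_of_mul_dvd_mul_right hh0 ?_
      refine dvd_trans (dvd_of_eq (by ring)) (hdvd.trans (dvd_of_eq (by ring)))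
    rcases exists_bigDiv (hbig _ e he) (hcand0 _ e he) (by linarith)
      (fixedPart_pos h.prime_sdiff j i) hR ((dvd_mul_right _ _).trans hd) with ⟨m, hm, hmd⟩ | ⟨m, hm, hmd⟩
    · exact Or.inl ⟨e, he, m, hm, hmd⟩
    · exact Or.inr ⟨e, he, m, hm, hmd⟩
  -- the two sums
  have side_up_low : ∀ {P S U V W : Finset ℕ} {i j k : ℕ → ℕ}, FinState P S U V W i j →
      ∀ (k' : ℕ → ℕ) (v : ℕ) (Cd : Finset ℕ) (W' : Finset ℕ), W' ⊆ W → (∀ e ∈ Cd, 0 < e) →
      (∀ w ∈ W', upDev U k' w ≤ upDev U k' v ∧ ∃ e ∈ Cd, ∃ m ∈ bigDivs e, m ∣ upDev U k' w) →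
      ∑ w ∈ W', sideW U k' s v w ≤ D * Bu * ∑ e ∈ Cd, candW e := by
    intro P S U V W i j k h k' v Cd W' hsub hCd hW'
    have hU := h.prime_U
    set a := upDev U k' v with had
    have ha : 0 < a := upDev_pos hU k' v
    have hmem : ∀ c ∈ W'.image (upDev U k'), c ≤ a ∧ 1 ≤ c ∧
        ∃ e ∈ Cd, ∃ m ∈ bigDivs e, m ∣ c := fun c hc => by
      obtain ⟨w, hw, rfl⟩ := Finset.mem_image.1 hc
      exact ⟨(hW' w hw).1, upDev_pos hU k' w, (hW' w hw).2⟩
    refine (sum_side_le2 h W' (W'.image (upDev U k')) (centre U k').divisors hsub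
      (fun w hw => Finset.mem_image_of_mem _ hw) (fun w _ => downDev_mem_divisors h w)
      (fun c => ((a : ℝ) / c) ^ s / a) (fun c => by positivity)
      ((hup a Cd _ ha hCd fun c hc => (hmem c hc).2).1 fun c hc => (hmem c hc).1)
      ((hD₀ _ (prodPow_pos hU k')).trans (le_max_left D₀ 1))).trans_eq ?_
    ring
  have side_up_high : ∀ {P S U V W : Finset ℕ} {i j k : ℕ → ℕ}, FinState P S U V W i j →
      ∀ (k' : ℕ → ℕ) (w : ℕ) (Cd : Finset ℕ) (V' : Finset ℕ), V' ⊆ V → (∀ e ∈ Cd, 0 < e) →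
      (∀ v ∈ V', upDev U k' w ≤ upDev U k' v ∧ ∃ e ∈ Cd, ∃ m ∈ bigDivs e, m ∣ upDev U k' v) →
      ∑ v ∈ V', sideW U k' t w v ≤ D * Bu * ∑ e ∈ Cd, candW e := by
    intro P S U V W i j k h k' w Cd V' hsub hCd hV'
    have hU := h.prime_U
    set a := upDev U k' w with had
    have ha : 0 < a := upDev_pos hU k' w
    have hmem : ∀ c ∈ V'.image (upDev U k'), a ≤ c ∧ 1 ≤ c ∧
        ∃ e ∈ Cd, ∃ m ∈ bigDivs e, m ∣ c := fun c hc => by
      obtain ⟨v, hv, rfl⟩ := Finset.mem_image.1 hc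
      exact ⟨(hV' v hv).1, upDev_pos hU k' v, (hV' v hv).2⟩
    refine (sum_side_le2 h.symm V' (V'.image (upDev U k')) (centre U k').divisors hsub
      (fun w hw => Finset.mem_image_of_mem _ hw) (fun w _ => downDev_mem_divisors h w)
      (fun c => ((a : ℝ) / c) ^ t / a) (fun c => by positivity)
      ((hup a Cd _ ha hCd fun c hc => (hmem c hc).2).2 fun c hc => (hmem c hc).1)
      ((hD₀ _ (prodPow_pos hU k')).trans (le_max_left D₀ 1))).trans_eq ?_
    ring
  have down_bd : ∀ {P S U V W : Finset ℕ} {i j k : ℕ → ℕ}, FinState P S U V W i j →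
      ∀ (V' : Finset ℕ) (io : ℕ → ℕ), (∀ v ∈ V', ∀ p, p ∉ U → v.factorization p = io p) →
      (∀ v ∈ V', ∃ e ∈ cand (hiDef K H v), ∃ m ∈ bigDivs e, m ∣ downDev (U \ H) k v) →
      (Nat.totient (centre U (hiOv K H k)) : ℝ) / centre U (hiOv K H k) *
        ∑ d ∈ V'.image (downDev U (hiOv K H k)), 1 / (Nat.totient d : ℝ) ≤ Bd * G := by
    intro P S U V W i j k h V' io hio hV'
    have hU := h.prime_U
    have hUi : ∀ p ∈ U ∩ H, p.Prime := fun p hp => hU p (Finset.mem_inter.1 hp).1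
    have hUd : ∀ p ∈ U \ H, p.Prime := fun p hp => hU p (Finset.mem_sdiff.1 hp).1
    rw [centre_split]
    set κ := ∏ p ∈ H \ U, p ^ (K p - io p) with hκ
    refine hdown (∏ p ∈ U ∩ H, p ^ K p) (centre (U \ H) k) _ (fun b => cand (κ * b)) G
      (prodPow_pos hUi _) (prodPow_pos hUd _) ?_ (fun b e he => hcand0 _ e he) (fun b => hG _)
      fun d hd => ?_
    · refine Nat.coprime_prod_left_iff.2 fun p hp => Nat.coprime_prod_right_iff.2 fun q hq => ?_
      exact Nat.Coprime.pow _ _ ((Nat.coprime_primes (hUi p hp) (hUd q hq)).2 fun e =>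
        (Finset.mem_sdiff.1 hq).2 (e ▸ (Finset.mem_inter.1 hp).2))
    · obtain ⟨v, hv, rfl⟩ := Finset.mem_image.1 hd
      obtain ⟨e, he, m, hm, hmd⟩ := hV' v hv
      have hκv : hiDef K (H \ U) v = κ := Finset.prod_congr rfl fun p hp => by
        rw [hio v hv p (Finset.mem_sdiff.1 hp).2]
      refine ⟨hiDef K (U ∩ H) v, downDev (U \ H) k v,
        Finset.prod_dvd_prod_of_dvd _ _ fun p _ => pow_dvd_pow _ (Nat.sub_le _ _),
        Finset.prod_dvd_prod_of_dvd _ _ fun p _ => pow_dvd_pow _ (Nat.sub_le _ _),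
        downDev_split _ _ _ _ _, e, ?_, m, hm, hmd⟩
      rw [hiDef_split U H K v, hκv] at he
      exact he
  have hpart : ∀ {r : ℝ}, r ≤ D * Bu * G ∨ r ≤ Bd * G * Cs → g0 < 1 → r ≤ g := by
    intro r hr hsmall
    rw [hg, min_eq_right hsmall.le, hg0]
    have hmax1 : D * Bu ≤ B0 := (le_max_left _ _).trans (le_max_right _ _)
    have hmax2 : Bd * Cs ≤ B0 := (le_max_right _ _).trans (le_max_right _ _)
    have h2 : 0 ≤ B0 * L ^ (-evSlack ξ) := mul_nonneg (by linarith) hL0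
    rcases hr with hr | hr
    · have := mul_le_mul_of_nonneg_right hmax1 hG0; linarith
    · have := mul_le_mul_of_nonneg_right hmax2 hG0; linarith
  have hslack : ∀ {QR : ℝ}, 1 ≤ QR → g0 < 1 ∧ QR < L ∨ QR ^ (-evSlack ξ) ≤ g := by
    intro QR hQR
    have hneg : QR ^ (-evSlack ξ) ≤ 1 :=
      Real.rpow_le_one_of_one_le_of_nonpos hQR (by rw [evSlack]; linarith)
    rcases le_or_gt 1 g0 with hb | hb
    · exact Or.inr (by rw [hg, min_eq_left hb]; exact hneg)
    rcases lt_or_ge QR L with hQ | hQ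
    · exact Or.inl ⟨hb, hQ⟩
    refine Or.inr ?_
    rw [hg, min_eq_right hb.le]
    refine (Real.rpow_le_rpow_of_nonpos (by linarith) hQ (by rw [evSlack]; linarith)).trans ?_
    rw [hg0]
    nlinarith [mul_le_mul_of_nonneg_right hB0 (show 0 ≤ G + L ^ (-evSlack ξ) by linarith)]
  have hQRone : ∀ {P S U V W : Finset ℕ} {i j : ℕ → ℕ}, FinState P S U V W i j →
      (1 : ℝ) ≤ ((fixedPart (P \ U) i j * fixedPart (P \ U) j i : ℕ) : ℝ) :=
    fun {P S U V W i j} h => by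
      exact_mod_cast Nat.mul_pos (fixedPart_pos h.prime_sdiff i j) (fixedPart_pos h.prime_sdiff j i)
  have hFs : ∀ (a : ℕ), 0 < a → ∀ T : Finset ℕ, (∀ c ∈ T, 1 ≤ c ∧ c ≤ a) →
      ∑ c ∈ T, ((a : ℝ) / c) ^ s / a ≤ Cs := by
    intro a ha T hT
    have ha' : (0 : ℝ) < a := by exact_mod_cast ha
    rw [← Finset.sum_div, div_le_iff₀ ha']
    refine (sum_small_le hs0 hs1 ha' _ fun c hc => ⟨(hT c hc).1,
      by exact_mod_cast (hT c hc).2⟩).trans ?_
    rw [← one_div_mul_eq_div]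
    exact mul_le_mul_of_nonneg_right ((le_max_left _ _).trans (le_max_right _ _)) ha'.le
  have hFt : ∀ (a : ℕ), 0 < a → ∀ T : Finset ℕ, (∀ c ∈ T, 1 ≤ c ∧ a ≤ c) →
      ∑ c ∈ T, ((a : ℝ) / c) ^ t / a ≤ Cs := by
    intro a ha T hT
    have ha' : (0 : ℝ) < a := by exact_mod_cast ha
    rw [← Finset.sum_div, div_le_iff₀ ha']
    refine (sum_tail_le ht1 ha' _ fun c hc => ⟨(hT c hc).1,
      by exact_mod_cast (hT c hc).2⟩).trans ?_
    exact mul_le_mul_of_nonneg_right ((le_max_right _ _).trans (le_max_right _ _)) ha'.le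
  have hg01 : 0 ≤ g := le_min zero_le_one hg00
  have h := hC f f' V₀ W₀ x g E (hiOv K H) hV₀ hW₀ hf hf' hx hg01 (min_le_left _ _)
    (fun U k _ v _ w _ hE' hk p hp => by
      unfold hiOv
      split_ifs with hpH
      · exact hE'.1 p hpH
      · exact hk p hp)
    (fun P S U V W i j k h _ _ => by
      rcases hslack (hQRone h) with ⟨hsmall, hQ⟩ | hle
      swap
      · exact Or.inl hle
      have hR : (fixedPart (P \ U) j i : ℝ) < L := lt_of_le_of_lt (by
        exact_mod_cast Nat.le_mul_of_pos_left _ (fixedPart_pos h.prime_sdiff i j)) hQ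
      set k' := hiOv K H k with hk'
      refine Or.inr ⟨fun v w => ∃ e ∈ cand (hiDef K H v), ∃ m ∈ bigDivs e, m ∣ upDev U k' w,
        fun v hv => hpart (Or.inl ?_) hsmall, fun w hw => hpart (Or.inr ?_) hsmall⟩
      · refine (side_up_low (k := k) h k' v (cand (hiDef K H v)) _ (fun a ha => by simp only [Finset.mem_filter] at ha; exact ha.1)
          (hcand0 _) fun w hw => ?_).trans
            (mul_le_mul_of_nonneg_left (hG _) (mul_nonneg hD0 (by linarith)))
        simp only [Finset.mem_filter] at hw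
        exact ⟨hw.2.2.2.2.2, hw.2.2.1⟩
      · refine sum_side_le2 h.symm _ ((V.filter fun v => upDev U k' w ≤ upDev U k' v).image
          (upDev U k')) _ (fun a ha => by simp only [Finset.mem_filter] at ha; exact ha.1) (fun v hv => ?_)
          (fun v hv => Finset.mem_image_of_mem _ hv)
          (fun c => ((upDev U k' w : ℝ) / c) ^ t / upDev U k' w) (fun c => by positivity)
          (hFt _ (upDev_pos h.prime_U k' w) _ fun c hc => ?_)
          (down_bd (k := k) h _ i (fun v hv => h.V_fix v (by simp only [Finset.mem_filter] at hv; exact hv.1))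
            fun v hv => ?_)
        · simp only [Finset.mem_filter] at hv
          exact Finset.mem_image_of_mem _ (Finset.mem_filter.2 ⟨hv.1, hv.2.2.2.2.2⟩)
        · obtain ⟨v, hv, rfl⟩ := Finset.mem_image.1 hc
          exact ⟨upDev_pos h.prime_U k' v, (Finset.mem_filter.1 hv).2⟩
        · simp only [Finset.mem_filter] at hv
          exact (key h v hv.1 w hw hv.2.2.2.1 hv.2.1 hR).resolve_left hv.2.2.1)
    (fun P S U V W i j k h _ _ => by
      rcases hslack (hQRone h) with ⟨hsmall, hQ⟩ | hle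
      swap
      · exact Or.inl hle
      have hR : (fixedPart (P \ U) i j : ℝ) < L := lt_of_le_of_lt (by
        exact_mod_cast Nat.le_mul_of_pos_right _ (fixedPart_pos h.prime_sdiff j i)) hQ
      set k' := hiOv K H k with hk'
      refine Or.inr ⟨fun _ v => ∃ e ∈ cand (hiDef K H v), ∃ m ∈ bigDivs e,
        m ∣ downDev (U \ H) k v, fun w hw => hpart (Or.inr ?_) hsmall,
        fun v hv => hpart (Or.inl ?_) hsmall⟩
      · refine sum_side_le2 h _ ((W.filter fun v => upDev U k' v ≤ upDev U k' w).image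
          (upDev U k')) _ (fun a ha => by simp only [Finset.mem_filter] at ha; exact ha.1) (fun v hv => ?_)
          (fun v hv => Finset.mem_image_of_mem _ hv)
          (fun c => ((upDev U k' w : ℝ) / c) ^ s / upDev U k' w) (fun c => by positivity)
          (hFs _ (upDev_pos h.prime_U k' w) _ fun c hc => ?_)
          (down_bd (k := k) h _ j (fun v hv => h.W_fix v (by simp only [Finset.mem_filter] at hv; exact hv.1))
            fun v hv => ?_)
        · simp only [Finset.mem_filter] at hv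
          exact Finset.mem_image_of_mem _ (Finset.mem_filter.2 ⟨hv.1, hv.2.2.2.2.2⟩)
        · obtain ⟨v, hv, rfl⟩ := Finset.mem_image.1 hc
          exact ⟨upDev_pos h.prime_U k' v, (Finset.mem_filter.1 hv).2⟩
        · simp only [Finset.mem_filter] at hv
          exact hv.2.2.1
      · refine (side_up_high (k := k) h k' v (cand (hiDef K H v)) _ (fun a ha => by simp only [Finset.mem_filter] at ha; exact ha.1)
          (hcand0 _) fun w hw => ?_).trans
            (mul_le_mul_of_nonneg_left (hG _) (mul_nonneg hD0 (by linarith)))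
        simp only [Finset.mem_filter] at hw
        refine ⟨hw.2.2.2.2.2, (key h.symm v hv w hw.1 (fun p hp => (hw.2.2.2.1 p hp).symm)
          hw.2.1 hR).resolve_right hw.2.2.1⟩)
  have hgg : g ^ (1 / 3 : ℝ) ≤ B0 ^ (1 / 3 : ℝ) * (G + L ^ (-evSlack ξ)) ^ (1 / 3 : ℝ) :=
    (Real.rpow_le_rpow hg01 (min_le_right _ _) (by norm_num)).trans_eq
      (by rw [hg0, Real.mul_rpow (by linarith) (by linarith)])
  have hmf : 0 ≤ massFac ξ (mass f V₀) (mass f' W₀) := by
    have := BilinearAux.mass_nonneg hf V₀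
    have := BilinearAux.mass_nonneg hf' W₀
    rw [massFac]; positivity
  refine le_trans (le_trans (le_of_eq ?_) h) ?_
  · simp only [E]
  calc C * g ^ (1 / 3 : ℝ) * x ^ (1 - ξ) * massFac ξ (mass f V₀) (mass f' W₀)
      ≤ C * (B0 ^ (1 / 3 : ℝ) * (G + L ^ (-evSlack ξ)) ^ (1 / 3 : ℝ)) * x ^ (1 - ξ) *
          massFac ξ (mass f V₀) (mass f' W₀) := by gcongr
    _ = _ := by ring

end Vale.Agent.P028.Full
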