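import Vale.Agent.P028.Full.PairFacts
import Vale.Agent.P028.Lift.BilGen

/-!
Pools: the pairs of one cell above a threshold, sorted by the two deficiencies and lifted to the
centre.  The lifted families satisfy the bilinear bound without the factor `φ(K)/K`, and the
probabilities of the deficiencies of one cell add up to at most one.
-/

noncomputable section

namespace Vale.Agent.P028.Full

open Finset BilinearAux

variable (k : ℕ → ℕ → ℕ) (S : Finset ℕ) (Y : ℕ)

theorem prime_of_mem_base {S : Finset ℕ} {Y p : ℕ}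
    (hp : p ∈ (S.biUnion Nat.primeFactors).filter (fun p => Y < p)) : p.Prime := by
  obtain ⟨q, -, hq⟩ := Finset.mem_biUnion.1 (Finset.mem_filter.1 hp).1
  exact Nat.prime_of_mem_primeFactors hq

theorem factorization_kCentre_base (v p : ℕ) : (kCentre k S Y v).factorization p =
    if p ∈ (S.biUnion Nat.primeFactors).filter (fun p => Y < p) then k v p else 0 :=
  factorization_prodPow (fun _ hp => prime_of_mem_base hp) _ _

theorem factorization_kDef_base (v p : ℕ) : (kDef k S Y v).factorization p =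
    if p ∈ (S.biUnion Nat.primeFactors).filter (fun p => Y < p)
    then k v p - v.factorization p else 0 :=
  factorization_prodPow (fun _ hp => prime_of_mem_base hp) _ _

theorem kCentre_congr {v w : ℕ} (h : ∀ p : ℕ, p.Prime → Y < p → k v p = k w p) :
    kCentre k S Y v = kCentre k S Y w :=
  Finset.prod_congr rfl fun p hp => by
    rw [h p (prime_of_mem_base hp) (Finset.mem_filter.1 hp).2]

theorem kProb_pos (v : ℕ) : 0 < kProb k S Y v := by
  refine div_pos ?_ (Nat.cast_pos.2 (kCentre_pos k S Y v))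
  exact Nat.cast_pos.2 (Nat.totient_pos.2 (Nat.div_pos
    (Nat.le_of_dvd (kCentre_pos k S Y v) (kDef_dvd_kCentre k S Y v)) (kDef_pos k S Y v)))

open Classical in
theorem mem_kCell_self {v : ℕ} (hv : v ∈ S) : v ∈ kCell k S Y v :=
  Finset.mem_filter.2 ⟨hv, fun _ _ _ => rfl⟩

open Classical in
theorem kCell_eq_of_mem {v w : ℕ} (h : w ∈ kCell k S Y v) : kCell k S Y w = kCell k S Y v := by
  obtain ⟨-, hw⟩ := Finset.mem_filter.1 h
  ext u
  simp only [kCell, Finset.mem_filter]
  exact ⟨fun hu => ⟨hu.1, fun p hp hY => (hw p hp hY).trans (hu.2 p hp hY)⟩,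
    fun hu => ⟨hu.1, fun p hp hY => (hw p hp hY).symm.trans (hu.2 p hp hY)⟩⟩

open Classical in
theorem sum_kCells (f : ℕ → ℝ) :
    ∑ v ∈ S, f v = ∑ C ∈ S.image (kCell k S Y), ∑ v ∈ C, f v := by
  rw [← Finset.sum_fiberwise_of_maps_to (g := kCell k S Y)
    (fun v hv => Finset.mem_image_of_mem _ hv)]
  refine Finset.sum_congr rfl fun C hC => ?_
  obtain ⟨v0, -, rfl⟩ := Finset.mem_image.1 hC
  refine Finset.sum_congr ?_ fun _ _ => rfl
  ext u
  rw [Finset.mem_filter]
  exact ⟨fun h => h.2 ▸ mem_kCell_self k S Y h.1,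
    fun h => ⟨(Finset.mem_filter.1 h).1, kCell_eq_of_mem k S Y h⟩⟩

/-- The probability of a deficiency of the cell with centre `K`. -/
def defProb (K b : ℕ) : ℝ := (Nat.totient (K / b) : ℝ) / K

theorem kProb_eq (v : ℕ) : kProb k S Y v = defProb (kCentre k S Y v) (kDef k S Y v) := rfl

theorem sum_defProb_le {K : ℕ} (hK : 0 < K) (T : Finset ℕ) (hT : T ⊆ K.divisors) :
    ∑ b ∈ T, defProb K b ≤ 1 := by
  have h : ∑ b ∈ K.divisors, Nat.totient (K / b) = K := by
    rw [Nat.sum_div_divisors K Nat.totient, Nat.sum_totient]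
  refine (Finset.sum_le_sum_of_subset_of_nonneg hT fun b _ _ => ?_).trans (le_of_eq ?_)
  · exact div_nonneg (Nat.cast_nonneg _) (Nat.cast_nonneg _)
  · simp only [defProb, ← Finset.sum_div]
    rw [← Nat.cast_sum, h, div_self (Nat.cast_ne_zero.2 hK.ne')]

/-- Hölder with two factors. -/
theorem sum_rpow2_le {ι : Type*} (T : Finset ι) (f g : ι → ℝ) {a : ℝ} (ha : 0 < a) (ha1 : a < 1)
    (hf : ∀ i ∈ T, 0 ≤ f i) (hg : ∀ i ∈ T, 0 ≤ g i) :
    ∑ i ∈ T, f i ^ a * g i ^ (1 - a) ≤ (∑ i ∈ T, f i) ^ a * (∑ i ∈ T, g i) ^ (1 - a) := by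
  have hb : 0 < (1 - a) / 2 := by linarith
  have e : ∀ z : ℝ, 0 ≤ z → z ^ ((1 - a) / 2) * z ^ ((1 - a) / 2) = z ^ (1 - a) := fun z hz => by
    rw [← Real.rpow_add' hz (by linarith)]; ring_nf
  have h := sum_rpow3_le T f g g ha hb hb (by ring) hf hg hg
  rw [mul_assoc _ _ ((∑ i ∈ T, g i) ^ ((1 - a) / 2)), e _ (Finset.sum_nonneg hg)] at h
  refine le_trans (le_of_eq (Finset.sum_congr rfl fun i hi => ?_)) h
  rw [mul_assoc, e _ (hg i hi)]

open Classical in
/-- The pairs of one cell at level `x`, with the first deficiency in `H`. -/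
theorem exists_cellPairs_le (ξ : ℝ) (hξ : 0 < ξ) (hξ1 : ξ ≤ 1 / 100) :
    ∃ C : ℝ, 0 < C ∧ ∀ (k : ℕ → ℕ → ℕ) (S : Finset ℕ) (ψ : ℕ → ℝ) (Y v₀ : ℕ) (x : ℝ)
      (H : Finset ℕ) (H1 : ℝ), (∀ v ∈ S, 0 < v) → (∀ v, 0 ≤ ψ v) → v₀ ∈ S → 0 < x → H1 ≤ 1 →
      0 ≤ H1 →
      ∑ b ∈ H.filter (fun b => b ∈ (kCell k S Y v₀).image (kDef k S Y)),
        defProb (kCentre k S Y v₀) b ≤ H1 →
      ∑ q ∈ (kCell k S Y v₀).filter (fun q => kDef k S Y q ∈ H),
        ∑ r ∈ (kCell k S Y v₀).filter (fun r => dist2 ψ q r ≤ x ∧ SameCell k Y q r),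
          wt ψ q * wt ψ r ≤
        C * x ^ (1 - ξ) * H1 ^ (1 / 3 : ℝ) * mass ψ (kCell k S Y v₀) ^ (1 + ξ) := by
  set a1 : ℝ := 1 / 2 - 3 * ξ / 7 with ha1d
  set a2 : ℝ := 1 / 2 - 4 * ξ / 7 with ha2d
  set e : ℝ := a1 - a2 with hed
  set θ : ℝ := 1 - a1 with hθd
  have ha2 : 1 / 3 ≤ a2 := by rw [ha2d]; linarith
  have h12 : a2 < a1 := by rw [ha1d, ha2d]; linarith
  have hsum : a1 + a2 = 1 - ξ := by rw [ha1d, ha2d]; ring
  have he : 0 < e := by linarith
  obtain ⟨C, hC, hbil⟩ := Lift.exists_pool_le a1 a2 (by linarith) h12 (by linarith)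
    (by rw [ha1d]; linarith) (by rw [ha1d, ha2d]; nlinarith)
  refine ⟨4 * C, by positivity, ?_⟩
  intro k S ψ Y v₀ x H H1 hS hψ hv₀ hx hH1 hH10 hH
  set Cl := kCell k S Y v₀ with hCl
  set K := kCentre k S Y v₀ with hK
  set T := Cl.image (kDef k S Y) with hT
  set TH := H.filter (fun b => b ∈ T) with hTH
  have hclS : Cl ⊆ S := Finset.filter_subset _ _
  have hkk : ∀ v ∈ Cl, ∀ p : ℕ, p.Prime → Y < p → k v p = k v₀ p := fun v hv p hp hY =>
    ((Finset.mem_filter.1 hv).2 p hp hY).symm
  have hcen : ∀ v ∈ Cl, kCentre k S Y v = K := fun v hv => kCentre_congr k S Y (hkk v hv)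
  have hKpos : 0 < K := kCentre_pos k S Y v₀
  have hbase : ∀ (p : ℕ), p.Prime → ∀ v ∈ Cl, Y < p → v.factorization p ≠ 0 →
      p ∈ (S.biUnion Nat.primeFactors).filter (fun p => Y < p) := by
    intro p hp v hv hY hne
    refine Finset.mem_filter.2 ⟨Finset.mem_biUnion.2 ⟨v, hclS hv, ?_⟩, hY⟩
    rw [← Nat.support_factorization]
    exact Finsupp.mem_support_iff.2 hne
  set P : ℕ → ℝ := fun b => defProb K b with hPd
  have hTdvd : T ⊆ K.divisors := by
    intro b hb
    obtain ⟨v, hv, rfl⟩ := Finset.mem_image.1 hb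
    exact Nat.mem_divisors.2 ⟨hcen v hv ▸ kDef_dvd_kCentre k S Y v, hKpos.ne'⟩
  have hP : ∀ b ∈ T, 0 < P b := by
    intro b hb
    obtain ⟨v, hv, rfl⟩ := Finset.mem_image.1 hb
    have := kProb_pos k S Y v
    rw [kProb_eq, hcen v hv] at this
    exact this
  have hbpos : ∀ b ∈ T, 0 < b := fun b hb =>
    Nat.pos_of_mem_divisors (hTdvd hb)
  set Fib : ℕ → Finset ℕ := fun b => Cl.filter (fun v => kDef k S Y v = b) with hFib
  set m : ℕ → ℝ := fun b => ∑ v ∈ Fib b, wt ψ v with hm
  have hm0 : ∀ b, 0 ≤ m b := fun b => Finset.sum_nonneg fun v _ => BilinearAux.wt_nonneg hψ v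
  have hmsum : ∑ b ∈ T, m b = mass ψ Cl :=
    Finset.sum_fiberwise_of_maps_to (fun v hv => Finset.mem_image_of_mem _ hv) _
  have hM : 0 ≤ mass ψ Cl := BilinearAux.mass_nonneg hψ _
  -- the lifted families
  set V : ℕ → Finset ℕ := fun b => (Fib b).image (· * b) with hV
  set f : ℕ → ℕ → ℝ := fun b u => ψ (u / b) * b with hf
  set G : ℕ → ℕ → ℝ := fun b u => wt ψ (u / b) / P b with hG
  set k₀ : ℕ → ℕ := fun p =>
    if p ∈ (S.biUnion Nat.primeFactors).filter (fun p => Y < p) then k v₀ p else 0 with hk₀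
  have hlift : ∀ b ∈ T, ∀ v ∈ Fib b, ∀ p : ℕ, (v * b).factorization p =
      v.factorization p + (if p ∈ (S.biUnion Nat.primeFactors).filter (fun p => Y < p)
        then k v₀ p - v.factorization p else 0) := by
    intro b hb v hv p
    obtain ⟨hvC, rfl⟩ := Finset.mem_filter.1 hv
    rw [Nat.factorization_mul (hS v (hclS hvC)).ne' (kDef_pos k S Y v).ne', Finsupp.add_apply,
      factorization_kDef_base]
    split_ifs with hp
    · rw [hkk v hvC p (prime_of_mem_base hp) (Finset.mem_filter.1 hp).2]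
    · rfl
  have hdivb : ∀ b ∈ T, ∀ v, v * b / b = v := fun b hb v => Nat.mul_div_cancel v (hbpos b hb)
  have hpool : ∀ b ∈ T, Lift.Pool (G b) (f b) (V b) k₀ Y := by
    intro b hb
    refine ⟨fun u hu => ?_, fun u => div_nonneg (BilinearAux.wt_nonneg hψ _) (hP b hb).le,
      fun u => mul_nonneg (hψ _) (Nat.cast_nonneg _), fun u hu => ?_, fun u hu p hp hY => ?_⟩
    · obtain ⟨v, hv, rfl⟩ := Finset.mem_image.1 hu
      exact Nat.mul_pos (hS v (hclS (Finset.mem_filter.1 hv).1)) (hbpos b hb)
    · obtain ⟨v, hv, rfl⟩ := Finset.mem_image.1 hu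
      obtain ⟨hvC, hvb⟩ := Finset.mem_filter.1 hv
      have hv0 := hS v (hclS hvC)
      have hbd : b ∣ K := Nat.dvd_of_mem_divisors (hTdvd hb)
      have hKb : 0 < K / b := Nat.div_pos (Nat.le_of_dvd hKpos hbd) (hbpos b hb)
      simp only [hG, hf, hdivb b hb, wt]
      rw [div_le_iff₀ (hP b hb)]
      have hfac : ∀ p : ℕ, p.Prime → 0 ≤ 1 - 1 / (p : ℝ) ∧ 1 - 1 / (p : ℝ) ≤ 1 := by
        intro p hp
        have h2 : (2 : ℝ) ≤ p := by exact_mod_cast hp.two_le
        constructor
        · rw [sub_nonneg, div_le_one (by linarith)]; linarith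
        · linarith [show (0 : ℝ) ≤ 1 / (p : ℝ) by positivity]
      have hPb : P b * b = (Nat.totient (K / b) : ℝ) / (K / b : ℕ) := by
        show (Nat.totient (K / b) : ℝ) / K * b = _
        rw [Nat.cast_div hbd (Nat.cast_ne_zero.2 (hbpos b hb).ne'), div_div_eq_mul_div,
          div_mul_eq_mul_div]
      have hsub : (K / b).primeFactors ∪ (v * b).primeFactors.filter (fun p => p ≤ Y) ⊆
          v.primeFactors := by
        intro p hp
        rw [← Nat.support_factorization, Finsupp.mem_support_iff]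
        rcases Finset.mem_union.1 hp with h | h
        · rw [← Nat.support_factorization, Finsupp.mem_support_iff, Nat.factorization_div hbd,
            Finsupp.tsub_apply, hK, factorization_kCentre_base] at h
          rw [← hvb, factorization_kDef_base] at h
          split_ifs at h with hp'
          · rw [hkk v hvC p (prime_of_mem_base hp') (Finset.mem_filter.1 hp').2] at h
            omega
          · simp at h
        · obtain ⟨h, hY⟩ := Finset.mem_filter.1 h
          rw [← Nat.support_factorization, Finsupp.mem_support_iff, hlift b hb v hv,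
            if_neg (fun hh => absurd hY (not_le.2 (Finset.mem_filter.1 hh).2))] at h
          simpa using h
      have hdis : Disjoint (K / b).primeFactors
          ((v * b).primeFactors.filter (fun p => p ≤ Y)) := by
        rw [Finset.disjoint_left]
        intro p hp hp'
        have := Nat.primeFactors_mono (Nat.div_dvd_of_dvd hbd) hKpos.ne' hp
        rw [← Nat.support_factorization, Finsupp.mem_support_iff, hK, factorization_kCentre_base] at this
        exact absurd (Finset.mem_filter.1 (ite_ne_right_iff.1 this).1).2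
          (not_lt.2 (Finset.mem_filter.1 hp').2)
      have hle : (Nat.totient v : ℝ) / v ≤
          ((Nat.totient (K / b) : ℝ) / (K / b : ℕ)) * Lift.phiY Y (v * b) := by
        rw [totient_div_eq v hv0, totient_div_eq (K / b) hKb, Lift.phiY,
          ← Finset.prod_union hdis, ← Finset.prod_sdiff hsub]
        exact mul_le_of_le_one_left
          (Finset.prod_nonneg fun p hp => (hfac p (Nat.prime_of_mem_primeFactors (hsub hp))).1)
          (Finset.prod_le_one (fun p hp => (hfac p (Nat.prime_of_mem_primeFactors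
            (Finset.mem_sdiff.1 hp).1)).1) fun p hp => (hfac p (Nat.prime_of_mem_primeFactors
            (Finset.mem_sdiff.1 hp).1)).2)
      calc (Nat.totient v : ℝ) / v * ψ v
          ≤ P b * b * Lift.phiY Y (v * b) * ψ v := by
            rw [hPb]; exact mul_le_mul_of_nonneg_right hle (hψ v)
        _ = _ := by ring
    · obtain ⟨v, hv, rfl⟩ := Finset.mem_image.1 hu
      rw [hlift b hb v hv, hk₀]
      dsimp only
      split_ifs <;> omega
  -- one pair of pools
  have hone : ∀ b ∈ T, ∀ b' ∈ T,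
      ∑ q ∈ Fib b, ∑ r ∈ (Fib b').filter (fun r => dist2 ψ q r ≤ x ∧ SameCell k Y q r),
        wt ψ q * wt ψ r ≤
      C * (2 * x ^ (1 - ξ)) * (P b ^ a2 * m b ^ (1 - a2) * (P b' ^ a1 * m b' ^ (1 - a1)) +
        P b ^ a1 * m b ^ (1 - a1) * (P b' ^ a2 * m b' ^ (1 - a2))) := by
    intro b hb b' hb'
    have h := hbil (G b) (G b') (f b) (f b') (V b) (V b') k₀ Y x x hx hx (hpool b hb)
      (hpool b' hb')
    have hinj : ∀ c ∈ T, Set.InjOn (· * c) (Fib c) := fun c hc u _ u' _ he =>
      Nat.eq_of_mul_eq_mul_right (hbpos c hc) he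
    have hGsum : ∀ c ∈ T, ∑ u ∈ V c, G c u = m c / P c := by
      intro c hc
      rw [hV, Finset.sum_image (hinj c hc), hm, Finset.sum_div]
      exact Finset.sum_congr rfl fun v _ => by simp only [hG, hdivb c hc]
    rw [hGsum b hb, hGsum b' hb', hV, Finset.sum_image (hinj b hb)] at h
    calc ∑ q ∈ Fib b, ∑ r ∈ (Fib b').filter (fun r => dist2 ψ q r ≤ x ∧ SameCell k Y q r),
          wt ψ q * wt ψ r
        = P b * P b' * ∑ q ∈ Fib b,
            ∑ r ∈ (Fib b').filter (fun r => dist2 ψ q r ≤ x ∧ SameCell k Y q r),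
              G b (q * b) * G b' (r * b') := by
          rw [Finset.mul_sum]
          refine Finset.sum_congr rfl fun q _ => ?_
          rw [Finset.mul_sum]
          refine Finset.sum_congr rfl fun r _ => ?_
          simp only [hG, hdivb b hb, hdivb b' hb']
          have := (hP b hb).ne'
          have := (hP b' hb').ne'
          field_simp
      _ ≤ P b * P b' * _ := by
          refine mul_le_mul_of_nonneg_left (le_trans (Finset.sum_le_sum fun q hq => ?_) h)
            (mul_nonneg (hP b hb).le (hP b' hb').le)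
          dsimp only
          rw [Finset.sum_filter (s := Fib b'), Finset.sum_filter (s := (Fib b').image (· * b')),
            Finset.sum_image (hinj b' hb')]
          refine Finset.sum_le_sum fun r hr => ?_
          have hnn : 0 ≤ G b (q * b) * G b' (r * b') := mul_nonneg ((hpool b hb).F_nonneg _)
            ((hpool b' hb').F_nonneg _)
          by_cases hcond : dist2 ψ q r ≤ x ∧ SameCell k Y q r
          swap
          · rw [if_neg hcond]; split_ifs <;> first | exact hnn | exact le_rfl
          rw [if_pos hcond]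
          obtain ⟨hd, hsame⟩ := hcond
          obtain ⟨hqC, hqb⟩ := Finset.mem_filter.1 hq
          obtain ⟨hrC, hrb⟩ := Finset.mem_filter.1 hr
          have hq0 := hS q (hclS hqC)
          have hr0 := hS r (hclS hrC)
          have hlink : ∀ p : ℕ, p.Prime → Y < p →
              q.factorization p = k v₀ p ∨ r.factorization p = k v₀ p := fun p hp hY => by
            rcases (hsame p hp hY).2 with h | h
            · exact Or.inl (h.trans (hkk q hqC p hp hY))
            · exact Or.inr (h.trans (hkk r hrC p hp hY))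
          have hside : ∀ {u w c c' : ℕ}, c ∈ T → c' ∈ T → u ∈ Fib c → w ∈ Fib c' →
              (∀ p : ℕ, p.Prime → Y < p →
                u.factorization p = k v₀ p ∨ w.factorization p = k v₀ p) →
              f c (u * c) * (qd (w * c') (u * c) : ℝ) ≤ ψ u * (qd w u : ℝ) := by
            intro u w c c' hc hc' hu hw hl
            have hu0 := hS u (hclS (Finset.mem_filter.1 hu).1)
            have hw0 := hS w (hclS (Finset.mem_filter.1 hw).1)
            have hwc : 0 < w * c' := Nat.mul_pos hw0 (hbpos c' hc')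
            have huc : 0 < u * c := Nat.mul_pos hu0 (hbpos c hc)
            have hdvd : c * qd (w * c') (u * c) ∣ qd w u := by
              refine (Nat.factorization_le_iff_dvd
                (Nat.mul_pos (hbpos c hc) (BilinearAux.qd_pos hwc)).ne' (BilinearAux.qd_pos hw0).ne').1 fun p => ?_
              have hcf : c.factorization p = if p ∈ (S.biUnion Nat.primeFactors).filter
                  (fun p => Y < p) then k v₀ p - u.factorization p else 0 := by
                have := hlift c hc u hu p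
                rw [Nat.factorization_mul hu0.ne' (hbpos c hc).ne', Finsupp.add_apply] at this
                omega
              rw [Nat.factorization_mul (hbpos c hc).ne' (BilinearAux.qd_pos hwc).ne', Finsupp.add_apply,
                BilinearAux.factorization_qd hwc huc, BilinearAux.factorization_qd hw0 hu0, hlift c hc u hu,
                hlift c' hc' w hw, hcf]
              split_ifs with hp
              · rcases hl p (prime_of_mem_base hp) (Finset.mem_filter.1 hp).2 with h | h <;> omega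
              · omega
            simp only [hf, hdivb c hc]
            rw [mul_assoc, ← Nat.cast_mul]
            exact mul_le_mul_of_nonneg_left
              (by exact_mod_cast Nat.le_of_dvd (BilinearAux.qd_pos hw0) hdvd) (hψ u)
          have hlinked : Lift.Linked k₀ Y (q * b) (r * b') := by
            intro p hp hY
            rw [hlift b hb q hq, hlift b' hb' r hr, hk₀]
            dsimp only
            by_cases hp' : p ∈ (S.biUnion Nat.primeFactors).filter (fun p => Y < p)
            · simp only [if_pos hp']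
              rcases hlink p hp hY with h | h <;> omega
            · simp only [if_neg hp']
              refine Or.inl ?_
              by_contra hne
              exact hp' (hbase p hp q hqC hY (by simpa using hne))
          rw [if_pos ⟨(hside hb hb' hq hr hlink).trans ((le_max_left _ _).trans hd),
            (hside hb' hb hr hq fun p hp hY => (hlink p hp hY).symm).trans
              ((le_max_right _ _).trans hd), Or.inl hlinked⟩]
      _ = C * (2 * (x ^ a1 * x ^ a2)) * (P b * P b' * (((m b / P b) ^ e + (m b' / P b') ^ e) *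
            (m b / P b * (m b' / P b')) ^ θ)) := by rw [hed, hθd]; ring
      _ = _ := by
          rw [← Real.rpow_add hx, hsum]
          congr 1
          have hp := hP b hb
          have hp' := hP b' hb'
          rw [Real.mul_rpow (div_nonneg (hm0 b) hp.le) (div_nonneg (hm0 b') hp'.le),
            Real.div_rpow (hm0 b) hp.le, Real.div_rpow (hm0 b') hp'.le,
            Real.div_rpow (hm0 b) hp.le, Real.div_rpow (hm0 b') hp'.le]
          have e1 : ∀ {c : ℝ}, 0 < c → c ^ a1 = c / c ^ θ := by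
            intro c hc
            conv_rhs => arg 1; rw [← Real.rpow_one c]
            rw [← Real.rpow_sub hc, hθd]; ring_nf
          have e2 : ∀ {c : ℝ}, 0 < c → c ^ a2 = c / (c ^ θ * c ^ e) := by
            intro c hc
            conv_rhs => arg 1; rw [← Real.rpow_one c]
            rw [← Real.rpow_add hc, ← Real.rpow_sub hc, hθd, hed]; ring_nf
          have e3 : ∀ {c : ℝ}, 0 ≤ c → c ^ (1 - a2) = c ^ θ * c ^ e := by
            intro c hc
            rw [← Real.rpow_add' hc (by linarith), hθd, hed]; ring_nf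
          rw [e1 hp, e1 hp', e2 hp, e2 hp', e3 (hm0 b), e3 (hm0 b'), ← hθd]
          ring
  -- sum over the deficiencies
  have hside : ∀ (T' : Finset ℕ), T' ⊆ T → ∀ (a H' : ℝ), 0 < a → a < 1 → ∑ b ∈ T', P b ≤ H' →
      ∑ b ∈ T', P b ^ a * m b ^ (1 - a) ≤ H' ^ a * mass ψ Cl ^ (1 - a) := by
    intro T' hT' a H' ha ha1 hH'
    refine (sum_rpow2_le T' P m ha ha1 (fun b hb => (hP b (hT' hb)).le) fun b _ => hm0 b).trans ?_
    have h0 : 0 ≤ ∑ b ∈ T', P b := Finset.sum_nonneg fun b hb => (hP b (hT' hb)).le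
    refine mul_le_mul (Real.rpow_le_rpow h0 hH' ha.le) (Real.rpow_le_rpow
      (Finset.sum_nonneg fun b _ => hm0 b) (hmsum ▸ Finset.sum_le_sum_of_subset_of_nonneg hT'
        fun b _ _ => hm0 b) (by linarith)) (Real.rpow_nonneg (Finset.sum_nonneg fun b _ => hm0 b) _)
      (Real.rpow_nonneg (h0.trans hH') _)
  have hT1 : ∑ b ∈ T, P b ≤ 1 := sum_defProb_le hKpos T hTdvd
  have hTHT : TH ⊆ T := fun b hb => (Finset.mem_filter.1 hb).2
  have hnn : ∀ (T' : Finset ℕ), T' ⊆ T → ∀ a a' : ℝ,
      0 ≤ ∑ b ∈ T', P b ^ a * m b ^ a' := fun T' hT' a a' =>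
    Finset.sum_nonneg fun b hb => mul_nonneg (Real.rpow_nonneg (hP b (hT' hb)).le _)
      (Real.rpow_nonneg (hm0 b) _)
  calc ∑ q ∈ Cl.filter (fun q => kDef k S Y q ∈ H),
        ∑ r ∈ Cl.filter (fun r => dist2 ψ q r ≤ x ∧ SameCell k Y q r), wt ψ q * wt ψ r
      = ∑ b ∈ TH, ∑ b' ∈ T, ∑ q ∈ Fib b,
          ∑ r ∈ (Fib b').filter (fun r => dist2 ψ q r ≤ x ∧ SameCell k Y q r),
            wt ψ q * wt ψ r := by
        rw [← Finset.sum_fiberwise_of_maps_to (g := kDef k S Y) (t := TH) fun q hq =>
          Finset.mem_filter.2 ⟨(Finset.mem_filter.1 hq).2,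
            Finset.mem_image_of_mem _ (Finset.mem_filter.1 hq).1⟩]
        refine Finset.sum_congr rfl fun b hb => ?_
        rw [Finset.sum_comm (s := T)]
        refine Finset.sum_congr ?_ fun q _ => ?_
        · ext q
          simp only [hFib, Finset.mem_filter]
          constructor
          · exact fun hh => ⟨hh.1.1, hh.2⟩
          · exact fun hh => ⟨⟨hh.1, hh.2 ▸ (Finset.mem_filter.1 hb).1⟩, hh.2⟩
        · rw [← Finset.sum_fiberwise_of_maps_to (g := kDef k S Y) (t := T) fun r hr =>
            Finset.mem_image_of_mem _ (Finset.mem_filter.1 hr).1]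
          refine Finset.sum_congr rfl fun b' _ => Finset.sum_congr ?_ fun _ _ => rfl
          ext r
          simp only [hFib, Finset.mem_filter]
          tauto
    _ ≤ ∑ b ∈ TH, ∑ b' ∈ T, C * (2 * x ^ (1 - ξ)) *
          (P b ^ a2 * m b ^ (1 - a2) * (P b' ^ a1 * m b' ^ (1 - a1)) +
          P b ^ a1 * m b ^ (1 - a1) * (P b' ^ a2 * m b' ^ (1 - a2))) :=
        Finset.sum_le_sum fun b hb => Finset.sum_le_sum fun b' hb' => hone b (hTHT hb) b' hb'
    _ = C * (2 * x ^ (1 - ξ)) *
          ((∑ b ∈ TH, P b ^ a2 * m b ^ (1 - a2)) * (∑ b' ∈ T, P b' ^ a1 * m b' ^ (1 - a1)) +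
          (∑ b ∈ TH, P b ^ a1 * m b ^ (1 - a1)) * ∑ b' ∈ T, P b' ^ a2 * m b' ^ (1 - a2)) := by
        simp only [← Finset.mul_sum, Finset.sum_add_distrib, Finset.sum_mul]
    _ ≤ C * (2 * x ^ (1 - ξ)) *
          (H1 ^ a2 * mass ψ Cl ^ (1 - a2) * ((1 : ℝ) ^ a1 * mass ψ Cl ^ (1 - a1)) +
          H1 ^ a1 * mass ψ Cl ^ (1 - a1) * ((1 : ℝ) ^ a2 * mass ψ Cl ^ (1 - a2))) := by
        refine mul_le_mul_of_nonneg_left (add_le_add
          (mul_le_mul (hside TH hTHT a2 H1 (by linarith) (by linarith) hH)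
            (hside T subset_rfl a1 1 (by linarith) (by linarith) hT1) (hnn T subset_rfl _ _)
            (by positivity))
          (mul_le_mul (hside TH hTHT a1 H1 (by linarith) (by linarith) hH)
            (hside T subset_rfl a2 1 (by linarith) (by linarith) hT1) (hnn T subset_rfl _ _)
            (by positivity))) (by positivity)
    _ = C * (2 * x ^ (1 - ξ)) * ((H1 ^ a2 + H1 ^ a1) *
          (mass ψ Cl ^ (1 - a2) * mass ψ Cl ^ (1 - a1))) := by
        rw [Real.one_rpow, Real.one_rpow]; ring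
    _ ≤ C * (2 * x ^ (1 - ξ)) * ((H1 ^ (1 / 3 : ℝ) + H1 ^ (1 / 3 : ℝ)) *
          mass ψ Cl ^ (1 + ξ)) := by
        rw [← Real.rpow_add' hM (by linarith),
          show 1 - a2 + (1 - a1) = 1 + ξ by linarith]
        refine mul_le_mul_of_nonneg_left (mul_le_mul_of_nonneg_right (add_le_add ?_ ?_)
          (by positivity)) (by positivity)
        all_goals
          exact Real.rpow_le_rpow_of_exponent_ge' hH10 hH1 (by norm_num) (by linarith)
    _ = _ := by ring

open Classical in
/-- Pairs of one cell whose first fibre is heavy at the level `x`. -/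
theorem exists_heavyPairs_le (ξ : ℝ) (hξ : 0 < ξ) (hξ1 : ξ ≤ 1 / 100) :
    ∃ C : ℝ, 0 < C ∧ ∀ (k : ℕ → ℕ → ℕ) (S : Finset ℕ) (ψ : ℕ → ℝ) (Y : ℕ) (x c : ℝ),
      (∀ v ∈ S, 0 < v) → (∀ v, 0 ≤ ψ v) → (∀ v ∈ S, 0 < ψ v) → 0 < x → x ≤ 1 → 0 < c →
      ∑ q ∈ S, ∑ r ∈ S.filter (fun r => dist2 ψ q r ≤ x ∧ SameCell k Y q r ∧
          max 1 ((ψ q * kDef k S Y q) ^ (-c)) * mass ψ (kCell k S Y q) * kProb k S Y q <
            mass ψ (kFibre k S Y q)),
        wt ψ q * wt ψ r ≤ C * x ^ (1 - ξ) * x ^ (c / 3) * mass ψ S ^ (1 + ξ) := by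
  obtain ⟨C, hC, hcell⟩ := exists_cellPairs_le ξ hξ hξ1
  refine ⟨C, hC, fun k S ψ Y x c hS hψ hψ' hx hx1 hc => ?_⟩
  set heavy : ℕ → Prop := fun q =>
    x ^ (-c) * mass ψ (kCell k S Y q) * kProb k S Y q ≤ mass ψ (kFibre k S Y q) with hheavy
  have hxc : 0 ≤ x ^ c := Real.rpow_nonneg hx.le _
  -- one cell
  have hone : ∀ v₀ ∈ S, ∑ q ∈ (kCell k S Y v₀).filter heavy,
      ∑ r ∈ (kCell k S Y v₀).filter (fun r => dist2 ψ q r ≤ x ∧ SameCell k Y q r),
        wt ψ q * wt ψ r ≤
      C * x ^ (1 - ξ) * x ^ (c / 3) * mass ψ (kCell k S Y v₀) ^ (1 + ξ) := by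
    intro v₀ hv₀
    set Cl := kCell k S Y v₀ with hCl
    set H := (Cl.filter heavy).image (kDef k S Y) with hH
    have hMpos : 0 < mass ψ Cl := by
      refine Finset.sum_pos (fun v hv => ?_) ⟨v₀, mem_kCell_self k S Y hv₀⟩
      have hvS := (Finset.mem_filter.1 hv).1
      exact mul_pos (div_pos (Nat.cast_pos.2 (Nat.totient_pos.2 (hS v hvS)))
        (Nat.cast_pos.2 (hS v hvS))) (hψ' v hvS)
    have hsum : ∑ b ∈ H.filter (fun b => b ∈ Cl.image (kDef k S Y)),
        defProb (kCentre k S Y v₀) b ≤ x ^ c := by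
      refine le_trans (Finset.sum_le_sum_of_subset_of_nonneg (Finset.filter_subset _ _)
        fun b _ _ => div_nonneg (Nat.cast_nonneg _) (Nat.cast_nonneg _)) ?_
      have hb : ∀ b ∈ H, defProb (kCentre k S Y v₀) b ≤
          x ^ c / mass ψ Cl * ∑ v ∈ Cl.filter (fun v => kDef k S Y v = b), wt ψ v := by
        intro b hb
        obtain ⟨q, hq, rfl⟩ := Finset.mem_image.1 hb
        obtain ⟨hqC, hq⟩ := Finset.mem_filter.1 hq
        have e1 : kCell k S Y q = Cl := kCell_eq_of_mem k S Y hqC
        have e2 : kCentre k S Y q = kCentre k S Y v₀ :=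
          kCentre_congr k S Y fun p hp hY => ((Finset.mem_filter.1 hqC).2 p hp hY).symm
        simp only [hheavy, kFibre, e1, kProb_eq, e2] at hq
        rw [div_mul_eq_mul_div, le_div_iff₀ hMpos]
        have h1 := mul_le_mul_of_nonneg_left hq hxc
        rw [Real.rpow_neg hx.le] at h1
        have h2 : x ^ c * ((x ^ c)⁻¹ * mass ψ Cl * defProb (kCentre k S Y v₀) (kDef k S Y q)) =
            defProb (kCentre k S Y v₀) (kDef k S Y q) * mass ψ Cl := by
          have := (Real.rpow_pos_of_pos hx c).ne'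
          field_simp
        rw [h2] at h1
        exact h1
      refine (Finset.sum_le_sum hb).trans ?_
      rw [← Finset.mul_sum, div_mul_eq_mul_div, div_le_iff₀ hMpos]
      refine mul_le_mul_of_nonneg_left ?_ hxc
      have hm : mass ψ Cl = ∑ b ∈ Cl.image (kDef k S Y),
          ∑ v ∈ Cl.filter (fun v => kDef k S Y v = b), wt ψ v :=
        (Finset.sum_fiberwise_of_maps_to (fun v hv => Finset.mem_image_of_mem _ hv) _).symm
      rw [hm]
      exact Finset.sum_le_sum_of_subset_of_nonneg (Finset.image_subset_image (Finset.filter_subset _ _))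
        fun b _ _ => Finset.sum_nonneg fun v _ => BilinearAux.wt_nonneg hψ v
    have h := hcell k S ψ Y v₀ x H (x ^ c) hS hψ hv₀ hx
      (Real.rpow_le_one hx.le hx1 hc.le) hxc hsum
    rw [← Real.rpow_mul hx.le, show c * (1 / 3 : ℝ) = c / 3 by ring] at h
    refine le_trans (Finset.sum_le_sum_of_subset_of_nonneg (fun q hq => ?_) fun q _ _ => ?_) h
    · exact Finset.mem_filter.2 ⟨(Finset.mem_filter.1 hq).1, Finset.mem_image_of_mem _ hq⟩
    · exact Finset.sum_nonneg fun r _ =>
        mul_nonneg (BilinearAux.wt_nonneg hψ q) (BilinearAux.wt_nonneg hψ r)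
  calc ∑ q ∈ S, ∑ r ∈ S.filter (fun r => dist2 ψ q r ≤ x ∧ SameCell k Y q r ∧
          max 1 ((ψ q * kDef k S Y q) ^ (-c)) * mass ψ (kCell k S Y q) * kProb k S Y q <
            mass ψ (kFibre k S Y q)), wt ψ q * wt ψ r
      ≤ ∑ q ∈ S, (if heavy q then
          ∑ r ∈ (kCell k S Y q).filter (fun r => dist2 ψ q r ≤ x ∧ SameCell k Y q r),
            wt ψ q * wt ψ r else 0) := by
        refine Finset.sum_le_sum fun q hq => ?_
        by_cases hh : heavy q
        · rw [if_pos hh]
          refine Finset.sum_le_sum_of_subset_of_nonneg (fun r hr => ?_) fun r _ _ =>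
            mul_nonneg (BilinearAux.wt_nonneg hψ q) (BilinearAux.wt_nonneg hψ r)
          obtain ⟨hrS, hd, hsame, -⟩ := Finset.mem_filter.1 hr
          exact Finset.mem_filter.2
            ⟨Finset.mem_filter.2 ⟨hrS, fun p hp hY => (hsame p hp hY).1⟩, hd, hsame⟩
        · rw [if_neg hh]
          refine le_of_eq (Finset.sum_eq_zero fun r hr => ?_)
          obtain ⟨hrS, hd, hsame, hlt⟩ := Finset.mem_filter.1 hr
          refine absurd ?_ hh
          simp only [hheavy]
          refine le_trans ?_ hlt.le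
          refine mul_le_mul_of_nonneg_right (mul_le_mul_of_nonneg_right (le_max_of_le_right ?_)
            (BilinearAux.mass_nonneg hψ _)) (kProb_pos k S Y q).le
          refine Real.rpow_le_rpow_of_nonpos
            (mul_pos (hψ' q hq) (Nat.cast_pos.2 (kDef_pos k S Y q))) ?_ (by linarith)
          refine le_trans (mul_le_mul_of_nonneg_left ?_ (hψ q)) ((le_max_left _ _).trans hd)
          refine Nat.cast_le.2 (Nat.le_of_dvd (BilinearAux.qd_pos (hS r hrS)) ?_)
          refine (Nat.factorization_le_iff_dvd (kDef_pos k S Y q).ne'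
            (BilinearAux.qd_pos (hS r hrS)).ne').1 fun p => ?_
          rw [factorization_kDef_base, BilinearAux.factorization_qd (hS r hrS) (hS q hq)]
          split_ifs with hp
          · obtain ⟨e, h⟩ := hsame p (prime_of_mem_base hp) (Finset.mem_filter.1 hp).2
            rcases h with h | h <;> omega
          · exact Nat.zero_le _
    _ = ∑ Cl ∈ S.image (kCell k S Y), ∑ q ∈ Cl.filter heavy,
          ∑ r ∈ Cl.filter (fun r => dist2 ψ q r ≤ x ∧ SameCell k Y q r), wt ψ q * wt ψ r := by
        rw [sum_kCells k S Y]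
        refine Finset.sum_congr rfl fun Cl hCl => ?_
        obtain ⟨v₀, -, rfl⟩ := Finset.mem_image.1 hCl
        rw [Finset.sum_filter]
        refine Finset.sum_congr rfl fun q hq => ?_
        simp only [hheavy, kCell_eq_of_mem k S Y hq]
    _ ≤ ∑ Cl ∈ S.image (kCell k S Y), C * x ^ (1 - ξ) * x ^ (c / 3) * mass ψ Cl ^ (1 + ξ) := by
        refine Finset.sum_le_sum fun Cl hCl => ?_
        obtain ⟨v₀, hv₀, rfl⟩ := Finset.mem_image.1 hCl
        exact hone v₀ hv₀
    _ ≤ _ := by
        rw [← Finset.mul_sum]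
        refine mul_le_mul_of_nonneg_left ?_ (by positivity)
        have hMS : 0 ≤ mass ψ S := BilinearAux.mass_nonneg hψ S
        calc ∑ Cl ∈ S.image (kCell k S Y), mass ψ Cl ^ (1 + ξ)
            ≤ ∑ Cl ∈ S.image (kCell k S Y), mass ψ S ^ ξ * mass ψ Cl := by
              refine Finset.sum_le_sum fun Cl hCl => ?_
              obtain ⟨v₀, -, rfl⟩ := Finset.mem_image.1 hCl
              have h0 := BilinearAux.mass_nonneg hψ (kCell k S Y v₀)
              rw [Real.rpow_one_add' h0 (by linarith), mul_comm]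
              exact mul_le_mul_of_nonneg_right (Real.rpow_le_rpow h0
                (BilinearAux.mass_mono hψ (Finset.filter_subset _ _)) hξ.le) h0
          _ = mass ψ S ^ ξ * mass ψ S := by
              rw [← Finset.mul_sum]
              exact congrArg _ (sum_kCells k S Y (wt ψ)).symm
          _ = _ := by rw [Real.rpow_one_add' hMS (by linarith), mul_comm]

end Vale.Agent.P028.Full
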