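import Vale.Agent.P028.Full.Pairs

/-!
Elementary facts on the pairs of a context: deficiencies, cofactors, weights, bands and nodes.
-/

noncomputable section

namespace Vale.Agent.P028.Full

open Finset

variable {k : ℕ → ℕ → ℕ} {S : Finset ℕ} {Y v w : ℕ}

open Classical in
theorem factorization_rough_prod (T : Finset ℕ) (hT : ∀ p ∈ T, p.Prime) (e : ℕ → ℕ) (p : ℕ) :
    (∏ q ∈ T, q ^ e q).factorization p = if p ∈ T then e p else 0 := by
  rw [Nat.factorization_prod (fun q hq => pow_ne_zero _ (hT q hq).ne_zero),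
    Finsupp.finsetSum_apply]
  by_cases h : p ∈ T
  · rw [if_pos h, sum_eq_single_of_mem p h fun q hq hqp => by
      rw [(hT q hq).factorization_pow, Finsupp.single_eq_of_ne hqp.symm]]
    rw [(hT p h).factorization_pow, Finsupp.single_eq_same]
  · rw [if_neg h]
    refine sum_eq_zero fun q hq => ?_
    rw [(hT q hq).factorization_pow]
    exact Finsupp.single_eq_of_ne fun e => h (e ▸ hq)

theorem prime_of_mem_univ {p : ℕ} (hp : p ∈ S.biUnion Nat.primeFactors) : p.Prime := by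
  obtain ⟨q, -, hq⟩ := Finset.mem_biUnion.1 hp
  exact Nat.prime_of_mem_primeFactors hq

theorem kDef_pos (k : ℕ → ℕ → ℕ) (S : Finset ℕ) (Y v : ℕ) : 0 < kDef k S Y v :=
  prod_pos fun _ hp => pow_pos (prime_of_mem_univ (mem_filter.1 hp).1).pos _

theorem kCentre_pos (k : ℕ → ℕ → ℕ) (S : Finset ℕ) (Y v : ℕ) : 0 < kCentre k S Y v :=
  prod_pos fun _ hp => pow_pos (prime_of_mem_univ (mem_filter.1 hp).1).pos _

open Classical in
theorem factorization_kDef (k : ℕ → ℕ → ℕ) (S : Finset ℕ) (Y v p : ℕ) :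
    (kDef k S Y v).factorization p =
      if p ∈ S.biUnion Nat.primeFactors ∧ Y < p then k v p - v.factorization p else 0 := by
  rw [kDef, factorization_rough_prod _ (fun q hq => prime_of_mem_univ (mem_filter.1 hq).1)]
  simp only [mem_filter]

open Classical in
theorem factorization_kCentre (k : ℕ → ℕ → ℕ) (S : Finset ℕ) (Y v p : ℕ) :
    (kCentre k S Y v).factorization p =
      if p ∈ S.biUnion Nat.primeFactors ∧ Y < p then k v p else 0 := by
  rw [kCentre, factorization_rough_prod _ (fun q hq => prime_of_mem_univ (mem_filter.1 hq).1)]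
  simp only [mem_filter]

theorem lt_of_dvd_kDef {p : ℕ} (hp : p.Prime) (h : p ∣ kDef k S Y v) :
    Y < p ∧ v.factorization p < k v p := by
  have h1 : 0 < (kDef k S Y v).factorization p :=
    hp.factorization_pos_of_dvd (kDef_pos k S Y v).ne' h
  rw [factorization_kDef] at h1
  split_ifs at h1 with hc
  · exact ⟨hc.2, by omega⟩
  · omega

theorem kDef_dvd_kCentre (k : ℕ → ℕ → ℕ) (S : Finset ℕ) (Y v : ℕ) :
    kDef k S Y v ∣ kCentre k S Y v :=
  Finset.prod_dvd_prod_of_dvd _ _ fun p _ => pow_dvd_pow p (Nat.sub_le _ _)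

/-- The centre without the deficiency divides the modulus. -/
theorem kCentre_div_kDef_dvd (hv : 0 < v) : kCentre k S Y v / kDef k S Y v ∣ v := by
  have hd := kDef_dvd_kCentre k S Y v
  rw [← Nat.factorization_le_iff_dvd ((Nat.div_pos (Nat.le_of_dvd (kCentre_pos k S Y v) hd)
    (kDef_pos k S Y v)).ne') hv.ne', Nat.factorization_div hd]
  intro p
  rw [Finsupp.tsub_apply, factorization_kCentre, factorization_kDef]
  split_ifs <;> omega

theorem totient_ratio_le {m n : ℕ} (hn : 0 < n) (h : m ∣ n) :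
    (Nat.totient n : ℝ) / n ≤ (Nat.totient m : ℝ) / m := by
  have hm : 0 < m := Nat.pos_of_dvd_of_pos h hn
  obtain ⟨t, rfl⟩ := h
  have ht : 0 < t := Nat.pos_of_mul_pos_left hn
  rw [div_le_div_iff₀ (by exact_mod_cast hn) (by exact_mod_cast hm)]
  have key : Nat.totient (m * t) * m ≤ Nat.totient m * (m * t) := by
    have h1 := Nat.totient_eq_mul_prod_factors (m * t)
    have h2 := Nat.totient_eq_mul_prod_factors m
    have hsub : m.primeFactors ⊆ (m * t).primeFactors :=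
      Nat.primeFactors_mono (dvd_mul_right m t) (Nat.mul_pos hm ht).ne'
    have : ((Nat.totient (m * t) * m : ℕ) : ℚ) ≤ ((Nat.totient m * (m * t) : ℕ) : ℚ) := by
      push_cast
      rw [h1, h2]
      have hle : ∏ p ∈ (m * t).primeFactors, (1 - (p : ℚ)⁻¹) ≤ ∏ p ∈ m.primeFactors, (1 - (p : ℚ)⁻¹) := by
        rw [← Finset.prod_sdiff hsub]
        have hf : ∀ p ∈ (m * t).primeFactors, 0 ≤ (1 - (p : ℚ)⁻¹) ∧ (1 - (p : ℚ)⁻¹) ≤ 1 := by
          intro p hp
          have : (2 : ℚ) ≤ p := by exact_mod_cast (Nat.prime_of_mem_primeFactors hp).two_le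
          constructor
          · rw [sub_nonneg, inv_le_comm₀ (by linarith) one_pos, inv_one]; linarith
          · exact sub_le_self _ (inv_nonneg.2 (by linarith))
        refine mul_le_of_le_one_left (prod_nonneg fun p hp => (hf p (hsub hp)).1) ?_
        exact prod_le_one (fun p hp => (hf p (mem_sdiff.1 hp).1).1)
          fun p hp => (hf p (mem_sdiff.1 hp).1).2
      push_cast
      calc ((m : ℚ) * t * ∏ p ∈ (m * t).primeFactors, (1 - (p : ℚ)⁻¹)) * m
          ≤ ((m : ℚ) * t * ∏ p ∈ m.primeFactors, (1 - (p : ℚ)⁻¹)) * m := by gcongr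
        _ = _ := by ring
    exact_mod_cast this
  exact_mod_cast key

/-- The weight is at most the radius times the probability of the deficiency. -/
theorem wt_le_rad_mul_prob (ψ : ℕ → ℝ) (k : ℕ → ℕ → ℕ) (S : Finset ℕ) (Y : ℕ) (hv : 0 < v)
    (hψ : 0 ≤ ψ v) : wt ψ v ≤ ψ v * kDef k S Y v * kProb k S Y v := by
  have hd := kDef_dvd_kCentre k S Y v
  have hb : (0 : ℝ) < kDef k S Y v := by exact_mod_cast kDef_pos k S Y v
  calc wt ψ v ≤ (Nat.totient (kCentre k S Y v / kDef k S Y v) : ℝ) /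
        (kCentre k S Y v / kDef k S Y v : ℕ) * ψ v :=
        mul_le_mul_of_nonneg_right (totient_ratio_le hv (kCentre_div_kDef_dvd hv)) hψ
    _ = _ := by
        rw [kProb, Nat.cast_div hd hb.ne']
        field_simp

theorem factorization_qd (hw : 0 < w) (hv : 0 < v) (p : ℕ) :
    (qd w v).factorization p = w.factorization p - v.factorization p := by
  rw [qd, Nat.factorization_div (Nat.gcd_dvd_left w v), Nat.factorization_gcd hw.ne' hv.ne',
    Finsupp.tsub_apply, Finsupp.inf_apply]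
  omega

/-- In one cell the deficiency of `v` is a factor of `w / (v, w)`. -/
theorem kDef_dvd_qd (h : SameCell k Y v w) (hv : 0 < v) (hw : 0 < w) : kDef k S Y v ∣ qd w v := by
  show kDef k S Y v ∣ w / Nat.gcd w v
  rw [← Nat.factorization_le_iff_dvd (kDef_pos k S Y v).ne'
    (Nat.div_pos (Nat.le_of_dvd hw (Nat.gcd_dvd_left w v))
      (Nat.gcd_pos_of_pos_left _ hw)).ne']
  intro p
  rw [factorization_kDef, show (w / Nat.gcd w v) = qd w v from rfl, factorization_qd hw hv]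
  split_ifs with hc
  · obtain ⟨h1, h2⟩ := h p (prime_of_mem_univ hc.1) hc.2
    omega
  · exact Nat.zero_le _

theorem qd_eq_cPart_mul (h : SameCell k Y v w) (hv : 0 < v) (hw : 0 < w) :
    qd w v = cPart k S Y v w * kDef k S Y v :=
  (Nat.div_mul_cancel (kDef_dvd_qd h hv hw)).symm

theorem cPart_pos (h : SameCell k Y v w) (hv : 0 < v) (hw : 0 < w) : 0 < cPart k S Y v w := by
  refine Nat.pos_of_ne_zero fun h0 => ?_
  have h1 := qd_eq_cPart_mul (S := S) h hv hw
  rw [h0, zero_mul] at h1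
  exact (Nat.div_pos (Nat.le_of_dvd hw (Nat.gcd_dvd_left w v))
    (Nat.gcd_pos_of_pos_left _ hw)).ne' h1

theorem SameCell.symm (h : SameCell k Y v w) : SameCell k Y w v := fun p hp hYp => by
  obtain ⟨h1, h2⟩ := h p hp hYp
  exact ⟨h1.symm, by rw [← h1]; omega⟩

theorem coprime_kDef (h : SameCell k Y v w) : Nat.Coprime (kDef k S Y v) (kDef k S Y w) :=
  Nat.coprime_of_dvd fun p hp h1 h2 => by
    obtain ⟨hY, e1⟩ := lt_of_dvd_kDef hp h1
    obtain ⟨-, e2⟩ := lt_of_dvd_kDef hp h2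
    obtain ⟨h3, h4⟩ := h p hp hY
    omega

theorem coprime_cPart (hvw : SameCell k Y v w) (hv : 0 < v) (hw : 0 < w) :
    Nat.Coprime (cPart k S Y v w) (cPart k S Y w v) := by
  have h : Nat.Coprime (qd w v) (qd v w) := by
    rw [qd, qd, Nat.gcd_comm v w]
    exact Nat.coprime_div_gcd_div_gcd (Nat.gcd_pos_of_pos_left _ hw)
  exact (h.coprime_dvd_left ⟨_, qd_eq_cPart_mul hvw hv hw⟩).coprime_dvd_right
    ⟨_, qd_eq_cPart_mul hvw.symm hw hv⟩

variable (C : Ctx) {q r j : ℕ}

theorem Ctx.qd_eq (h : SameCell C.k (C.par.thr j) q r) (hq : 0 < q) (hr : 0 < r) :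
    qd r q = cPart C.k C.S (C.par.thr j) q r * C.def' j q :=
  qd_eq_cPart_mul h hq hr

/-- The level in terms of the radii at the band. -/
theorem Ctx.dist2_eq (h : SameCell C.k (C.par.thr j) q r) (hq : 0 < q) (hr : 0 < r) :
    dist2 C.ψ q r = max ((cPart C.k C.S (C.par.thr j) q r : ℝ) * C.rad j q)
      ((cPart C.k C.S (C.par.thr j) r q : ℝ) * C.rad j r) := by
  rw [dist2, C.qd_eq h hq hr, C.qd_eq h.symm hr hq, Ctx.rad, Ctx.rad]
  push_cast
  ring_nf

/-- The coincidence condition in terms of the shifts at the band. -/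
theorem Ctx.near_eq (h : SameCell C.k (C.par.thr j) q r) (hq : 0 < q) (hr : 0 < r) (n : ℤ) :
    (n : ℝ) + C.γ * mdiff q r = (n : ℝ) +
      (cPart C.k C.S (C.par.thr j) q r : ℝ) * (C.γ * C.def' j q) -
      (cPart C.k C.S (C.par.thr j) r q : ℝ) * (C.γ * C.def' j r) := by
  rw [mdiff, C.qd_eq h hq hr, C.qd_eq h.symm hr hq]
  push_cast
  ring

theorem bandZ_eq (j : ℕ) : bandZ (j + 1) = bandZ j ^ 2 := by
  rw [bandZ, bandZ, ← pow_mul, pow_succ]

theorem le_bandZ_succ (j : ℕ) : j ≤ bandZ (j + 1) := by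
  calc j ≤ 2 ^ (j + 1) := (Nat.lt_two_pow_self (n := j)).le.trans
        (Nat.pow_le_pow_right (by norm_num) (Nat.le_succ j))
    _ ≤ 2 ^ 2 ^ (j + 1) := (Nat.lt_two_pow_self).le

theorem le_bandZ_bandOf (X : ℝ) : X ≤ (bandZ (bandOf X + 1) : ℝ) := by
  refine Nat.sInf_mem (s := {j : ℕ | X ≤ (bandZ (j + 1) : ℝ)}) ⟨⌈X⌉₊, ?_⟩
  exact (Nat.le_ceil X).trans (by exact_mod_cast le_bandZ_succ _)

theorem bandZ_bandOf_lt (X : ℝ) (h : 0 < bandOf X) : (bandZ (bandOf X) : ℝ) < X := by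
  have := Nat.notMem_of_lt_sInf (s := {j : ℕ | X ≤ (bandZ (j + 1) : ℝ)}) (m := bandOf X - 1)
    (show bandOf X - 1 < bandOf X by omega)
  simp only [Set.mem_ofPred_eq, not_le, Nat.sub_add_cancel h] at this
  exact this

/-- A node is unique. -/
theorem IsNode.eq {β η : ℝ} {u u' : ℤ} {P P' : ℕ} (h : IsNode β η u P) (h' : IsNode β η u' P') :
    u = u' ∧ P = P' := by
  obtain ⟨hP, hc, h1, h2⟩ := h
  obtain ⟨hP', hc', h1', h2'⟩ := h'
  have hη : 0 < η := by nlinarith [sq_nonneg (η * P)]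
  set a := η * (P : ℝ) with ha
  set a' := η * (P' : ℝ) with ha'
  set e := (P : ℝ) * β - u with he
  set e' := (P' : ℝ) * β - u' with he'
  have key : |((u * P' - u' * P : ℤ) : ℝ)| < 1 := by
    have hid : η * ((u * P' - u' * P : ℤ) : ℝ) = a * e' - a' * e := by
      simp only [ha, ha', he, he']; push_cast; ring
    have hb : |η * ((u * P' - u' * P : ℤ) : ℝ)| < η * 1 := by
      rw [hid, abs_lt]
      constructor <;>
        nlinarith [sq_nonneg (a - e'), sq_nonneg (a + e'), sq_nonneg (a' - e), sq_nonneg (a' + e)]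
    rw [abs_mul, abs_of_pos hη] at hb
    exact lt_of_mul_lt_mul_left hb hη.le
  have hz : u * P' = u' * P := sub_eq_zero.1 (Int.abs_lt_one_iff.1 (by exact_mod_cast key))
  have d1 : (P : ℤ) ∣ P' := hc.symm.dvd_of_dvd_mul_left ⟨u', by rw [hz]; ring⟩
  have d2 : (P' : ℤ) ∣ P := hc'.symm.dvd_of_dvd_mul_left ⟨u, by rw [← hz]; ring⟩
  have hPP : P = P' := Nat.dvd_antisymm (Int.natCast_dvd_natCast.1 d1) (Int.natCast_dvd_natCast.1 d2)
  subst hPP
  exact ⟨mul_right_cancel₀ (by exact_mod_cast hP.ne') hz, rfl⟩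

theorem nodeOf_eq {β η : ℝ} {u : ℤ} {P : ℕ} (h : IsNode β η u P) : nodeOf β η = (u, P) := by
  have hex : ∃ z : ℤ × ℕ, IsNode β η z.1 z.2 := ⟨(u, P), h⟩
  rw [nodeOf, dif_pos hex]
  obtain ⟨h1, h2⟩ := hex.choose_spec.eq h
  exact Prod.ext h1 h2

theorem isNode_nodeOf {β η : ℝ} (h : 0 < (nodeOf β η).2) :
    IsNode β η (nodeOf β η).1 (nodeOf β η).2 := by
  by_cases hex : ∃ z : ℤ × ℕ, IsNode β η z.1 z.2
  · rw [nodeOf, dif_pos hex]; exact hex.choose_spec
  · rw [nodeOf, dif_neg hex] at h; simp at h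

end Vale.Agent.P028.Full
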