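import Vale.Agent.P028.Full.AnatomyLevel
import Vale.Agent.P028.Full.Bil
import Vale.Agent.P028.Full.Rule

/-!
Elementary ingredients of the moment bound: the factor `pC` costs an arbitrarily small power of the
level, the primes up to a threshold cost a power of its logarithm, and coincidences which are not
exact cost a bounded factor, block by block.
-/

noncomputable section

namespace Vale.Agent.P028.Full

open Finset

theorem wt_nonneg' {ψ : ℕ → ℝ} (hψ : ∀ q, 0 ≤ ψ q) (q : ℕ) : 0 ≤ wt ψ q :=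
  mul_nonneg (by positivity) (hψ q)

/-- `pC` is at most the factor of all primes of `q' r'`. -/
theorem pC_le_hFac (K : Classes) {q r : ℕ} (hq : 0 < q) (hr : 0 < r) :
    pC K q r ≤ hFac 0 (qd q r * qd r q) := by
  have h := pC_le_lo_mul_hFac K hq hr 0
  have e : loPrimes 0 = ∅ := filter_false_of_mem fun p hp => by
    rw [mem_range] at hp
    obtain rfl : p = 0 := by omega
    exact Nat.not_prime_zero
  simpa [pCOn, e] using h

/-- Levels at most `1 / 4` have at most one near coincidence. -/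
theorem card_admN_le_one {γ : ℝ} {ψ : ℕ → ℝ} (K : Classes) {q r : ℕ}
    (hD : dist2 ψ q r ≤ 1 / 4) : (admN γ ψ K q r).card ≤ 1 := by
  refine card_le_one.2 fun a ha b hb => ?_
  have ha' := (mem_filter.1 (mem_filter.1 ha).1).2
  have hb' := (mem_filter.1 (mem_filter.1 hb).1).2
  have : |(a : ℝ) - b| < 1 := by
    calc |(a : ℝ) - b| = |((a : ℝ) + γ * mdiff q r) - (b + γ * mdiff q r)| := by ring_nf
      _ ≤ |(a : ℝ) + γ * mdiff q r| + |(b : ℝ) + γ * mdiff q r| := abs_sub _ _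
      _ < 1 := by linarith
  rw [← Int.cast_sub, ← Int.cast_abs, ← Int.cast_one, Int.cast_lt, Int.abs_lt_one_iff] at this
  linarith

/-- The weight of the pairs of level at most `x`. -/
theorem exists_pairs_weight_le (ξ : ℝ) (hξ : 0 < ξ) (hξ1 : ξ ≤ 1 / 100) :
    ∃ C : ℝ, 0 ≤ C ∧ ∀ (ψ : ℕ → ℝ) (S : Finset ℕ) (x : ℝ), (∀ q ∈ S, 0 < q) → (∀ q, 0 ≤ ψ q) →
      mass ψ S ≤ 2 → 0 < x →
      ∑ q ∈ S, ∑ r ∈ S.filter (fun r => dist2 ψ q r ≤ x), wt ψ q * wt ψ r ≤ C * x ^ (1 - ξ) := by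
  obtain ⟨C, hC⟩ := exists_bilinear_le ξ hξ hξ1
  refine ⟨max C 0 * massFac ξ 2 2, mul_nonneg (le_max_right _ _) ?_, ?_⟩
  · simp only [massFac]
    positivity
  intro ψ S x hS hψ hm hx
  obtain ⟨p, hp1, hp⟩ := Nat.exists_infinite_primes (S.sup id + 1)
  have hz : ∀ v ∈ S, 0 < v ∧ v.factorization p = 0 := by
    intro v hv
    have := Finset.le_sup (f := id) hv
    simp only [id] at this
    exact ⟨hS v hv, Nat.factorization_eq_zero_of_lt (by omega)⟩
  have h := hC ψ ψ S S x p 0 0 hx hp hz hz hψ hψ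
  simp only [Nat.dist_self, Nat.cast_zero, mul_zero, neg_zero, Real.rpow_zero, mul_one] at h
  have hm0 : 0 ≤ mass ψ S := sum_nonneg fun q _ => wt_nonneg' hψ q
  refine le_trans h ?_
  have e : massFac ξ (mass ψ S) (mass ψ S) ≤ massFac ξ 2 2 := by
    simp only [massFac]
    have hθ : 0 ≤ thetaX ξ := by rw [thetaX]; linarith
    exact mul_le_mul (Real.rpow_le_rpow (by linarith) (by linarith) (by linarith))
      (Real.rpow_le_rpow (by positivity) (mul_le_mul hm hm hm0 (by norm_num)) hθ)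
      (by positivity) (by positivity)
  calc C * x ^ (1 - ξ) * massFac ξ (mass ψ S) (mass ψ S)
      ≤ max C 0 * x ^ (1 - ξ) * massFac ξ (mass ψ S) (mass ψ S) :=
        mul_le_mul_of_nonneg_right (mul_le_mul_of_nonneg_right (le_max_left _ _) (by positivity))
          (by simp only [massFac]; positivity)
    _ ≤ max C 0 * x ^ (1 - ξ) * massFac ξ 2 2 :=
        mul_le_mul_of_nonneg_left e (mul_nonneg (le_max_right _ _) (by positivity))
    _ = _ := by ring

/-- Every moment of `pC` costs an arbitrarily small power of the level. -/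
theorem exists_hFac_moment_tiny_le (ξ : ℝ) (hξ : 0 < ξ) (hξ1 : ξ ≤ 1 / 100) (u : ℕ) :
    ∃ C : ℝ, 0 ≤ C ∧ ∀ (ψ : ℕ → ℝ) (S : Finset ℕ) (x : ℝ), (∀ q ∈ S, 0 < q) → (∀ q, 0 ≤ ψ q) →
      mass ψ S ≤ 2 → 0 < x → x ≤ 1 →
      ∑ q ∈ S, ∑ r ∈ S.filter (fun r => r ≠ q ∧ dist2 ψ q r ≤ x),
        wt ψ q * wt ψ r * hFac 0 (qd q r * qd r q) ^ u ≤ C * x ^ (1 - 3 * ξ / 2) := by
  obtain ⟨C1, hC1, hw⟩ := exists_pairs_weight_le ξ hξ hξ1
  set t : ℕ := ⌈1 / (50 * ξ)⌉₊ + 1 with ht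
  have htξ : 7 / 1000 ≤ ((t : ℝ) - 1) * (ξ / 2) := by
    have h1 : 1 / (50 * ξ) ≤ ((t : ℝ) - 1) := by
      rw [ht]; push_cast; rw [add_sub_cancel_right]; exact Nat.le_ceil _
    calc (7 / 1000 : ℝ) ≤ 1 / (50 * ξ) * (ξ / 2) := by field_simp; norm_num
      _ ≤ _ := mul_le_mul_of_nonneg_right h1 (by linarith)
  obtain ⟨C2, hC2⟩ := exists_moment_le ((u * t : ℕ) : ℝ) (Nat.cast_nonneg _)
  refine ⟨C1 + 6 * max C2 0, by positivity, ?_⟩
  intro ψ S x hS hψ hm hx hx1
  set A : ℝ := x ^ (-(ξ / 2)) with hA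
  have hA0 : 0 < A := Real.rpow_pos_of_pos hx _
  have hh : ∀ n, 0 ≤ hFac 0 n := fun n => zero_le_one.trans (BilinearAux.one_le_hFac _ _)
  have hWW : ∀ q r, 0 ≤ wt ψ q * wt ψ r := fun q r =>
    mul_nonneg (wt_nonneg' hψ q) (wt_nonneg' hψ r)
  have hpt : ∀ h : ℝ, 0 ≤ h → h ^ u ≤ A + (A ^ (t - 1))⁻¹ * h ^ (u * t) := by
    intro h h0
    have hp : 0 ≤ (A ^ (t - 1))⁻¹ * h ^ (u * t) := by positivity
    rcases le_total (h ^ u) A with hle | hle
    · linarith
    · have : h ^ u ≤ (A ^ (t - 1))⁻¹ * h ^ (u * t) := by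
        rw [inv_mul_eq_div, le_div_iff₀ (by positivity), pow_mul,
          show (h ^ u) ^ t = h ^ u * (h ^ u) ^ (t - 1) by rw [← pow_succ']; congr 1]
        exact mul_le_mul_of_nonneg_left (pow_le_pow_left₀ hA0.le hle _) (by positivity)
      linarith
  calc ∑ q ∈ S, ∑ r ∈ S.filter (fun r => r ≠ q ∧ dist2 ψ q r ≤ x),
        wt ψ q * wt ψ r * hFac 0 (qd q r * qd r q) ^ u
      ≤ ∑ q ∈ S, ∑ r ∈ S.filter (fun r => r ≠ q ∧ dist2 ψ q r ≤ x),
          (A * (wt ψ q * wt ψ r) + (A ^ (t - 1))⁻¹ *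
            (wt ψ q * wt ψ r * hFac 0 (qd q r * qd r q) ^ (u * t))) := by
        refine sum_le_sum fun q _ => sum_le_sum fun r _ => ?_
        exact (mul_le_mul_of_nonneg_left (hpt _ (hh _)) (hWW q r)).trans_eq (by ring)
    _ = A * ∑ q ∈ S, ∑ r ∈ S.filter (fun r => r ≠ q ∧ dist2 ψ q r ≤ x), wt ψ q * wt ψ r +
          (A ^ (t - 1))⁻¹ * ∑ q ∈ S, ∑ r ∈ S.filter (fun r => r ≠ q ∧ dist2 ψ q r ≤ x),
            wt ψ q * wt ψ r * hFac 0 (qd q r * qd r q) ^ (u * t) := by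
        simp only [mul_sum, sum_add_distrib]
    _ ≤ A * (C1 * x ^ (1 - ξ)) +
          (A ^ (t - 1))⁻¹ * (6 * max C2 0 * x ^ (993 / 1000 : ℝ)) := by
        refine add_le_add (mul_le_mul_of_nonneg_left ((sum_le_sum fun q _ =>
          sum_le_sum_of_subset_of_nonneg (fun r hr => ?_) fun r _ _ => hWW q r).trans
            (hw ψ S x hS hψ hm hx)) hA0.le) (mul_le_mul_of_nonneg_left ?_ (by positivity))
        · exact mem_filter.2 ⟨(mem_filter.1 hr).1, (mem_filter.1 hr).2.2⟩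
        refine (sum_le_sum fun q _ => sum_le_sum_of_subset_of_nonneg (fun r hr => ?_)
          fun r _ _ => mul_nonneg (hWW q r) (pow_nonneg (hh _) _)).trans
            ((hC2 ψ S x 0 (u * t) hS hψ hx (by simp)).trans ?_)
        · obtain ⟨h1, h2, h3⟩ := mem_filter.1 hr
          exact mem_filter.2 ⟨h1, h2.symm, h3⟩
        · have hm0 : 0 ≤ mass ψ S := sum_nonneg fun q _ => wt_nonneg' hψ q
          refine mul_le_mul_of_nonneg_right ?_ (by positivity)
          calc C2 * (mass ψ S + mass ψ S ^ 2) ≤ max C2 0 * (mass ψ S + mass ψ S ^ 2) :=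
                mul_le_mul_of_nonneg_right (le_max_left _ _) (by positivity)
            _ ≤ max C2 0 * 6 := mul_le_mul_of_nonneg_left (by nlinarith) (le_max_right _ _)
            _ = _ := by ring
    _ ≤ (C1 + 6 * max C2 0) * x ^ (1 - 3 * ξ / 2) := by
        have e1 : A * x ^ (1 - ξ) = x ^ (1 - 3 * ξ / 2) := by
          rw [hA, ← Real.rpow_add hx]; ring_nf
        have e2 : (A ^ (t - 1))⁻¹ * x ^ (993 / 1000 : ℝ) ≤ x ^ (1 - 3 * ξ / 2) := by
          rw [hA, ← Real.rpow_natCast, ← Real.rpow_mul hx.le, ← Real.rpow_neg hx.le,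
            ← Real.rpow_add hx]
          refine Real.rpow_le_rpow_of_exponent_ge hx hx1 ?_
          have : ((t - 1 : ℕ) : ℝ) = (t : ℝ) - 1 := by
            rw [Nat.cast_sub (by omega)]; norm_num
          rw [this]
          linarith
        have := mul_le_mul_of_nonneg_left e2 (show 0 ≤ 6 * max C2 0 by positivity)
        calc _ = C1 * (A * x ^ (1 - ξ)) + 6 * max C2 0 * ((A ^ (t - 1))⁻¹ *
              x ^ (993 / 1000 : ℝ)) := by ring
          _ ≤ C1 * x ^ (1 - 3 * ξ / 2) + 6 * max C2 0 * x ^ (1 - 3 * ξ / 2) := by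
              rw [e1]; linarith
          _ = _ := by ring

theorem ratio_le_exp {p : ℕ} (hp : p.Prime) : ratio p ≤ Real.exp (2 * (1 / (p : ℝ))) := by
  have h2 : (2 : ℝ) ≤ p := by exact_mod_cast hp.two_le
  refine le_trans ?_ (Real.add_one_le_exp _)
  rw [ratio, div_le_iff₀ (by linarith)]
  field_simp
  nlinarith

/-- The primes up to `Y_k` cost an arbitrarily small power of `Z_{k+1}`. -/
theorem exists_prod_ratio_thr_le (M u : ℕ) (ε : ℝ) (hε : 0 < ε) :
    ∃ B : ℝ, 0 ≤ B ∧ ∀ (k : ℕ) (T : Finset ℕ), (∀ p ∈ T, p.Prime ∧ p ≤ bandZ (k + 1) ^ M) →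
      (∏ p ∈ T, ratio p) ^ u ≤ B * (bandZ (k + 1) : ℝ) ^ ε := by
  obtain ⟨C, hC0, hC⟩ := exists_prod_one_add_inv_prime_le
  set e : ℕ := ⌈2 * u * C⌉₊ with he
  -- `n ^ e ≤ const * exp (δ n)`
  set δ : ℝ := ε * Real.log 2 with hδ
  have hδ0 : 0 < δ := mul_pos hε (Real.log_pos one_lt_two)
  refine ⟨(Real.exp 1 * ((M : ℝ) + 3)) ^ e * (e.factorial / δ ^ e), by positivity, ?_⟩
  intro k T hT
  set N := max 3 (bandZ (k + 1) ^ M) with hN
  set n : ℝ := ((2 ^ (k + 1) : ℕ) : ℝ) with hn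
  have hn1 : 1 ≤ n := by rw [hn]; exact_mod_cast Nat.one_le_two_pow
  have hlogN : 1 ≤ Real.log N ∧ Real.log N ≤ ((M : ℝ) + 3) * n := by
    constructor
    · rw [Real.le_log_iff_exp_le (by exact_mod_cast (by omega : 0 < N))]
      have : (3 : ℝ) ≤ N := by exact_mod_cast le_max_left _ _
      linarith [Real.exp_one_lt_d9]
    · have hb : (N : ℝ) ≤ 4 * ((2 : ℝ) ^ ((M : ℕ) * 2 ^ (k + 1))) := by
        rw [hN, bandZ, ← pow_mul, mul_comm M]
        push_cast
        refine max_le ?_ ?_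
        · have : (1 : ℝ) ≤ (2 : ℝ) ^ (2 ^ (k + 1) * M) := one_le_pow₀ one_le_two
          linarith
        · have : (0 : ℝ) ≤ (2 : ℝ) ^ (2 ^ (k + 1) * M) := by positivity
          linarith
      refine (Real.log_le_log (by exact_mod_cast (by omega : 0 < N)) hb).trans ?_
      rw [Real.log_mul (by norm_num) (by positivity), Real.log_pow,
        show (4 : ℝ) = 2 ^ 2 by norm_num, Real.log_pow]
      push_cast
      have hl := Real.log_two_lt_d9
      have hl0 : 0 ≤ Real.log 2 := (Real.log_pos one_lt_two).le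
      rw [hn]
      push_cast
      rw [hn] at hn1
      push_cast at hn1
      nlinarith [mul_nonneg (Nat.cast_nonneg (α := ℝ) M) (zero_le_one.trans hn1)]
  have hsum : ∑ p ∈ T, (1 : ℝ) / p ≤ C * (1 + Real.log (Real.log N)) := by
    refine (sum_le_sum_of_subset_of_nonneg (fun p hp => ?_) fun p _ _ => by positivity).trans
      (hC N (le_max_left _ _))
    exact mem_filter.2 ⟨mem_range.2 (Nat.lt_succ_of_le ((hT p hp).2.trans (le_max_right _ _))),
      (hT p hp).1⟩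
  have hprod : ∏ p ∈ T, ratio p ≤ (Real.exp (1 + Real.log (Real.log N))) ^ (2 * C) := by
    rw [← Real.exp_mul]
    refine (prod_le_prod (fun p _ => ratio_nonneg p) fun p hp => ratio_le_exp (hT p hp).1).trans ?_
    rw [← Real.exp_sum, ← mul_sum, Real.exp_le_exp]
    linarith
  rw [Real.exp_add, Real.exp_log (by linarith)] at hprod
  have hb1 : 1 ≤ Real.exp 1 * Real.log N :=
    one_le_mul_of_one_le_of_one_le (Real.one_le_exp zero_le_one) hlogN.1
  calc (∏ p ∈ T, ratio p) ^ u ≤ ((Real.exp 1 * Real.log N) ^ (2 * C)) ^ u :=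
        pow_le_pow_left₀ (prod_nonneg fun p _ => ratio_nonneg p) hprod _
    _ = (Real.exp 1 * Real.log N) ^ (2 * C * u) := by
        rw [← Real.rpow_natCast, ← Real.rpow_mul (by linarith)]
    _ ≤ (Real.exp 1 * Real.log N) ^ (e : ℝ) := Real.rpow_le_rpow_of_exponent_le hb1
        (le_trans (by linarith) (Nat.le_ceil _))
    _ = (Real.exp 1 * Real.log N) ^ e := Real.rpow_natCast _ _
    _ ≤ (Real.exp 1 * ((M : ℝ) + 3) * n) ^ e := by
        refine pow_le_pow_left₀ (by linarith) ?_ e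
        rw [mul_assoc]
        exact mul_le_mul_of_nonneg_left hlogN.2 (Real.exp_pos _).le
    _ = (Real.exp 1 * ((M : ℝ) + 3)) ^ e * ((δ * n) ^ e / δ ^ e) := by
        rw [mul_pow, mul_pow δ, mul_div_cancel_left₀ _ (by positivity)]
    _ ≤ (Real.exp 1 * ((M : ℝ) + 3)) ^ e * ((e.factorial * Real.exp (δ * n)) / δ ^ e) := by
        refine mul_le_mul_of_nonneg_left (div_le_div_of_nonneg_right ?_ (by positivity))
          (by positivity)
        have := Real.pow_div_factorial_le_exp (δ * n) (by positivity) e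
        rw [div_le_iff₀ (by positivity)] at this
        linarith
    _ = _ := by
        have hz : (bandZ (k + 1) : ℝ) ^ ε = Real.exp (δ * n) := by
          rw [Real.rpow_def_of_pos (by rw [bandZ]; positivity), bandZ, hn, hδ]
          push_cast
          rw [Real.log_pow]
          congr 1
          push_cast
          ring
        rw [hz]
        ring

/-- Block anatomy: if in each dyadic block the primes divide one nonzero integer of logarithm at
most `2 ^ (2 s / 3) + L`, then the primes above a threshold `Y ≥ L` have a bounded product. -/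
theorem exists_prod_ratio_blocks_le (C0 : ℝ) (hC0 : 0 ≤ C0) :
    ∃ B : ℝ, 0 ≤ B ∧ ∀ (S : Finset ℕ) (N : ℕ → ℤ) (L : ℝ) (Y : ℕ), 0 ≤ L → L ≤ Y →
      (∀ p ∈ S, p.Prime ∧ Y < p ∧ N (Nat.log 2 p) ≠ 0 ∧ (p : ℤ) ∣ N (Nat.log 2 p) ∧
        Real.log |(N (Nat.log 2 p) : ℝ)| ≤ C0 * ((2 : ℝ) ^ (Nat.log 2 p)) ^ (2 / 3 : ℝ) + L) →
      ∏ p ∈ S, ratio p ≤ B := by
  set w : ℝ := (2 : ℝ) ^ (-(1 / 3) : ℝ) with hwd
  have hw0 : 0 ≤ w := by positivity
  have hw1 : w < 1 := Real.rpow_lt_one_of_one_lt_of_neg one_lt_two (by norm_num)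
  refine ⟨Real.exp (8 * C0 / (1 - w) + 32), (Real.exp_pos _).le, ?_⟩
  intro S N L Y hL hLY hS
  classical
  set I := S.image (Nat.log 2) with hI
  rw [← prod_fiberwise_of_maps_to (g := Nat.log 2) (t := I) fun p hp => mem_image_of_mem _ hp]
  have hblock : ∀ s ∈ I, ∏ p ∈ S.filter (fun p => Nat.log 2 p = s), ratio p ≤
      Real.exp (8 * C0 * w ^ s + 8 * L * (1 / 2 : ℝ) ^ s) := by
    intro s hs
    obtain ⟨p0, hp0, rfl⟩ := mem_image.1 hs
    obtain ⟨hp, -, hN0, -, hlog⟩ := hS p0 hp0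
    set s := Nat.log 2 p0
    have hs1 : 1 ≤ s := Nat.log_pos one_lt_two hp.two_le
    have h2 : (2 : ℝ) ≤ (2 : ℝ) ^ s := by
      calc (2 : ℝ) = 2 ^ 1 := (pow_one _).symm
        _ ≤ _ := pow_le_pow_right₀ one_le_two hs1
    refine (prod_ratio_of_dvd_le hN0 (y := (2 : ℝ) ^ s / 2) (by linarith) _ fun p hp' => ?_).trans
      (Real.exp_le_exp.2 ?_)
    · obtain ⟨hpS, e⟩ := mem_filter.1 hp'
      obtain ⟨h1, -, -, h4, -⟩ := hS p hpS
      refine ⟨h1, e ▸ h4, ?_⟩
      have : ((2 ^ Nat.log 2 p : ℕ) : ℝ) ≤ p := by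
        exact_mod_cast Nat.pow_log_le_self 2 h1.ne_zero
      rw [e] at this
      push_cast at this
      linarith
    · rw [div_div_eq_mul_div]
      calc 4 * Real.log |(N s : ℝ)| * 2 / (2 : ℝ) ^ s
          ≤ 4 * (C0 * ((2 : ℝ) ^ s) ^ (2 / 3 : ℝ) + L) * 2 / (2 : ℝ) ^ s := by gcongr
        _ = 8 * C0 * (((2 : ℝ) ^ s) ^ (2 / 3 : ℝ) / (2 : ℝ) ^ s) + 8 * L * ((2 : ℝ) ^ s)⁻¹ := by
            ring
        _ = _ := by
            congr 2
            · rw [hwd, ← Real.rpow_natCast 2 s, ← Real.rpow_mul zero_le_two,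
                ← Real.rpow_sub two_pos, ← Real.rpow_natCast _ s, ← Real.rpow_mul zero_le_two]
              ring_nf
            · rw [one_div, inv_pow]
  refine (prod_le_prod (fun s _ => prod_nonneg fun p _ => ratio_nonneg p) hblock).trans ?_
  rw [← Real.exp_sum, Real.exp_le_exp, sum_add_distrib, ← mul_sum, ← mul_sum]
  refine add_le_add ?_ ?_
  · rw [div_eq_mul_inv]
    refine mul_le_mul_of_nonneg_left ?_ (by positivity)
    calc ∑ s ∈ I, w ^ s ≤ ∑ s ∈ range (I.sup id + 1), w ^ s :=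
          sum_le_sum_of_subset_of_nonneg (fun s hs =>
            mem_range.2 (Nat.lt_succ_of_le (le_sup (f := id) hs))) fun s _ _ => by positivity
      _ ≤ _ := by
          rw [range_eq_Ico]
          exact (geom_sum_Ico_le_of_lt_one hw0 hw1).trans_eq (by simp)
  · rcases Nat.eq_zero_or_pos Y with hY | hY
    · have : L = 0 := le_antisymm (by rw [hY, Nat.cast_zero] at hLY; exact hLY) hL
      simp [this]
    set s0 := Nat.log 2 Y with hs0
    have hI0 : I ⊆ Ico s0 (I.sup id + 1) := fun s hs => by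
      obtain ⟨p, hp, e⟩ := mem_image.1 hs
      exact mem_Ico.2 ⟨e ▸ Nat.log_mono_right (hS p hp).2.1.le,
        Nat.lt_succ_of_le (le_sup (f := id) hs)⟩
    have h1 : ∑ s ∈ I, (1 / 2 : ℝ) ^ s ≤ 2 * (1 / 2 : ℝ) ^ s0 := by
      refine (sum_le_sum_of_subset_of_nonneg hI0 fun s _ _ => by positivity).trans ?_
      exact (geom_sum_Ico_le_of_lt_one (by norm_num) (by norm_num)).trans_eq (by ring)
    have h2 : (Y : ℝ) * (1 / 2 : ℝ) ^ s0 ≤ 2 := by
      have : (Y : ℝ) ≤ (2 : ℝ) ^ (s0 + 1) := by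
        exact_mod_cast (Nat.lt_pow_succ_log_self one_lt_two Y).le
      rw [one_div, inv_pow, ← div_eq_mul_inv, div_le_iff₀ (by positivity)]
      rw [pow_succ] at this
      linarith
    calc 8 * L * ∑ s ∈ I, (1 / 2 : ℝ) ^ s ≤ 8 * L * (2 * (1 / 2 : ℝ) ^ s0) :=
          mul_le_mul_of_nonneg_left h1 (by positivity)
      _ ≤ 16 * ((Y : ℝ) * (1 / 2 : ℝ) ^ s0) := by
          have := mul_le_mul_of_nonneg_right hLY (show (0:ℝ) ≤ (1 / 2 : ℝ) ^ s0 by positivity)
          linarith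
      _ ≤ _ := by linarith

end Vale.Agent.P028.Full
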