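import Vale.Agent.P028.Full.Bil

/-!
Gains from events: a sum in a final state in which one of the two deviations is restricted gains a
power of the restriction.  After splitting, an event of pairs of level `x` weighs `g ^ (1/3)` times
the bilinear bound.
-/

noncomputable section

namespace Vale.Agent.P028.Full

open Finset BilinearAux

/-- The weight of the deviations of `w` in the sum over the partners of `v`. -/
def sideW (U : Finset ℕ) (k : ℕ → ℕ) (e : ℝ) (v w : ℕ) : ℝ :=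
  (Nat.totient (centre U k) : ℝ) / centre U k / Nat.totient (downDev U k w) *
    (((upDev U k v : ℝ) / upDev U k w) ^ e / upDev U k v)

theorem sideW_nonneg (U : Finset ℕ) (k : ℕ → ℕ) (e : ℝ) (v w : ℕ) : 0 ≤ sideW U k e v w :=
  mul_nonneg (by positivity) (div_nonneg (Real.rpow_nonneg (by positivity) _) (Nat.cast_nonneg _))

open Classical in
/-- The estimate in a final state with the two sums as hypotheses. -/
theorem final_kernel_le {f g : ℕ → ℝ} {P S U V W : Finset ℕ} {i j k : ℕ → ℕ}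
    (h : FinState P S U V W i j) (a1 a2 s t x : ℝ) (ha1 : 0 < a1) (ha2 : 0 < a2) (ha : a1 + a2 < 1)
    (hst : s * a1 = t * a2) (hf : ∀ q, 0 ≤ f q) (hg : ∀ q, 0 ≤ g q) (hx : 0 < x)
    (K : ℕ → ℕ → ℝ) (hK1 : ∀ v w, K v w ≤ 1)
    (hsupp : ∀ v w, K v w ≠ 0 → NoCoDev U k v w ∧ dist2' f g v w ≤ x)
    (G1 G2 : ℝ) (hG1n : 0 ≤ G1) (hG2n : 0 ≤ G2)
    (hG1 : ∀ v ∈ V, ∑ w ∈ W.filter (fun w => K v w ≠ 0), sideW U k s v w ≤ G1)
    (hG2 : ∀ w ∈ W, ∑ v ∈ V.filter (fun v => K v w ≠ 0), sideW U k t w v ≤ G2) :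
    ∑ v ∈ V, ∑ w ∈ W, K v w * (wt f v * wt g w) ≤
      G1 ^ a1 * G2 ^ a2 * x ^ (a1 + a2) * (mass f V ^ (1 - a2) * mass g W ^ (1 - a1)) /
        ((fixedPart (P \ U) i j : ℝ) ^ a1 * (fixedPart (P \ U) j i : ℝ) ^ a2) := by
  set Q1 : ℝ := (fixedPart (P \ U) i j : ℝ) with hQ1d
  set Q2 : ℝ := (fixedPart (P \ U) j i : ℝ) with hQ2d
  have hQ1 : 0 < Q1 := by rw [hQ1d]; exact_mod_cast fixedPart_pos h.prime_sdiff i j
  have hQ2 : 0 < Q2 := by rw [hQ2d]; exact_mod_cast fixedPart_pos h.prime_sdiff j i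
  have hU := h.prime_U
  have hF : ∀ q, 0 ≤ wt f q := BilinearAux.wt_nonneg hf
  have hF' : ∀ q, 0 ≤ wt g q := BilinearAux.wt_nonneg hg
  set T := V ×ˢ W with hT
  set g1 : ℕ × ℕ → ℝ := fun q => if K q.1 q.2 = 0 then 0 else
    wt f q.1 * wt g q.2 * ((upDev U k q.1 : ℝ) / upDev U k q.2) ^ s with hg1
  set g2 : ℕ × ℕ → ℝ := fun q => if K q.1 q.2 = 0 then 0 else
    wt f q.1 * wt g q.2 * ((upDev U k q.2 : ℝ) / upDev U k q.1) ^ t with hg2
  have hg10 : ∀ q ∈ T, 0 ≤ g1 q := fun q _ => by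
    simp only [hg1]; split_ifs
    · exact le_rfl
    · exact mul_nonneg (mul_nonneg (hF _) (hF' _)) (Real.rpow_nonneg (by positivity) _)
  have hg20 : ∀ q ∈ T, 0 ≤ g2 q := fun q _ => by
    simp only [hg2]; split_ifs
    · exact le_rfl
    · exact mul_nonneg (mul_nonneg (hF _) (hF' _)) (Real.rpow_nonneg (by positivity) _)
  have hpoint : ∀ q ∈ T, K q.1 q.2 * (wt f q.1 * wt g q.2) ≤
      (wt f q.1 * wt g q.2) ^ (1 - a1 - a2) * g1 q ^ a1 * g2 q ^ a2 := by
    intro q hq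
    have hFF : 0 ≤ wt f q.1 * wt g q.2 := mul_nonneg (hF _) (hF' _)
    by_cases h0 : K q.1 q.2 = 0
    · rw [h0, zero_mul]
      exact mul_nonneg (mul_nonneg (Real.rpow_nonneg hFF _) (Real.rpow_nonneg (hg10 q hq) _))
        (Real.rpow_nonneg (hg20 q hq) _)
    refine le_trans (mul_le_of_le_one_left hFF (hK1 _ _)) (le_of_eq ?_)
    simp only [hg1, hg2, if_neg h0]
    set a : ℝ := (upDev U k q.1 : ℝ) with hau
    set c : ℝ := (upDev U k q.2 : ℝ) with hcu
    have ha' : 0 < a := by rw [hau]; exact_mod_cast upDev_pos hU k q.1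
    have hc : 0 < c := by rw [hcu]; exact_mod_cast upDev_pos hU k q.2
    rw [Real.mul_rpow hFF (Real.rpow_nonneg (by positivity) _),
      Real.mul_rpow hFF (Real.rpow_nonneg (by positivity) _), ← Real.rpow_mul (by positivity),
      ← Real.rpow_mul (by positivity)]
    have e1 : s * a1 = t * a2 := hst
    have e2 : (a / c) ^ (s * a1) * (c / a) ^ (t * a2) = 1 := by
      rw [← e1, ← Real.mul_rpow (by positivity) (by positivity), div_mul_div_cancel₀ hc.ne',
        div_self ha'.ne', Real.one_rpow]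
    have e3 : (wt f q.1 * wt g q.2) ^ (1 - a1 - a2) * (wt f q.1 * wt g q.2) ^ a1 *
        (wt f q.1 * wt g q.2) ^ a2 = wt f q.1 * wt g q.2 := by
      rcases hFF.eq_or_lt with e | e
      · rw [← e, Real.zero_rpow ha1.ne']; simp
      · rw [← Real.rpow_add e, ← Real.rpow_add e,
          show 1 - a1 - a2 + a1 + a2 = 1 by ring, Real.rpow_one]
    calc wt f q.1 * wt g q.2
        = ((wt f q.1 * wt g q.2) ^ (1 - a1 - a2) * (wt f q.1 * wt g q.2) ^ a1 *
            (wt f q.1 * wt g q.2) ^ a2) * ((a / c) ^ (s * a1) * (c / a) ^ (t * a2)) := by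
          rw [e2, e3, mul_one]
      _ = _ := by ring
  have h1sum : ∑ q ∈ T, g1 q ≤ mass f V * (x / Q1 * G1) := by
    rw [hT, Finset.sum_product, mass, Finset.sum_mul]
    refine Finset.sum_le_sum fun v hv => ?_
    have hside : ∑ w ∈ W.filter (fun w => K v w ≠ 0), sideW U k s v w ≤ G1 := hG1 v hv
    refine le_trans ?_ (mul_le_mul_of_nonneg_left
      (mul_le_mul_of_nonneg_left hside (div_nonneg hx.le hQ1.le)) (hF v))
    rw [Finset.mul_sum, Finset.mul_sum, Finset.sum_filter]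
    refine Finset.sum_le_sum fun w hw => ?_
    simp only [hg1]
    by_cases h0 : K v w = 0
    · simp [h0]
    rw [if_neg h0, if_pos h0]
    obtain ⟨hk, hd⟩ := hsupp v w h0
    refine le_trans (mul_le_mul_of_nonneg_right
      (mul_le_mul_of_nonneg_left (wt_le_of_finState h hg hv hw hk hd) (hF v))
      (Real.rpow_nonneg (by positivity) _)) (le_of_eq ?_)
    rw [hQ1d, sideW]
    ring
  have h2sum : ∑ q ∈ T, g2 q ≤ mass g W * (x / Q2 * G2) := by
    rw [hT, Finset.sum_product_right, mass, Finset.sum_mul]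
    refine Finset.sum_le_sum fun w hw => ?_
    have hside : ∑ v ∈ V.filter (fun v => K v w ≠ 0), sideW U k t w v ≤ G2 := hG2 w hw
    refine le_trans ?_ (mul_le_mul_of_nonneg_left
      (mul_le_mul_of_nonneg_left hside (div_nonneg hx.le hQ2.le)) (hF' w))
    rw [Finset.mul_sum, Finset.mul_sum, Finset.sum_filter]
    refine Finset.sum_le_sum fun v hv => ?_
    simp only [hg2]
    by_cases h0 : K v w = 0
    · simp [h0]
    rw [if_neg h0, if_pos h0]
    obtain ⟨hk, hd⟩ := hsupp v w h0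
    refine le_trans (mul_le_mul_of_nonneg_right (mul_le_mul_of_nonneg_right
      (wt_le_of_finState (x := x) (f := g) h.symm hf hw hv (fun p hp => (hk p hp).symm)
        (by rwa [dist2'_comm])) (hF' w))
      (Real.rpow_nonneg (by positivity) _)) (le_of_eq ?_)
    rw [hQ2d, sideW]
    ring
  have hsum0 : ∑ q ∈ T, wt f q.1 * wt g q.2 = mass f V * mass g W := by
    rw [hT, Finset.sum_product, mass, mass, Finset.sum_mul_sum]
  have hmV := BilinearAux.mass_nonneg hf V
  have hmW := BilinearAux.mass_nonneg hg W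
  calc ∑ v ∈ V, ∑ w ∈ W, K v w * (wt f v * wt g w)
      = ∑ q ∈ T, K q.1 q.2 * (wt f q.1 * wt g q.2) := by rw [hT, Finset.sum_product]
    _ ≤ _ := Finset.sum_le_sum hpoint
    _ ≤ _ := sum_rpow3_le T _ _ _ (by linarith) ha1 ha2 (by ring)
        (fun q _ => mul_nonneg (hF _) (hF' _)) hg10 hg20
    _ ≤ (mass f V * mass g W) ^ (1 - a1 - a2) * (mass f V * (x / Q1 * G1)) ^ a1 *
          (mass g W * (x / Q2 * G2)) ^ a2 := by
        rw [hsum0]
        have n1 := Finset.sum_nonneg hg10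
        have n2 := Finset.sum_nonneg hg20
        gcongr
    _ = _ := by
        rw [Real.mul_rpow (x := mass f V) (y := x / Q1 * G1) hmV (by positivity),
          Real.mul_rpow (x := mass g W) (y := x / Q2 * G2) hmW (by positivity),
          Real.mul_rpow (x := x / Q1) (y := G1) (by positivity) hG1n,
          Real.mul_rpow (x := x / Q2) (y := G2) (by positivity) hG2n,
          Real.div_rpow hx.le hQ1.le, Real.div_rpow hx.le hQ2.le, Real.rpow_add hx,
          Real.mul_rpow hmV hmW]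
        have eV : mass f V ^ (1 - a2) = mass f V ^ (1 - a1 - a2) * mass f V ^ a1 := by
          rw [← Real.rpow_add' hmV (by linarith)]
          ring_nf
        have eW : mass g W ^ (1 - a1) = mass g W ^ (1 - a1 - a2) * mass g W ^ a2 := by
          rw [← Real.rpow_add' hmW (by linarith)]
          ring_nf
        rw [eV, eW]
        ring

/-- The exponent saved by the fixed part of a state. -/
def evSlack (ξ : ℝ) : ℝ := ξ / 100

/-- The ratio exponent below one. -/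
def evLow (ξ : ℝ) : ℝ := 2 * alphaX ξ / (1 - ξ)

/-- The ratio exponent above one. -/
def evHigh (ξ : ℝ) : ℝ := 2 * (1 / 2 - 3 * ξ / 7) / (1 - ξ)

open Classical in
/-- In the part `c ≤ a` of a state the pairs of the event are divided so that the first sum is small
on one part and the second sum on the other. -/
def EventGain (ξ g x : ℝ) (f f' : ℕ → ℝ) (E : ℕ → ℕ → Prop) (U : Finset ℕ) (k : ℕ → ℕ)
    (V W : Finset ℕ) : Prop :=
  ∃ A : ℕ → ℕ → Prop,
    (∀ v ∈ V, ∑ w ∈ W.filter (fun w => E v w ∧ A v w ∧ NoCoDev U k v w ∧ dist2' f f' v w ≤ x ∧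
      upDev U k w ≤ upDev U k v), sideW U k (evLow ξ) v w ≤ g) ∧
    (∀ w ∈ W, ∑ v ∈ V.filter (fun v => E v w ∧ ¬ A v w ∧ NoCoDev U k v w ∧ dist2' f f' v w ≤ x ∧
      upDev U k w ≤ upDev U k v), sideW U k (evHigh ξ) w v ≤ g)

open Classical in
/-- Without a restriction both sums are bounded. -/
theorem exists_side_crude_le (ξ : ℝ) (hξ : 0 < ξ) (hξ1 : ξ ≤ 1 / 100) :
    ∃ B : ℝ, 1 ≤ B ∧ ∀ (P S U V W : Finset ℕ) (i j k : ℕ → ℕ), FinState P S U V W i j →
      (∀ v ∈ V, ∑ w ∈ W.filter (fun w => upDev U k w ≤ upDev U k v),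
        sideW U k (evLow ξ) v w ≤ B) ∧
      (∀ w ∈ W, ∑ v ∈ V.filter (fun v => upDev U k w ≤ upDev U k v),
        sideW U k (evHigh ξ) w v ≤ B) := by
  obtain ⟨D₀, hD₀⟩ := exists_centre_sum_le
  set D := max D₀ 0 with hDd
  have hD0 : 0 ≤ D := le_max_right _ _
  have hD : ∀ N : ℕ, 0 < N →
      (Nat.totient N : ℝ) / N * ∑ d ∈ N.divisors, 1 / (Nat.totient d : ℝ) ≤ D :=
    fun N hN => (hD₀ N hN).trans (le_max_left _ _)
  set s := evLow ξ with hsd
  set t := evHigh ξ with htd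
  have h1 : 0 < 1 - ξ := by linarith
  have hs0 : 0 < s := by rw [hsd, evLow, alphaX]; apply div_pos <;> linarith
  have hs1 : s < 1 := by rw [hsd, evLow, alphaX, div_lt_one h1]; linarith
  have ht1 : 1 < t := by rw [htd, evHigh, one_lt_div h1]; linarith
  set Cs : ℝ := max (1 / (1 - s)) (1 + 1 / (t - 1)) with hCs
  refine ⟨max 1 (D * Cs), le_max_left _ _, ?_⟩
  intro P S U V W i j k h
  have hU := h.prime_U
  refine ⟨fun v hv => le_trans ?_ (le_max_right _ _), fun w hw => le_trans ?_ (le_max_right _ _)⟩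
  · set a : ℕ := upDev U k v with had
    have hap : 0 < a := upDev_pos hU k v
    have hap' : (0 : ℝ) < a := by exact_mod_cast hap
    refine sum_side_le h _ (Finset.Icc 1 a) (Finset.filter_subset _ _) (fun w hw =>
      Finset.mem_Icc.2 ⟨upDev_pos hU k w, (Finset.mem_filter.1 hw).2⟩)
      (fun c => ((a : ℝ) / c) ^ s / a) (fun c => div_nonneg (Real.rpow_nonneg (by positivity) _)
        hap'.le) ?_ hD0 hD
    rw [← Finset.sum_div, div_le_iff₀ hap']
    refine (sum_small_le hs0 hs1 hap' _ fun c hc => ⟨(Finset.mem_Icc.1 hc).1,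
      by exact_mod_cast (Finset.mem_Icc.1 hc).2⟩).trans ?_
    rw [← one_div_mul_eq_div]
    exact mul_le_mul_of_nonneg_right (le_max_left _ _) hap'.le
  · set a : ℕ := upDev U k w with had
    have hap : 0 < a := upDev_pos hU k w
    have hap' : (0 : ℝ) < a := by exact_mod_cast hap
    refine sum_side_le h.symm _ (Finset.Icc a (V.sup (upDev U k))) (Finset.filter_subset _ _)
      (fun v hv => Finset.mem_Icc.2 ⟨(Finset.mem_filter.1 hv).2,
        Finset.le_sup (Finset.mem_filter.1 hv).1⟩)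
      (fun c => ((a : ℝ) / c) ^ t / a) (fun c => div_nonneg (Real.rpow_nonneg (by positivity) _)
        hap'.le) ?_ hD0 hD
    rw [← Finset.sum_div, div_le_iff₀ hap']
    refine (sum_tail_le ht1 hap' _ fun c hc => ⟨le_trans hap (Finset.mem_Icc.1 hc).1,
      by exact_mod_cast (Finset.mem_Icc.1 hc).1⟩).trans ?_
    exact mul_le_mul_of_nonneg_right (le_max_right _ _) hap'.le

open Classical in
/-- One ordering of a final state: an event gains `g ^ (1 / 3)`. -/
theorem state_event_le {ξ : ℝ} (hξ : 0 < ξ) (hξ1 : ξ ≤ 1 / 100) {B : ℝ} (hB1 : 1 ≤ B)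
    {f f' : ℕ → ℝ} (hf : ∀ q, 0 ≤ f q) (hf' : ∀ q, 0 ≤ f' q) {P S U V W : Finset ℕ}
    {i j k : ℕ → ℕ} (h : FinState P S U V W i j)
    (hB : (∀ v ∈ V, ∑ w ∈ W.filter (fun w => upDev U k w ≤ upDev U k v),
        sideW U k (evLow ξ) v w ≤ B) ∧
      (∀ w ∈ W, ∑ v ∈ V.filter (fun v => upDev U k w ≤ upDev U k v),
        sideW U k (evHigh ξ) w v ≤ B))
    {g x : ℝ} (hg : 0 ≤ g) (hg1 : g ≤ 1) (hx : 0 < x) (E : ℕ → ℕ → Prop)
    (hgain : (((fixedPart (P \ U) i j * fixedPart (P \ U) j i : ℕ) : ℝ) ^ (-evSlack ξ) ≤ g) ∨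
      EventGain ξ g x f f' E U k V W) :
    ∑ v ∈ V, ∑ w ∈ W.filter (fun w => E v w ∧ NoCoDev U k v w ∧ dist2' f f' v w ≤ x ∧
        upDev U k w ≤ upDev U k v), wt f v * wt f' w ≤
      2 * B * g ^ (1 / 3 : ℝ) * x ^ (1 - ξ) *
        (mass f V ^ (ξ / 7 + thetaX ξ) * mass f' W ^ thetaX ξ) /
        ((fixedPart (P \ U) i j * fixedPart (P \ U) j i : ℕ) : ℝ) ^ (alphaX ξ - evSlack ξ) := by
  set a1 : ℝ := 1 / 2 - 3 * ξ / 7 with ha1d
  set a2 := alphaX ξ with ha2d
  have hs0 : 0 < a2 := by rw [ha2d, alphaX]; linarith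
  have ha10 : 0 < a1 := by rw [ha1d]; linarith
  have hsum : a1 + a2 = 1 - ξ := by rw [ha1d, ha2d, alphaX]; ring
  have hst : evLow ξ * a1 = evHigh ξ * a2 := by rw [evLow, evHigh, ha1d, ha2d]; ring
  have hg13 : ∀ e : ℝ, 1 / 3 ≤ e → g ^ e ≤ g ^ (1 / 3 : ℝ) := fun e he =>
    Real.rpow_le_rpow_of_exponent_ge' hg hg1 (by norm_num) he
  have hBpow : ∀ e : ℝ, e ≤ 1 → B ^ e ≤ B := fun e he => Real.rpow_le_self_of_one_le hB1 he
  set M := mass f V ^ (1 - a2) * mass f' W ^ (1 - a1) with hM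
  set Q := (fixedPart (P \ U) i j : ℝ) ^ a1 * (fixedPart (P \ U) j i : ℝ) ^ a2 with hQ
  have hQ1 : (1 : ℝ) ≤ fixedPart (P \ U) i j := by exact_mod_cast fixedPart_pos h.prime_sdiff i j
  have hQ2 : (1 : ℝ) ≤ fixedPart (P \ U) j i := by exact_mod_cast fixedPart_pos h.prime_sdiff j i
  have hmV := BilinearAux.mass_nonneg hf V
  have hmW := BilinearAux.mass_nonneg hf' W
  have hbound : ∀ G1 G2 : ℝ, ∀ c : ℕ → ℕ → Prop, 0 ≤ G1 → 0 ≤ G2 →
      (∀ v w, c v w → NoCoDev U k v w ∧ dist2' f f' v w ≤ x) →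
      (∀ v ∈ V, ∑ w ∈ W.filter (c v), sideW U k (evLow ξ) v w ≤ G1) →
      (∀ w ∈ W, ∑ v ∈ V.filter (fun v => c v w), sideW U k (evHigh ξ) w v ≤ G2) →
      ∑ v ∈ V, ∑ w ∈ W.filter (c v), wt f v * wt f' w ≤
        G1 ^ a1 * G2 ^ a2 * x ^ (1 - ξ) * M / Q := by
    intro G1 G2 c hG1 hG2 hc h1 h2
    have e := final_kernel_le h a1 a2 (evLow ξ) (evHigh ξ) x ha10 hs0 (by linarith) hst hf hf' hx
      (fun v w => if c v w then 1 else 0) (fun v w => by split_ifs <;> norm_num)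
      (fun v w hne => hc v w (ite_ne_right_iff.1 hne).1) G1 G2 hG1 hG2
      (fun v hv => by simpa using h1 v hv) (fun w hw => by simpa using h2 w hw)
    rw [hsum] at e
    refine le_trans (le_of_eq ?_) e
    refine Finset.sum_congr rfl fun v _ => ?_
    rw [Finset.sum_filter]
    exact Finset.sum_congr rfl fun w _ => by split_ifs <;> simp
  set QR : ℝ := ((fixedPart (P \ U) i j * fixedPart (P \ U) j i : ℕ) : ℝ) with hQR
  have hQR1 : 1 ≤ QR := by
    rw [hQR, Nat.cast_mul]; exact one_le_mul_of_one_le_of_one_le hQ1 hQ2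
  set M' := mass f V ^ (ξ / 7 + thetaX ξ) * mass f' W ^ thetaX ξ with hM'
  have eM : M = M' := by
    rw [hM, hM', ha2d, ha1d]
    congr 2 <;> simp only [alphaX, thetaX] <;> ring
  have hQle : QR ^ alphaX ξ ≤ Q := by
    rw [hQ, hQR, ← ha2d, Nat.cast_mul, Real.mul_rpow (Nat.cast_nonneg _) (Nat.cast_nonneg _)]
    refine mul_le_mul_of_nonneg_right (Real.rpow_le_rpow_of_exponent_le hQ1 ?_) (by positivity)
    rw [ha1d, ha2d, alphaX]; linarith
  have hxM : 0 ≤ x ^ (1 - ξ) * M' := by rw [← eM, hM]; positivity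
  have hQRpow : (QR ^ alphaX ξ)⁻¹ = QR ^ (-evSlack ξ) * (QR ^ (alphaX ξ - evSlack ξ))⁻¹ := by
    rw [← Real.rpow_neg (by linarith), ← Real.rpow_neg (by linarith),
      ← Real.rpow_add (by linarith)]
    ring_nf
  have hQR0 : 0 < QR ^ (alphaX ξ - evSlack ξ) := Real.rpow_pos_of_pos (by linarith) _
  have hfin : ∀ G : ℝ, 0 ≤ G → G * QR ^ (-evSlack ξ) ≤ 2 * B * g ^ (1 / 3 : ℝ) →
      G * x ^ (1 - ξ) * M / Q ≤ 2 * B * g ^ (1 / 3 : ℝ) * x ^ (1 - ξ) * M' /
        QR ^ (alphaX ξ - evSlack ξ) := by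
    intro G hG hle
    rw [eM]
    have h0 : 0 < QR ^ alphaX ξ := Real.rpow_pos_of_pos (by linarith) _
    calc G * x ^ (1 - ξ) * M' / Q ≤ G * x ^ (1 - ξ) * M' / QR ^ alphaX ξ := by
          refine div_le_div_of_nonneg_left ?_ h0 hQle
          rw [mul_assoc]; positivity
      _ = G * QR ^ (-evSlack ξ) * (x ^ (1 - ξ) * M' / QR ^ (alphaX ξ - evSlack ξ)) := by
          rw [div_eq_mul_inv, hQRpow]; ring
      _ ≤ 2 * B * g ^ (1 / 3 : ℝ) * (x ^ (1 - ξ) * M' / QR ^ (alphaX ξ - evSlack ξ)) :=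
          mul_le_mul_of_nonneg_right hle (div_nonneg hxM hQR0.le)
      _ = _ := by ring
  have hneg : QR ^ (-evSlack ξ) ≤ 1 :=
    Real.rpow_le_one_of_one_le_of_nonpos hQR1 (by rw [evSlack]; linarith)
  rcases hgain with hbig | ⟨A, hA1, hA2⟩
  · refine le_trans (le_trans ?_ (hbound B B (fun v w => NoCoDev U k v w ∧ dist2' f f' v w ≤ x ∧
        upDev U k w ≤ upDev U k v) (by linarith) (by linarith) (fun v w hc => ⟨hc.1, hc.2.1⟩)
      (fun v hv => le_trans (Finset.sum_le_sum_of_subset_of_nonneg (fun w hw => by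
          simp only [Finset.mem_filter] at hw ⊢
          exact ⟨hw.1, hw.2.2.2⟩) fun v _ _ => sideW_nonneg _ _ _ _ _) (hB.1 v hv))
      (fun w hw => le_trans (Finset.sum_le_sum_of_subset_of_nonneg (fun v hv => by
          simp only [Finset.mem_filter] at hv ⊢
          exact ⟨hv.1, hv.2.2.2⟩) fun v _ _ => sideW_nonneg _ _ _ _ _) (hB.2 w hw))))
      (hfin _ (by positivity) ?_)
    · refine Finset.sum_le_sum fun v _ => Finset.sum_le_sum_of_subset_of_nonneg (fun w hw => ?_)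
        fun w _ _ => mul_nonneg (BilinearAux.wt_nonneg hf v) (BilinearAux.wt_nonneg hf' w)
      simp only [Finset.mem_filter] at hw ⊢
      exact ⟨hw.1, hw.2.2⟩
    · have hBB : B ^ a1 * B ^ a2 ≤ B := by
        rw [← Real.rpow_add (by linarith)]; exact hBpow _ (by linarith)
      refine le_trans (mul_le_mul hBB hbig (by positivity) (by linarith)) ?_
      have hgg : g ≤ g ^ (1 / 3 : ℝ) := Real.self_le_rpow_of_le_one hg hg1 (by norm_num)
      have := mul_le_mul_of_nonneg_left hgg (show 0 ≤ B by linarith)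
      have : 0 ≤ B * g ^ (1 / 3 : ℝ) := by positivity
      linarith
  have e1 := hbound g B (fun v w => E v w ∧ A v w ∧ NoCoDev U k v w ∧ dist2' f f' v w ≤ x ∧
      upDev U k w ≤ upDev U k v) hg (by linarith) (fun v w hc => ⟨hc.2.2.1, hc.2.2.2.1⟩)
    (fun v hv => by convert hA1 v hv using 4)
    (fun w hw => le_trans (Finset.sum_le_sum_of_subset_of_nonneg (fun v hv => by
        simp only [Finset.mem_filter] at hv ⊢
        exact ⟨hv.1, hv.2.2.2.2.2⟩) fun v _ _ => sideW_nonneg _ _ _ _ _)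
      (hB.2 w hw))
  have e2 := hbound B g (fun v w => E v w ∧ ¬ A v w ∧ NoCoDev U k v w ∧ dist2' f f' v w ≤ x ∧
      upDev U k w ≤ upDev U k v) (by linarith) hg (fun v w hc => ⟨hc.2.2.1, hc.2.2.2.1⟩)
    (fun v hv => le_trans (Finset.sum_le_sum_of_subset_of_nonneg (fun w hw => by
        simp only [Finset.mem_filter] at hw ⊢
        exact ⟨hw.1, hw.2.2.2.2.2⟩) fun v _ _ => sideW_nonneg _ _ _ _ _)
      (hB.1 v hv)) (fun w hw => by convert hA2 w hw using 4)
  have hco : g ^ a1 * B ^ a2 + B ^ a1 * g ^ a2 ≤ 2 * B * g ^ (1 / 3 : ℝ) := by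
    have l1 := mul_le_mul (hg13 a1 (by rw [ha1d]; linarith))
      (hBpow a2 (by rw [ha2d, alphaX]; linarith)) (Real.rpow_nonneg (by linarith) _)
      (Real.rpow_nonneg hg _)
    have l2 := mul_le_mul (hBpow a1 (by rw [ha1d]; linarith))
      (hg13 a2 (by rw [ha2d, alphaX]; linarith)) (Real.rpow_nonneg hg _) (by linarith)
    linarith
  calc ∑ v ∈ V, ∑ w ∈ W.filter (fun w => E v w ∧ NoCoDev U k v w ∧ dist2' f f' v w ≤ x ∧
        upDev U k w ≤ upDev U k v), wt f v * wt f' w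
      = (∑ v ∈ V, ∑ w ∈ W.filter (fun w => E v w ∧ A v w ∧ NoCoDev U k v w ∧
          dist2' f f' v w ≤ x ∧ upDev U k w ≤ upDev U k v), wt f v * wt f' w) +
        ∑ v ∈ V, ∑ w ∈ W.filter (fun w => E v w ∧ ¬ A v w ∧ NoCoDev U k v w ∧
          dist2' f f' v w ≤ x ∧ upDev U k w ≤ upDev U k v), wt f v * wt f' w := by
        rw [← Finset.sum_add_distrib]
        refine Finset.sum_congr rfl fun v _ => ?_
        simp only [Finset.sum_filter, ← Finset.sum_add_distrib]
        refine Finset.sum_congr rfl fun w _ => ?_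
        by_cases hA : A v w <;> simp [hA]
    _ ≤ g ^ a1 * B ^ a2 * x ^ (1 - ξ) * M / Q + B ^ a1 * g ^ a2 * x ^ (1 - ξ) * M / Q := by
        refine le_trans (le_of_eq ?_) (add_le_add e1 e2)
        congr! 5
    _ = (g ^ a1 * B ^ a2 + B ^ a1 * g ^ a2) * x ^ (1 - ξ) * M / Q := by ring
    _ ≤ _ := hfin _ (by positivity) ((mul_le_of_le_one_right (by positivity) hneg).trans hco)

open Classical in
/-- An event of pairs of level at most `x` weighs `g ^ (1 / 3)` times the bilinear bound; the sums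
may be taken for another centre `ov k` of a state, as long as no pair of the event deviates from it
on both sides. -/
theorem exists_event_override_le (ξ : ℝ) (hξ : 0 < ξ) (hξ1 : ξ ≤ 1 / 100) :
    ∃ C : ℝ, 0 ≤ C ∧ ∀ (f f' : ℕ → ℝ) (V₀ W₀ : Finset ℕ) (x g : ℝ) (E : ℕ → ℕ → Prop)
      (ov : (ℕ → ℕ) → ℕ → ℕ),
      (∀ v ∈ V₀, 0 < v) → (∀ w ∈ W₀, 0 < w) → (∀ q, 0 ≤ f q) → (∀ q, 0 ≤ f' q) →
      0 < x → 0 ≤ g → g ≤ 1 →
      (∀ (U : Finset ℕ) (k : ℕ → ℕ), (∀ p ∈ U, p.Prime) → ∀ v ∈ V₀, ∀ w ∈ W₀, E v w →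
        NoCoDev U k v w → NoCoDev U (ov k) v w) →
      (∀ (P S U V W : Finset ℕ) (i j k : ℕ → ℕ), FinState P S U V W i j → V ⊆ V₀ → W ⊆ W₀ →
        (((fixedPart (P \ U) i j * fixedPart (P \ U) j i : ℕ) : ℝ) ^ (-evSlack ξ) ≤ g) ∨
        EventGain ξ g x f f' E U (ov k) V W) →
      (∀ (P S U V W : Finset ℕ) (i j k : ℕ → ℕ), FinState P S U V W i j → V ⊆ W₀ → W ⊆ V₀ →
        (((fixedPart (P \ U) i j * fixedPart (P \ U) j i : ℕ) : ℝ) ^ (-evSlack ξ) ≤ g) ∨
        EventGain ξ g x f' f (fun v w => E w v) U (ov k) V W) →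
      ∑ v ∈ V₀, ∑ w ∈ W₀.filter (fun w => dist2' f f' v w ≤ x ∧ E v w), wt f v * wt f' w ≤
        C * g ^ (1 / 3 : ℝ) * x ^ (1 - ξ) * massFac ξ (mass f V₀) (mass f' W₀) := by
  set θ := thetaX ξ with hθd
  set β := alphaX ξ - evSlack ξ with hβd
  have hθ : 1 / 2 < θ := by rw [hθd, thetaX]; linarith
  have hθ1 : θ < 1 := by rw [hθd, thetaX]; linarith
  have hβ : 0 < β := by rw [hβd, alphaX, evSlack]; linarith
  have hexp : 1 < 2 * θ * (β / (1 - θ)) := by
    rw [← mul_div_assoc, one_lt_div (by linarith), hθd, hβd, thetaX, alphaX, evSlack]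
    nlinarith
  obtain ⟨Cr, hCr⟩ := exists_split_bound2 θ β hθ hθ1 hβ hexp
  obtain ⟨B, hB1, hB⟩ := exists_side_crude_le ξ hξ hξ1
  refine ⟨max Cr 0 * (4 * B), by positivity, ?_⟩
  intro f f' V₀ W₀ x g E ov hV₀ hW₀ hf hf' hx hg hg1 hov hE hE'
  set S := V₀ ∪ W₀ with hS
  set P := S.biUnion Nat.primeFactors with hP
  have hpos : ∀ q ∈ S, 0 < q := fun q hq =>
    (Finset.mem_union.1 hq).elim (fun h => hV₀ q h) fun h => hW₀ q h
  have hPp : ∀ r ∈ P, r.Prime := fun r hr => by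
    obtain ⟨q, _, hq⟩ := Finset.mem_biUnion.1 hr
    exact Nat.prime_of_mem_primeFactors hq
  have hfac : ∀ q ∈ S, q.primeFactors ⊆ P := fun q hq r hr => Finset.mem_biUnion.2 ⟨q, hq, hr⟩
  set F : ℕ → ℝ := fun q => if q ∈ V₀ then wt f q else 0 with hF
  set F' : ℕ → ℝ := fun q => if q ∈ W₀ then wt f' q else 0 with hF'
  have hF0 : ∀ q, 0 ≤ F q := fun q => by
    simp only [hF]; split_ifs; exacts [BilinearAux.wt_nonneg hf q, le_rfl]
  have hF0' : ∀ q, 0 ≤ F' q := fun q => by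
    simp only [hF']; split_ifs; exacts [BilinearAux.wt_nonneg hf' q, le_rfl]
  set K : ℕ → ℕ → ℝ := fun v w => if dist2' f f' v w ≤ x ∧ E v w then 1 else 0 with hK
  have hK0 : ∀ v w, 0 ≤ K v w := fun v w => by simp only [hK]; split <;> norm_num
  have hK1 : ∀ v w, K v w ≤ 1 := fun v w => by simp only [hK]; split <;> norm_num
  set mA := mass f V₀ with hmA
  set mB := mass f' W₀ with hmB
  have hA0 : 0 ≤ mA := BilinearAux.mass_nonneg hf _
  have hB0 : 0 ≤ mB := BilinearAux.mass_nonneg hf' _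
  set G := 4 * B * (g ^ (1 / 3 : ℝ) * x ^ (1 - ξ) * (mA + mB) ^ (ξ / 7)) with hGd
  have hG0 : 0 ≤ G := by positivity
  have hfinal : FinalBound2 θ β G P S F F' K := by
    intro U V' W' i j k₀ hU hV hW hi hj K' hK'0 hK'le hK'supp
    set k := ov k₀ with hkd
    set V := V'.filter (· ∈ V₀) with hVd
    set W := W'.filter (· ∈ W₀) with hWd
    have hVs : V ⊆ V₀ := fun q hq => (Finset.mem_filter.1 hq).2
    have hWs : W ⊆ W₀ := fun q hq => (Finset.mem_filter.1 hq).2
    have h : FinState P S U V W i j := ⟨hPp, hpos, hfac, hU,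
      (Finset.filter_subset _ _).trans hV, (Finset.filter_subset _ _).trans hW,
      fun v hv => hi v (Finset.mem_filter.1 hv).1, fun w hw => hj w (Finset.mem_filter.1 hw).1⟩
    have h1 := state_event_le hξ hξ1 hB1 hf hf' h (hB P S U V W i j k h) hg hg1 hx E
      (hE P S U V W i j k₀ h hVs hWs)
    have h2 := state_event_le hξ hξ1 hB1 hf' hf h.symm (hB P S U W V j i k h.symm) hg hg1 hx
      (fun v w => E w v) (hE' P S U W V j i k₀ h.symm hWs hVs)
    have hsumF : ∑ v ∈ V', F v = mass f V := by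
      rw [mass, hVd, Finset.sum_filter]
    have hsumF' : ∑ w ∈ W', F' w = mass f' W := by
      rw [mass, hWd, Finset.sum_filter]
    have hmV0 := BilinearAux.mass_nonneg hf V
    have hmW0 := BilinearAux.mass_nonneg hf' W
    have hmV : mass f V ≤ mA + mB := (BilinearAux.mass_mono hf hVs).trans (by linarith)
    have hmW : mass f' W ≤ mA + mB := (BilinearAux.mass_mono hf' hWs).trans (by linarith)
    have hpair : ∀ v ∈ V, ∀ w ∈ W, K' v w * (wt f v * wt f' w) ≤
        (if E v w ∧ NoCoDev U k v w ∧ dist2' f f' v w ≤ x ∧ upDev U k w ≤ upDev U k v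
          then wt f v * wt f' w else 0) +
        (if E v w ∧ NoCoDev U k w v ∧ dist2' f' f w v ≤ x ∧ upDev U k v ≤ upDev U k w
          then wt f' w * wt f v else 0) := by
      intro v hv w hw
      have hw0 : 0 ≤ wt f v * wt f' w :=
        mul_nonneg (BilinearAux.wt_nonneg hf v) (BilinearAux.wt_nonneg hf' w)
      have r1 : ∀ c : Prop, [Decidable c] → 0 ≤ (if c then wt f v * wt f' w else 0) := fun c _ => by
        split_ifs; exacts [hw0, le_rfl]
      rw [mul_comm (wt f' w)]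
      by_cases h0 : K' v w = 0
      · rw [h0, zero_mul]; exact add_nonneg (r1 _) (r1 _)
      have hle := hK'le v w
      have hc : dist2' f f' v w ≤ x ∧ E v w := by
        by_contra hc
        simp only [hK, if_neg hc] at hle
        exact h0 (le_antisymm hle (hK'0 v w))
      have hn : NoCoDev U k v w := hov U k₀ (fun p hp => hPp p (hU hp)) v (hVs hv) w (hWs hw)
        hc.2 (hK'supp v w h0)
      refine le_trans (mul_le_of_le_one_left hw0 (hle.trans (hK1 v w))) ?_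
      rcases le_total (upDev U k w) (upDev U k v) with hh | hh
      · rw [if_pos ⟨hc.2, hn, hc.1, hh⟩]; exact le_add_of_nonneg_right (r1 _)
      · rw [if_pos (⟨hc.2, fun p hp => (hn p hp).symm, by rw [dist2'_comm]; exact hc.1, hh⟩ :
          E v w ∧ NoCoDev U k w v ∧ dist2' f' f w v ≤ x ∧ upDev U k v ≤ upDev U k w)]
        exact le_add_of_nonneg_left (r1 _)
    have hsplit : ∀ (a b : ℝ), 0 ≤ a → 0 ≤ b → a ≤ mA + mB →
        a ^ (ξ / 7 + θ) * b ^ θ ≤ (mA + mB) ^ (ξ / 7) * (a * b) ^ θ := by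
      intro a b ha hb hab
      rw [Real.rpow_add' ha (by linarith), Real.mul_rpow ha hb, ← mul_assoc]
      refine mul_le_mul_of_nonneg_right (mul_le_mul_of_nonneg_right
        (Real.rpow_le_rpow ha hab (by linarith)) (Real.rpow_nonneg ha _)) (Real.rpow_nonneg hb _)
    rw [hsumF, hsumF']
    calc ∑ v ∈ V', ∑ w ∈ W', K' v w * (F v * F' w)
        = ∑ v ∈ V, ∑ w ∈ W, K' v w * (wt f v * wt f' w) := by
          rw [hVd, hWd, Finset.sum_filter]
          refine Finset.sum_congr rfl fun v _ => ?_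
          simp only [hF, hF']
          split_ifs with hv
          · rw [Finset.sum_filter]
            exact Finset.sum_congr rfl fun w _ => by split_ifs <;> simp
          · simp
      _ ≤ _ := Finset.sum_le_sum fun v hv => Finset.sum_le_sum fun w hw => hpair v hv w hw
      _ = (∑ v ∈ V, ∑ w ∈ W.filter (fun w => E v w ∧ NoCoDev U k v w ∧ dist2' f f' v w ≤ x ∧
              upDev U k w ≤ upDev U k v), wt f v * wt f' w) +
            ∑ w ∈ W, ∑ v ∈ V.filter (fun v => E v w ∧ NoCoDev U k w v ∧ dist2' f' f w v ≤ x ∧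
              upDev U k v ≤ upDev U k w), wt f' w * wt f v := by
          simp only [Finset.sum_filter, Finset.sum_add_distrib]
          congr 1
          exact Finset.sum_comm
      _ ≤ _ := add_le_add h1 h2
      _ ≤ _ := by
          rw [mul_comm (fixedPart (P \ U) j i) (fixedPart (P \ U) i j), ← hθd, ← hβd, ← add_div]
          refine div_le_div_of_nonneg_right ?_ (by positivity)
          have s1 := hsplit _ _ hmV0 hmW0 hmV
          have s2 := hsplit _ _ hmW0 hmV0 hmW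
          rw [mul_comm (mass f' W) (mass f V)] at s2
          have := mul_le_mul_of_nonneg_left (add_le_add s1 s2)
            (show 0 ≤ 2 * B * g ^ (1 / 3 : ℝ) * x ^ (1 - ξ) by positivity)
          calc _ = 2 * B * g ^ (1 / 3 : ℝ) * x ^ (1 - ξ) *
                (mass f V ^ (ξ / 7 + θ) * mass f' W ^ θ +
                  mass f' W ^ (ξ / 7 + θ) * mass f V ^ θ) := by ring
            _ ≤ _ := this
            _ = _ := by rw [hGd]; ring
  have hfix : ∀ q ∈ S, ∀ r, r ∉ P → q.factorization r = 0 := by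
    intro q hq r hr
    by_contra hne
    refine hr (hfac q hq ?_)
    rw [← Nat.support_factorization]
    exact Finsupp.mem_support_iff.2 hne
  have hb := hCr P S F F' K G hPp hF0 hF0' hK0 hG0 hfinal P V₀ W₀ (fun _ => 0) (fun _ => 0)
    subset_rfl Finset.subset_union_left Finset.subset_union_right
    (fun v hv => hfix v (Finset.mem_union_left _ hv))
    (fun w hw => hfix w (Finset.mem_union_right _ hw))
  have hsF : ∑ v ∈ V₀, F v = mA := by
    rw [hmA, mass]; exact Finset.sum_congr rfl fun v hv => by simp only [hF, if_pos hv]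
  have hsF' : ∑ v ∈ W₀, F' v = mB := by
    rw [hmB, mass]; exact Finset.sum_congr rfl fun v hv => by simp only [hF', if_pos hv]
  have hQ : fixedPart (P \ P) (fun _ => 0) (fun _ => 0) = 1 := by simp [fixedPart]
  rw [hsF, hsF', hQ, Nat.mul_one, Nat.cast_one, Real.one_rpow, div_one] at hb
  calc ∑ v ∈ V₀, ∑ w ∈ W₀.filter (fun w => dist2' f f' v w ≤ x ∧ E v w), wt f v * wt f' w
      = ∑ v ∈ V₀, ∑ w ∈ W₀, K v w * (F v * F' w) := by
        refine Finset.sum_congr rfl fun v hv => ?_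
        rw [Finset.sum_filter]
        refine Finset.sum_congr rfl fun w hw => ?_
        simp only [hK, hF, hF', if_pos hv, if_pos hw]
        split_ifs <;> simp
    _ ≤ Cr * G * (mA * mB) ^ θ := hb
    _ ≤ max Cr 0 * G * (mA * mB) ^ θ := by gcongr; exact le_max_left _ _
    _ = _ := by rw [hGd, massFac, ← hθd]; ring

open Classical in
/-- An event of pairs of level at most `x` weighs `g ^ (1 / 3)` times the bilinear bound. -/
theorem exists_event_le (ξ : ℝ) (hξ : 0 < ξ) (hξ1 : ξ ≤ 1 / 100) :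
    ∃ C : ℝ, 0 ≤ C ∧ ∀ (f f' : ℕ → ℝ) (V₀ W₀ : Finset ℕ) (x g : ℝ) (E : ℕ → ℕ → Prop),
      (∀ v ∈ V₀, 0 < v) → (∀ w ∈ W₀, 0 < w) → (∀ q, 0 ≤ f q) → (∀ q, 0 ≤ f' q) →
      0 < x → 0 ≤ g → g ≤ 1 →
      (∀ (P S U V W : Finset ℕ) (i j k : ℕ → ℕ), FinState P S U V W i j → V ⊆ V₀ → W ⊆ W₀ →
        (((fixedPart (P \ U) i j * fixedPart (P \ U) j i : ℕ) : ℝ) ^ (-evSlack ξ) ≤ g) ∨
        EventGain ξ g x f f' E U k V W) →
      (∀ (P S U V W : Finset ℕ) (i j k : ℕ → ℕ), FinState P S U V W i j → V ⊆ W₀ → W ⊆ V₀ →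
        (((fixedPart (P \ U) i j * fixedPart (P \ U) j i : ℕ) : ℝ) ^ (-evSlack ξ) ≤ g) ∨
        EventGain ξ g x f' f (fun v w => E w v) U k V W) →
      ∑ v ∈ V₀, ∑ w ∈ W₀.filter (fun w => dist2' f f' v w ≤ x ∧ E v w), wt f v * wt f' w ≤
        C * g ^ (1 / 3 : ℝ) * x ^ (1 - ξ) * massFac ξ (mass f V₀) (mass f' W₀) := by
  obtain ⟨C, hC0, hC⟩ := exists_event_override_le ξ hξ hξ1
  exact ⟨C, hC0, fun f f' V₀ W₀ x g E hV hW hf hf' hx hg hg1 hE hE' =>
    hC f f' V₀ W₀ x g E id hV hW hf hf' hx hg hg1 (fun _ _ _ _ _ _ _ _ h => h) hE hE'⟩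

end Vale.Agent.P028.Full
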