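import Mathlib

/-!
The two deterministic facts behind the bound for coincidences at high primes (note 706): a node
which is not valid lower down fixes the low part of an exact near point, and two different matched
chains prescribe the low part outright.
-/

namespace Vale.Agent.P028.Full

/-- Two coprime points on one line through the origin are equal. -/
theorem coprime_point_ext {x1 y1 x2 y2 : ℕ} (h1 : Nat.Coprime x1 y1) (h2 : Nat.Coprime x2 y2)
    (h : x1 * y2 = x2 * y1) : x1 = x2 ∧ y1 = y2 := by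
  have ex : x1 = x2 := Nat.dvd_antisymm (h1.dvd_of_dvd_mul_right ⟨y2, h.symm⟩)
    (h2.dvd_of_dvd_mul_right ⟨y1, h⟩)
  subst ex
  rcases Nat.eq_zero_or_pos x1 with h0 | h0
  · subst h0
    rw [Nat.coprime_zero_left] at h1 h2
    exact ⟨rfl, by rw [h1, h2]⟩
  · exact ⟨rfl, (Nat.eq_of_mul_eq_mul_left h0 h).symm⟩

/-- The denominator of a node divides the determinant of two exact points. -/
theorem node_dvd_det {P P' : ℕ} {u u' n1 n2 x1 y1 x2 y2 : ℤ} (hP' : 0 < P')
    (hu : IsCoprime u (P : ℤ))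
    (e1 : n1 * P * P' + u * x1 * P' - u' * y1 * P = 0)
    (e2 : n2 * P * P' + u * x2 * P' - u' * y2 * P = 0) :
    (P : ℤ) ∣ x1 * y2 - x2 * y1 := by
  have h : (P' : ℤ) * ((P : ℤ) * (n1 * y2 - n2 * y1) + u * (x1 * y2 - x2 * y1)) = 0 := by
    linear_combination y2 * e1 - y1 * e2
  have h0 := (mul_eq_zero.1 h).resolve_left (by exact_mod_cast hP'.ne')
  exact hu.symm.dvd_of_dvd_mul_left ⟨-(n1 * y2 - n2 * y1), by linear_combination h0⟩

/-- The error of a node times the determinant of two near points is small. -/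
theorem err_mul_det_le {e e' D x1 y1 x2 y2 : ℝ} (hy1 : 0 ≤ y1) (hy2 : 0 ≤ y2)
    (h1 : |e * x1 - e' * y1| ≤ 2 * D) (h2 : |e * x2 - e' * y2| ≤ 2 * D) :
    |e| * |x1 * y2 - x2 * y1| ≤ 2 * D * (y1 + y2) := by
  calc |e| * |x1 * y2 - x2 * y1| = |(e * x1 - e' * y1) * y2 - (e * x2 - e' * y2) * y1| := by
        rw [← abs_mul]
        ring_nf
    _ ≤ |(e * x1 - e' * y1) * y2| + |(e * x2 - e' * y2) * y1| := abs_sub _ _
    _ ≤ 2 * D * y2 + 2 * D * y1 := by
        rw [abs_mul, abs_mul, abs_of_nonneg hy1, abs_of_nonneg hy2]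
        exact add_le_add (mul_le_mul_of_nonneg_right h1 hy2) (mul_le_mul_of_nonneg_right h2 hy1)
    _ = _ := by ring

/-- Low parts of exact near points are unique as long as they are small against the height of the
node at the upper band, lifted by the middle parts `H`, `H'`. The coincidence numbers may differ. -/
theorem low_point_unique {P P' H H' x1 y1 x2 y2 M : ℕ} {u u' n1 n2 : ℤ} {e e' D : ℝ} (hP : 0 < P)
    (hP' : 0 < P') (hu : IsCoprime u (P : ℤ))
    (hc1 : Nat.Coprime x1 y1) (hc2 : Nat.Coprime x2 y2)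
    (hx1 : x1 ≤ M) (hy1 : y1 ≤ M) (hx2 : x2 ≤ M) (hy2 : y2 ≤ M)
    (e1 : n1 * P * P' + u * (H * x1 : ℕ) * P' - u' * (H' * y1 : ℕ) * P = 0)
    (e2 : n2 * P * P' + u * (H * x2 : ℕ) * P' - u' * (H' * y2 : ℕ) * P = 0)
    (h1 : |e * (H * x1 : ℕ) - e' * (H' * y1 : ℕ)| ≤ 2 * D)
    (h2 : |e * (H * x2 : ℕ) - e' * (H' * y2 : ℕ)| ≤ 2 * D) (hH' : 0 < H')
    (hbig : M * M < P / Nat.gcd P (H * H') ∨ 4 * D * M < |e| * H) :
    x1 = x2 ∧ y1 = y2 := by
  refine coprime_point_ext hc1 hc2 ?_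
  by_contra hne
  set d : ℤ := (x1 : ℤ) * y2 - (x2 : ℤ) * y1 with hd
  have hd0 : d ≠ 0 := fun h => hne (by exact_mod_cast (sub_eq_zero.1 h))
  have hdet := node_dvd_det hP' hu e1 e2
  push_cast at hdet
  have hdet' : P ∣ H * H' * d.natAbs := by
    have h : (P : ℤ) ∣ ((H * H' : ℕ) : ℤ) * d := by
      rw [hd]
      push_cast
      convert hdet using 1
      ring
    have h' := Int.natAbs_dvd_natAbs.2 h
    rwa [Int.natAbs_mul, Int.natAbs_natCast, Int.natAbs_natCast] at h'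
  rcases hbig with hM | hM
  · have hg := Nat.gcd_pos_of_pos_left (H * H') hP
    have hdvd : P / Nat.gcd P (H * H') ∣ d.natAbs := by
      refine (Nat.coprime_div_gcd_div_gcd hg).dvd_of_dvd_mul_left ?_
      rw [← Nat.mul_dvd_mul_iff_left hg, Nat.mul_div_cancel' (Nat.gcd_dvd_left _ _), ← mul_assoc,
        Nat.mul_div_cancel' (Nat.gcd_dvd_right _ _)]
      exact hdet'
    have hle := Nat.le_of_dvd (Int.natAbs_pos.2 hd0) hdvd
    have a1 : (x1 : ℤ) * y2 ≤ (M : ℤ) * M := by exact_mod_cast Nat.mul_le_mul hx1 hy2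
    have a2 : (x2 : ℤ) * y1 ≤ (M : ℤ) * M := by exact_mod_cast Nat.mul_le_mul hx2 hy1
    have a3 : (0 : ℤ) ≤ (x1 : ℤ) * y2 := by positivity
    have a4 : (0 : ℤ) ≤ (x2 : ℤ) * y1 := by positivity
    have : (M * M : ℤ) < d.natAbs := by exact_mod_cast hM.trans_le hle
    omega
  · have h := err_mul_det_le (Nat.cast_nonneg _) (Nat.cast_nonneg _) h1 h2
    have hD : 0 ≤ D := by linarith [abs_nonneg (e * (H * x1 : ℕ) - e' * (H' * y1 : ℕ))]
    have hd1 : (1 : ℝ) ≤ |(d : ℝ)| := by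
      rw [← Int.cast_abs]
      exact_mod_cast Int.one_le_abs hd0
    have e3 : |((H * x1 : ℕ) : ℝ) * ((H' * y2 : ℕ) : ℝ) - ((H * x2 : ℕ) : ℝ) * ((H' * y1 : ℕ) : ℝ)|
        = (H : ℝ) * H' * |(d : ℝ)| := by
      rw [← abs_of_nonneg (by positivity : (0 : ℝ) ≤ (H : ℝ) * H'), ← abs_mul, hd]
      push_cast
      ring_nf
    rw [e3] at h
    push_cast at h
    have hy1' : (y1 : ℝ) ≤ M := by exact_mod_cast hy1
    have hy2' : (y2 : ℝ) ≤ M := by exact_mod_cast hy2
    have hH0 : (0 : ℝ) < H' := by exact_mod_cast hH'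
    have hle : |e| * H * |(d : ℝ)| ≤ 2 * D * ((y1 : ℝ) + y2) := by
      refine le_of_mul_le_mul_right ?_ hH0
      calc |e| * H * |(d : ℝ)| * H' = |e| * ((H : ℝ) * H' * |(d : ℝ)|) := by ring
        _ ≤ _ := h
        _ = _ := by ring
    have hge : |e| * H * 1 ≤ |e| * H * |(d : ℝ)| :=
      mul_le_mul_of_nonneg_left hd1 (by positivity)
    nlinarith

/-- Two different matched chains with the same coincidence number prescribe the coprime low
point: `F, G` are the fractions of the first vertex, `F', G'` those of the second, and `b, b'` the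
deficiencies above the lower chain. -/
theorem two_chains_prescribe {F G F' G' b b' : ℚ} {n1 n2 : ℤ} {x1 y1 x2 y2 : ℕ} (hb : b ≠ 0)
    (hFG : F ≠ G) (hc1 : Nat.Coprime x1 y1) (hc2 : Nat.Coprime x2 y2)
    (hx1 : 0 < x1)
    (e1 : (n1 : ℚ) + F * b * x1 - F' * b' * y1 = 0) (f1 : (n1 : ℚ) + G * b * x1 - G' * b' * y1 = 0)
    (e2 : (n2 : ℚ) + F * b * x2 - F' * b' * y2 = 0)
    (f2 : (n2 : ℚ) + G * b * x2 - G' * b' * y2 = 0) :
    x1 = x2 ∧ y1 = y2 := by
  refine coprime_point_ext hc1 hc2 ?_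
  have a1 : (F - G) * b * x1 = (F' - G') * b' * y1 := by linear_combination e1 - f1
  have a2 : (F - G) * b * x2 = (F' - G') * b' * y2 := by linear_combination e2 - f2
  have hne : (F' - G') * b' ≠ 0 := fun h => by
    rw [h, zero_mul] at a1
    rcases mul_eq_zero.1 a1 with h' | h'
    · exact (mul_ne_zero (sub_ne_zero.2 hFG) hb) h'
    · exact hx1.ne' (by exact_mod_cast h')
  have h : ((x1 : ℚ) * y2 - x2 * y1) * ((F' - G') * b') = 0 := by
    linear_combination (x2 : ℚ) * a1 - (x1 : ℚ) * a2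
  exact_mod_cast sub_eq_zero.1 ((mul_eq_zero.1 h).resolve_right hne)

end Vale.Agent.P028.Full
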