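import Vale.Agent.P028.Full.PairFacts
import Vale.Agent.P028.Full.WHigh

/-!
Two small near points determine the nodes of both shifts, and every small near point is then exact.
Hence a pair of deficiencies has at most one small non-exact point.
-/

noncomputable section

namespace Vale.Agent.P028.Full

open Finset

/-- A near point of height at most `E`. -/
def NearPt (β β' D E : ℝ) (c a : ℕ) (n : ℤ) : Prop :=
  (c : ℝ) ≤ E ∧ (a : ℝ) ≤ E ∧ |(n : ℝ) + c * β - a * β'| < 2 * D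

/-- The two radii are not tinier than the square of the level. -/
def PtScale (η η' D E : ℝ) : Prop :=
  η ≤ D ∧ η' ≤ D ∧ 1 ≤ E ∧ 1024 * D ^ 2 * E ^ 2 < η ∧ 1024 * D ^ 2 * E ^ 2 < η' ∧
    64 * D * E ^ 4 < 1

theorem exists_node_of_mul {β η D E : ℝ} {W U : ℤ} (hW : W ≠ 0) (hη : η ≤ D) (hE : 1 ≤ E)
    (hlo : 1024 * D ^ 2 * E ^ 2 < η) (hsmall : 64 * D * E ^ 4 < 1) (hWle : |(W : ℝ)| ≤ E ^ 2)
    (herr : |(W : ℝ) * β - U| ≤ 4 * D * E) :
    ∃ (u : ℤ) (P : ℕ), IsNode β η u P ∧ (P : ℝ) ≤ E ^ 2 ∧ |(P : ℝ) * β - u| ≤ 4 * D * E := by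
  have hη0 : 0 < η := lt_of_le_of_lt (by positivity) hlo
  have hD : 0 < D := hη0.trans_le hη
  set r : ℚ := (U : ℚ) / W with hr
  have hden : (r.den : ℤ) ∣ W := by
    rw [hr, ← Rat.divInt_eq_div]
    exact Rat.den_dvd U W
  have hnum : r.num * W = U * r.den := by
    have h : (r.num : ℚ) / r.den = (U : ℚ) / W := Rat.num_div_den r
    rw [div_eq_div_iff (by exact_mod_cast r.den_nz) (by exact_mod_cast hW)] at h
    exact_mod_cast h
  obtain ⟨g, hg⟩ := hden
  have hg0 : g ≠ 0 := fun h => hW (by rw [hg, h, mul_zero])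
  have hU : U = r.num * g := by
    have hd : (r.den : ℤ) ≠ 0 := by exact_mod_cast r.den_nz
    apply mul_right_cancel₀ hd
    rw [← hnum, hg]; ring
  have hg1 : (1 : ℝ) ≤ |(g : ℝ)| := by
    rw [← Int.cast_abs]; exact_mod_cast Int.one_le_abs hg0
  have hP : (r.den : ℝ) ≤ E ^ 2 := by
    refine le_trans ?_ hWle
    rw [hg, Int.cast_mul, abs_mul, Int.cast_natCast, Nat.abs_cast]
    exact le_mul_of_one_le_right (Nat.cast_nonneg _) hg1
  have he : |(r.den : ℝ) * β - r.num| ≤ 4 * D * E := by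
    refine le_trans ?_ herr
    calc |(r.den : ℝ) * β - r.num| ≤ |(r.den : ℝ) * β - r.num| * |(g : ℝ)| :=
          le_mul_of_one_le_right (abs_nonneg _) hg1
      _ = _ := by rw [← abs_mul, hg, hU]; push_cast; ring_nf
  refine ⟨r.num, r.den, ⟨r.den_pos, Int.isCoprime_iff_nat_coprime.2 (by simpa using r.reduced),
    ?_, ?_⟩, hP, he⟩
  · have h1 : η * ((r.den : ℝ) ^ 2) ≤ D * E ^ 4 := by
      refine mul_le_mul hη ?_ (sq_nonneg _) hD.le
      calc (r.den : ℝ) ^ 2 ≤ (E ^ 2) ^ 2 := pow_le_pow_left₀ (Nat.cast_nonneg _) hP 2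
        _ = _ := by ring
    rw [mul_pow]
    nlinarith
  · calc ((r.den : ℝ) * β - r.num) ^ 2 = |(r.den : ℝ) * β - r.num| ^ 2 := (sq_abs _).symm
      _ ≤ (4 * D * E) ^ 2 := pow_le_pow_left₀ (abs_nonneg _) he 2
      _ < η / 64 := by nlinarith

/-- Two points make every point exact for the two nodes. -/
theorem exact_of_two_points {β β' η η' D E : ℝ} {c1 a1 c2 a2 : ℕ} {n1 n2 : ℤ}
    (hs : PtScale η η' D E) (h1 : NearPt β β' D E c1 a1 n1) (h2 : NearPt β β' D E c2 a2 n2)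
    (hc1 : Nat.Coprime c1 a1) (hc2 : Nat.Coprime c2 a2) (hne : (c1, a1) ≠ (c2, a2))
    {c a : ℕ} {n : ℤ} (h : NearPt β β' D E c a n) :
    0 < (nodeOf β η).2 ∧ 0 < (nodeOf β' η').2 ∧
      n * ((nodeOf β η).2 : ℤ) * ((nodeOf β' η').2 : ℤ) +
          (c : ℤ) * (nodeOf β η).1 * ((nodeOf β' η').2 : ℤ) -
          (a : ℤ) * (nodeOf β' η').1 * ((nodeOf β η).2 : ℤ) = 0 := by
  obtain ⟨hη, hη', hE, hlo, hlo', hsmall⟩ := hs
  have hD : 0 < D := (lt_of_le_of_lt (by positivity) hlo).trans_le hη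
  set W : ℤ := (c1 : ℤ) * a2 - (c2 : ℤ) * a1 with hWdef
  have hW : W ≠ 0 := by
    intro h0
    obtain ⟨e1, e2⟩ := coprime_point_ext hc1 hc2 (by exact_mod_cast sub_eq_zero.1 h0)
    exact hne (by rw [e1, e2])
  obtain ⟨hc1E, ha1E, hn1⟩ := h1
  obtain ⟨hc2E, ha2E, hn2⟩ := h2
  have hWle : |(W : ℝ)| ≤ E ^ 2 := by
    rw [abs_le]
    have := mul_le_mul hc1E ha2E (Nat.cast_nonneg _) (by linarith)
    have := mul_le_mul hc2E ha1E (Nat.cast_nonneg _) (by linarith)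
    have : (0 : ℝ) ≤ (c1 : ℝ) * a2 := by positivity
    have : (0 : ℝ) ≤ (c2 : ℝ) * a1 := by positivity
    simp only [hWdef]; push_cast
    constructor <;> nlinarith
  set e1 := (n1 : ℝ) + c1 * β - a1 * β'
  set e2 := (n2 : ℝ) + c2 * β - a2 * β'
  have herr : ∀ s t : ℕ, (s : ℝ) ≤ E → (t : ℝ) ≤ E → |(s : ℝ) * e1 - t * e2| ≤ 4 * D * E := by
    intro s t hs ht
    refine (abs_sub _ _).trans ?_
    rw [abs_mul, abs_mul, Nat.abs_cast, Nat.abs_cast]
    have := mul_le_mul hs hn1.le (abs_nonneg _) (by linarith)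
    have := mul_le_mul ht hn2.le (abs_nonneg _) (by linarith)
    linarith
  obtain ⟨u, P, hu, hP, hPe⟩ := exists_node_of_mul (β := β) (U := (a1 : ℤ) * n2 - (a2 : ℤ) * n1)
    hW hη hE hlo hsmall hWle
    (le_trans (le_of_eq (by simp only [hWdef, e1, e2]; push_cast; ring_nf)) (herr a2 a1 ha2E ha1E))
  obtain ⟨u', P', hu', hP', hPe'⟩ := exists_node_of_mul (β := β') (U := (c1 : ℤ) * n2 - (c2 : ℤ) * n1)
    hW hη' hE hlo' hsmall hWle
    (le_trans (le_of_eq (by simp only [hWdef, e1, e2]; push_cast; ring_nf)) (herr c2 c1 hc2E hc1E))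
  rw [nodeOf_eq hu, nodeOf_eq hu']
  refine ⟨hu.1, hu'.1, ?_⟩
  obtain ⟨hcE, haE, hn⟩ := h
  set X : ℤ := n * (P : ℤ) * P' + (c : ℤ) * u * P' - (a : ℤ) * u' * P with hX
  have hb : |(X : ℝ)| < 1 := by
    have hid : (X : ℝ) = ((P : ℝ) * P') * ((n : ℝ) + c * β - a * β') -
        ((c : ℝ) * P') * ((P : ℝ) * β - u) + ((a : ℝ) * P) * ((P' : ℝ) * β' - u') := by
      simp only [hX]; push_cast; ring
    rw [hid]
    refine lt_of_le_of_lt ((abs_add_le _ _).trans (add_le_add (abs_sub _ _) le_rfl)) ?_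
    simp only [abs_mul, Nat.abs_cast]
    have hE0 : 0 ≤ E := by linarith
    have t1 := mul_le_mul (mul_le_mul hP hP' (Nat.cast_nonneg _) (by positivity)) hn.le
      (abs_nonneg _) (by positivity)
    have t2 := mul_le_mul (mul_le_mul hcE hP' (Nat.cast_nonneg _) hE0) hPe (abs_nonneg _)
      (by positivity)
    have t3 := mul_le_mul (mul_le_mul haE hP (Nat.cast_nonneg _) hE0) hPe' (abs_nonneg _)
      (by positivity)
    nlinarith
  exact Int.abs_lt_one_iff.1 (by exact_mod_cast hb)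

/-- A point which is not exact is the only one, with its coincidence number. -/
theorem eq_of_not_exact {β β' η η' D E : ℝ} {c a c' a' : ℕ} {n n' : ℤ}
    (hs : PtScale η η' D E) (h : NearPt β β' D E c a n) (h' : NearPt β β' D E c' a' n')
    (hc : Nat.Coprime c a) (hc' : Nat.Coprime c' a')
    (hne : ¬ (0 < (nodeOf β η).2 ∧ 0 < (nodeOf β' η').2 ∧
      n * ((nodeOf β η).2 : ℤ) * ((nodeOf β' η').2 : ℤ) +
          (c : ℤ) * (nodeOf β η).1 * ((nodeOf β' η').2 : ℤ) -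
          (a : ℤ) * (nodeOf β' η').1 * ((nodeOf β η).2 : ℤ) = 0)) :
    c' = c ∧ a' = a ∧ n' = n := by
  by_cases hp : (c, a) = (c', a')
  · obtain ⟨rfl, rfl⟩ := Prod.mk.inj hp
    refine ⟨rfl, rfl, ?_⟩
    obtain ⟨hη, -, hE, hlo, -, hsmall⟩ := hs
    have hD : 0 < D := (lt_of_le_of_lt (by positivity) hlo).trans_le hη
    have h4 : 4 * D < 1 := by nlinarith [one_le_pow₀ (n := 4) hE]
    have : |((n' - n : ℤ) : ℝ)| < 1 := by
      have e : ((n' - n : ℤ) : ℝ) =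
          ((n' : ℝ) + c * β - a * β') - ((n : ℝ) + c * β - a * β') := by push_cast; ring
      rw [e]
      exact lt_of_le_of_lt (abs_sub _ _) (by linarith [h.2.2, h'.2.2])
    exact sub_eq_zero.1 (Int.abs_lt_one_iff.1 (by exact_mod_cast this))
  · exact absurd (exact_of_two_points hs h h' hc hc' hp h) hne

end Vale.Agent.P028.Full
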