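import Vale.Agent.P028.Full.Defs
import Vale.Agent.P028.Overlap

/-!
Mass, equidistribution and overlaps of bumps with arbitrary deleted classes.

By the Chinese remainder theorem the classes of one modulus are given by a single linear form, so
the local analysis of `Vale.Agent.P028.Overlap` applies.
-/

noncomputable section

namespace Vale.Agent.P028.Full

open Finset MeasureTheory

/-- The form `a B + A` deletes exactly the classes of `K` at the modulus `q`. -/
structure Rep (K : Classes) (q : ℕ) (A : ℤ) (B : ℕ) : Prop where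
  coprime : IsCoprime A (B : ℤ)
  dvd_B : ∀ p ∈ q.primeFactors, p ∣ B ↔ p ∉ K.det q
  root : ∀ p ∈ K.det q, ∀ a : ℤ, (p : ℤ) ∣ a * B + A ↔ (p : ℤ) ∣ a - K.cls q p

theorem exists_crt (P : Finset ℕ) (hP : ∀ p ∈ P, p.Prime) (c : ℕ → ℤ) :
    ∃ A : ℤ, ∀ p ∈ P, (p : ℤ) ∣ A - c p := by
  induction P using Finset.induction_on with
  | empty => exact ⟨0, fun p hp => absurd hp (notMem_empty p)⟩
  | @insert p P hpP ih =>
    obtain ⟨A, hA⟩ := ih fun q hq => hP q (mem_insert_of_mem hq)
    have hp := hP p (mem_insert_self p P)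
    have hco : Nat.Coprime (∏ q ∈ P, q) p := by
      refine Nat.Coprime.prod_left fun q hq => ?_
      exact (Nat.coprime_primes (hP q (mem_insert_of_mem hq)) hp).2 fun e => hpP (e ▸ hq)
    obtain ⟨u, v, huv⟩ := Nat.isCoprime_iff_coprime.2 hco
    refine ⟨A + u * ((∏ q ∈ P, q : ℕ) : ℤ) * (c p - A), fun q hq => ?_⟩
    rcases mem_insert.1 hq with rfl | hq
    · exact ⟨v * (A - c q), by linear_combination (c q - A) * huv⟩
    · rw [show A + u * ((∏ q ∈ P, q : ℕ) : ℤ) * (c p - A) - c q =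
          (A - c q) + ((∏ q ∈ P, q : ℕ) : ℤ) * (u * (c p - A)) by ring]
      exact (hA q hq).add ((Int.natCast_dvd_natCast.2 (dvd_prod_of_mem _ hq)).mul_right _)

theorem exists_rep (K : Classes) (q : ℕ) : ∃ A B, Rep K q A B := by
  set N := q.primeFactors \ K.det q with hN
  have hpr : ∀ p ∈ q.primeFactors, p.Prime := fun p hp => Nat.prime_of_mem_primeFactors hp
  set B := ∏ p ∈ N, p with hB
  obtain ⟨A, hA⟩ := exists_crt q.primeFactors hpr
    fun p => if p ∈ K.det q then -((B : ℤ) * K.cls q p) else 1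
  have hdvd : ∀ p ∈ q.primeFactors, p ∣ B ↔ p ∉ K.det q := fun p hp => by
    constructor
    · intro h
      obtain ⟨l, hl, hpl⟩ := (Nat.prime_iff.1 (hpr p hp)).exists_mem_finset_dvd h
      obtain rfl : p = l :=
        (Nat.prime_dvd_prime_iff_eq (hpr p hp) (hpr l (mem_sdiff.1 hl).1)).1 hpl
      exact (mem_sdiff.1 hl).2
    · exact fun h => dvd_prod_of_mem _ (mem_sdiff.2 ⟨hp, h⟩)
  refine ⟨A, B, ?_, hdvd, fun p hp a => ?_⟩
  · rw [hB]
    push_cast
    refine IsCoprime.prod_right fun p hp => IsCoprime.symm ?_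
    obtain ⟨hpq, hdet⟩ := mem_sdiff.1 hp
    have h := hA p hpq
    rw [if_neg hdet] at h
    obtain ⟨t, ht⟩ := h
    exact ⟨-t, 1, by linear_combination ht⟩
  · have hpq := K.det_sub q hp
    have h := hA p hpq
    rw [if_pos hp] at h
    have hpB : ¬ (p : ℤ) ∣ B := fun hd =>
      (hdvd p hpq).1 (Int.natCast_dvd_natCast.1 hd) hp
    have e : a * (B : ℤ) + A = (a - K.cls q p) * B + (A - -((B : ℤ) * K.cls q p)) := by ring
    rw [e, dvd_add_left h]
    exact ⟨fun hd =>
      ((Nat.prime_iff_prime_int.1 (hpr p hpq)).dvd_or_dvd hd).resolve_right hpB,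
      fun hd => hd.mul_right _⟩

variable {K : Classes} {q r : ℕ} {A A' : ℤ} {B B' : ℕ}

theorem Rep.delPrimes_eq (h : Rep K q A B) : delPrimes B q = K.det q := by
  ext p
  simp only [delPrimes, mem_filter]
  constructor
  · rintro ⟨hp, hB⟩
    exact not_not.1 fun hd => hB ((h.dvd_B p hp).2 hd)
  · exact fun hd => ⟨K.det_sub q hd, fun hB => (h.dvd_B p (K.det_sub q hd)).1 hB hd⟩

theorem Rep.admC_eq (h : Rep K q A B) : admC K q = admA A B q := by
  ext a
  simp only [admC, admA, mem_filter, h.delPrimes_eq]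
  exact and_congr_right fun _ =>
    forall₂_congr fun p hp => not_congr (h.root p hp (a : ℤ)).symm

theorem Rep.wC_eq (h : Rep K q A B) : wC K q = wConst B q := by
  rw [wC, wConst]
  refine prod_congr ?_ fun _ _ => rfl
  ext p
  simp only [mem_sdiff, mem_filter]
  exact and_congr_right fun hp => (h.dvd_B p hp).symm

theorem Rep.bumpC_eq (h : Rep K q A B) (γ : ℝ) (ψ : ℕ → ℝ) :
    bumpC γ ψ K q = bump γ ψ A B q := by
  funext x
  rw [bumpC, bump, h.wC_eq, h.admC_eq]

theorem Rep.lw_eq (h : Rep K q A B) (hq : 0 < q) {p : ℕ} (hp : p.Prime) (a : ℤ) :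
    lw A B q p a =
      if p ∈ K.det q then (if (p : ℤ) ∣ a - K.cls q p then 0 else 1) else lwAvg q p := by
  by_cases hd : p ∈ K.det q
  · have hpq := K.det_sub q hd
    have hdvd := Nat.dvd_of_mem_primeFactors hpq
    have hB : ¬ p ∣ B := fun hB => (h.dvd_B p hpq).1 hB hd
    simp [lw, hd, hdvd, hB, h.root p hd a]
  · by_cases hpq : p ∣ q
    · have hB : p ∣ B := (h.dvd_B p (mem_primeFactors_of hq hp hpq)).2 hd
      simp [lw, lwAvg, hd, hpq, hB]
    · simp [lw, lwAvg, hd, hpq]

/-- The local bound on a line, for arbitrary classes. -/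
theorem lineAvg_le_classes (h : Rep K q A B) (h' : Rep K r A' B') (hq : 0 < q) (hr : 0 < r) {n : ℤ}
    {a0 b0 : ℤ} (heq : (qd r q : ℤ) * a0 - (qd q r : ℤ) * b0 = n) {p : ℕ} (hp : p.Prime) :
    lineAvg A B A' B' q r a0 b0 p ≤ lwAvg q p * lwAvg r p *
      ((if p ∈ K.det q ∧ p ∣ qd q r then ratio p else 1) *
        (if p ∈ K.det r ∧ p ∣ qd r q then ratio p else 1) *
        (if p ∈ K.det q ∩ K.det r ∧ ¬ p ∣ qd q r * qd r q ∧
            (p : ℤ) ∣ n - (K.cls q p * (qd r q : ℤ) - K.cls r p * (qd q r : ℤ))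
          then ratio p else 1)) := by
  have hp0 : (0 : ℝ) < p := by exact_mod_cast hp.pos
  have hr1 := ratio_mul_one_sub hp
  have hav : ∀ {s : ℕ}, p ∈ K.det s → lwAvg s p = 1 - 1 / (p : ℝ) := fun {s} hs => by
    simp [lwAvg, Nat.dvd_of_mem_primeFactors (K.det_sub s hs)]
  by_cases h1 : p ∣ qd q r
  · have h2 : ¬ p ∣ qd r q := not_dvd_both hp hq h1
    have hd : p ∣ qd q r * qd r q := h1.mul_right _
    have ec : ∀ i : ℕ, lw A B q p (a0 + (qd q r : ℤ) * i) = lw A B q p a0 := fun i => by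
      refine lw_congr A B q p ?_
      rw [add_sub_cancel_left]
      exact (Int.natCast_dvd_natCast.2 h1).mul_right _
    simp only [lineAvg, ec, ← mul_sum, sum_lw_line (A := A') (B := B') hp h2 b0, h1, h2, hd,
      not_true, and_true, and_false, false_and, if_false, mul_one]
    rw [show lw A B q p a0 * ((p : ℝ) * lwAvg r p) / p = lw A B q p a0 * lwAvg r p by
      field_simp]
    by_cases hdq : p ∈ K.det q
    · rw [if_pos hdq, hav hdq, mul_right_comm, hr1]
      exact mul_le_mul_of_nonneg_right (lw_le_one A B q hp a0) (lwAvg_pos r hp).le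
    · simp [h.lw_eq hq hp, hdq]
  by_cases h2 : p ∣ qd r q
  · have hd : p ∣ qd q r * qd r q := h2.mul_left _
    have ec : ∀ i : ℕ, lw A' B' r p (b0 + (qd r q : ℤ) * i) = lw A' B' r p b0 := fun i => by
      refine lw_congr A' B' r p ?_
      rw [add_sub_cancel_left]
      exact (Int.natCast_dvd_natCast.2 h2).mul_right _
    simp only [lineAvg, ec, ← sum_mul, sum_lw_line (A := A) (B := B) hp h1 a0, h1, h2, hd,
      not_true, and_true, and_false, false_and, if_false, mul_one, one_mul]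
    rw [show (p : ℝ) * lwAvg q p * lw A' B' r p b0 / p = lwAvg q p * lw A' B' r p b0 by
      field_simp]
    by_cases hdr : p ∈ K.det r
    · rw [if_pos hdr, hav hdr, mul_assoc, hr1, mul_one]
      exact mul_le_of_le_one_right (lwAvg_pos q hp).le (lw_le_one A' B' r hp b0)
    · simp [h'.lw_eq hr hp, hdr]
  have hnd : ¬ p ∣ qd q r * qd r q := fun hd => (hp.dvd_mul.1 hd).elim h1 h2
  have eq1 := sum_lw_line (A := A) (B := B) hp h1 a0
  have eq2 := sum_lw_line (A := A') (B := B') hp h2 b0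
  simp only [h1, h2, hnd, not_false_eq_true, true_and, and_false, if_false, one_mul, lineAvg,
    mem_inter]
  by_cases hdq : p ∈ K.det q
  · by_cases hdr : p ∈ K.det r
    · by_cases hZ : (p : ℤ) ∣ n - (K.cls q p * (qd r q : ℤ) - K.cls r p * (qd q r : ℤ))
      · rw [if_pos ⟨⟨hdq, hdr⟩, hZ⟩, mul_assoc, hav hdr, hr1, mul_one, div_le_iff₀ hp0,
          mul_comm (lwAvg q p), ← eq1]
        exact sum_le_sum fun i _ =>
          mul_le_of_le_one_right (lw_nonneg A B q hp _) (lw_le_one A' B' r hp _)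
      · rw [if_neg fun hh => hZ hh.2, mul_one, hav hdq, hav hdr]
        have ex : ∀ i : ℕ,
            lw A B q p (a0 + (qd q r : ℤ) * i) * lw A' B' r p (b0 + (qd r q : ℤ) * i) =
              lw A B q p (a0 + (qd q r : ℤ) * i) + lw A' B' r p (b0 + (qd r q : ℤ) * i) - 1 := by
          intro i
          simp only [h.lw_eq hq hp, h'.lw_eq hr hp, hdq, hdr, if_true]
          split_ifs with c1 c2
          · refine absurd ?_ hZ
            have e : n - (K.cls q p * (qd r q : ℤ) - K.cls r p * (qd q r : ℤ)) =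
                (qd r q : ℤ) * (a0 + (qd q r : ℤ) * i - K.cls q p) -
                  (qd q r : ℤ) * (b0 + (qd r q : ℤ) * i - K.cls r p) := by
              rw [← heq]; ring
            rw [e]
            exact (c1.mul_left _).sub (c2.mul_left _)
          all_goals norm_num
        rw [sum_congr rfl fun i _ => ex i, sum_sub_distrib, sum_add_distrib, eq1, eq2, hav hdq,
          hav hdr, sum_const, card_range, nsmul_one, div_le_iff₀ hp0]
        field_simp
        nlinarith
    · have e : ∀ b : ℤ, lw A' B' r p b = lwAvg r p := fun b => by simp [h'.lw_eq hr hp, hdr]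
      rw [if_neg fun hh => hdr hh.1.2, mul_one]
      simp only [e, ← sum_mul, eq1]
      refine le_of_eq ?_
      field_simp
  · have e : ∀ a : ℤ, lw A B q p a = lwAvg q p := fun a => by simp [h.lw_eq hq hp, hdq]
    rw [if_neg fun hh => hdq hh.1.1, mul_one]
    simp only [e, ← mul_sum, eq2]
    refine le_of_eq ?_
    field_simp

/-- The total mass of a bump. -/
theorem integral_bumpC (γ : ℝ) (ψ : ℕ → ℝ) (K : Classes) (q : ℕ) (hq : 0 < q) (hψ : 0 ≤ ψ q) :
    ∫ x, bumpC γ ψ K q x = 2 * wt ψ q := by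
  obtain ⟨A, B, h⟩ := exists_rep K q
  rw [h.bumpC_eq, integral_bump_eq γ A B q hψ, ← mul_assoc, wConst_mul_card_admA, wt]
  have : (q : ℝ) ≠ 0 := by exact_mod_cast hq.ne'
  field_simp

/-- Bumps are equidistributed on intervals. -/
theorem integral_bumpC_Ioc (γ : ℝ) (ψ : ℕ → ℝ) (K : Classes) (q : ℕ) (hq : 0 < q) (hψ : 0 ≤ ψ q)
    (hψ2 : ψ q ≤ 1 / 2) (hγ : 0 ≤ γ) (hγ1 : γ < 1) (u v : ℝ)
    (hu : 0 ≤ u) (huv : u ≤ v) (hv : v ≤ 1) :
    |(∫ x in Set.Ioc u v, bumpC γ ψ K q x) - 2 * wt ψ q * (v - u)| ≤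
      8 * wt ψ q * ((2 : ℝ) ^ q.primeFactors.card / Nat.totient q) := by
  obtain ⟨A, B, h⟩ := exists_rep K q
  rw [h.bumpC_eq]
  exact integral_bump_Ioc γ ψ A B q hq hψ hψ2 h.coprime hγ hγ1 u v hu huv hv

/-- The overlap of two bumps. -/
theorem integral_bumpC_mul_le (γ : ℝ) (ψ : ℕ → ℝ) (K : Classes) (q r : ℕ) (hq : 0 < q)
    (hr : 0 < r) (hψq : 0 < ψ q) (hψr : 0 < ψ r) :
    ∫ x, bumpC γ ψ K q x * bumpC γ ψ K r x ≤
      2 * (wt ψ q * wt ψ r) / dist2 ψ q r *
        ∑ n ∈ admN γ ψ K q r, pC K q r * wCoin K q r n := by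
  obtain ⟨A, B, h⟩ := exists_rep K q
  obtain ⟨A', B', h'⟩ := exists_rep K r
  rw [h.bumpC_eq, h'.bumpC_eq]
  have hD := dist2_pos (ψ := ψ) hr hψq (q := q)
  have hg : (0 : ℝ) < Nat.gcd q r := by exact_mod_cast Nat.gcd_pos_of_pos_left r hq
  set T := pairPrimes q r with hT
  set τ := (Nat.totient q : ℝ) / q * ((Nat.totient r : ℝ) / r) with hτ
  have hTp : ∀ p ∈ T, p.Prime := fun p hp => prime_of_mem_pairPrimes hp
  have hTq : ∀ p ∈ K.det q, p ∈ T := fun p hp => mem_union_left _ (K.det_sub q hp)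
  have hTr : ∀ p ∈ K.det r, p ∈ T := fun p hp => mem_union_right _ (K.det_sub r hp)
  have hdp : ∀ s, ∀ p ∈ K.det s, p.Prime := fun s p hp =>
    Nat.prime_of_mem_primeFactors (K.det_sub s hp)
  have hrat : ∀ s : Finset ℕ, (∀ p ∈ s, p.Prime) → 0 ≤ ∏ p ∈ s, ratio p := fun s hs =>
    prod_nonneg fun p hp => by
      have : (2 : ℝ) ≤ p := by exact_mod_cast (hs p hp).two_le
      exact div_nonneg (by linarith) (by linarith)
  have hkey : ∀ n ∈ nearSet γ ψ q r,
      wConst B q * wConst B' r * (coinSet A B A' B' q r n).card ≤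
        if n ∈ admN γ ψ K q r then
          (Nat.gcd q r : ℝ) * τ * (pC K q r * wCoin K q r n) else 0 := by
    intro n hn
    rcases (coinSet A B A' B' q r n).eq_empty_or_nonempty with he | ⟨⟨a0, b0⟩, h0⟩
    · rw [he]
      simp only [card_empty, Nat.cast_zero, mul_zero]
      split_ifs
      · refine mul_nonneg (mul_nonneg hg.le (by positivity)) (mul_nonneg (mul_nonneg ?_ ?_) ?_)
        · exact hrat _ fun p hp => hdp q p (mem_filter.1 hp).1
        · exact hrat _ fun p hp => hdp r p (mem_filter.1 hp).1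
        · exact hrat _ fun p hp => hdp q p (mem_inter.1 (mem_filter.1 hp).1).1
      · exact le_rfl
    obtain ⟨hab, heq⟩ := mem_filter.1 h0
    simp only at heq
    obtain ⟨ha, hb⟩ := mem_product.1 hab
    rw [← h.admC_eq] at ha
    rw [← h'.admC_eq] at hb
    have hadm : n ∈ admN γ ψ K q r := by
      refine mem_filter.2 ⟨hn, fun p hp hd hn' => ?_, fun p hp hd hn' => ?_⟩
      · have hpi := Nat.prime_iff_prime_int.1 (hdp q p hp)
        have h1 : (p : ℤ) ∣ (qd r q : ℤ) * ((a0 : ℤ) - K.cls q p) := by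
          have e : (qd r q : ℤ) * ((a0 : ℤ) - K.cls q p) =
              (n - K.cls q p * (qd r q : ℤ)) + (qd q r : ℤ) * b0 := by
            rw [← heq]; ring
          rw [e]
          exact hn'.add ((Int.natCast_dvd_natCast.2 hd).mul_right _)
        rcases hpi.dvd_or_dvd h1 with h2 | h2
        · exact not_dvd_both (hdp q p hp) hq hd (Int.natCast_dvd_natCast.1 h2)
        · exact (mem_filter.1 ha).2 p hp h2
      · have hpi := Nat.prime_iff_prime_int.1 (hdp r p hp)
        have h1 : (p : ℤ) ∣ (qd q r : ℤ) * ((b0 : ℤ) - K.cls r p) := by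
          have e : (qd q r : ℤ) * ((b0 : ℤ) - K.cls r p) =
              (qd r q : ℤ) * a0 - (n + K.cls r p * (qd q r : ℤ)) := by
            rw [← heq]; ring
          rw [e]
          exact ((Int.natCast_dvd_natCast.2 hd).mul_right _).sub hn'
        rcases hpi.dvd_or_dvd h1 with h2 | h2
        · exact not_dvd_both (hdp r p hp) hq (Int.natCast_dvd_natCast.1 h2) hd
        · exact (mem_filter.1 hb).2 p hp h2
    rw [if_pos hadm]
    refine (coinSet_card_le hq hr h0 T hTp).trans ?_
    rw [mul_assoc]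
    refine mul_le_mul_of_nonneg_left ((prod_le_prod (fun p hp => ?_) fun p hp =>
      lineAvg_le_classes h h' hq hr heq (hTp p hp)).trans (le_of_eq ?_)) hg.le
    · exact div_nonneg (sum_nonneg fun _ _ => mul_nonneg (lw_nonneg _ _ _ (hTp p hp) _)
        (lw_nonneg _ _ _ (hTp p hp) _)) (Nat.cast_nonneg p)
    · rw [prod_mul_distrib, prod_lwAvg_pairPrimes hq hr, ← hτ, prod_mul_distrib, prod_mul_distrib,
        pC, wCoin, ← prod_filter, ← prod_filter, ← prod_filter]
      congr 1
      refine congrArg₂ (· * ·) (congrArg₂ (· * ·) ?_ ?_) ?_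
      · refine prod_congr ?_ fun _ _ => rfl
        ext p
        simp only [mem_filter]
        exact ⟨fun x => x.2, fun x => ⟨hTq p x.1, x⟩⟩
      · refine prod_congr ?_ fun _ _ => rfl
        ext p
        simp only [mem_filter]
        exact ⟨fun x => x.2, fun x => ⟨hTr p x.1, x⟩⟩
      · refine prod_congr ?_ fun _ _ => rfl
        ext p
        simp only [mem_filter]
        exact ⟨fun x => x.2, fun x => ⟨hTq p (mem_inter.1 x.1).1, x⟩⟩
  refine (integral_bump_mul_le_coin A B A' B' hq hr hψq hψr).trans ?_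
  refine (mul_le_mul_of_nonneg_left (sum_le_sum hkey) (by positivity)).trans (le_of_eq ?_)
  rw [← sum_filter]
  have e : (nearSet γ ψ q r).filter (fun n => n ∈ admN γ ψ K q r) = admN γ ψ K q r := by
    ext n
    simp only [mem_filter, admN]
    tauto
  rw [e, ← mul_sum, ← mul_assoc]
  congr 1
  rw [hτ, wt, wt]
  field_simp

end Vale.Agent.P028.Full
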