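import Vale.Agent.P028.Full.Rule
import Vale.Agent.P028.Full.GoodTree

/-!
The kinds of pairs in the second moment.

At the band `j` of its level a pair is separated (`¬ SameCell`), or one of its fibres is heavy, or it
has no exact relation between the two nodes (a single point when `a`, `c` are small, generic
otherwise), or a prime of `a`, `c` is foreign (above `Y_j`, or owned by another band), or it is a
survivor.
-/

noncomputable section

namespace Vale.Agent.P028.Full

open Finset

variable (C : Ctx)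

/-- `SameCell` at the band of the pair. -/
def Ctx.Same (q r : ℕ) : Prop := SameCell C.k (C.par.thr (C.pairBand q r)) q r

/-- `c = r' / b(q)` at the band of the pair. -/
def Ctx.cP (q r : ℕ) : ℕ := cPart C.k C.S (C.par.thr (C.pairBand q r)) q r

/-- An admissible coincidence which is an exact relation between the two nodes. -/
def Ctx.Exact (q r : ℕ) : Prop :=
  let j := C.pairBand q r
  0 < (C.node j q).2 ∧ 0 < (C.node j r).2 ∧ ∃ n ∈ admN C.γ C.ψ C.classes q r,
    n * ((C.node j q).2 : ℤ) * ((C.node j r).2 : ℤ) +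
        (C.cP q r : ℤ) * (C.node j q).1 * ((C.node j r).2 : ℤ) -
        (C.cP r q : ℤ) * (C.node j r).1 * ((C.node j q).2 : ℤ) = 0

/-- Both `a` and `c` are at most a small power of the level. -/
def Ctx.Small (q r : ℕ) : Prop :=
  (C.cP q r : ℝ) ≤ (dist2 C.ψ q r)⁻¹ ^ (1 / 200 : ℝ) ∧
    (C.cP r q : ℝ) ≤ (dist2 C.ψ q r)⁻¹ ^ (1 / 200 : ℝ)

/-- Both fibres are light at the band of the pair. -/
def Ctx.BothLight (q r : ℕ) : Prop :=
  C.Light (C.pairBand q r) q ∧ C.Light (C.pairBand q r) r

/-- A prime of `a` is above `Y_j` or is claimed at `j` and owned by another band. -/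
def Ctx.ForeignSide (q r : ℕ) : Prop :=
  ∃ p : ℕ, p.Prime ∧ p ∣ C.cP r q ∧
    (C.par.thr (C.pairBand q r) < p ∨
      (C.Claims (C.pairBand q r) q p ∧ C.owner q p ≠ C.pairBand q r))

/-- A foreign prime on one of the two sides. -/
def Ctx.Foreign (q r : ℕ) : Prop := C.ForeignSide q r ∨ C.ForeignSide r q

open Classical in
/-- The part of the second moment from the pairs with `D < x0` and the property `K`. -/
def Ctx.part (x0 : ℝ) (K : ℕ → ℕ → Prop) : ℝ :=
  ∑ q ∈ C.S, ∑ r ∈ C.S.filter (fun r => r ≠ q ∧ dist2 C.ψ q r < x0 ∧ K q r), C.term q r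

/-- The hypotheses on a context. -/
structure Ctx.Ok (C : Ctx) (ξ K : ℝ) : Prop where
  pos : ∀ q ∈ C.S, 0 < q
  psi_pos : ∀ q ∈ C.S, 0 < C.ψ q
  psi_le : ∀ q ∈ C.S, C.ψ q ≤ 1 / 2
  psi_nonneg : ∀ q, 0 ≤ C.ψ q
  mass_le : mass C.ψ C.S ≤ 2
  tree : GoodTree ξ K C.S (wt C.ψ) C.k

end Vale.Agent.P028.Full
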