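import Vale.Agent.P028.Full.PatternSieve

/-!
The pattern of residues of the integers of an interval.

For listed residues `(p, r)` modulo primes, every function with values in `[-1, 1]` of the set of the
listed residues met by `n` has nearly the same mean over an interval as over a full period, up to
the probability that a block has more than `t` hits and the number of terms over the length.
-/

noncomputable section

namespace Vale.Agent.P028.Full.PatternSieve

open Finset

/-- The listed residues met by `n`. -/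
def pattern (E : Finset (ℕ × ℤ)) (n : ℤ) : Finset (ℕ × ℤ) :=
  E.filter (fun e => n % (e.1 : ℤ) = e.2)

/-- The mean over the interval `[a, a + N)`. -/
def intervalMean (a : ℤ) (N : ℕ) (g : ℤ → ℝ) : ℝ :=
  (∑ n ∈ Finset.Ico a (a + N), g n) / (N : ℝ)

theorem abs_card_dvd_sub_le (a : ℤ) (N : ℕ) (Q : ℕ) (hQ : 0 < Q) (n0 : ℤ) :
    |((((Finset.Ico a (a + N)).filter (fun n => (Q : ℤ) ∣ n - n0)).card : ℕ) : ℝ) - N / Q| ≤ 1 := by
  have h := Int.Ico_filter_modEq_card a (a + N) (r := (Q : ℤ)) (by exact_mod_cast hQ) n0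
  have hfil : (Finset.Ico a (a + N)).filter (fun n => (Q : ℤ) ∣ n - n0) =
      (Finset.Ico a (a + N)).filter (fun n => n ≡ n0 [ZMOD (Q : ℤ)]) := by
    refine Finset.filter_congr fun n _ => ?_
    rw [Int.modEq_comm, Int.modEq_iff_dvd]
  rw [hfil]
  set x : ℚ := (((a + N : ℤ) : ℚ) - n0) / ((Q : ℤ) : ℚ)
  set y : ℚ := ((a : ℚ) - n0) / ((Q : ℤ) : ℚ)
  have hxy : x - y = (N : ℚ) / Q := by
    simp only [x, y]; push_cast; ring
  have hyx : y ≤ x := by
    have : (0 : ℚ) ≤ (N : ℚ) / Q := by positivity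
    linarith
  set c := (((Finset.Ico a (a + N)).filter (fun n => n ≡ n0 [ZMOD (Q : ℤ)])).card : ℕ)
  have hc : (c : ℤ) = ⌈x⌉ - ⌈y⌉ :=
    h.trans (max_eq_left (sub_nonneg.2 (Int.ceil_le_ceil hyx)))
  have h1 : |(c : ℚ) - N / Q| ≤ 1 := by
    rw [show (c : ℚ) = ((c : ℤ) : ℚ) by norm_cast, hc, ← hxy, abs_le]
    push_cast
    constructor <;> linarith [Int.le_ceil x, Int.le_ceil y, Int.ceil_lt_add_one x,
      Int.ceil_lt_add_one y]
  have h2 : (((|(c : ℚ) - N / Q|) : ℚ) : ℝ) ≤ ((1 : ℚ) : ℝ) := Rat.cast_le.2 h1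
  push_cast at h2
  exact h2

theorem intervalMean_eq_mean {E : Finset (ℕ × ℤ)} (a : ℤ) (N : ℕ) (F : Finset (ℕ × ℤ) → ℝ) :
    intervalMean a N (fun n => F (pattern E n)) =
      mean (Finset.Ico a (a + N)) (fun _ => 1 / (N : ℝ)) (pattern E) F := by
  rw [intervalMean, mean, Finset.sum_div]
  exact Finset.sum_congr rfl fun n _ => by ring

/-- Equidistribution of the patterns in an interval. -/
theorem abs_intervalMean_sub_le (E : Finset (ℕ × ℤ))
    (hE : ∀ e ∈ E, e.1.Prime ∧ 0 ≤ e.2 ∧ e.2 < e.1)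
    (l : List (Finset (ℕ × ℤ) × ℕ)) (hl : Disj l) (hcov : E ⊆ cover l) (a : ℤ) {N : ℕ} (hN : 0 < N)
    (f : Finset (ℕ × ℤ) → ℝ) (hf : ∀ U, |f U| ≤ 1) :
    |intervalMean a N (fun n => f (pattern E n)) -
        intervalMean 0 (∏ p ∈ E.image Prod.fst, p) (fun n => f (pattern E n))| ≤
      2 * (tailProd (fun e => 1 / (e.1 : ℝ)) l - 1) + 2 * (1 / (N : ℝ) * termsNum l) := by
  classical
  set M := ∏ p ∈ E.image Prod.fst, p with hM
  have hMpos : 0 < M := Finset.prod_pos fun p hp => by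
    obtain ⟨e, he, rfl⟩ := Finset.mem_image.1 hp
    exact (hE e he).1.pos
  have hsub : ∀ n, pattern E n ⊆ cover l := fun n => (Finset.filter_subset _ _).trans hcov
  have hone : ∀ (L : ℕ) (b : ℤ), 0 < L → ∑ _n ∈ Finset.Ico b (b + L), 1 / (L : ℝ) = 1 := by
    intro L b hL
    rw [Finset.sum_const, Int.card_Ico, nsmul_eq_mul]
    simp [hL.ne']
  -- the events
  have key : ∀ T : Finset (ℕ × ℤ),
      |mean (Finset.Ico a (a + N)) (fun _ => 1 / (N : ℝ)) (pattern E) (ev T) -
          mean (Finset.Ico 0 ((0 : ℤ) + M)) (fun _ => 1 / (M : ℝ)) (pattern E) (ev T)| ≤ 1 / (N : ℝ) ∧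
        mean (Finset.Ico 0 ((0 : ℤ) + M)) (fun _ => 1 / (M : ℝ)) (pattern E) (ev T) ≤
          ∏ e ∈ T, 1 / (e.1 : ℝ) := by
    intro T
    by_cases hex : ∃ n0 : ℤ, T ⊆ pattern E n0
    swap
    · have hz : ∀ n, ev T (pattern E n) = 0 := fun n => if_neg fun h => hex ⟨n, h⟩
      simp only [mean, hz, mul_zero, Finset.sum_const_zero, sub_self, abs_zero]
      exact ⟨by positivity, Finset.prod_nonneg fun e _ => by positivity⟩
    obtain ⟨n0, hn0⟩ := hex
    have hTE : T ⊆ E := hn0.trans (Finset.filter_subset _ _)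
    have hinj : Set.InjOn Prod.fst (T : Set (ℕ × ℤ)) := by
      intro e he e' he' h
      refine Prod.ext h ?_
      rw [← (Finset.mem_filter.1 (hn0 he)).2, ← (Finset.mem_filter.1 (hn0 he')).2, h]
    set Q := ∏ e ∈ T, e.1 with hQdef
    have hQpos : 0 < Q := Finset.prod_pos fun e he => (hE e (hTE he)).1.pos
    have hiff : ∀ n, T ⊆ pattern E n ↔ (Q : ℤ) ∣ n - n0 := by
      intro n
      constructor
      · intro h
        rw [hQdef, Nat.cast_prod]
        refine Finset.prod_dvd_of_coprime (fun e he e' he' hne => ?_) fun e he => ?_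
        · show IsCoprime ((e.1 : ℕ) : ℤ) ((e'.1 : ℕ) : ℤ)
          rw [Int.isCoprime_iff_nat_coprime]
          simpa using (Nat.coprime_primes (hE e (hTE he)).1 (hE e' (hTE he')).1).2
            fun hh => hne (hinj he he' hh)
        · exact Int.dvd_of_emod_eq_zero (Int.emod_eq_emod_iff_emod_sub_eq_zero.1
            ((Finset.mem_filter.1 (h he)).2.trans (Finset.mem_filter.1 (hn0 he)).2.symm))
      · intro h e he
        refine Finset.mem_filter.2 ⟨hTE he, ?_⟩
        rw [← (Finset.mem_filter.1 (hn0 he)).2]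
        refine Int.emod_eq_emod_iff_emod_sub_eq_zero.2 (Int.emod_eq_zero_of_dvd ?_)
        exact (Int.natCast_dvd_natCast.2 (Finset.dvd_prod_of_mem _ he)).trans h
    have hQM : Q ∣ M := by
      rw [hQdef, hM, ← Finset.prod_image (f := fun p => p) hinj]
      exact Finset.prod_dvd_prod_of_subset _ _ _ (Finset.image_subset_image hTE)
    have hmean : ∀ (L : ℕ) (b : ℤ), mean (Finset.Ico b (b + L)) (fun _ => 1 / (L : ℝ)) (pattern E)
        (ev T) = (((Finset.Ico b (b + L)).filter (fun n => (Q : ℤ) ∣ n - n0)).card : ℝ) / L := by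
      intro L b
      simp only [mean, ev, hiff, ← Finset.mul_sum, Finset.sum_boole]
      ring
    have hper : (((Finset.Ico (0 : ℤ) (0 + M)).filter (fun n => (Q : ℤ) ∣ n - n0)).card : ℝ) =
        (M : ℝ) / Q := by
      obtain ⟨s, hs⟩ := hQM
      have h := Int.Ico_filter_modEq_card 0 ((0 : ℤ) + M) (r := (Q : ℤ)) (by exact_mod_cast hQpos) n0
      have hfil : (Finset.Ico (0 : ℤ) (0 + M)).filter (fun n => (Q : ℤ) ∣ n - n0) =
          (Finset.Ico (0 : ℤ) (0 + M)).filter (fun n => n ≡ n0 [ZMOD (Q : ℤ)]) := by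
        refine Finset.filter_congr fun n _ => ?_
        rw [Int.modEq_comm, Int.modEq_iff_dvd]
      rw [hfil]
      have e : ((((0 : ℤ) + M : ℤ) : ℚ) - n0) / ((Q : ℤ) : ℚ) =
          (((0 : ℤ) : ℚ) - n0) / ((Q : ℤ) : ℚ) + ((s : ℤ) : ℚ) := by
        have : (Q : ℚ) ≠ 0 := by exact_mod_cast hQpos.ne'
        rw [hs]
        push_cast
        field_simp
        ring
      rw [e, Int.ceil_add_intCast, add_sub_cancel_left, max_eq_left (Int.natCast_nonneg s)] at h
      rw [Nat.cast_inj.1 h, hs]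
      have : (Q : ℝ) ≠ 0 := by exact_mod_cast hQpos.ne'
      push_cast
      field_simp
    rw [hmean, hmean, hper]
    have hN' : (0 : ℝ) < N := Nat.cast_pos.2 hN
    have hM' : (0 : ℝ) < M := Nat.cast_pos.2 hMpos
    have hQ' : (0 : ℝ) < Q := Nat.cast_pos.2 hQpos
    constructor
    · have h := abs_card_dvd_sub_le a N Q hQpos n0
      rw [show (M : ℝ) / Q / M = (N : ℝ) / Q / N by field_simp, ← sub_div, abs_div, abs_of_pos hN']
      exact div_le_div_of_nonneg_right h hN'.le
    · rw [show (M : ℝ) / Q / M = 1 / Q by field_simp, Finset.prod_div_distrib,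
        Finset.prod_const_one, hQdef, Nat.cast_prod]
  rw [intervalMean_eq_mean, intervalMean_eq_mean]
  exact abs_mean_sub_le (x := fun e => 1 / (e.1 : ℝ)) l hl (fun _ _ => by positivity)
    (fun _ _ => by positivity) (hone N a hN) (hone M 0 hMpos) (fun n _ => hsub n) (fun n _ => hsub n)
    (fun _ => by positivity) (fun T => (key T).1) (fun T => (key T).2) f hf

end Vale.Agent.P028.Full.PatternSieve
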