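import Mathlib

/-!
Equidistribution of truncated patterns: Brun's sieve for an arbitrary bounded function of the
pattern.

If two finite distributions of sets agree up to `ε` on every event `T ⊆ σ`, and the second one has
such an event with probability at most `∏ e ∈ T, x e`, then the means of every function with values
in `[-1, 1]` differ by the probability that some block has more than `t` members, up to `ε` times
the number of terms.
-/

noncomputable section

namespace Vale.Agent.P028.Full.PatternSieve

open Finset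

variable {ι : Type*} [DecidableEq ι]

/-- The union of the blocks. -/
def cover : List (Finset ι × ℕ) → Finset ι
  | [] => ∅
  | (B, _) :: r => B ∪ cover r

/-- The alternating coefficient. -/
def coef (h : Finset ι → ℝ) (T : Finset ι) : ℝ :=
  ∑ U ∈ T.powerset, (-1) ^ (T.card - U.card) * h U

/-- The subsets with at most `t` members. -/
def smallSets (B : Finset ι) (t : ℕ) : Finset (Finset ι) :=
  B.powerset.filter (fun T => T.card ≤ t)

/-- The truncation of a function of the pattern. -/
def trunc : List (Finset ι × ℕ) → (Finset ι → ℝ) → Finset ι → ℝ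
  | [], f, _ => f ∅
  | (B, t) :: r, f, σ => ∑ T ∈ smallSets B t,
      (if T ⊆ σ then 1 else 0) * coef (fun U => trunc r (fun V => f (U ∪ V)) σ) T

/-- The majorant of the truncation. -/
def major : List (Finset ι × ℕ) → Finset ι → ℝ
  | [], _ => 1
  | (B, t) :: r, σ =>
      (1 + 3 ^ (t + 1) * ∑ T ∈ B.powersetCard (t + 1), (if T ⊆ σ then (1 : ℝ) else 0)) * major r σ

/-- The number of terms of the truncation and of the majorant. -/
def termsNum : List (Finset ι × ℕ) → ℝ
  | [] => 1
  | (B, t) :: r => (1 + 3 * B.card) ^ (t + 1) * termsNum r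

/-- The disjointness of the blocks. -/
def Disj : List (Finset ι × ℕ) → Prop
  | [] => True
  | (B, _) :: r => Disjoint B (cover r) ∧ Disj r

theorem one_le_major (l : List (Finset ι × ℕ)) (σ : Finset ι) : 1 ≤ major l σ := by
  induction l with
  | nil => simp [major]
  | cons a r ih =>
    obtain ⟨B, t⟩ := a
    refine one_le_mul_of_one_le_of_one_le (le_add_of_nonneg_right (mul_nonneg (by positivity) ?_)) ih
    exact Finset.sum_nonneg fun T _ => by split <;> norm_num

theorem sum_coef (h : Finset ι → ℝ) (σ : Finset ι) : ∑ T ∈ σ.powerset, coef h T = h σ := by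
  induction σ using Finset.induction_on generalizing h with
  | empty => simp [coef]
  | insert a s ha ih =>
    have hc : ∀ T ∈ s.powerset, coef h (insert a T) = coef (fun U => h (insert a U) - h U) T := by
      intro T hT
      have haT : a ∉ T := fun hh => ha (Finset.mem_powerset.1 hT hh)
      simp only [coef, Finset.sum_powerset_insert haT, mul_sub, Finset.sum_sub_distrib]
      rw [sub_eq_neg_add, ← Finset.sum_neg_distrib]
      congr 1 <;> refine Finset.sum_congr rfl fun U hU => ?_
      · have hUT := Finset.card_le_card (Finset.mem_powerset.1 hU)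
        rw [Finset.card_insert_of_notMem haT, show T.card + 1 - U.card = T.card - U.card + 1 by omega,
          pow_succ]
        ring
      · have haU : a ∉ U := fun hh => haT (Finset.mem_powerset.1 hU hh)
        rw [Finset.card_insert_of_notMem haT, Finset.card_insert_of_notMem haU,
          show T.card + 1 - (U.card + 1) = T.card - U.card by omega]
    rw [Finset.sum_powerset_insert ha, Finset.sum_congr rfl hc, ih, ih]
    ring

theorem abs_coef_le {h : Finset ι → ℝ} {T : Finset ι} {M : ℝ} (hM : ∀ U ⊆ T, |h U| ≤ M) :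
    |coef h T| ≤ 2 ^ T.card * M := by
  refine (Finset.abs_sum_le_sum_abs _ _).trans ?_
  refine (Finset.sum_le_card_nsmul _ _ M fun U hU => ?_).trans (by simp)
  rw [abs_mul, abs_pow, abs_neg, abs_one, one_pow, one_mul]
  exact hM U (Finset.mem_powerset.1 hU)

theorem sum_two_pow_le (s : Finset ι) {t : ℕ} (ht : t < s.card) :
    ∑ T ∈ smallSets s t, (2 : ℝ) ^ T.card + 1 ≤ 3 ^ (t + 1) * (s.card.choose (t + 1) : ℝ) := by
  have h1 : ∑ T ∈ smallSets s t, (2 : ℝ) ^ T.card =
      ∑ l ∈ Finset.range (t + 1), (s.card.choose l : ℝ) * 2 ^ l := by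
    rw [smallSets, ← Finset.sum_fiberwise_of_maps_to (g := Finset.card) (t := Finset.range (t + 1))
      (fun T hT => Finset.mem_range.2 (Nat.lt_succ_of_le (Finset.mem_filter.1 hT).2))]
    refine Finset.sum_congr rfl fun l hl => ?_
    have : (s.powerset.filter (fun T => T.card ≤ t)).filter (fun T => T.card = l) =
        s.powersetCard l := by
      ext T
      simp only [Finset.mem_filter, Finset.mem_powerset, Finset.mem_powersetCard]
      have := Finset.mem_range.1 hl
      exact ⟨fun h => ⟨h.1.1, h.2⟩, fun h => ⟨⟨h.1, by omega⟩, h.2⟩⟩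
    rw [this, Finset.sum_congr rfl fun T hT => by rw [(Finset.mem_powersetCard.1 hT).2],
      Finset.sum_const, Finset.card_powersetCard, nsmul_eq_mul]
  have h2 : ∀ l ∈ Finset.range (t + 1),
      (s.card.choose l : ℝ) * 2 ^ l ≤ (s.card.choose (t + 1) : ℝ) * ((t + 1).choose l * 2 ^ l) := by
    intro l hl
    have hl' : l ≤ t + 1 := (Finset.mem_range.1 hl).le
    rw [← mul_assoc]
    refine mul_le_mul_of_nonneg_right ?_ (by positivity)
    have e := Nat.choose_mul (n := s.card) hl'
    have hpos : 0 < (s.card - l).choose (t + 1 - l) := Nat.choose_pos (by omega)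
    exact_mod_cast e ▸ Nat.le_mul_of_pos_right _ hpos
  have h3 : ∑ l ∈ Finset.range (t + 1), ((t + 1).choose l : ℝ) * 2 ^ l + 2 ^ (t + 1) = 3 ^ (t + 1) := by
    have := add_pow (2 : ℝ) 1 (t + 1)
    rw [Finset.sum_range_succ] at this
    norm_num at this
    rw [this]
    congr 1
    exact Finset.sum_congr rfl fun l _ => by ring
  have hc : (1 : ℝ) ≤ s.card.choose (t + 1) := by exact_mod_cast Nat.choose_pos (by omega)
  have hp : (1 : ℝ) ≤ 2 ^ (t + 1) := one_le_pow₀ (by norm_num)
  have h4 := Finset.sum_le_sum h2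
  rw [← Finset.mul_sum] at h4
  rw [h1]
  nlinarith

/-- The truncation is within `major - 1` of the function. -/
theorem abs_trunc_sub_le : ∀ {l : List (Finset ι × ℕ)}, Disj l → ∀ (f : Finset ι → ℝ),
    (∀ U, |f U| ≤ 1) → ∀ σ, |trunc l f σ - f (σ ∩ cover l)| ≤ major l σ - 1
  | [], _, f, _, σ => by simp [trunc, major, cover]
  | (B, t) :: r, hl, f, hf, σ => by
    have ih := fun U => abs_trunc_sub_le hl.2 (fun V => f (U ∪ V)) (fun V => hf _) σ
    set h : Finset ι → ℝ := fun U => trunc r (fun V => f (U ∪ V)) σ with hh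
    set M := major r σ with hM
    have hM1 : 1 ≤ M := one_le_major r σ
    set s := σ ∩ B with hs
    have htr : trunc ((B, t) :: r) f σ = ∑ T ∈ smallSets s t, coef h T := by
      rw [trunc]
      simp only [ite_mul, one_mul, zero_mul, ← hh]
      rw [← Finset.sum_filter]
      refine Finset.sum_congr ?_ fun T _ => rfl
      ext T
      simp only [smallSets, hs, Finset.mem_filter, Finset.mem_powerset, Finset.subset_inter_iff]
      tauto
    have hcnt : ∑ T ∈ B.powersetCard (t + 1), (if T ⊆ σ then (1 : ℝ) else 0) =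
        (s.card.choose (t + 1) : ℝ) := by
      rw [Finset.sum_boole, ← Finset.card_powersetCard]
      congr 2
      ext T
      simp only [hs, Finset.mem_filter, Finset.mem_powersetCard, Finset.subset_inter_iff]
      tauto
    have hf0 : f (σ ∩ cover ((B, t) :: r)) = f (s ∪ σ ∩ cover r) := by
      rw [cover, Finset.inter_union_distrib_left]
    rw [htr, hf0, major, hcnt]
    rcases le_or_gt s.card t with hk | hk
    · have : smallSets s t = s.powerset := Finset.filter_true_of_mem fun T hT =>
        (Finset.card_le_card (Finset.mem_powerset.1 hT)).trans hk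
      rw [this, sum_coef, Nat.choose_eq_zero_of_lt (by omega)]
      simpa using ih s
    · have hb : ∀ U, |h U| ≤ M := fun U => by
        have h1 := ih U
        have h2 : |f (U ∪ σ ∩ cover r)| ≤ 1 := hf _
        calc |h U| = |(h U - f (U ∪ σ ∩ cover r)) + f (U ∪ σ ∩ cover r)| := by ring_nf
          _ ≤ M - 1 + 1 := (abs_add_le _ _).trans (add_le_add h1 h2)
          _ = M := by ring
      have h1 : |∑ T ∈ smallSets s t, coef h T| ≤ (∑ T ∈ smallSets s t, (2 : ℝ) ^ T.card) * M := by
        rw [Finset.sum_mul]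
        exact (Finset.abs_sum_le_sum_abs _ _).trans
          (Finset.sum_le_sum fun T _ => abs_coef_le fun U _ => hb U)
      have h2 := sum_two_pow_le s hk
      have h3 : |f (s ∪ σ ∩ cover r)| ≤ 1 := hf _
      refine (abs_sub _ _).trans ?_
      nlinarith

/-- The mean against a finite distribution of patterns. -/
def mean {α : Type*} (A : Finset α) (w : α → ℝ) (σ : α → Finset ι) (G : Finset ι → ℝ) : ℝ :=
  ∑ a ∈ A, w a * G (σ a)

/-- The event `T ⊆ σ`. -/
def ev (T σ : Finset ι) : ℝ := if T ⊆ σ then 1 else 0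

theorem ev_mul (T T' σ : Finset ι) : ev T σ * ev T' σ = ev (T ∪ T') σ := by
  simp only [ev, Finset.union_subset_iff]
  by_cases h : T ⊆ σ <;> by_cases h' : T' ⊆ σ <;> simp [h, h']

section Means

variable {α β : Type*} {A : Finset α} {B : Finset β} {u : α → ℝ} {v : β → ℝ} {σ : α → Finset ι}
  {τ : β → Finset ι} {ε : ℝ}

/-- A combination of events has nearly equal means. -/
theorem mean_sum_sub {κ : Type*} (s : Finset κ) (c : κ → ℝ) (G : κ → Finset ι → ℝ) :
    mean A u σ (fun z => ∑ k ∈ s, c k * G k z) - mean B v τ (fun z => ∑ k ∈ s, c k * G k z) =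
      ∑ k ∈ s, c k * (mean A u σ (G k) - mean B v τ (G k)) := by
  simp only [mean, Finset.mul_sum, mul_sub, Finset.sum_sub_distrib]
  rw [Finset.sum_comm, Finset.sum_comm (s := B)]
  congr 1 <;> exact Finset.sum_congr rfl fun k _ => Finset.sum_congr rfl fun a _ => by ring

theorem sum_two_pow_small_le (S : Finset ι) (t : ℕ) :
    ∑ T ∈ smallSets S t, (2 : ℝ) ^ T.card ≤ (1 + 3 * S.card) ^ (t + 1) := by
  have hn : (0 : ℝ) ≤ S.card := Nat.cast_nonneg _
  calc ∑ T ∈ smallSets S t, (2 : ℝ) ^ T.card
      ≤ ∑ l ∈ Finset.range (t + 2), (3 * (S.card : ℝ)) ^ l := by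
        rw [smallSets, ← Finset.sum_fiberwise_of_maps_to (g := Finset.card)
          (t := Finset.range (t + 2)) (fun T hT => Finset.mem_range.2
            (by have := (Finset.mem_filter.1 hT).2; omega))]
        refine Finset.sum_le_sum fun l _ => ?_
        refine le_trans (Finset.sum_le_sum_of_subset_of_nonneg (t := S.powersetCard l) ?_
          fun T _ _ => by positivity) ?_
        · intro T hT
          simp only [Finset.mem_filter, Finset.mem_powerset] at hT
          exact Finset.mem_powersetCard.2 ⟨hT.1.1, hT.2⟩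
        · rw [Finset.sum_congr rfl fun T hT => by rw [(Finset.mem_powersetCard.1 hT).2],
            Finset.sum_const, Finset.card_powersetCard, nsmul_eq_mul, mul_pow]
          have : (S.card.choose l : ℝ) ≤ (S.card : ℝ) ^ l := by exact_mod_cast Nat.choose_le_pow _ _
          calc (S.card.choose l : ℝ) * 2 ^ l ≤ (S.card : ℝ) ^ l * 3 ^ l := by gcongr; norm_num
            _ = 3 ^ l * (S.card : ℝ) ^ l := mul_comm _ _
    _ ≤ (1 + 3 * S.card) ^ (t + 1) := by
        rw [add_comm (1 : ℝ), add_pow]
        refine Finset.sum_le_sum fun l hl => ?_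
        rw [one_pow, mul_one]
        refine le_mul_of_one_le_right (by positivity) ?_
        exact_mod_cast Nat.choose_pos (Nat.le_of_lt_succ (Finset.mem_range.1 hl))

/-- The means of a truncation. -/
theorem abs_mean_trunc_le (hev : ∀ T, |mean A u σ (ev T) - mean B v τ (ev T)| ≤ ε) :
    ∀ (l : List (Finset ι × ℕ)) (f : Finset ι → ℝ), (∀ U, |f U| ≤ 1) → ∀ T0,
      |mean A u σ (fun z => ev T0 z * trunc l f z) - mean B v τ (fun z => ev T0 z * trunc l f z)| ≤
        ε * termsNum l
  | [], f, hf, T0 => by
    have : (fun z => ev T0 z * trunc [] f z) = fun z => ∑ k ∈ ({()} : Finset Unit), f ∅ * ev T0 z := by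
      funext z; simp [trunc, mul_comm]
    rw [this, mean_sum_sub, termsNum, mul_one, Finset.sum_singleton, abs_mul]
    exact (mul_le_mul (hf ∅) (hev T0) (abs_nonneg _) zero_le_one).trans_eq (one_mul ε)
  | (S, t) :: r, f, hf, T0 => by
    have hε : 0 ≤ ε := (abs_nonneg _).trans (hev ∅)
    have ht : 0 ≤ termsNum r := by
      clear hf
      induction r with
      | nil => simp [termsNum]
      | cons a r ih => exact mul_nonneg (by positivity) ih
    have e : (fun z => ev T0 z * trunc ((S, t) :: r) f z) = fun z =>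
        ∑ k ∈ (smallSets S t).sigma (fun T => T.powerset),
          (-1) ^ (k.1.card - k.2.card) * (ev (T0 ∪ k.1) z * trunc r (fun V => f (k.2 ∪ V)) z) := by
      funext z
      rw [Finset.sum_sigma, trunc, Finset.mul_sum]
      refine Finset.sum_congr rfl fun T _ => ?_
      rw [coef, ← mul_assoc, Finset.mul_sum]
      refine Finset.sum_congr rfl fun U _ => ?_
      rw [← ev_mul]
      simp only [ev]
      ring
    rw [e, mean_sum_sub]
    refine (Finset.abs_sum_le_sum_abs _ _).trans ?_
    refine (Finset.sum_le_sum (g := fun _ => ε * termsNum r) fun k _ => ?_).trans ?_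
    · rw [abs_mul, abs_pow, abs_neg, abs_one, one_pow, one_mul]
      exact abs_mean_trunc_le hev r _ (fun V => hf _) _
    · rw [Finset.sum_const, Finset.card_sigma, nsmul_eq_mul, termsNum, Nat.cast_sum, mul_left_comm ε]
      refine mul_le_mul_of_nonneg_right ?_ (mul_nonneg hε ht)
      simp only [Finset.card_powerset, Nat.cast_pow, Nat.cast_ofNat]
      exact sum_two_pow_small_le S t

end Means

/-- The bound for the mean of the majorant. -/
def tailProd (x : ι → ℝ) : List (Finset ι × ℕ) → ℝ
  | [] => 1
  | (S, t) :: r =>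
      (1 + 3 ^ (t + 1) * ((∑ e ∈ S, x e) ^ (t + 1) / ((t + 1).factorial : ℝ))) * tailProd x r

theorem sum_powersetCard_prod_le (x : ι → ℝ) (hx : ∀ e, 0 ≤ x e) (S : Finset ι) :
    ∀ k, (k.factorial : ℝ) * ∑ T ∈ S.powersetCard k, ∏ e ∈ T, x e ≤ (∑ e ∈ S, x e) ^ k := by
  induction S using Finset.induction_on with
  | empty =>
    intro k
    rcases k with _ | k
    · simp
    · rw [Finset.powersetCard_eq_empty.2 (by simp)]
      simp
  | insert a S ha ih =>
    intro k
    rcases k with _ | k
    · simp
    have hdisj : Disjoint (S.powersetCard (k + 1)) ((S.powersetCard k).image (insert a)) := by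
      rw [Finset.disjoint_left]
      intro T hT hT'
      obtain ⟨U, -, rfl⟩ := Finset.mem_image.1 hT'
      exact ha ((Finset.mem_powersetCard.1 hT).1 (Finset.mem_insert_self a U))
    have hnot : ∀ U ∈ S.powersetCard k, a ∉ U := fun U hU hh =>
      ha ((Finset.mem_powersetCard.1 hU).1 hh)
    have e : ∑ T ∈ (insert a S).powersetCard (k + 1), ∏ i ∈ T, x i =
        ∑ T ∈ S.powersetCard (k + 1), ∏ i ∈ T, x i + x a * ∑ T ∈ S.powersetCard k, ∏ i ∈ T, x i := by
      rw [Finset.powersetCard_succ_insert ha, Finset.sum_union hdisj, Finset.sum_image ?_,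
        Finset.mul_sum]
      · congr 1
        exact Finset.sum_congr rfl fun U hU => Finset.prod_insert (hnot U hU)
      · intro U hU V hV h
        simpa [hnot U hU, hnot V hV] using congrArg (fun W => W.erase a) h
    rw [e, Finset.sum_insert ha]
    set L := ∑ i ∈ S, x i
    have hL : 0 ≤ L := Finset.sum_nonneg fun i _ => hx i
    have h1 := ih (k + 1)
    have h2 := mul_le_mul_of_nonneg_left (ih k) (mul_nonneg (hx a) (Nat.cast_nonneg (k + 1)))
    rw [Nat.factorial_succ] at h1 ⊢
    push_cast at h1 h2 ⊢
    -- `L ^ (k + 1) + (k + 1) * a * L ^ k ≤ (a + L) ^ (k + 1)`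
    have h3 : L ^ (k + 1) + ((k : ℝ) + 1) * x a * L ^ k ≤ (x a + L) ^ (k + 1) := by
      rw [add_comm (x a), add_pow]
      refine le_trans (le_of_eq ?_) (Finset.sum_le_sum_of_subset_of_nonneg
        (s := {k + 1, k}) ?_ fun i _ _ => ?_)
      · rw [Finset.sum_pair (by omega)]
        simp
        ring
      · intro i hi
        simp only [Finset.mem_insert, Finset.mem_singleton] at hi
        rw [Finset.mem_range]
        omega
      · exact mul_nonneg (mul_nonneg (pow_nonneg hL _) (pow_nonneg (hx a) _)) (Nat.cast_nonneg _)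
    linarith

section Main

variable {α β : Type*} {A : Finset α} {B : Finset β} {u : α → ℝ} {v : β → ℝ} {σ : α → Finset ι}
  {τ : β → Finset ι} {ε : ℝ} {x : ι → ℝ}

theorem mean_major_le (hx : ∀ e, 0 ≤ x e)
    (hν : ∀ T, mean B v τ (ev T) ≤ ∏ e ∈ T, x e) :
    ∀ (l : List (Finset ι × ℕ)), Disj l → ∀ T0, Disjoint T0 (cover l) →
      mean B v τ (fun z => ev T0 z * major l z) ≤ (∏ e ∈ T0, x e) * tailProd x l
  | [], _, T0, _ => by simpa [major, tailProd] using hν T0
  | (S, t) :: r, hl, T0, hT0 => by
    rw [cover, Finset.disjoint_union_right] at hT0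
    have e : (fun z => ev T0 z * major ((S, t) :: r) z) = fun z => ev T0 z * major r z +
        ∑ T ∈ S.powersetCard (t + 1), (3 : ℝ) ^ (t + 1) * (ev (T0 ∪ T) z * major r z) := by
      funext z
      simp only [major, ← ev_mul, add_mul, one_mul, mul_add, Finset.mul_sum, Finset.sum_mul]
      congr 1
      exact Finset.sum_congr rfl fun T _ => by simp only [ev]; ring
    have hsum : ∀ (G H : Finset ι → ℝ), mean B v τ (fun z => G z + H z) =
        mean B v τ G + mean B v τ H := fun G H => by
      simp only [mean, mul_add, Finset.sum_add_distrib]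
    rw [e, hsum, tailProd]
    have h0 := mean_major_le hx hν r hl.2 T0 hT0.2
    have h1 : mean B v τ (fun z => ∑ T ∈ S.powersetCard (t + 1),
        (3 : ℝ) ^ (t + 1) * (ev (T0 ∪ T) z * major r z)) =
        ∑ T ∈ S.powersetCard (t + 1),
          (3 : ℝ) ^ (t + 1) * mean B v τ (fun z => ev (T0 ∪ T) z * major r z) := by
      simp only [mean, Finset.mul_sum]
      rw [Finset.sum_comm]
      exact Finset.sum_congr rfl fun T _ => Finset.sum_congr rfl fun a _ => by ring
    have h2 : ∀ T ∈ S.powersetCard (t + 1), mean B v τ (fun z => ev (T0 ∪ T) z * major r z) ≤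
        (∏ e ∈ T0, x e) * (∏ e ∈ T, x e) * tailProd x r := by
      intro T hT
      have hTS := (Finset.mem_powersetCard.1 hT).1
      rw [← Finset.prod_union (hT0.1.mono_right hTS)]
      exact mean_major_le hx hν r hl.2 _
        (Finset.disjoint_union_left.2 ⟨hT0.2, hl.1.mono_left hTS⟩)
    have htail : ∀ l : List (Finset ι × ℕ), 0 ≤ tailProd x l := by
      intro l
      induction l with
      | nil => simp [tailProd]
      | cons a r ih =>
        have := Finset.sum_nonneg (s := a.1) fun e _ => hx e
        exact mul_nonneg (by positivity) ih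
    have hP : 0 ≤ ∏ e ∈ T0, x e := Finset.prod_nonneg fun e _ => hx e
    have h3 : ∑ T ∈ S.powersetCard (t + 1), ∏ e ∈ T, x e ≤
        (∑ e ∈ S, x e) ^ (t + 1) / ((t + 1).factorial : ℝ) := by
      rw [le_div_iff₀ (by positivity), mul_comm]
      exact sum_powersetCard_prod_le x hx S (t + 1)
    calc _ ≤ (∏ e ∈ T0, x e) * tailProd x r + ∑ T ∈ S.powersetCard (t + 1),
          (3 : ℝ) ^ (t + 1) * ((∏ e ∈ T0, x e) * (∏ e ∈ T, x e) * tailProd x r) :=
          add_le_add h0 (h1.le.trans (Finset.sum_le_sum fun T hT =>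
            mul_le_mul_of_nonneg_left (h2 T hT) (by positivity)))
      _ = (∏ e ∈ T0, x e) * tailProd x r * (1 + (3 : ℝ) ^ (t + 1) *
            ∑ T ∈ S.powersetCard (t + 1), ∏ e ∈ T, x e) := by
          rw [mul_add, mul_one, Finset.mul_sum, Finset.mul_sum]
          congr 1
          exact Finset.sum_congr rfl fun T _ => by ring
      _ ≤ (∏ e ∈ T0, x e) * tailProd x r * (1 + (3 : ℝ) ^ (t + 1) *
            ((∑ e ∈ S, x e) ^ (t + 1) / ((t + 1).factorial : ℝ))) :=
          mul_le_mul_of_nonneg_left (add_le_add le_rfl (mul_le_mul_of_nonneg_left h3 (by positivity)))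
            (mul_nonneg hP (htail r))
      _ = _ := by ring

theorem abs_mean_major_le (hev : ∀ T, |mean A u σ (ev T) - mean B v τ (ev T)| ≤ ε) :
    ∀ (l : List (Finset ι × ℕ)) (T0 : Finset ι),
      |mean A u σ (fun z => ev T0 z * major l z) - mean B v τ (fun z => ev T0 z * major l z)| ≤
        ε * termsNum l
  | [], T0 => by simpa [major, termsNum] using hev T0
  | (S, t) :: r, T0 => by
    have ht : 0 ≤ ε * termsNum r := (abs_nonneg _).trans (abs_mean_major_le hev r T0)
    have e : (fun z => ev T0 z * major ((S, t) :: r) z) = fun z =>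
        ∑ T ∈ insert ∅ (S.powersetCard (t + 1)),
          (if T = ∅ then 1 else (3 : ℝ) ^ (t + 1)) * (ev (T0 ∪ T) z * major r z) := by
      funext z
      have hne : ∀ T ∈ S.powersetCard (t + 1), T ≠ ∅ := by
        intro T hT h
        simpa [h] using (Finset.mem_powersetCard.1 hT).2
      rw [Finset.sum_insert (fun h => hne _ h rfl), if_pos rfl, Finset.union_empty, major, add_mul,
        one_mul, mul_add, one_mul]
      congr 1
      rw [Finset.mul_sum, Finset.sum_mul, Finset.mul_sum]
      refine Finset.sum_congr rfl fun T hT => ?_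
      rw [if_neg (hne T hT), ← ev_mul]
      simp only [ev]
      ring
    rw [e, mean_sum_sub]
    refine (Finset.abs_sum_le_sum_abs _ _).trans ?_
    refine (Finset.sum_le_sum (g := fun T => (if T = ∅ then 1 else (3 : ℝ) ^ (t + 1)) *
      (ε * termsNum r)) fun T _ => ?_).trans ?_
    · rw [abs_mul, abs_of_nonneg (by split <;> positivity)]
      exact mul_le_mul_of_nonneg_left (abs_mean_major_le hev r _) (by split <;> positivity)
    · rw [← Finset.sum_mul, termsNum, mul_left_comm ε]
      refine mul_le_mul_of_nonneg_right ?_ ht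
      have hne : ∅ ∉ S.powersetCard (t + 1) := by simp
      rw [Finset.sum_insert hne, if_pos rfl]
      refine (add_le_add le_rfl (Finset.sum_le_card_nsmul _ _ ((3 : ℝ) ^ (t + 1))
        fun T _ => ?_)).trans ?_
      · split
        · exact one_le_pow₀ (by norm_num)
        · exact le_rfl
      · rw [Finset.card_powersetCard, nsmul_eq_mul]
        have h1 : (S.card.choose (t + 1) : ℝ) ≤ (S.card : ℝ) ^ (t + 1) := by
          exact_mod_cast Nat.choose_le_pow _ _
        calc (1 : ℝ) + (S.card.choose (t + 1) : ℝ) * 3 ^ (t + 1)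
            ≤ 1 ^ (t + 1) + (3 * (S.card : ℝ)) ^ (t + 1) := by
              rw [one_pow, mul_pow, mul_comm ((3 : ℝ) ^ (t + 1))]
              exact add_le_add le_rfl (mul_le_mul_of_nonneg_right h1 (by positivity))
          _ ≤ _ := pow_add_pow_le zero_le_one (by positivity) (Nat.succ_ne_zero t)

/-- Two distributions of patterns give every bounded function nearly the same mean. -/
theorem abs_mean_sub_le (l : List (Finset ι × ℕ)) (hl : Disj l) (hu : ∀ a ∈ A, 0 ≤ u a)
    (hv : ∀ b ∈ B, 0 ≤ v b) (hu1 : ∑ a ∈ A, u a = 1) (hv1 : ∑ b ∈ B, v b = 1)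
    (hσ : ∀ a ∈ A, σ a ⊆ cover l) (hτ : ∀ b ∈ B, τ b ⊆ cover l) (hx : ∀ e, 0 ≤ x e)
    (hev : ∀ T, |mean A u σ (ev T) - mean B v τ (ev T)| ≤ ε)
    (hν : ∀ T, mean B v τ (ev T) ≤ ∏ e ∈ T, x e) (f : Finset ι → ℝ) (hf : ∀ U, |f U| ≤ 1) :
    |mean A u σ f - mean B v τ f| ≤ 2 * (tailProd x l - 1) + 2 * (ε * termsNum l) := by
  have eone : ∀ g : Finset ι → ℝ, (fun z => ev ∅ z * g z) = g := fun g => by
    funext z; simp [ev]
  have h1 := abs_mean_trunc_le hev l f hf ∅
  have h2 := abs_mean_major_le hev l ∅
  have h3 := mean_major_le hx hν l hl ∅ (Finset.disjoint_empty_left _)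
  rw [eone] at h1 h2 h3
  rw [Finset.prod_empty, one_mul] at h3
  have hA : |mean A u σ f - mean A u σ (trunc l f)| ≤ mean A u σ (major l) - 1 := by
    rw [← hu1]
    simp only [mean, ← Finset.sum_sub_distrib]
    refine (Finset.abs_sum_le_sum_abs _ _).trans (Finset.sum_le_sum fun a ha => ?_)
    rw [← mul_sub, abs_mul, abs_of_nonneg (hu a ha), abs_sub_comm]
    calc u a * |trunc l f (σ a) - f (σ a)| ≤ u a * (major l (σ a) - 1) := by
          refine mul_le_mul_of_nonneg_left ?_ (hu a ha)
          have := abs_trunc_sub_le hl f hf (σ a)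
          rwa [Finset.inter_eq_left.2 (hσ a ha)] at this
      _ = _ := by ring
  have hB : |mean B v τ f - mean B v τ (trunc l f)| ≤ mean B v τ (major l) - 1 := by
    rw [← hv1]
    simp only [mean, ← Finset.sum_sub_distrib]
    refine (Finset.abs_sum_le_sum_abs _ _).trans (Finset.sum_le_sum fun a ha => ?_)
    rw [← mul_sub, abs_mul, abs_of_nonneg (hv a ha), abs_sub_comm]
    calc v a * |trunc l f (τ a) - f (τ a)| ≤ v a * (major l (τ a) - 1) := by
          refine mul_le_mul_of_nonneg_left ?_ (hv a ha)
          have := abs_trunc_sub_le hl f hf (τ a)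
          rwa [Finset.inter_eq_left.2 (hτ a ha)] at this
      _ = _ := by ring
  rw [abs_le] at hA hB h1 h2 ⊢
  constructor <;> linarith

end Main

end Vale.Agent.P028.Full.PatternSieve
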