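import Vale.Agent.P028.Full.Overlap
import Vale.Agent.P028.Full.LargePsi
import Vale.Agent.P028.Main

/-!
A bounded second moment on finite sets of small mass gives the statement for every `γ` and `ψ`.
-/

noncomputable section

namespace Vale.Agent.P028.Full

open Finset MeasureTheory Filter

/-- The second moment bound: each finite set of small radii and bounded mass has a system of deleted
classes with bounded second moment. -/
def SecondMoment : Prop :=
  ∃ C ε : ℝ, 0 < ε ∧ ∀ (γ : ℝ) (ψ : ℕ → ℝ) (S : Finset ℕ), 0 ≤ γ → γ < 1 →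
    (∀ q ∈ S, 0 < q ∧ 0 < ψ q ∧ ψ q ≤ ε) → mass ψ S ≤ 2 →
    ∃ K : Classes, ∑ q ∈ S, ∑ r ∈ S, ∫ x, bumpC γ ψ K q x * bumpC γ ψ K r x ≤ C

theorem bumpC_eq_zero {γ : ℝ} {ψ : ℕ → ℝ} {K : Classes} {q : ℕ} {x : ℝ} (hq : 0 < q)
    (h : ∀ a : ℤ, ψ q ≤ |(q : ℝ) * x - a - γ|) : bumpC γ ψ K q x = 0 := by
  rw [bumpC, Finset.sum_eq_zero, mul_zero]
  intro a _
  refine Set.indicator_of_notMem (fun hx => ?_) _
  have hq' : (0 : ℝ) < q := Nat.cast_pos.2 hq
  obtain ⟨h1, h2⟩ := hx
  rw [div_lt_iff₀ hq'] at h1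
  rw [lt_div_iff₀ hq'] at h2
  refine (not_lt.2 (h a)) (abs_lt.2 ?_)
  push_cast
  constructor <;> linarith

theorem integrable_bumpC (γ : ℝ) (ψ : ℕ → ℝ) (K : Classes) (q : ℕ) :
    Integrable (bumpC γ ψ K q) := by
  refine (integrable_finsetSum _ fun a _ => ?_).const_mul (wC K q)
  refine (integrable_indicator_iff measurableSet_Ioo).2 ?_
  exact integrableOn_const (hs := (measure_Ioo_lt_top).ne)

theorem integrable_bumpC_mul_bumpC (γ : ℝ) (ψ : ℕ → ℝ) (K : Classes) (q r : ℕ) :
    Integrable (fun x => bumpC γ ψ K q x * bumpC γ ψ K r x) := by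
  refine Integrable.bdd_mul (c := |wC K q| * (admC K q).card)
    (integrable_bumpC γ ψ K r) (integrable_bumpC γ ψ K q).1
    (ae_of_all _ fun x => ?_)
  rw [Real.norm_eq_abs, bumpC, abs_mul]
  refine mul_le_mul_of_nonneg_left ?_ (abs_nonneg _)
  refine (Finset.abs_sum_le_sum_abs _ _).trans ?_
  refine (Finset.sum_le_card_nsmul _ _ 1 fun a _ => ?_).trans (by simp)
  rw [Set.indicator_apply]
  split <;> simp

/-- The block criterion for full measure. -/
theorem null_compl_of_bumps (γ : ℝ) (ψ : ℕ → ℝ) (C : ℝ) (hγ : 0 ≤ γ) (hγ1 : γ < 1)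
    (hψ : ∀ q, 0 ≤ ψ q) (hψ2 : ∀ q, ψ q ≤ 1 / 2)
    (hblocks : ∀ Q : ℕ, ∃ (S : Finset ℕ) (K : Classes), (∀ q ∈ S, Q ≤ q ∧ 0 < q) ∧ 1 ≤ mass ψ S ∧
      mass ψ S ≤ 2 ∧
      ∑ q ∈ S, ∑ r ∈ S, ∫ x, bumpC γ ψ K q x * bumpC γ ψ K r x ≤ C) :
    volume (approxSet γ ψ)ᶜ = 0 := by
  let Z : ℕ → Set ℝ := fun Q =>
    Set.Ioc (0 : ℝ) 1 ∩ ⋂ q ∈ {q : ℕ | Q ≤ q ∧ 0 < q}, ⋂ a : ℤ,
      {x : ℝ | ψ q ≤ |(q : ℝ) * x - a - γ|}
  have hZm : ∀ Q, MeasurableSet (Z Q) := fun Q => measurableSet_Ioc.inter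
    (MeasurableSet.iInter fun q => MeasurableSet.iInter fun _ => MeasurableSet.iInter fun a =>
      measurableSet_le measurable_const (by fun_prop))
  suffices hnull : ∀ Q, volume (Z Q) = 0 by
    refine measure_mono_null (t := ⋃ k : ℤ, (fun x : ℝ => x + (k : ℝ)) ⁻¹' ⋃ Q, Z Q) ?_ ?_
    · intro x hx
      simp only [approxSet, Set.mem_compl_iff, Set.mem_ofPred_eq, Set.not_infinite] at hx
      obtain ⟨Q, hQ⟩ := hx.bddAbove
      refine Set.mem_iUnion.2 ⟨1 - ⌈x⌉, Set.mem_iUnion.2 ⟨Q + 1, ⟨?_, ?_⟩, ?_⟩⟩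
      · have := Int.ceil_lt_add_one x
        push_cast
        linarith
      · have := Int.le_ceil x
        push_cast
        linarith
      · simp only [Set.mem_iInter, Set.mem_ofPred_eq]
        rintro q ⟨hq, hq0⟩ a
        by_contra hlt
        have hmem := hQ (a := q) ⟨hq0, a - q * (1 - ⌈x⌉), ?_⟩
        · omega
        · push_cast at hlt ⊢
          rw [not_le] at hlt
          ring_nf at hlt ⊢
          exact hlt
    · refine measure_iUnion_null fun k => ?_
      rw [measure_preimage_add_right]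
      exact measure_iUnion_null hnull
  intro Q
  have hfin : volume (Z Q) ≠ ⊤ :=
    ne_top_of_le_ne_top (measure_Ioc_lt_top (a := (0 : ℝ)) (b := 1)).ne
      (measure_mono Set.inter_subset_left)
  by_contra hne
  obtain ⟨v, hv, hvZ⟩ : ∃ v : ℝ, 0 < v ∧ volume (Z Q) = ENNReal.ofReal v :=
    ⟨(volume (Z Q)).toReal, ENNReal.toReal_pos hne hfin, (ENNReal.ofReal_toReal hfin).symm⟩
  -- parameters
  set t : ℝ := (|C| + 1) / v with ht
  have htpos : 0 < t := div_pos (by positivity) hv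
  obtain ⟨δ, hδ, hδt, hδv⟩ : ∃ δ : ℝ, 0 < δ ∧ δ * t ≤ v / 4 ∧ δ ≤ v / 4 :=
    ⟨min (v / 4 / t) (v / 4), lt_min (by positivity) (by positivity),
      (le_div_iff₀ htpos).1 (min_le_left _ _), min_le_right _ _⟩
  have hδ0 : ENNReal.ofReal δ ≠ 0 := (ENNReal.ofReal_pos.2 hδ).ne'
  obtain ⟨O, hZO, hO, -, hOZ⟩ := (hZm Q).exists_isOpen_sdiff_lt hfin hδ0
  obtain ⟨K, hKZ, hK, hZK⟩ := (hZm Q).exists_isCompact_sdiff_lt hfin hδ0
  obtain ⟨η, hη, hKO⟩ := hK.exists_thickening_subset_open hO (hKZ.trans hZO)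
  obtain ⟨n, hn⟩ := exists_nat_gt (1 / η)
  have hn0 : (0 : ℝ) < n := lt_trans (by positivity) hn
  have hn' : (1 : ℝ) / n < η := by
    rw [div_lt_iff₀ hn0]
    rw [div_lt_iff₀ hη] at hn
    linarith
  classical
  let I : ℕ → Set ℝ := fun i => Set.Ioc ((i : ℝ) / n) (((i : ℝ) + 1) / n)
  let T : Finset ℕ := (Finset.range n).filter fun i => (I i ∩ K).Nonempty
  let U : Set ℝ := ⋃ i ∈ T, I i
  have hUO : U ⊆ O := by
    intro y hy
    obtain ⟨i, hi, hyi⟩ := Set.mem_iUnion₂.1 hy
    obtain ⟨x, ⟨hx1, hx2⟩, hxK⟩ := (Finset.mem_filter.1 hi).2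
    refine hKO (Metric.mem_thickening_iff.2 ⟨x, hxK, ?_⟩)
    rw [Real.dist_eq, abs_lt]
    rw [add_div] at hx2
    obtain ⟨hy1, hy2⟩ := hyi
    rw [add_div] at hy2
    constructor <;> linarith
  have hKU : K ⊆ U := by
    intro x hx
    obtain ⟨hx0, hx1⟩ := (hKZ hx).1
    have h0 : 0 < ⌈(n : ℝ) * x⌉₊ := Nat.ceil_pos.2 (by positivity)
    obtain ⟨i, hi⟩ : ∃ i, ⌈(n : ℝ) * x⌉₊ = i + 1 := ⟨_, (Nat.succ_pred_eq_of_pos h0).symm⟩
    have hle : ⌈(n : ℝ) * x⌉₊ ≤ n := Nat.ceil_le.2 (by nlinarith)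
    have hxi : x ∈ I i := by
      have h1 := Nat.ceil_lt_add_one (show 0 ≤ (n : ℝ) * x by positivity)
      have h2 := Nat.le_ceil ((n : ℝ) * x)
      rw [hi] at h1 h2
      push_cast at h1 h2
      refine ⟨?_, ?_⟩
      · rw [div_lt_iff₀ hn0]; linarith
      · rw [le_div_iff₀ hn0]; linarith
    exact Set.mem_iUnion₂.2 ⟨i, Finset.mem_filter.2 ⟨Finset.mem_range.2 (by omega), x, hxi, hx⟩,
      hxi⟩
  have hcard : v - δ ≤ (T.card : ℝ) / n := by
    have h1 : volume (Z Q) ≤ ENNReal.ofReal ((T.card : ℝ) / n) + ENNReal.ofReal δ := by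
      refine (measure_le_inter_add_sdiff volume (Z Q) K).trans (add_le_add ?_ hZK.le)
      refine (measure_mono (Set.inter_subset_right.trans hKU)).trans ?_
      refine (measure_biUnion_finset_le T I).trans (le_of_eq ?_)
      have hI : ∀ i ∈ T, volume (I i) = ENNReal.ofReal (1 / n) := fun i _ => by
        rw [Real.volume_Ioc, ← sub_div, add_sub_cancel_left]
      rw [Finset.sum_congr rfl hI, Finset.sum_const, nsmul_eq_mul, ← ENNReal.ofReal_natCast,
        ← ENNReal.ofReal_mul (Nat.cast_nonneg _), mul_one_div]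
    rw [hvZ, ← ENNReal.ofReal_add (by positivity) hδ.le,
      ENNReal.ofReal_le_ofReal_iff (by positivity)] at h1
    linarith
  obtain ⟨q0, hq0⟩ := exists_two_pow_omega_le (δ / (16 * n)) (by positivity)
  obtain ⟨S, Kc, hS, hS1, hS2, hSC⟩ := hblocks (max Q q0)
  let N : ℝ → ℝ := fun x => ∑ q ∈ S, bumpC γ ψ Kc q x
  have hNi : Integrable N := integrable_finsetSum _ fun q _ => integrable_bumpC _ _ _ _
  have hsq : (fun x => N x * N x) =
      fun x => ∑ q ∈ S, ∑ r ∈ S,
        bumpC γ ψ Kc q x * bumpC γ ψ Kc r x :=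
    funext fun x => Finset.sum_mul_sum _ _ _ _
  have hN2i : Integrable (fun x => N x * N x) := by
    rw [hsq]
    exact integrable_finsetSum _ fun q _ => integrable_finsetSum _ fun r _ =>
      integrable_bumpC_mul_bumpC _ _ _ _ _
  have hN2 : ∫ x, N x * N x ≤ C := by
    rw [hsq, integral_finsetSum _ fun q _ => integrable_finsetSum _ fun r _ =>
      integrable_bumpC_mul_bumpC _ _ _ _ _]
    refine le_of_eq_of_le (Finset.sum_congr rfl fun q _ => ?_) hSC
    exact integral_finsetSum _ fun r _ => integrable_bumpC_mul_bumpC _ _ _ _ _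
  have hUm : MeasurableSet U := T.measurableSet_biUnion fun i _ => measurableSet_Ioc
  -- upper bound
  have hup : ∫ x in U, N x ≤ t / 2 * δ + |C| / (2 * t) := by
    have hOZm : MeasurableSet (O \ Z Q) := hO.measurableSet.diff (hZm Q)
    have hind : Integrable ((O \ Z Q).indicator fun _ : ℝ => t / 2) :=
      (integrable_indicator_iff hOZm).2
        (integrableOn_const (hs := ne_top_of_lt hOZ))
    calc ∫ x in U, N x = ∫ x, U.indicator N x := (integral_indicator hUm).symm
      _ ≤ ∫ x, ((O \ Z Q).indicator (fun _ => t / 2) x + N x * N x / (2 * t)) := by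
          refine integral_mono (hNi.indicator hUm) (hind.add (hN2i.div_const _)) fun x => ?_
          have hsqx : 0 ≤ N x * N x / (2 * t) := div_nonneg (mul_self_nonneg _) (by positivity)
          have hindx : 0 ≤ (O \ Z Q).indicator (fun _ : ℝ => t / 2) x :=
            Set.indicator_nonneg (fun _ _ => by positivity) x
          by_cases hxU : x ∈ U
          · rw [Set.indicator_of_mem hxU]
            by_cases hxZ : x ∈ Z Q
            · have : N x = 0 := by
                refine Finset.sum_eq_zero fun q hq => bumpC_eq_zero (hS q hq).2 fun a => ?_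
                have := hxZ.2
                simp only [Set.mem_iInter, Set.mem_ofPred_eq] at this
                exact this q ⟨(le_max_left _ _).trans (hS q hq).1, (hS q hq).2⟩ a
              rw [this] at hsqx ⊢
              linarith
            · rw [Set.indicator_of_mem (show x ∈ O \ Z Q from ⟨hUO hxU, hxZ⟩)]
              rw [← sub_nonneg,
                show t / 2 + N x * N x / (2 * t) - N x = (t - N x) ^ 2 / (2 * t) by
                  field_simp; ring]
              positivity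
          · rw [Set.indicator_of_notMem hxU]
            linarith
      _ ≤ t / 2 * δ + |C| / (2 * t) := by
          rw [integral_add hind (hN2i.div_const _), integral_div, integral_indicator hOZm,
            setIntegral_const, smul_eq_mul, mul_comm]
          refine add_le_add (mul_le_mul_of_nonneg_left ?_ (by positivity))
            (div_le_div_of_nonneg_right (hN2.trans (le_abs_self C)) (by positivity))
          exact ENNReal.toReal_le_of_le_ofReal hδ.le hOZ.le
  -- lower bound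
  have hlow : 2 * ((T.card : ℝ) / n) - δ ≤ ∫ x in U, N x := by
    have hdisj : Set.PairwiseDisjoint (T : Set ℕ) I := by
      intro i _ j _ hij
      refine Set.disjoint_left.2 fun x hxi hxj => hij ?_
      obtain ⟨a1, a2⟩ := hxi
      obtain ⟨b1, b2⟩ := hxj
      rw [div_lt_iff₀ hn0] at a1 b1
      rw [le_div_iff₀ hn0] at a2 b2
      have e1 : (i : ℝ) < ((j + 1 : ℕ) : ℝ) := by push_cast; linarith
      have e2 : (j : ℝ) < ((i + 1 : ℕ) : ℝ) := by push_cast; linarith
      rw [Nat.cast_lt] at e1 e2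
      omega
    rw [integral_biUnion_finset T (fun i _ => measurableSet_Ioc) hdisj
      fun i _ => hNi.integrableOn]
    have hone : ∀ i ∈ T, 2 * (1 / (n : ℝ)) - δ / n ≤ ∫ x in I i, N x := by
      intro i hi
      have hin : i + 1 ≤ n := Finset.mem_range.1 (Finset.mem_filter.1 hi).1
      have hterm : ∀ q ∈ S,
          (2 * (1 / (n : ℝ)) - 8 * (δ / (16 * n))) * wt ψ q ≤
            ∫ x in I i, bumpC γ ψ Kc q x := by
        intro q hq
        have hwt : 0 ≤ wt ψ q := mul_nonneg (by positivity) (hψ q)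
        have hE := integral_bumpC_Ioc γ ψ Kc q (hS q hq).2 (hψ q) (hψ2 q) hγ hγ1
          ((i : ℝ) / n) (((i : ℝ) + 1) / n) (by positivity)
          (by gcongr; linarith) ((div_le_one hn0).2 (by exact_mod_cast hin))
        rw [← sub_div, add_sub_cancel_left, abs_le] at hE
        have hom := hq0 q ((le_max_right _ _).trans (hS q hq).1)
        rw [← div_le_iff₀ (Nat.cast_pos.2 (Nat.totient_pos.2 (hS q hq).2))] at hom
        have := mul_le_mul_of_nonneg_left hom (show 0 ≤ 8 * wt ψ q by positivity)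
        linarith [hE.1]
      calc 2 * (1 / (n : ℝ)) - δ / n
          ≤ (2 * (1 / (n : ℝ)) - 8 * (δ / (16 * n))) * mass ψ S := by
            have e : 8 * (δ / (16 * (n : ℝ))) = δ / n / 2 := by field_simp; ring
            rw [e]
            have h2n : 0 ≤ 2 * (1 / (n : ℝ)) := by positivity
            have hdn : 0 ≤ δ / (n : ℝ) := by positivity
            nlinarith
        _ ≤ ∑ q ∈ S, ∫ x in I i, bumpC γ ψ Kc q x := by
            rw [mass, Finset.mul_sum]
            exact Finset.sum_le_sum hterm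
        _ = ∫ x in I i, N x :=
            (integral_finsetSum _ fun q _ => (integrable_bumpC _ _ _ _).integrableOn).symm
    refine le_trans ?_ (Finset.sum_le_sum hone)
    have hTn : (T.card : ℝ) ≤ n := by
      have := Finset.card_filter_le (Finset.range n) fun i => (I i ∩ K).Nonempty
      rw [Finset.card_range] at this
      exact_mod_cast this
    rw [Finset.sum_const, nsmul_eq_mul, mul_sub]
    have : (T.card : ℝ) * (δ / n) ≤ δ := by
      rw [← mul_div_assoc, div_le_iff₀ hn0]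
      nlinarith
    have e : (T.card : ℝ) * (2 * (1 / (n : ℝ))) = 2 * ((T.card : ℝ) / n) := by ring
    linarith
  have hC : |C| / (2 * t) ≤ v / 2 := by
    rw [ht, div_le_iff₀ (by positivity)]
    field_simp
    linarith [abs_nonneg C]
  linarith

/-- The reduction to the second moment bound. -/
theorem weakDS_of_secondMoment (h : SecondMoment) (γ : ℝ) (ψ : ℕ → ℝ) (hψ : ∀ q, 0 ≤ ψ q)
    (hdiv : ¬ Summable (fun q : ℕ => (Nat.totient q : ℝ) / q * ψ q)) :
    volume (approxSet γ ψ)ᶜ = 0 := by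
  rw [← approxSet_sub_int γ ψ ⌊γ⌋]
  set γ' : ℝ := γ - (⌊γ⌋ : ℤ) with hγ'
  have hγ0 : 0 ≤ γ' := by rw [hγ']; linarith [Int.floor_le γ]
  have hγ1 : γ' < 1 := by rw [hγ']; linarith [Int.lt_floor_add_one γ]
  obtain ⟨C, ε, hε, hSM⟩ := h
  set c : ℝ := min ε (1 / 2) with hc
  have hc0 : 0 < c := lt_min hε (by norm_num)
  by_cases hlarge : {q : ℕ | c ≤ ψ q}.Infinite
  · exact null_compl_of_large γ' ψ c hc0 hlarge
  obtain ⟨Q₀, hQ₀⟩ := (Set.not_infinite.1 hlarge).bddAbove
  classical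
  let φ : ℕ → ℝ := fun q => if Q₀ < q then ψ q else 0
  have hφ0 : ∀ q, 0 ≤ φ q := fun q => by
    simp only [φ]; split <;> simp [hψ q]
  have hφle : ∀ q, φ q ≤ ψ q := fun q => by
    simp only [φ]; split <;> simp [hψ q]
  have hφc : ∀ q, φ q ≤ c := fun q => by
    simp only [φ]
    split
    · by_contra hlt
      have := hQ₀ (a := q) (le_of_lt (not_le.1 hlt))
      omega
    · exact hc0.le
  have hφ2 : ∀ q, φ q ≤ 1 / 2 := fun q => (hφc q).trans (min_le_right _ _)
  have hφdiv : ¬ Summable (wt φ) := fun hs => hdiv <| by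
    refine (hs.add (summable_of_ne_finset_zero (s := Finset.range (Q₀ + 1))
      (f := fun q => if q ≤ Q₀ then wt ψ q else 0) fun q hq => ?_)).congr fun q => ?_
    · exact if_neg (by simpa using hq)
    · by_cases hq : Q₀ < q
      · simp [wt, φ, hq, not_le.2 hq]
      · simp [wt, φ, hq, not_lt.1 hq]
  refine measure_mono_null (Set.compl_subset_compl.2 (approxSet_mono hφle)) ?_
  refine null_compl_of_bumps γ' φ C hγ0 hγ1 hφ0 hφ2 fun Q => ?_
  obtain ⟨S, hS, hS1, hS2⟩ := exists_block φ hφ0 hφ2 hφdiv Q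
  obtain ⟨K, hK⟩ := hSM γ' φ S hγ0 hγ1 (fun q hq => ⟨(hS q hq).2.1,
    lt_of_le_of_ne (hφ0 q) (Ne.symm (hS q hq).2.2), (hφc q).trans (min_le_left _ _)⟩) hS2
  exact ⟨S, K, fun q hq => ⟨(hS q hq).1, (hS q hq).2.1⟩, hS1, hS2, hK⟩

end Vale.Agent.P028.Full
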