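import Vale.Agent.P028.Full.RogersDiscrete

/-!
The compression lemma for inhomogeneous approximation sets with a common cofactor.

If `q * b q = qlo q * K` with `b q ∣ K` and `qlo q` coprime to `b q` for all `q` of a finite set `S`,
then for every shift `γ` the union of the sets `‖q x - γ‖ < ψ q` in `[0, 1)` has measure at least
`∑_{b ∣ K} φ (K / b) / K` times the measure of the union, over the `q` with `b q = b`, of the sets
`‖qlo q θ - γ b‖ < ψ q b`.
-/

noncomputable section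

namespace Vale.Agent.P028.Full.Rogers

open Finset MeasureTheory

/-- The points `x` of `[0, 1)` with `|q x - γ - a| < η` for some integer `a`. -/
def near (γ η : ℝ) (q : ℕ) : Set ℝ :=
  Set.Ico (0 : ℝ) 1 ∩ ⋃ a : ℤ, {x : ℝ | |(q : ℝ) * x - γ - a| < η}

theorem measurableSet_near (γ η : ℝ) (q : ℕ) : MeasurableSet (near γ η q) :=
  measurableSet_Ico.inter (MeasurableSet.iUnion fun _ =>
    measurableSet_lt (by fun_prop) measurable_const)

theorem mem_near {γ η : ℝ} {q : ℕ} {x : ℝ} :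
    x ∈ near γ η q ↔ x ∈ Set.Ico (0 : ℝ) 1 ∧ ∃ a : ℤ, |(q : ℝ) * x - γ - a| < η := by
  simp [near]

/-- A covered `θ` gives a class modulo `b` of covered residues. -/
theorem exists_class {q qlo b K : ℕ} (hb : 0 < b) (hK : 0 < K) (hq : q * b = qlo * K)
    (hcop : Nat.Coprime qlo b) {γ ψ θ : ℝ} (hθ : θ ∈ near (γ * b) (ψ * b) qlo) :
    ∃ c : ℤ, ∀ m : ℕ, m < K → (b : ℤ) ∣ (m : ℤ) - c → (θ + m) * (K : ℝ)⁻¹ ∈ near γ ψ q := by
  obtain ⟨⟨hθ0, hθ1⟩, n, hn⟩ := mem_near.1 hθ
  obtain ⟨u, v, huv⟩ : ∃ u v : ℤ, u * (qlo : ℤ) + v * (b : ℤ) = 1 :=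
    Int.isCoprime_iff_nat_coprime.2 (by simpa using hcop)
  refine ⟨-u * n, fun m hm hdvd => mem_near.2 ⟨⟨?_, ?_⟩, ?_⟩⟩
  · exact mul_nonneg (add_nonneg hθ0 m.cast_nonneg) (inv_nonneg.2 K.cast_nonneg)
  · rw [← div_eq_mul_inv, div_lt_one (Nat.cast_pos.2 hK)]
    have : (m : ℝ) + 1 ≤ K := by exact_mod_cast hm
    linarith
  obtain ⟨w, hw⟩ := hdvd
  -- `qlo m + n = b a`
  refine ⟨(qlo : ℤ) * w + v * n, ?_⟩
  have ha : (qlo : ℤ) * m + n = b * ((qlo : ℤ) * w + v * n) := by
    linear_combination (qlo : ℤ) * hw - n * huv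
  have ha' : (qlo : ℝ) * m + n = b * (((qlo : ℤ) * w + v * n : ℤ) : ℝ) := by exact_mod_cast ha
  have hq' : (q : ℝ) * b = qlo * K := by exact_mod_cast hq
  have hb' : (0 : ℝ) < b := Nat.cast_pos.2 hb
  have hK' : (0 : ℝ) < K := Nat.cast_pos.2 hK
  set A : ℝ := (((qlo : ℤ) * w + v * n : ℤ) : ℝ)
  have key : ((q : ℝ) * ((θ + m) * (K : ℝ)⁻¹) - γ - A) * b = (qlo : ℝ) * θ - γ * b - n := by
    have hx : (q : ℝ) * ((θ + m) * (K : ℝ)⁻¹) * b = qlo * (θ + m) := by
      field_simp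
      linear_combination (θ + m) * hq'
    linear_combination hx + ha'
  rw [← key, abs_mul, abs_of_pos hb'] at hn
  exact lt_of_mul_lt_mul_right hn hb'.le

/-- The compression lemma. -/
theorem sum_totient_mul_volume_le {K : ℕ} (hK : 0 < K) (γ : ℝ) (ψ : ℕ → ℝ) (S : Finset ℕ)
    (qlo b : ℕ → ℕ) (hb : ∀ q ∈ S, b q ∣ K) (hq : ∀ q ∈ S, q * b q = qlo q * K)
    (hcop : ∀ q ∈ S, Nat.Coprime (qlo q) (b q)) :
    ∑ d ∈ K.divisors, (Nat.totient (K / d) : ENNReal) *
        volume (⋃ q ∈ S.filter (fun q => b q = d), near (γ * d) (ψ q * d) (qlo q)) ≤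
      (K : ENNReal) * volume (⋃ q ∈ S, near γ (ψ q) q) := by
  classical
  set U := ⋃ q ∈ S, near γ (ψ q) q with hU
  set F : ℕ → Set ℝ := fun d =>
    ⋃ q ∈ S.filter (fun q => b q = d), near (γ * d) (ψ q * d) (qlo q) with hF
  let P : ℕ → Set ℝ := fun m =>
    Set.Ico (0 : ℝ) 1 ∩ (fun θ : ℝ => θ + m) ⁻¹' ((fun y : ℝ => y * (K : ℝ)⁻¹) ⁻¹' U)
  have hUm : MeasurableSet U :=
    MeasurableSet.iUnion fun q => MeasurableSet.iUnion fun _ => measurableSet_near _ _ _
  have hFm : ∀ d, MeasurableSet (F d) := fun d =>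
    MeasurableSet.iUnion fun q => MeasurableSet.iUnion fun _ => measurableSet_near _ _ _
  have hPm : ∀ m, MeasurableSet (P m) := fun m =>
    measurableSet_Ico.inter ((hUm.preimage (by fun_prop)).preimage (by fun_prop))
  -- the pointwise inequality
  have hpt : ∀ θ : ℝ, ∑ d ∈ K.divisors, (F d).indicator (fun _ => (Nat.totient (K / d) : ENNReal)) θ
      ≤ ∑ m ∈ Finset.range K, (P m).indicator (fun _ => (1 : ENNReal)) θ := by
    intro θ
    have hcls : ∀ d, ∃ c : ℤ, θ ∈ F d → ∀ m : ℕ, m < K → (d : ℤ) ∣ (m : ℤ) - c →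
        (θ + m) * (K : ℝ)⁻¹ ∈ U := by
      intro d
      by_cases h : θ ∈ F d
      · obtain ⟨q, hqf, hθ⟩ := Set.mem_iUnion₂.1 h
        have hqS : q ∈ S := (Finset.mem_filter.1 hqf).1
        obtain rfl : b q = d := (Finset.mem_filter.1 hqf).2
        obtain ⟨c, hc⟩ := exists_class (Nat.pos_of_dvd_of_pos (hb q hqS) hK) hK (hq q hqS)
          (hcop q hqS) hθ
        exact ⟨c, fun _ m hm hd => Set.mem_iUnion₂.2 ⟨q, hqS, hc m hm hd⟩⟩
      · exact ⟨0, fun h' => absurd h' h⟩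
    choose c hc using hcls
    obtain ⟨D, hD, hdisj⟩ := exists_selection K hK c
    set B := K.divisors.filter (fun d => θ ∈ F d) with hB
    have hθ : ∀ d ∈ B, θ ∈ Set.Ico (0 : ℝ) 1 := by
      intro d hd
      obtain ⟨q, -, hq'⟩ := Set.mem_iUnion₂.1 (Finset.mem_filter.1 hd).2
      exact (mem_near.1 hq').1
    calc ∑ d ∈ K.divisors, (F d).indicator (fun _ => (Nat.totient (K / d) : ENNReal)) θ
        = ∑ d ∈ B, ((D d).card : ENNReal) := by
          rw [hB, Finset.sum_filter]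
          refine Finset.sum_congr rfl fun d hd => ?_
          rw [Set.indicator_apply, (hD d hd).2]
      _ = ((B.biUnion D).card : ENNReal) := by
          rw [Finset.card_biUnion fun x hx y hy hxy =>
            hdisj (Finset.mem_filter.1 hx).1 (Finset.mem_filter.1 hy).1 hxy, Nat.cast_sum]
      _ ≤ (((Finset.range K).filter (fun m => θ ∈ P m)).card : ENNReal) := by
          refine Nat.cast_le.2 (Finset.card_le_card fun m hm => ?_)
          obtain ⟨d, hd, hmd⟩ := Finset.mem_biUnion.1 hm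
          obtain ⟨hd1, hd2⟩ := Finset.mem_filter.1 hd
          obtain ⟨hmK, hdvd⟩ := Finset.mem_filter.1 ((hD d hd1).1 hmd)
          exact Finset.mem_filter.2 ⟨hmK,
            ⟨hθ d hd, hc d hd2 m (Finset.mem_range.1 hmK) hdvd⟩⟩
      _ = ∑ m ∈ Finset.range K, (P m).indicator (fun _ => (1 : ENNReal)) θ := by
          simp only [Set.indicator_apply]
          exact Finset.natCast_card_filter _ _
  -- integrate
  have hint := lintegral_mono (μ := volume) hpt
  rw [lintegral_finsetSum _ fun d _ => measurable_const.indicator (hFm d),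
    lintegral_finsetSum _ fun m _ => measurable_const.indicator (hPm m)] at hint
  simp only [lintegral_indicator_const (hFm _), lintegral_indicator_const (hPm _), one_mul] at hint
  refine hint.trans ?_
  -- the pieces are scaled parts of `U`
  let J : ℕ → Set ℝ := fun m => U ∩ Set.Ico ((m : ℝ) / K) (((m : ℝ) + 1) / K)
  have hK' : (0 : ℝ) < K := Nat.cast_pos.2 hK
  have hPJ : ∀ m, volume (P m) ≤ (K : ENNReal) * volume (J m) := by
    intro m
    have hsub : P m ⊆ (fun θ : ℝ => θ + m) ⁻¹' ((fun y : ℝ => y * (K : ℝ)⁻¹) ⁻¹' J m) := by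
      rintro θ ⟨⟨h0, h1⟩, hu⟩
      refine ⟨hu, ?_⟩
      show (θ + m) * (K : ℝ)⁻¹ ∈ _
      rw [← div_eq_mul_inv]
      exact ⟨div_le_div_of_nonneg_right (by linarith) hK'.le,
        div_lt_div_of_pos_right (by linarith) hK'⟩
    refine (measure_mono hsub).trans (le_of_eq ?_)
    rw [measure_preimage_add_right, Real.volume_preimage_mul_right (inv_ne_zero hK'.ne'),
      inv_inv, abs_of_pos hK', ENNReal.ofReal_natCast]
  refine (Finset.sum_le_sum fun m _ => hPJ m).trans ?_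
  rw [← Finset.mul_sum]
  refine mul_le_mul_right ?_ _
  rw [← measure_biUnion_finset]
  · exact measure_mono (Set.iUnion₂_subset fun m _ => Set.inter_subset_left)
  · intro i _ j _ hij
    rw [Function.onFun, Set.disjoint_left]
    rintro x ⟨-, hi1, hi2⟩ ⟨-, hj1, hj2⟩
    rcases lt_or_gt_of_ne hij with h | h
    · have h' : ((i : ℝ) + 1) / K ≤ (j : ℝ) / K :=
        div_le_div_of_nonneg_right (by exact_mod_cast h) hK'.le
      linarith
    · have h' : ((j : ℝ) + 1) / K ≤ (i : ℝ) / K :=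
        div_le_div_of_nonneg_right (by exact_mod_cast h) hK'.le
      linarith
  · exact fun m _ => hUm.inter measurableSet_Ico

end Vale.Agent.P028.Full.Rogers
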