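import Mathlib

/-!
Rogers' inequality for classes modulo the divisors of `K`, with a disjoint selection.

For every choice of one class `c b` modulo each divisor `b` of `K` there are disjoint sets
`D b` of residues modulo `K` inside the classes with `φ (K / b)` elements each: the set `D b` plays
the part of the residues `m` with `gcd (m, K) = b` in the case of the zero classes.
-/

noncomputable section

namespace Vale.Agent.P028.Full.Rogers

open Finset

/-- The residues modulo `K` in the class of `c` modulo `b`. -/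
def cls (K b : ℕ) (c : ℤ) : Finset ℕ :=
  (Finset.range K).filter (fun m : ℕ => (b : ℤ) ∣ (m : ℤ) - c)

/-- A disjoint selection inside the classes. -/
def IsSelection (K : ℕ) (c : ℕ → ℤ) (D : ℕ → Finset ℕ) : Prop :=
  (∀ b ∈ K.divisors, D b ⊆ cls K b (c b) ∧ (D b).card = Nat.totient (K / b)) ∧
    (K.divisors : Set ℕ).PairwiseDisjoint D

theorem card_cls {K b : ℕ} (hK : 0 < K) (hb : b ∣ K) (c : ℤ) : (cls K b c).card = K / b := by
  have hb0 : 0 < b := Nat.pos_of_dvd_of_pos hb hK
  have hbz : (0 : ℤ) < b := by exact_mod_cast hb0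
  set r : ℕ := (c % (b : ℤ)).toNat with hr
  have hr0 : 0 ≤ c % (b : ℤ) := Int.emod_nonneg _ hbz.ne'
  have hrb : r < b := by
    have := Int.emod_lt_of_pos c hbz
    omega
  obtain ⟨t, ht⟩ := hb
  have hKb : K / b = t := by rw [ht, Nat.mul_div_cancel_left _ hb0]
  rw [hKb]
  refine (Finset.card_bij (fun i _ => r + b * i) ?_ ?_ ?_).symm.trans (Finset.card_range t)
  · intro i hi
    refine Finset.mem_filter.2 ⟨Finset.mem_range.2 ?_, ?_⟩
    · rw [ht]
      calc r + b * i < b + b * i := by omega
        _ = b * (i + 1) := by ring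
        _ ≤ b * t := Nat.mul_le_mul_left _ (Finset.mem_range.1 hi)
    · refine ⟨(i : ℤ) - c / (b : ℤ), ?_⟩
      have h1 := Int.mul_ediv_add_emod c (b : ℤ)
      push_cast
      rw [hr, Int.toNat_of_nonneg hr0]
      linarith [mul_sub (b : ℤ) (i : ℤ) (c / (b : ℤ))]
  · intro i _ j _ h
    exact Nat.eq_of_mul_eq_mul_left hb0 (by omega)
  · intro m hm
    obtain ⟨hm1, hm2⟩ := Finset.mem_filter.1 hm
    have hmod : ((m % b : ℕ) : ℤ) = c % (b : ℤ) := by
      rw [Int.natCast_mod]
      exact (Int.emod_eq_emod_iff_emod_sub_eq_zero.2 (Int.emod_eq_zero_of_dvd hm2))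
    refine ⟨m / b, Finset.mem_range.2 ?_, ?_⟩
    · rw [Nat.div_lt_iff_lt_mul hb0, mul_comm, ← ht]
      exact Finset.mem_range.1 hm1
    · have := Nat.mod_add_div m b
      have hrm : r = m % b := by omega
      omega

/-- A prime power: the finer classes first. -/
theorem exists_selection_prime_pow {p : ℕ} (hp : p.Prime) (e : ℕ) (c : ℕ → ℤ) :
    ∃ D, IsSelection (p ^ e) c D := by
  classical
  have hK : 0 < p ^ e := pow_pos hp.pos e
  have key : ∀ i ≤ e, ∃ D : ℕ → Finset ℕ,
      (∀ l, e - i ≤ l → l ≤ e →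
        D l ⊆ cls (p ^ e) (p ^ l) (c (p ^ l)) ∧ (D l).card = Nat.totient (p ^ (e - l))) ∧
      ((Finset.Icc (e - i) e : Finset ℕ) : Set ℕ).PairwiseDisjoint D ∧
      ((Finset.Icc (e - i) e).biUnion D).card = p ^ i := by
    intro i hi
    induction i with
    | zero =>
      refine ⟨fun _ => cls (p ^ e) (p ^ e) (c (p ^ e)), fun l hl hl' => ?_, ?_, ?_⟩
      · obtain rfl : l = e := by omega
        refine ⟨subset_rfl, ?_⟩
        simp [card_cls hK dvd_rfl, Nat.div_self hK]
      · simp
      · simp [card_cls hK dvd_rfl, Nat.div_self hK]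
    | succ i ih =>
      obtain ⟨D, hD, hdisj, hcard⟩ := ih (by omega)
      set l0 := e - (i + 1) with hl0
      have he : e - i = l0 + 1 := by omega
      set used := (Finset.Icc (e - i) e).biUnion D with hused
      set C0 := cls (p ^ e) (p ^ l0) (c (p ^ l0)) with hC0
      have hC0card : C0.card = p ^ (i + 1) := by
        rw [hC0, card_cls hK (pow_dvd_pow p (by omega)), Nat.pow_div (by omega) hp.pos]
        congr 1
        omega
      have hroom : Nat.totient (p ^ (i + 1)) ≤ (C0 \ used).card := by
        have h1 := Finset.le_card_sdiff used C0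
        rw [hC0card, hcard] at h1
        refine le_trans ?_ h1
        rw [Nat.totient_prime_pow_succ hp, pow_succ, Nat.mul_sub, mul_one]
      obtain ⟨T, hT, hTc⟩ := Finset.exists_subset_card_eq hroom
      have hIcc : Finset.Icc (e - (i + 1)) e = insert l0 (Finset.Icc (e - i) e) := by
        ext x; simp only [Finset.mem_Icc, Finset.mem_insert]; omega
      have hnot : ∀ l ∈ Finset.Icc (e - i) e, l ≠ l0 := fun l hl => by
        simp only [Finset.mem_Icc] at hl; omega
      refine ⟨Function.update D l0 T, fun l hl hl' => ?_, ?_, ?_⟩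
      · by_cases h : l = l0
        · subst h
          rw [Function.update_self]
          exact ⟨hT.trans Finset.sdiff_subset, by rw [hTc]; congr 2; omega⟩
        · rw [Function.update_of_ne h]
          exact hD l (by omega) hl'
      · rw [hIcc, Finset.coe_insert]
        refine Set.PairwiseDisjoint.insert ?_ fun l hl _ => ?_
        · intro a ha b hb hab
          rw [Function.onFun, Function.update_of_ne (hnot a ha), Function.update_of_ne (hnot b hb)]
          exact hdisj ha hb hab
        · rw [Function.update_self, Function.update_of_ne (hnot l hl)]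
          exact disjoint_of_subset_left hT (disjoint_sdiff.symm.mono_right
            (Finset.subset_biUnion_of_mem D hl))
      · rw [hIcc, Finset.biUnion_insert, Function.update_self]
        have hcongr : (Finset.Icc (e - i) e).biUnion (Function.update D l0 T) = used :=
          Finset.biUnion_congr rfl fun l hl => Function.update_of_ne (hnot l hl) _ _
        rw [hcongr, Finset.card_union_of_disjoint (disjoint_of_subset_left hT sdiff_disjoint),
          hTc, hcard, Nat.totient_prime_pow_succ hp, pow_succ, Nat.mul_sub, mul_one]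
        have : p ^ i ≤ p ^ i * p := Nat.le_mul_of_pos_right _ hp.pos
        omega
  obtain ⟨D, hD, hdisj, -⟩ := key e le_rfl
  rw [Nat.sub_self] at hdisj
  refine ⟨fun b => D (b.factorization p), fun b hb => ?_, ?_⟩
  · obtain ⟨l, hl, rfl⟩ := (Nat.mem_divisors_prime_pow hp e).1 hb
    simp only [hp.factorization_pow, Finsupp.single_eq_same]
    rw [Nat.pow_div hl hp.pos]
    exact hD l (by omega) hl
  · intro a ha b hb hab
    obtain ⟨la, hla, rfl⟩ := (Nat.mem_divisors_prime_pow hp e).1 ha
    obtain ⟨lb, hlb, rfl⟩ := (Nat.mem_divisors_prime_pow hp e).1 hb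
    simp only [Function.onFun, hp.factorization_pow, Finsupp.single_eq_same]
    exact hdisj (by simpa using hla) (by simpa using hlb) fun h => hab (h ▸ rfl)

/-- Rogers' inequality with a selection. -/
theorem exists_selection (K : ℕ) (hK : 0 < K) (c : ℕ → ℤ) : ∃ D, IsSelection K c D := by
  classical
  induction K using Nat.recOnPosPrimePosCoprime generalizing c with
  | zero => simp at hK
  | one =>
    refine ⟨fun _ => {0}, fun b hb => ?_, ?_⟩
    · obtain rfl : b = 1 := by simpa using hb
      simp [cls]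
    · simp
  | prime_pow p e hp _ => exact exists_selection_prime_pow hp e c
  | coprime A B hA hB hAB ihA ihB =>
    have hA0 : 0 < A := by omega
    have hB0 : 0 < B := by omega
    choose D1 hD1 hdisj1 using fun b2 : ℕ => ihA hA0 fun b1 => c (b1 * b2)
    -- the divisor of `A` selected by `m1`
    let pick : ℕ → ℕ → ℕ := fun b2 m1 =>
      if h : ∃ b1 ∈ A.divisors, m1 ∈ D1 b2 b1 then h.choose else 1
    have hpick : ∀ b2 m1 b1, b1 ∈ A.divisors → m1 ∈ D1 b2 b1 → pick b2 m1 = b1 := by
      intro b2 m1 b1 h1 hm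
      have hex : ∃ b1 ∈ A.divisors, m1 ∈ D1 b2 b1 := ⟨b1, h1, hm⟩
      simp only [pick, dif_pos hex]
      by_contra hne
      exact Finset.disjoint_left.1 (hdisj1 b2 hex.choose_spec.1 h1 hne) hex.choose_spec.2 hm
    choose D2 hD2 hdisj2 using fun m1 : ℕ => ihB hB0 fun b2 => c (pick b2 m1 * b2)
    refine ⟨fun b => (Finset.range (A * B)).filter (fun m =>
      m % A ∈ D1 (Nat.gcd b B) (Nat.gcd b A) ∧ m % B ∈ D2 (m % A) (Nat.gcd b B)), ?_, ?_⟩
    · intro b hb
      have hb' := Nat.dvd_of_mem_divisors hb
      set b1 := Nat.gcd b A with hb1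
      set b2 := Nat.gcd b B with hb2
      have hb1m : b1 ∈ A.divisors := Nat.mem_divisors.2 ⟨Nat.gcd_dvd_right _ _, hA0.ne'⟩
      have hb2m : b2 ∈ B.divisors := Nat.mem_divisors.2 ⟨Nat.gcd_dvd_right _ _, hB0.ne'⟩
      have hbb : b = b1 * b2 := by
        rw [hb1, hb2, ← Nat.Coprime.gcd_mul b hAB, Nat.gcd_eq_left hb']
      have hcop : Nat.Coprime b1 b2 :=
        (hAB.coprime_dvd_left (Nat.gcd_dvd_right b A)).coprime_dvd_right (Nat.gcd_dvd_right b B)
      constructor
      · intro m hm
        obtain ⟨hmr, hm1, hm2⟩ := Finset.mem_filter.1 hm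
        refine Finset.mem_filter.2 ⟨hmr, ?_⟩
        have e1 := (Finset.mem_filter.1 ((hD1 b2 b1 hb1m).1 hm1)).2
        have e2 := (Finset.mem_filter.1 ((hD2 (m % A) b2 hb2m).1 hm2)).2
        dsimp only at e1 e2
        rw [hpick b2 _ b1 hb1m hm1, ← hbb] at e2
        rw [← hbb] at e1
        rw [hbb, Nat.cast_mul]
        refine IsCoprime.mul_dvd (Int.isCoprime_iff_nat_coprime.2 (by simpa using hcop)) ?_ ?_
        · rw [← hbb]
          have : (m : ℤ) - c b = ((m % A : ℕ) : ℤ) - c b + (A : ℤ) * ((m / A : ℕ) : ℤ) := by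
            have := Nat.mod_add_div m A
            have : ((m % A : ℕ) : ℤ) + (A : ℤ) * ((m / A : ℕ) : ℤ) = m := by exact_mod_cast this
            linarith
          rw [this]
          exact dvd_add e1 ((Int.natCast_dvd_natCast.2 (Nat.gcd_dvd_right b A)).mul_right _)
        · rw [← hbb]
          have : (m : ℤ) - c b = ((m % B : ℕ) : ℤ) - c b + (B : ℤ) * ((m / B : ℕ) : ℤ) := by
            have := Nat.mod_add_div m B
            have : ((m % B : ℕ) : ℤ) + (B : ℤ) * ((m / B : ℕ) : ℤ) = m := by exact_mod_cast this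
            linarith
          rw [this]
          exact dvd_add e2 ((Int.natCast_dvd_natCast.2 (Nat.gcd_dvd_right b B)).mul_right _)
      · have hsum : ((D1 b2 b1).sigma fun m1 => D2 m1 b2).card = Nat.totient (A * B / b) := by
          rw [Finset.card_sigma, Finset.sum_congr rfl fun m1 _ => (hD2 m1 b2 hb2m).2,
            Finset.sum_const, (hD1 b2 b1 hb1m).2, smul_eq_mul,
            ← Nat.totient_mul ((hAB.coprime_dvd_left
              (Nat.div_dvd_of_dvd (Nat.gcd_dvd_right b A))).coprime_dvd_right
              (Nat.div_dvd_of_dvd (Nat.gcd_dvd_right b B))),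
            Nat.div_mul_div_comm (Nat.gcd_dvd_right b A) (Nat.gcd_dvd_right b B), ← hbb]
        rw [← hsum]
        refine Finset.card_bij (fun m _ => ⟨m % A, m % B⟩) ?_ ?_ ?_
        · intro m hm
          obtain ⟨-, hm1, hm2⟩ := Finset.mem_filter.1 hm
          exact Finset.mem_sigma.2 ⟨hm1, hm2⟩
        · intro m hm m' hm' h
          simp only [Sigma.mk.injEq, heq_eq_eq] at h
          have h1 := Finset.mem_range.1 (Finset.mem_filter.1 hm).1
          have h2 := Finset.mem_range.1 (Finset.mem_filter.1 hm').1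
          have := (Nat.modEq_and_modEq_iff_modEq_mul hAB).1 ⟨h.1, h.2⟩
          exact Nat.ModEq.eq_of_lt_of_lt this h1 h2
        · intro x hx
          obtain ⟨hx1, hx2⟩ := Finset.mem_sigma.1 hx
          have hlt1 : x.1 < A := Finset.mem_range.1 (Finset.mem_filter.1 ((hD1 b2 b1 hb1m).1 hx1)).1
          have hlt2 : x.2 < B := Finset.mem_range.1 (Finset.mem_filter.1 ((hD2 x.1 b2 hb2m).1 hx2)).1
          obtain ⟨m, hm1, hm2⟩ := Nat.chineseRemainder hAB x.1 x.2
          refine ⟨m % (A * B), ?_, ?_⟩
          · refine Finset.mem_filter.2 ⟨Finset.mem_range.2 (Nat.mod_lt _ (Nat.mul_pos hA0 hB0)), ?_, ?_⟩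
            · rw [Nat.mod_mul_right_mod, hm1, Nat.mod_eq_of_lt hlt1]; exact hx1
            · rw [Nat.mod_mul_left_mod, hm2, Nat.mod_mul_right_mod, hm1, Nat.mod_eq_of_lt hlt1,
                Nat.mod_eq_of_lt hlt2]
              exact hx2
          · refine Sigma.ext ?_ (heq_of_eq ?_)
            · show m % (A * B) % A = x.1
              rw [Nat.mod_mul_right_mod, hm1, Nat.mod_eq_of_lt hlt1]
            · show m % (A * B) % B = x.2
              rw [Nat.mod_mul_left_mod, hm2, Nat.mod_eq_of_lt hlt2]
    · intro a ha b hb hab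
      rw [Function.onFun, Finset.disjoint_left]
      intro m hma hmb
      obtain ⟨-, a1, a2⟩ := Finset.mem_filter.1 hma
      obtain ⟨-, c1, c2⟩ := Finset.mem_filter.1 hmb
      have hmem : ∀ (t T : ℕ), 0 < T → Nat.gcd t T ∈ T.divisors := fun t T hT =>
        Nat.mem_divisors.2 ⟨Nat.gcd_dvd_right _ _, hT.ne'⟩
      have h2 : Nat.gcd a B = Nat.gcd b B := by
        by_contra hne
        exact Finset.disjoint_left.1 (hdisj2 (m % A) (hmem a B hB0) (hmem b B hB0) hne) a2 c2
      have h1 : Nat.gcd a A = Nat.gcd b A := by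
        by_contra hne
        rw [h2] at a1
        exact Finset.disjoint_left.1 (hdisj1 _ (hmem a A hA0) (hmem b A hA0) hne) a1 c1
      refine hab ?_
      rw [← Nat.gcd_eq_left (Nat.dvd_of_mem_divisors ha), ← Nat.gcd_eq_left (Nat.dvd_of_mem_divisors hb),
        Nat.Coprime.gcd_mul a hAB, Nat.Coprime.gcd_mul b hAB, h1, h2]

end Vale.Agent.P028.Full.Rogers
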