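import Vale.Agent.P028.Full.Reduction
import Vale.Agent.P028.Full.GoodTree
import Vale.Agent.P028.Full.Diagonal
import Vale.Agent.P028.Full.Parts.Separated
import Vale.Agent.P028.Full.Parts.Generic
import Vale.Agent.P028.Full.Parts.Single
import Vale.Agent.P028.Full.Parts.Heavy
import Vale.Agent.P028.Full.Parts.Foreign
import Vale.Agent.P028.Full.Parts.Survivor
import Vale.Agent.P028.Full.Parts.Large

/-!
The second moment bound, assembled from its parts.
-/

noncomputable section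

namespace Vale.Agent.P028.Full

open Finset MeasureTheory

theorem Ctx.term_nonneg (C : Ctx) (q r : ℕ) (h : ∀ q, 0 ≤ C.ψ q) : 0 ≤ C.term q r := by
  have hw : ∀ q, 0 ≤ wt C.ψ q := fun q => mul_nonneg (by positivity) (h q)
  refine mul_nonneg (div_nonneg (mul_nonneg (hw q) (hw r)) ?_) (Finset.sum_nonneg fun n _ => ?_)
  · exact le_max_of_le_left (mul_nonneg (h q) (Nat.cast_nonneg _))
  · have hr : ∀ p ∈ (C.classes.det q ∪ C.classes.det r), 0 ≤ ratio p := by
      intro p hp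
      have hp2 : (2 : ℝ) ≤ p := by
        rcases Finset.mem_union.1 hp with h | h <;>
          exact_mod_cast (Nat.prime_of_mem_primeFactors (C.classes.det_sub _ h)).two_le
      exact div_nonneg (by linarith) (by linarith)
    refine mul_nonneg (mul_nonneg ?_ ?_) ?_ <;> refine Finset.prod_nonneg fun p hp => hr p ?_
    · exact Finset.mem_union_left _ (Finset.mem_filter.1 hp).1
    · exact Finset.mem_union_right _ (Finset.mem_filter.1 hp).1
    · exact Finset.mem_union_left _ (Finset.mem_inter.1 (Finset.mem_filter.1 hp).1).1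

open Classical in
theorem Ctx.part_cases (C : Ctx) (x0 : ℝ) (h : ∀ q, 0 ≤ C.ψ q) :
    C.part x0 (fun _ _ => True) ≤
      C.part x0 (fun q r => ¬ C.Same q r) +
      C.part x0 (fun q r => C.Same q r ∧ ¬ C.BothLight q r) +
      C.part x0 (fun q r => C.Same q r ∧ C.BothLight q r ∧ ¬ C.Exact q r ∧ ¬ C.Small q r) +
      C.part x0 (fun q r => C.Same q r ∧ C.BothLight q r ∧ ¬ C.Exact q r ∧ C.Small q r) +
      C.part x0 (fun q r => C.Same q r ∧ C.BothLight q r ∧ C.Exact q r ∧ C.Foreign q r) +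
      C.part x0 (fun q r => C.Same q r ∧ C.BothLight q r ∧ C.Exact q r ∧ ¬ C.Foreign q r) := by
  simp only [Ctx.part, ← Finset.sum_add_distrib, Finset.sum_filter]
  refine Finset.sum_le_sum fun q _ => Finset.sum_le_sum fun r _ => ?_
  have := C.term_nonneg q r h
  by_cases h1 : C.Same q r <;> by_cases h2 : C.Exact q r <;> by_cases h3 : C.BothLight q r <;>
    by_cases h4 : C.Foreign q r <;> by_cases h5 : C.Small q r <;> simp [h1, h2, h3, h4, h5]

open Classical in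
/-- The second moment bound. -/
theorem secondMoment : SecondMoment := by
  obtain ⟨c1, hc1, h1⟩ := partBound_separated
  obtain ⟨c2, hc2, h2⟩ := partBound_generic
  obtain ⟨c3, hc3, h3⟩ := partBound_heavy
  obtain ⟨c4, hc4, h4⟩ := partBound_foreign
  obtain ⟨c5, hc5, h5⟩ := partBound_survivor
  obtain ⟨c7, hc7, h7⟩ := partBound_single
  obtain ⟨c6, hc6, h6⟩ := exists_large_le
  set c := min c1 (min c2 (min c3 (min c4 (min c5 (min c6 c7))))) with hcdef
  have hc : 0 < c := by simp only [hcdef, lt_min_iff]; exact ⟨hc1, hc2, hc3, hc4, hc5, hc6, hc7⟩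
  obtain ⟨x1, hx1, g1⟩ := h1 c hc (by simp [hcdef])
  obtain ⟨x2, hx2, g2⟩ := h2 c hc (by simp [hcdef])
  obtain ⟨x3, hx3, g3⟩ := h3 c hc (by simp [hcdef])
  obtain ⟨x4, hx4, g4⟩ := h4 c hc (by simp [hcdef])
  obtain ⟨x5, hx5, g5⟩ := h5 c hc (by simp [hcdef])
  obtain ⟨x6, hx6, g6⟩ := h6 c hc (by simp [hcdef])
  obtain ⟨x7, hx7, g7⟩ := h7 c hc (by simp [hcdef])
  set ξ := min (1 / 100) (min x1 (min x2 (min x3 (min x4 (min x5 (min x6 x7)))))) with hξdef
  have hξ : 0 < ξ := by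
    simp only [hξdef, lt_min_iff]; exact ⟨by norm_num, hx1, hx2, hx3, hx4, hx5, hx6, hx7⟩
  obtain ⟨M1, f1⟩ := g1 ξ hξ (by simp [hξdef])
  obtain ⟨M2, f2⟩ := g2 ξ hξ (by simp [hξdef])
  obtain ⟨M3, f3⟩ := g3 ξ hξ (by simp [hξdef])
  obtain ⟨M4, f4⟩ := g4 ξ hξ (by simp [hξdef])
  obtain ⟨M5, f5⟩ := g5 ξ hξ (by simp [hξdef])
  obtain ⟨M6, f6⟩ := g6 ξ hξ (by simp [hξdef])
  obtain ⟨M7, f7⟩ := g7 ξ hξ (by simp [hξdef])
  set M := M1 + M2 + M3 + M4 + M5 + M6 + M7 with hM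
  obtain ⟨K, hK⟩ := exists_goodTree ξ hξ (min_le_left _ _)
  obtain ⟨B1, y1, hy1, e1⟩ := f1 M (by omega) K
  obtain ⟨B2, y2, hy2, e2⟩ := f2 M (by omega) K
  obtain ⟨B3, y3, hy3, e3⟩ := f3 M (by omega) K
  obtain ⟨B4, y4, hy4, e4⟩ := f4 M (by omega) K
  obtain ⟨B5, y5, hy5, e5⟩ := f5 M (by omega) K
  obtain ⟨B7, y7, hy7, e7⟩ := f7 M (by omega) K
  set x0 := min y1 (min y2 (min y3 (min y4 (min y5 y7)))) with hx0def
  have hx0 : 0 < x0 := by simp only [hx0def, lt_min_iff]; exact ⟨hy1, hy2, hy3, hy4, hy5, hy7⟩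
  obtain ⟨B6, e6⟩ := f6 M (by omega) K x0 hx0
  refine ⟨8 + 2 * (B1 + B2 + B3 + B4 + B5 + B6 + B7), 1 / 2, by norm_num, ?_⟩
  intro γ ψ S _ _ hS hmass
  set ψ' : ℕ → ℝ := fun q => if q ∈ S then ψ q else 0 with hψ'def
  have hψ'0 : ∀ q, 0 ≤ ψ' q := fun q => by
    simp only [hψ'def]; split_ifs with hh
    · exact (hS q hh).2.1.le
    · exact le_rfl
  have hwt : ∀ q ∈ S, wt ψ' q = wt ψ q := fun q hq => by simp [wt, hψ'def, hq]
  obtain ⟨k, hk⟩ := hK S (wt ψ') (fun v hv => (hS v hv).1)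
    (fun v => mul_nonneg (by positivity) (hψ'0 v))
  let C : Ctx := ⟨⟨M, c⟩, γ, ψ', S, k⟩
  have hmass' : mass ψ' S ≤ 2 := by
    rw [mass, Finset.sum_congr rfl hwt]; exact hmass
  have hok : C.Ok ξ K := ⟨fun q hq => (hS q hq).1,
    fun q hq => by
      show 0 < if q ∈ S then ψ q else 0
      rw [if_pos (show q ∈ S from hq)]
      exact (hS q hq).2.1,
    fun q hq => by
      show (if q ∈ S then ψ q else 0) ≤ 1 / 2
      rw [if_pos (show q ∈ S from hq)]
      exact (hS q hq).2.2, hψ'0, hmass', hk⟩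
  refine ⟨C.classes, ?_⟩
  have hb : ∀ q ∈ S, bumpC γ ψ C.classes q = bumpC γ ψ' C.classes q := fun q hq => by
    funext x; simp [bumpC, hψ'def, hq]
  have hsum : ∑ q ∈ S, ∑ r ∈ S, ∫ x, bumpC γ ψ C.classes q x * bumpC γ ψ C.classes r x ≤
      ∑ q ∈ S, (4 * wt ψ' q + ∑ r ∈ S.filter (fun r => r ≠ q), 2 * C.term q r) := by
    refine Finset.sum_le_sum fun q hq => ?_
    rw [← Finset.add_sum_erase S _ hq, Finset.filter_ne']
    refine add_le_add ?_ (Finset.sum_le_sum fun r hr => ?_)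
    · rw [hb q hq]
      exact exists_diagonal_le γ ψ' C.classes q (hS q hq).1 (hψ'0 q) (hok.psi_le q hq)
    · obtain ⟨-, hr⟩ := Finset.mem_erase.1 hr
      rw [hb q hq, hb r hr]
      refine (integral_bumpC_mul_le γ ψ' C.classes q r (hS q hq).1 (hS r hr).1 (hok.psi_pos q hq)
        (hok.psi_pos r hr)).trans (le_of_eq ?_)
      show _ = 2 * (wt ψ' q * wt ψ' r / dist2 ψ' q r * _)
      ring
  refine hsum.trans ?_
  rw [Finset.sum_add_distrib, ← Finset.mul_sum]
  have hsplit : ∑ q ∈ S, ∑ r ∈ S.filter (fun r => r ≠ q), C.term q r =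
      C.part x0 (fun _ _ => True) +
        ∑ q ∈ C.S, ∑ r ∈ C.S.filter (fun r => r ≠ q ∧ x0 ≤ dist2 C.ψ q r), C.term q r := by
    simp only [Ctx.part, ← Finset.sum_add_distrib, Finset.sum_filter]
    refine Finset.sum_congr rfl fun q _ => Finset.sum_congr rfl fun r _ => ?_
    by_cases h1 : r = q
    · simp [h1]
    · by_cases h2 : dist2 C.ψ q r < x0
      · simp [h1, h2, not_le.2 h2]
      · simp [h1, h2, not_lt.1 h2]
  have hm : ∑ q ∈ S, wt ψ' q ≤ 2 := hmass'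
  have htot : ∑ q ∈ S, ∑ r ∈ S.filter (fun r => r ≠ q), 2 * C.term q r ≤
      2 * (B1 + B2 + B3 + B4 + B5 + B6 + B7) := by
    simp only [← Finset.mul_sum]
    rw [hsplit]
    have := C.part_cases x0 hψ'0
    have := e1 x0 hx0 (by simp [hx0def]) C rfl hok
    have := e2 x0 hx0 (by simp [hx0def]) C rfl hok
    have := e3 x0 hx0 (by simp [hx0def]) C rfl hok
    have := e4 x0 hx0 (by simp [hx0def]) C rfl hok
    have := e5 x0 hx0 (by simp [hx0def]) C rfl hok
    have := e6 C rfl hok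
    have := e7 x0 hx0 (by simp [hx0def]) C rfl hok
    linarith
  linarith

/-- Weak inhomogeneous Duffin-Schaeffer for every shift and every `ψ`. -/
theorem weakDS (γ : ℝ) (ψ : ℕ → ℝ) (hψ : ∀ q, 0 ≤ ψ q)
    (hdiv : ¬ Summable (fun q : ℕ => (Nat.totient q : ℝ) / q * ψ q)) :
    volume (approxSet γ ψ)ᶜ = 0 :=
  weakDS_of_secondMoment secondMoment γ ψ hψ hdiv

end Vale.Agent.P028.Full
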