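import Vale.Agent.P028.Full.Defs
import Vale.Agent.P028.Smooth

/-!
The tree of rough clusters: the primes are processed downwards and a cell is split at a prime
unless one valuation carries almost all of its mass.

The potential `∑ v, F v * (mass of the cell of v) ^ ξ` pays for the pairs separated by a split,
and the pairs which deviate on both sides in a concentrated cell are summable over the primes.
-/

noncomputable section

namespace Vale.Agent.P028.Full

open Finset

/-- Above `Y` the pair lies in one cell and no prime deviates from the centre on both sides. -/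
def SameCell (k : ℕ → ℕ → ℕ) (Y v w : ℕ) : Prop :=
  ∀ p : ℕ, p.Prime → Y < p → k v p = k w p ∧ (v.factorization p = k v p ∨ w.factorization p = k w p)

/-- A kernel which gains at every separated prime. -/
def GainsAt (ξ G : ℝ) (S : Finset ℕ) (F : ℕ → ℝ) (K : ℕ → ℕ → ℝ) : Prop :=
  ∀ (p i j : ℕ) (V W : Finset ℕ), p.Prime → V ⊆ S → W ⊆ S →
    (∀ v ∈ V, v.factorization p = i) → (∀ w ∈ W, w.factorization p = j) →
    ∑ v ∈ V, ∑ w ∈ W, K v w * (F v * F w) ≤
      G * (p : ℝ) ^ (-(alphaX ξ * (Nat.dist i j : ℝ))) *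
        massFac ξ (∑ v ∈ V, F v) (∑ w ∈ W, F w)

namespace Tree

/-- The mass of the members of `C` with valuation `i` at `p`. -/
def fib (F : ℕ → ℝ) (C : Finset ℕ) (p i : ℕ) : ℝ :=
  ∑ v ∈ C.filter (fun v => v.factorization p = i), F v

/-- A valuation carrying the largest mass. -/
def ctr (F : ℕ → ℝ) (N : ℕ) (C : Finset ℕ) (p : ℕ) : ℕ :=
  Classical.choose (Finset.exists_max_image (Finset.range (N + 1)) (fib F C p)
    ⟨0, Finset.mem_range.2 N.succ_pos⟩)

theorem ctr_spec (F : ℕ → ℝ) (N : ℕ) (C : Finset ℕ) (p : ℕ) :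
    ctr F N C p ∈ Finset.range (N + 1) ∧
      ∀ i ∈ Finset.range (N + 1), fib F C p i ≤ fib F C p (ctr F N C p) :=
  Classical.choose_spec (Finset.exists_max_image (Finset.range (N + 1)) (fib F C p)
    ⟨0, Finset.mem_range.2 N.succ_pos⟩)

/-- The cell is split at `p`: no valuation carries all but a share `t p` of it. -/
def Splits (F : ℕ → ℝ) (t : ℕ → ℝ) (N : ℕ) (C : Finset ℕ) (p : ℕ) : Prop :=
  p.Prime ∧ fib F C p (ctr F N C p) < (1 - t p) * ∑ v ∈ C, F v

open Classical in
/-- The cell of `v` after the primes above `N - m` have been processed. -/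
def cell (F : ℕ → ℝ) (t : ℕ → ℝ) (N : ℕ) (S : Finset ℕ) : ℕ → ℕ → Finset ℕ
  | 0, _ => S
  | m + 1, v =>
    if Splits F t N (cell F t N S m v) (N - m) then
      (cell F t N S m v).filter (fun u => u.factorization (N - m) = v.factorization (N - m))
    else cell F t N S m v

open Classical in
/-- The centre of the cell of `v` at `p`. -/
def centreAt (F : ℕ → ℝ) (t : ℕ → ℝ) (N : ℕ) (S : Finset ℕ) (v p : ℕ) : ℕ :=
  if p ≤ N then
    if Splits F t N (cell F t N S (N - p) v) p then v.factorization p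
    else ctr F N (cell F t N S (N - p) v) p
  else 0

variable {F : ℕ → ℝ} {t : ℕ → ℝ} {N : ℕ} {S : Finset ℕ}

theorem cell_subset (m v : ℕ) : cell F t N S m v ⊆ S := by
  induction m with
  | zero => exact subset_rfl
  | succ m ih =>
    rw [cell]
    split
    · exact (Finset.filter_subset _ _).trans ih
    · exact ih

theorem mem_cell {v : ℕ} (hv : v ∈ S) (m : ℕ) : v ∈ cell F t N S m v := by
  induction m with
  | zero => exact hv
  | succ m ih =>
    rw [cell]
    split
    · exact Finset.mem_filter.2 ⟨ih, rfl⟩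
    · exact ih

theorem cell_eq_of_mem {m v u : ℕ} (h : u ∈ cell F t N S m v) :
    cell F t N S m u = cell F t N S m v := by
  induction m with
  | zero => rfl
  | succ m ih =>
    by_cases hs : Splits F t N (cell F t N S m v) (N - m)
    · rw [cell, if_pos hs] at h
      obtain ⟨hu, he⟩ := Finset.mem_filter.1 h
      rw [cell, cell, ih hu, if_pos hs, if_pos hs]
      simp only [he]
    · rw [cell, if_neg hs] at h
      rw [cell, cell, ih h, if_neg hs, if_neg hs]

theorem sum_cells (m : ℕ) (f : ℕ → ℝ) :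
    ∑ v ∈ S, f v = ∑ C ∈ S.image (cell F t N S m), ∑ v ∈ C, f v := by
  rw [← Finset.sum_fiberwise_of_maps_to (g := cell F t N S m)
    (fun v hv => Finset.mem_image_of_mem _ hv)]
  refine Finset.sum_congr rfl fun C hC => ?_
  obtain ⟨v0, -, rfl⟩ := Finset.mem_image.1 hC
  refine Finset.sum_congr ?_ fun _ _ => rfl
  ext u
  rw [Finset.mem_filter]
  exact ⟨fun h => h.2 ▸ mem_cell h.1 m, fun h => ⟨cell_subset m v0 h, cell_eq_of_mem h⟩⟩

theorem fib_nonneg (hF : ∀ v, 0 ≤ F v) (C : Finset ℕ) (p i : ℕ) : 0 ≤ fib F C p i :=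
  Finset.sum_nonneg fun v _ => hF v

theorem sum_fib {C : Finset ℕ} {p : ℕ} (h : ∀ v ∈ C, v.factorization p ∈ Finset.range (N + 1)) :
    ∑ i ∈ Finset.range (N + 1), fib F C p i = ∑ v ∈ C, F v :=
  Finset.sum_fiberwise_of_maps_to h F

/-! ### Estimates for one cell -/

/-- A symmetric kernel with bounded rows against `(m i * m j) ^ θ`. -/
theorem weighted_sq_le {θ H R : ℝ} (hθ : 1 / 2 ≤ θ) (hH : 0 ≤ H) (hR : 0 ≤ R) (s : Finset ℕ)
    (m : ℕ → ℝ) (hm : ∀ i, 0 ≤ m i) (hsum : ∑ i ∈ s, m i ≤ H)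
    (w : ℕ → ℕ → ℝ) (hw : ∀ i j, 0 ≤ w i j) (hsym : ∀ i j, w i j = w j i)
    (hrow : ∀ i, ∑ j ∈ s, w i j ≤ R) :
    ∑ i ∈ s, ∑ j ∈ s, (m i * m j) ^ θ * w i j ≤ R * H ^ (2 * θ) := by
  have hpow : ∀ z, 0 ≤ z → z ≤ H → (z ^ θ) ^ 2 ≤ H ^ (2 * θ - 1) * z := by
    intro z hz hzh
    have e : (z ^ θ) ^ 2 = z ^ (2 * θ - 1) * z := by
      conv_rhs => rw [← Real.rpow_add_one' hz (by linarith)]
      rw [← Real.rpow_natCast (z ^ θ) 2, ← Real.rpow_mul hz]
      congr 1
      push_cast
      ring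
    rw [e]
    exact mul_le_mul_of_nonneg_right (Real.rpow_le_rpow hz hzh (by linarith)) hz
  have hle : ∀ i ∈ s, m i ≤ H := fun i hi => (Finset.single_le_sum (fun j _ => hm j) hi).trans hsum
  calc ∑ i ∈ s, ∑ j ∈ s, (m i * m j) ^ θ * w i j
      ≤ ∑ i ∈ s, ∑ j ∈ s, H ^ (2 * θ - 1) * ((m i + m j) / 2) * w i j := by
        refine Finset.sum_le_sum fun i hi => Finset.sum_le_sum fun j hj => ?_
        refine mul_le_mul_of_nonneg_right ?_ (hw i j)
        rw [Real.mul_rpow (hm i) (hm j)]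
        nlinarith [hpow _ (hm i) (hle i hi), hpow _ (hm j) (hle j hj),
          sq_nonneg (m i ^ θ - m j ^ θ)]
    _ = H ^ (2 * θ - 1) / 2 * (∑ i ∈ s, m i * ∑ j ∈ s, w i j
          + ∑ j ∈ s, m j * ∑ i ∈ s, w j i) := by
        have e2 : ∑ i ∈ s, ∑ j ∈ s, m j * w i j = ∑ j ∈ s, m j * ∑ i ∈ s, w j i := by
          rw [Finset.sum_comm]
          refine Finset.sum_congr rfl fun j _ => ?_
          rw [Finset.mul_sum]
          exact Finset.sum_congr rfl fun i _ => by rw [hsym i j]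
        nth_rewrite 2 [← e2]
        simp only [Finset.mul_sum, ← Finset.sum_add_distrib]
        exact Finset.sum_congr rfl fun i _ => Finset.sum_congr rfl fun j _ => by ring
    _ ≤ H ^ (2 * θ - 1) / 2 * (∑ i ∈ s, m i * R + ∑ j ∈ s, m j * R) := by
        gcongr with i _ j _
        · exact hm i
        · exact hrow i
        · exact hm j
        · exact hrow j
    _ ≤ H ^ (2 * θ - 1) / 2 * (H * R + H * R) := by
        rw [← Finset.sum_mul]
        gcongr
    _ = R * (H ^ (2 * θ - 1) * H) := by ring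
    _ = R * H ^ (2 * θ) := by rw [← Real.rpow_add_one' hH (by linarith), sub_add_cancel]

theorem massFac_le {ξ m m' M : ℝ} (hξ : 0 ≤ ξ) (hm : 0 ≤ m) (hm' : 0 ≤ m') (h : m + m' ≤ M) :
    massFac ξ m m' ≤ M ^ (ξ / 7) * (m * m') ^ thetaX ξ :=
  mul_le_mul_of_nonneg_right (Real.rpow_le_rpow (add_nonneg hm hm') h (by linarith))
    (Real.rpow_nonneg (mul_nonneg hm hm') _)

/-- Pairs of a split cell which are separated at `p`, against the deficit of the potential. -/
theorem cross_arith {ξ t A : ℝ} {p N k : ℕ} (hξ : 0 < ξ) (hξ1 : ξ ≤ 1 / 100) (hA : 0 ≤ A)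
    (hp : 0 < p) (ht : t = (p : ℝ) ^ (-(1 - ξ / 2))) (m : ℕ → ℝ) (hm : ∀ i, 0 ≤ m i)
    (hk : k ∈ Finset.range (N + 1)) (hmax : ∀ i ∈ Finset.range (N + 1), m i ≤ m k)
    (hsplit : m k < (1 - t) * ∑ i ∈ Finset.range (N + 1), m i)
    (hu1 : (p : ℝ) ^ (-alphaX ξ) < 1)
    (hA' : 2 * (p : ℝ) ^ (-alphaX ξ) / (1 - (p : ℝ) ^ (-alphaX ξ)) ≤
      A * (p : ℝ) ^ (-alphaX ξ)) :
    ∑ i ∈ Finset.range (N + 1), ∑ j ∈ (Finset.range (N + 1)).filter (fun j => j ≠ i),
        ((p : ℝ) ^ (-alphaX ξ)) ^ Nat.dist i j * massFac ξ (m i) (m j) ≤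
      3 * A / ξ * (p : ℝ) ^ (-(ξ / 20)) *
        ((∑ i ∈ Finset.range (N + 1), m i) ^ (1 + ξ) -
          ∑ i ∈ Finset.range (N + 1), m i * m i ^ ξ) := by
  set θ := thetaX ξ with hθd
  have hθ : θ = 1 / 2 + 3 * ξ / 7 := rfl
  set α := alphaX ξ with hαd
  have hα : α = 1 / 2 - 4 * ξ / 7 := rfl
  set u : ℝ := (p : ℝ) ^ (-α) with hu
  have hp0 : (0 : ℝ) < p := by exact_mod_cast hp
  have hu0 : 0 ≤ u := Real.rpow_nonneg hp0.le _
  set s := Finset.range (N + 1) with hs
  set M := ∑ i ∈ s, m i with hM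
  have ht0 : 0 < t := ht ▸ Real.rpow_pos_of_pos hp0 _
  have hMk : m k ≤ M := Finset.single_le_sum (fun i _ => hm i) hk
  have hMpos : 0 < M := by nlinarith [hm k]
  set H := M - m k with hH
  have hHt : t * M ≤ H := by linarith
  have hH0 : 0 < H := lt_of_lt_of_le (mul_pos ht0 hMpos) hHt
  have hHM : H ≤ M := by linarith [hm k]
  set r := s.filter (fun j => j ≠ k) with hr
  have hsplit' : ∀ f : ℕ → ℝ, ∑ i ∈ s, f i = f k + ∑ i ∈ r, f i := by
    intro f
    rw [hr, Finset.filter_ne', Finset.add_sum_erase _ f hk]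
  have hrH : ∑ i ∈ r, m i ≤ H := by have := hsplit' m; linarith
  -- remove the factor `(m + m') ^ (ξ / 7)` and the diagonal
  set w : ℕ → ℕ → ℝ := fun i j => if j ≠ i then u ^ Nat.dist i j else 0 with hw
  have hw0 : ∀ i j, 0 ≤ w i j := fun i j => by simp only [hw]; split <;> positivity
  have hwsym : ∀ i j, w i j = w j i := fun i j => by
    simp only [hw, Nat.dist_comm i j, ne_comm (a := j)]
  have hrows : ∀ i, ∑ j ∈ r, w i j ≤ A * u := by
    intro i
    refine (Finset.sum_le_sum_of_subset_of_nonneg (Finset.filter_subset _ _)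
      fun j _ _ => hw0 i j).trans ?_
    rw [hw, ← Finset.sum_filter]
    exact (Smooth.sum_dist_ne_le hu0 hu1 (N + 1) i).trans hA'
  have hT : ∑ i ∈ s, ∑ j ∈ s, (m i * m j) ^ θ * w i j ≤ 3 * A * u * (M * H) ^ θ := by
    have hoff := weighted_sq_le (θ := θ) (by linarith) hH0.le (mul_nonneg hA hu0) r m hm hrH w hw0
      hwsym hrows
    have hcol : ∑ j ∈ r, (m k * m j) ^ θ * w k j ≤ A * u * (M * H) ^ θ := by
      refine le_trans (Finset.sum_le_sum (g := fun j => (M * H) ^ θ * w k j) fun j hj => ?_) ?_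
      · refine mul_le_mul_of_nonneg_right (Real.rpow_le_rpow (mul_nonneg (hm k) (hm j)) ?_
          (by linarith)) (hw0 k j)
        exact mul_le_mul hMk ((Finset.single_le_sum (fun i _ => hm i) hj).trans hrH) (hm j) hMpos.le
      · rw [← Finset.mul_sum, mul_comm (A * u)]
        exact mul_le_mul_of_nonneg_left (hrows k) (Real.rpow_nonneg (by positivity) _)
    have hH2 : H ^ (2 * θ) ≤ (M * H) ^ θ := by
      rw [Real.rpow_mul hH0.le, Real.rpow_two, sq]
      exact Real.rpow_le_rpow (by positivity) (mul_le_mul_of_nonneg_right hHM hH0.le) (by linarith)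
    have hkk : w k k = 0 := by simp [hw]
    have e : ∑ i ∈ s, ∑ j ∈ s, (m i * m j) ^ θ * w i j =
        ∑ j ∈ r, (m k * m j) ^ θ * w k j + (∑ i ∈ r, (m k * m i) ^ θ * w k i +
          ∑ i ∈ r, ∑ j ∈ r, (m i * m j) ^ θ * w i j) := by
      have e3 : ∀ i ∈ r, ∑ j ∈ s, (m i * m j) ^ θ * w i j =
          (m k * m i) ^ θ * w k i + ∑ j ∈ r, (m i * m j) ^ θ * w i j := fun i _ => by
        rw [hsplit' (fun j => (m i * m j) ^ θ * w i j)]
        simp only [mul_comm (m i) (m k), hwsym i k]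
      refine (hsplit' (fun i => ∑ j ∈ s, (m i * m j) ^ θ * w i j)).trans ?_
      refine congr_arg₂ (· + ·) ?_ ((Finset.sum_congr rfl e3).trans Finset.sum_add_distrib)
      refine (hsplit' (fun j => (m k * m j) ^ θ * w k j)).trans ?_
      simp only [hkk, mul_zero, zero_add]
    rw [e]
    have := mul_le_mul_of_nonneg_left hH2 (mul_nonneg hA hu0)
    linarith
  have hLHS : ∑ i ∈ s, ∑ j ∈ s.filter (fun j => j ≠ i), u ^ Nat.dist i j * massFac ξ (m i) (m j) ≤
      M ^ (ξ / 7) * ∑ i ∈ s, ∑ j ∈ s, (m i * m j) ^ θ * w i j := by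
    rw [Finset.mul_sum]
    refine Finset.sum_le_sum fun i hi => ?_
    rw [Finset.sum_filter, Finset.mul_sum]
    refine Finset.sum_le_sum fun j hj => ?_
    simp only [hw]
    by_cases hji : j ≠ i
    · rw [if_pos hji, if_pos hji]
      have hij : m i + m j ≤ M := by
        calc m i + m j = ∑ l ∈ ({i, j} : Finset ℕ), m l := by
              rw [Finset.sum_pair (Ne.symm hji)]
          _ ≤ M := Finset.sum_le_sum_of_subset_of_nonneg (by
              intro l hl
              simp only [Finset.mem_insert, Finset.mem_singleton] at hl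
              rcases hl with rfl | rfl <;> assumption) fun l _ _ => hm l
      calc u ^ Nat.dist i j * massFac ξ (m i) (m j)
          ≤ u ^ Nat.dist i j * (M ^ (ξ / 7) * (m i * m j) ^ θ) :=
            mul_le_mul_of_nonneg_left (massFac_le hξ.le (hm i) (hm j) hij) (pow_nonneg hu0 _)
        _ = _ := by ring
    · rw [if_neg hji, if_neg hji]; simp
  -- the deficit
  have hdef : ξ * H * M ^ ξ ≤ M ^ (1 + ξ) - ∑ i ∈ s, m i * m i ^ ξ := by
    have h1 : ∑ i ∈ s, m i * m i ^ ξ ≤ M * m k ^ ξ := by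
      rw [hM, Finset.sum_mul]
      exact Finset.sum_le_sum fun i hi =>
        mul_le_mul_of_nonneg_left (Real.rpow_le_rpow (hm i) (hmax i hi) hξ.le) (hm i)
    have h2 : m k = M * (1 + -(H / M)) := by rw [hH]; field_simp; ring
    have h3 : (1 + -(H / M)) ^ ξ ≤ 1 + ξ * -(H / M) :=
      rpow_one_add_le_one_add_mul_self
        (by rw [neg_le_neg_iff, div_le_one hMpos]; exact hHM) hξ.le (by linarith)
    have h4 : M * m k ^ ξ ≤ M * (M ^ ξ * (1 + ξ * -(H / M))) := by
      refine mul_le_mul_of_nonneg_left ?_ hMpos.le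
      rw [h2, Real.mul_rpow hMpos.le
        (by have : H / M ≤ 1 := by rw [div_le_one hMpos]; exact hHM
            linarith)]
      exact mul_le_mul_of_nonneg_left h3 (Real.rpow_nonneg hMpos.le _)
    have h5 : M * (M ^ ξ * (1 + ξ * -(H / M))) = M ^ (1 + ξ) - ξ * H * M ^ ξ := by
      rw [Real.rpow_add hMpos, Real.rpow_one]
      field_simp
      ring
    linarith
  -- the exponent
  have hexp : u * t ^ (θ - 1) ≤ (p : ℝ) ^ (-(ξ / 20)) := by
    rw [hu, ht, ← Real.rpow_mul hp0.le, ← Real.rpow_add hp0]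
    refine Real.rpow_le_rpow_of_exponent_le (by exact_mod_cast hp) ?_
    rw [hα, hθ]
    nlinarith
  have hmain : u * (M ^ (ξ / 7) * (M * H) ^ θ) ≤ (p : ℝ) ^ (-(ξ / 20)) * (H * M ^ ξ) := by
    have e1 : H ^ θ = H * H ^ (θ - 1) := by
      rw [mul_comm, ← Real.rpow_add_one hH0.ne', sub_add_cancel]
    have e2 : H ^ (θ - 1) ≤ t ^ (θ - 1) * M ^ (θ - 1) := by
      rw [← Real.mul_rpow ht0.le hMpos.le]
      exact Real.rpow_le_rpow_of_nonpos (by positivity) hHt (by linarith)
    have e3 : M ^ (ξ / 7) * M ^ θ * M ^ (θ - 1) = M ^ ξ := by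
      rw [← Real.rpow_add hMpos, ← Real.rpow_add hMpos]
      congr 1
      rw [hθ]
      ring
    calc u * (M ^ (ξ / 7) * (M * H) ^ θ)
        = u * (M ^ (ξ / 7) * M ^ θ * (H * H ^ (θ - 1))) := by
          rw [Real.mul_rpow hMpos.le hH0.le, e1]; ring
      _ ≤ u * (M ^ (ξ / 7) * M ^ θ * (H * (t ^ (θ - 1) * M ^ (θ - 1)))) := by gcongr
      _ = u * t ^ (θ - 1) * (H * (M ^ (ξ / 7) * M ^ θ * M ^ (θ - 1))) := by ring
      _ ≤ _ := by
          rw [e3]
          exact mul_le_mul_of_nonneg_right hexp (by positivity)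
  refine hLHS.trans ((mul_le_mul_of_nonneg_left hT (Real.rpow_nonneg hMpos.le _)).trans ?_)
  calc M ^ (ξ / 7) * (3 * A * u * (M * H) ^ θ) = 3 * A * (u * (M ^ (ξ / 7) * (M * H) ^ θ)) := by
        ring
    _ ≤ 3 * A * ((p : ℝ) ^ (-(ξ / 20)) * (H * M ^ ξ)) :=
        mul_le_mul_of_nonneg_left hmain (by positivity)
    _ = 3 * A / ξ * (p : ℝ) ^ (-(ξ / 20)) * (ξ * H * M ^ ξ) := by field_simp
    _ ≤ _ := mul_le_mul_of_nonneg_left hdef (by positivity)

/-- Pairs deviating on both sides in a concentrated cell. -/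
theorem off_arith {ξ t A : ℝ} {p N k : ℕ} (hξ : 0 < ξ) (hξ1 : ξ ≤ 1 / 100) (hA : 0 ≤ A)
    (hp : 0 < p) (ht : t = (p : ℝ) ^ (-(1 - ξ / 2))) (m : ℕ → ℝ) (hm : ∀ i, 0 ≤ m i)
    (hk : k ∈ Finset.range (N + 1))
    (hconc : (1 - t) * (∑ i ∈ Finset.range (N + 1), m i) ≤ m k)
    (hu1 : (p : ℝ) ^ (-alphaX ξ) < 1)
    (hA' : 2 * (p : ℝ) ^ (-alphaX ξ) / (1 - (p : ℝ) ^ (-alphaX ξ)) ≤
      A * (p : ℝ) ^ (-alphaX ξ)) :
    ∑ i ∈ (Finset.range (N + 1)).filter (fun i => i ≠ k),
      ∑ j ∈ (Finset.range (N + 1)).filter (fun j => j ≠ k),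
        ((p : ℝ) ^ (-alphaX ξ)) ^ Nat.dist i j * massFac ξ (m i) (m j) ≤
      2 * (1 + A) * (p : ℝ) ^ (-(ξ / 20)) * (p : ℝ) ^ (-(1 + ξ / 4)) *
        (∑ i ∈ Finset.range (N + 1), m i) ^ (1 + ξ) := by
  set θ := thetaX ξ with hθd
  have hθ : θ = 1 / 2 + 3 * ξ / 7 := rfl
  set u : ℝ := (p : ℝ) ^ (-alphaX ξ) with hu
  have hp0 : (0 : ℝ) < p := by exact_mod_cast hp
  have hp1 : (1 : ℝ) ≤ p := by exact_mod_cast hp
  have hu0 : 0 ≤ u := Real.rpow_nonneg hp0.le _
  set s := Finset.range (N + 1) with hs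
  set M := ∑ i ∈ s, m i with hM
  have ht0 : 0 < t := ht ▸ Real.rpow_pos_of_pos hp0 _
  have hM0 : 0 ≤ M := Finset.sum_nonneg fun i _ => hm i
  set r := s.filter (fun i => i ≠ k) with hr
  set H := ∑ i ∈ r, m i with hH
  have hH0 : 0 ≤ H := Finset.sum_nonneg fun i _ => hm i
  have hHt : H ≤ t * M := by
    have : M = m k + H := by rw [hM, hH, hr, Finset.filter_ne', Finset.add_sum_erase _ m hk]
    linarith
  have hrow : ∀ i, ∑ j ∈ r, u ^ Nat.dist i j ≤ 1 + A := by
    intro i
    refine (Finset.sum_le_sum_of_subset_of_nonneg (Finset.filter_subset _ _)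
      fun j _ _ => pow_nonneg hu0 _).trans ?_
    rw [← Finset.sum_filter_add_sum_filter_not s (fun j => j ≠ i), add_comm]
    refine add_le_add ?_ ((Smooth.sum_dist_ne_le hu0 hu1 (N + 1) i).trans
      (hA'.trans (mul_le_of_le_one_right hA hu1.le)))
    calc ∑ j ∈ s.filter (fun j => ¬ j ≠ i), u ^ Nat.dist i j
        ≤ ∑ j ∈ ({i} : Finset ℕ), u ^ Nat.dist i j :=
          Finset.sum_le_sum_of_subset_of_nonneg (fun j hj => by
            simp only [ne_eq, not_not, Finset.mem_filter] at hj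
            exact Finset.mem_singleton.2 hj.2) fun j _ _ => pow_nonneg hu0 _
      _ = 1 := by simp
  have hw := weighted_sq_le (θ := θ) (by linarith) hH0 (by linarith : (0:ℝ) ≤ 1 + A) r m hm le_rfl
    (fun i j => u ^ Nat.dist i j) (fun i j => pow_nonneg hu0 _)
    (fun i j => by simp only [Nat.dist_comm i j]) hrow
  calc ∑ i ∈ r, ∑ j ∈ r, u ^ Nat.dist i j * massFac ξ (m i) (m j)
      ≤ ∑ i ∈ r, ∑ j ∈ r, (2 * H) ^ (ξ / 7) * ((m i * m j) ^ θ * u ^ Nat.dist i j) := by
        refine Finset.sum_le_sum fun i hi => Finset.sum_le_sum fun j hj => ?_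
        have hi' := Finset.single_le_sum (fun l _ => hm l) hi
        have hj' := Finset.single_le_sum (fun l _ => hm l) hj
        calc u ^ Nat.dist i j * massFac ξ (m i) (m j)
            ≤ u ^ Nat.dist i j * ((2 * H) ^ (ξ / 7) * (m i * m j) ^ θ) :=
              mul_le_mul_of_nonneg_left (massFac_le hξ.le (hm i) (hm j) (by linarith))
                (pow_nonneg hu0 _)
          _ = _ := by ring
    _ ≤ (2 * H) ^ (ξ / 7) * ((1 + A) * H ^ (2 * θ)) := by
        simp only [← Finset.mul_sum]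
        exact mul_le_mul_of_nonneg_left hw (Real.rpow_nonneg (by linarith) _)
    _ = (2 : ℝ) ^ (ξ / 7) * ((1 + A) * H ^ (1 + ξ)) := by
        have e : H ^ (ξ / 7) * H ^ (2 * θ) = H ^ (1 + ξ) := by
          rw [← Real.rpow_add' hH0 (by rw [hθ]; linarith)]
          congr 1
          rw [hθ]
          ring
        rw [Real.mul_rpow (by norm_num) hH0, ← e]
        ring
    _ ≤ 2 * ((1 + A) * ((p : ℝ) ^ (-(ξ / 20)) * (p : ℝ) ^ (-(1 + ξ / 4)) * M ^ (1 + ξ))) := by
        have h2 : (2 : ℝ) ^ (ξ / 7) ≤ 2 := by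
          calc (2 : ℝ) ^ (ξ / 7) ≤ (2 : ℝ) ^ (1 : ℝ) :=
                Real.rpow_le_rpow_of_exponent_le (by norm_num) (by linarith)
            _ = 2 := Real.rpow_one _
        refine mul_le_mul h2 (mul_le_mul_of_nonneg_left ?_ (by linarith)) (by positivity)
          (by norm_num)
        refine (Real.rpow_le_rpow hH0 hHt (by linarith)).trans ?_
        rw [Real.mul_rpow ht0.le hM0]
        refine mul_le_mul_of_nonneg_right ?_ (Real.rpow_nonneg hM0 _)
        rw [ht, ← Real.rpow_mul hp0.le, ← Real.rpow_add hp0]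
        refine Real.rpow_le_rpow_of_exponent_le hp1 ?_
        nlinarith
    _ = _ := by ring

end Tree

open Classical Vale.Agent.P028.Full.Tree in
/-- The centres of the tree serve every threshold and every kernel. -/
theorem tree_centreAt_le (ξ : ℝ) (hξ : 0 < ξ) (hξ1 : ξ ≤ 1 / 100) :
    ∃ C : ℝ, 0 < C ∧ ∀ (S : Finset ℕ) (F : ℕ → ℝ), (∀ v ∈ S, 0 < v) → (∀ v, 0 ≤ F v) →
      ∀ (Y : ℕ) (G : ℝ) (K : ℕ → ℕ → ℝ),
        4 ≤ Y → 0 ≤ G → (∀ v w, 0 ≤ K v w) → GainsAt ξ G S F K →
        ∑ v ∈ S, ∑ w ∈ S.filter (fun w => ¬ SameCell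
            (centreAt F (fun p : ℕ => (p : ℝ) ^ (-(1 - ξ / 2))) (S.sup id) S) Y v w),
          K v w * (F v * F w) ≤
          C * G * (Y : ℝ) ^ (-(ξ / 20)) * (∑ v ∈ S, F v) ^ (1 + ξ) := by
  have hα : 0 < alphaX ξ := by unfold alphaX; linarith
  have h4 : (4 : ℝ) ^ (-alphaX ξ) < 1 :=
    Real.rpow_lt_one_of_one_lt_of_neg (by norm_num) (by linarith)
  set A : ℝ := 2 / (1 - (4 : ℝ) ^ (-alphaX ξ)) with hAd
  have hA : 0 ≤ A := div_nonneg (by norm_num) (by linarith)
  have hsum : Summable (fun n : ℕ => (n : ℝ) ^ (-(1 + ξ / 4))) :=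
    Real.summable_nat_rpow.2 (by linarith)
  set Z : ℝ := ∑' n : ℕ, (n : ℝ) ^ (-(1 + ξ / 4)) with hZ
  have hZ0 : 0 ≤ Z := tsum_nonneg fun n => Real.rpow_nonneg (Nat.cast_nonneg n) _
  refine ⟨3 * A / ξ + 2 * (1 + A) * Z + 1, by positivity, ?_⟩
  intro S F hpos hF
  set N := S.sup id with hN
  set t : ℕ → ℝ := fun p => (p : ℝ) ^ (-(1 - ξ / 2)) with ht
  intro Y G K hY hG hK hgain
  set cl := cell F t N S with hcl
  have hfac : ∀ v ∈ S, ∀ p, v.factorization p ∈ Finset.range (N + 1) := fun v hv p =>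
    Finset.mem_range.2 (Nat.lt_succ_of_le ((Nat.factorization_lt p (hpos v hv).ne').le.trans
      (Finset.le_sup (f := id) hv)))
  -- the steps
  set Bad : ℕ → ℕ → ℕ → Prop := fun m v w => w ∈ cl m v ∧
    if Splits F t N (cl m v) (N - m) then v.factorization (N - m) ≠ w.factorization (N - m)
    else v.factorization (N - m) ≠ ctr F N (cl m v) (N - m) ∧
      w.factorization (N - m) ≠ ctr F N (cl m v) (N - m) with hBad
  set L := (Finset.range N).filter (fun m => (N - m).Prime ∧ Y < N - m) with hL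
  set Φ : ℕ → ℝ := fun m => ∑ v ∈ S, F v * (∑ u ∈ cl m v, F u) ^ ξ with hΦ
  have hKF : ∀ v w, 0 ≤ K v w * (F v * F w) := fun v w =>
    mul_nonneg (hK v w) (mul_nonneg (hF v) (hF w))
  -- every bad pair is charged at some step
  have hcover : ∀ v ∈ S, ∀ w ∈ S, ¬ SameCell (centreAt F t N S) Y v w →
      ∃ m ∈ L, Bad m v w := by
    intro v hv w hw hns
    by_contra hno
    push Not at hno
    have heq : ∀ m, m + Y ≤ N → cl m v = cl m w := by
      intro m
      induction m with
      | zero => intro _; rfl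
      | succ m ih =>
        intro hm
        have ihm := ih (by omega)
        have hwv : w ∈ cl m v := ihm ▸ mem_cell hw m
        show cell F t N S (m + 1) v = cell F t N S (m + 1) w
        rw [cell, cell, ← hcl, ← ihm]
        by_cases hs : Splits F t N (cl m v) (N - m)
        · rw [if_pos hs, if_pos hs]
          have hmL : m ∈ L := by
            refine Finset.mem_filter.2 ⟨Finset.mem_range.2 ?_, hs.1, by omega⟩
            have := hs.1.pos
            omega
          have : v.factorization (N - m) = w.factorization (N - m) := by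
            by_contra hne
            exact hno m hmL ⟨hwv, by rw [if_pos hs]; exact hne⟩
          simp only [this]
        · rw [if_neg hs, if_neg hs]
    apply hns
    intro p hp hYp
    by_cases hpN : p ≤ N
    · have hmY : N - p + Y ≤ N := by omega
      have e := heq (N - p) hmY
      have hwv : w ∈ cl (N - p) v := e ▸ mem_cell hw (N - p)
      have hm : N - p ∈ L := Finset.mem_filter.2
        ⟨Finset.mem_range.2 (by have := hp.pos; omega), by rw [Nat.sub_sub_self hpN]; exact hp,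
          by rw [Nat.sub_sub_self hpN]; exact hYp⟩
      have hb := hno (N - p) hm
      simp only [hBad, hwv, true_and, Nat.sub_sub_self hpN] at hb
      rw [show centreAt F t N S v p = if Splits F t N (cl (N - p) v) p then v.factorization p
            else ctr F N (cl (N - p) v) p from if_pos hpN,
        show centreAt F t N S w p = if Splits F t N (cl (N - p) v) p then w.factorization p
            else ctr F N (cl (N - p) v) p by rw [e]; exact if_pos hpN]
      by_cases hs : Splits F t N (cl (N - p) v) p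
      · rw [if_pos hs] at hb
        rw [if_pos hs, if_pos hs]
        push Not at hb
        exact ⟨hb, Or.inl rfl⟩
      · rw [if_neg hs] at hb
        rw [if_neg hs, if_neg hs]
        refine ⟨rfl, ?_⟩
        by_contra h
        push Not at h
        exact hb h
    · have h0 : ∀ u ∈ S, u.factorization p = 0 := fun u hu =>
        Nat.factorization_eq_zero_of_lt (lt_of_le_of_lt (Finset.le_sup (f := id) hu) (by omega))
      simp [centreAt, hpN, h0 v hv, h0 w hw]
  have hsplitL : ∑ v ∈ S, ∑ w ∈ S.filter (fun w => ¬ SameCell (centreAt F t N S) Y v w),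
      K v w * (F v * F w) ≤
      ∑ m ∈ L, ∑ v ∈ S, ∑ w ∈ S.filter (fun w => Bad m v w), K v w * (F v * F w) := by
    rw [Finset.sum_comm (s := L)]
    refine Finset.sum_le_sum fun v hv => ?_
    simp only [Finset.sum_filter]
    rw [Finset.sum_comm (s := L)]
    refine Finset.sum_le_sum fun w hw => ?_
    have hterm : ∀ m ∈ L, 0 ≤ if Bad m v w then K v w * (F v * F w) else 0 := fun m _ => by
      split
      · exact hKF v w
      · exact le_rfl
    by_cases h : SameCell (centreAt F t N S) Y v w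
    · rw [if_neg (not_not.2 h)]
      exact Finset.sum_nonneg hterm
    · rw [if_pos h]
      obtain ⟨m, hm, hb⟩ := hcover v hv w hw h
      refine le_trans (le_of_eq ?_) (Finset.single_le_sum hterm hm)
      rw [if_pos hb]
  have hmono : ∀ m, Φ (m + 1) ≤ Φ m := fun m => by
    refine Finset.sum_le_sum fun v _ => mul_le_mul_of_nonneg_left
      (Real.rpow_le_rpow (Finset.sum_nonneg fun u _ => hF u) ?_ hξ.le) (hF v)
    refine Finset.sum_le_sum_of_subset_of_nonneg ?_ fun u _ _ => hF u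
    show cell F t N S (m + 1) v ⊆ cl m v
    rw [cell]
    split
    · exact Finset.filter_subset _ _
    · exact subset_rfl
  have hΦ0 : ∀ m, 0 ≤ Φ m := fun m => Finset.sum_nonneg fun v _ =>
    mul_nonneg (hF v) (Real.rpow_nonneg (Finset.sum_nonneg fun u _ => hF u) _)
  have hΦm : ∀ m, Φ m ≤ Φ 0 := fun m => antitone_nat_of_succ_le hmono (Nat.zero_le m)
  set a : ℝ := G * (3 * A / ξ) * (Y : ℝ) ^ (-(ξ / 20)) with ha
  set b : ℝ := G * (2 * (1 + A)) * (Y : ℝ) ^ (-(ξ / 20)) with hb
  have ha0 : 0 ≤ a := by positivity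
  have hb0 : 0 ≤ b := by positivity
  have hstep : ∀ m ∈ L, ∑ v ∈ S, ∑ w ∈ S.filter (fun w => Bad m v w), K v w * (F v * F w) ≤
      a * (Φ m - Φ (m + 1)) + b * (((N - m : ℕ) : ℝ) ^ (-(1 + ξ / 4))) * Φ m := by
    intro m hm
    obtain ⟨-, hp, hYp⟩ := Finset.mem_filter.1 hm
    set p := N - m with hpd
    have hp0 : (0 : ℝ) < p := by exact_mod_cast hp.pos
    have hpY : (p : ℝ) ^ (-(ξ / 20)) ≤ (Y : ℝ) ^ (-(ξ / 20)) :=
      Real.rpow_le_rpow_of_nonpos (by exact_mod_cast (by omega : 0 < Y))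
        (by exact_mod_cast hYp.le) (by linarith)
    set u : ℝ := (p : ℝ) ^ (-alphaX ξ) with hu
    have hu4 : u ≤ (4 : ℝ) ^ (-alphaX ξ) :=
      Real.rpow_le_rpow_of_nonpos (by norm_num) (by exact_mod_cast (by omega : 4 ≤ p))
        (by linarith)
    have hu1 : u < 1 := hu4.trans_lt h4
    have hA' : 2 * u / (1 - u) ≤ A * u := by
      rw [hAd, div_mul_eq_mul_div]
      exact div_le_div_of_nonneg_left (by positivity) (by linarith) (by linarith)
    have hupow : ∀ i j : ℕ, (p : ℝ) ^ (-(alphaX ξ * (Nat.dist i j : ℝ))) = u ^ Nat.dist i j := by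
      intro i j
      rw [hu, ← Real.rpow_natCast _ (Nat.dist i j), ← Real.rpow_mul hp0.le, neg_mul]
    rw [Tree.sum_cells (F := F) (t := t) (N := N) m
      (fun v => ∑ w ∈ S.filter (fun w => Bad m v w), K v w * (F v * F w))]
    have eΦ : ∀ c1 c2 : ℝ, c1 * (Φ m - Φ (m + 1)) + c2 * Φ m =
        ∑ C ∈ S.image (cl m), (c1 * (∑ v ∈ C, F v * (∑ u ∈ cl m v, F u) ^ ξ -
          ∑ v ∈ C, F v * (∑ u ∈ cl (m + 1) v, F u) ^ ξ) +
          c2 * ∑ v ∈ C, F v * (∑ u ∈ cl m v, F u) ^ ξ) := by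
      intro c1 c2
      simp only [hΦ]
      rw [Tree.sum_cells (F := F) (t := t) (N := N) m (fun v => F v * (∑ u ∈ cl m v, F u) ^ ξ),
        Tree.sum_cells (F := F) (t := t) (N := N) m
          (fun v => F v * (∑ u ∈ cl (m + 1) v, F u) ^ ξ), ← hcl]
      rw [Finset.sum_add_distrib, ← Finset.mul_sum, ← Finset.mul_sum, Finset.sum_sub_distrib]
    rw [eΦ, ← hcl]
    refine Finset.sum_le_sum fun C hC => ?_
    obtain ⟨v0, hv0, rfl⟩ := Finset.mem_image.1 hC
    set C := cl m v0 with hC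
    have hCS : C ⊆ S := cell_subset m v0
    have hcell : ∀ v ∈ C, cl m v = C := fun v hv => cell_eq_of_mem hv
    set mi := fib F C p with hmi
    set M := ∑ v ∈ C, F v with hM
    have hM0 : 0 ≤ M := Finset.sum_nonneg fun v _ => hF v
    have hsumfib : ∑ i ∈ Finset.range (N + 1), mi i = M := sum_fib fun v hv => hfac v (hCS hv) p
    obtain ⟨hk, hmax⟩ := ctr_spec F N C p
    have epot : ∑ v ∈ C, F v * (∑ u ∈ cl m v, F u) ^ ξ = M ^ (1 + ξ) := by
      rw [Real.rpow_one_add' hM0 (by linarith), hM, Finset.sum_mul]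
      exact Finset.sum_congr rfl fun v hv => by rw [hcell v hv]
    -- the kernel between two fibres
    have hfibre : ∀ i j : ℕ, ∑ v ∈ C.filter (fun v => v.factorization p = i),
        ∑ w ∈ C.filter (fun w => w.factorization p = j), K v w * (F v * F w) ≤
        G * (u ^ Nat.dist i j * massFac ξ (mi i) (mi j)) := by
      intro i j
      refine (hgain p i j _ _ hp ((Finset.filter_subset _ _).trans hCS)
        ((Finset.filter_subset _ _).trans hCS) (fun v hv => (Finset.mem_filter.1 hv).2)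
        (fun v hv => (Finset.mem_filter.1 hv).2)).trans (le_of_eq ?_)
      rw [hupow, mul_assoc]
      rfl
    have hpairs : ∀ (P : ℕ → Prop) (Q : ℕ → ℕ → Prop),
        ∑ v ∈ C.filter (fun v => P (v.factorization p)),
          ∑ w ∈ C.filter (fun w => Q (v.factorization p) (w.factorization p)),
            K v w * (F v * F w) ≤
        G * ∑ i ∈ (Finset.range (N + 1)).filter P,
          ∑ j ∈ (Finset.range (N + 1)).filter (Q i), u ^ Nat.dist i j * massFac ξ (mi i) (mi j) := by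
      intro P Q
      rw [Finset.mul_sum, ← Finset.sum_fiberwise_of_maps_to (g := fun v => v.factorization p)
        (t := (Finset.range (N + 1)).filter P) (fun v hv => Finset.mem_filter.2
          ⟨hfac v (hCS (Finset.mem_filter.1 hv).1) p, (Finset.mem_filter.1 hv).2⟩)]
      refine Finset.sum_le_sum fun i hi => ?_
      rw [Finset.mul_sum]
      refine le_trans (le_of_eq ?_) (Finset.sum_le_sum fun j _ => hfibre i j)
      rw [Finset.sum_comm]
      refine Finset.sum_congr ?_ fun v hv => ?_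
      · rw [Finset.filter_filter]
        exact Finset.filter_congr fun v _ =>
          ⟨fun h => h.2, fun h => ⟨h ▸ (Finset.mem_filter.1 hi).2, h⟩⟩
      · have hvi : v.factorization p = i := (Finset.mem_filter.1 hv).2
        rw [hvi, ← Finset.sum_fiberwise_of_maps_to (g := fun w => w.factorization p)
          (t := (Finset.range (N + 1)).filter (Q i)) (fun w hw => Finset.mem_filter.2
            ⟨hfac w (hCS (Finset.mem_filter.1 hw).1) p, (Finset.mem_filter.1 hw).2⟩)]
        refine Finset.sum_congr rfl fun j hj => Finset.sum_congr ?_ fun _ _ => rfl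
        rw [Finset.filter_filter]
        exact Finset.filter_congr fun w _ =>
          ⟨fun h => h.2, fun h => ⟨h ▸ (Finset.mem_filter.1 hj).2, h⟩⟩
    by_cases hs : Splits F t N C p
    · have eBad : ∀ v ∈ C, S.filter (fun w => Bad m v w) =
          C.filter (fun w => w.factorization p ≠ v.factorization p) := by
        intro v hv
        ext w
        simp only [hBad, Finset.mem_filter, hcell v hv, if_pos hs, ← hpd]
        exact ⟨fun h => ⟨h.2.1, h.2.2.symm⟩, fun h => ⟨hCS h.1, h.1, h.2.symm⟩⟩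
      rw [Finset.sum_congr rfl fun v hv => by rw [eBad v hv]]
      have h1 := hpairs (fun _ => True) (fun i j => j ≠ i)
      simp only [Finset.filter_true] at h1
      have h2 := cross_arith (t := t p) (A := A) hξ hξ1 hA hp.pos rfl mi (fib_nonneg hF C p) hk hmax
        (by rw [hsumfib]; exact hs.2) hu1 hA'
      rw [hsumfib] at h2
      have enext : ∑ v ∈ C, F v * (∑ u ∈ cl (m + 1) v, F u) ^ ξ =
          ∑ i ∈ Finset.range (N + 1), mi i * mi i ^ ξ := by
        rw [← Finset.sum_fiberwise_of_maps_to (g := fun v => v.factorization p)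
          (t := Finset.range (N + 1)) (fun v hv => hfac v (hCS hv) p)]
        refine Finset.sum_congr rfl fun i _ => ?_
        rw [hmi, fib, Finset.sum_mul]
        refine Finset.sum_congr rfl fun v hv => ?_
        obtain ⟨hv, hvi⟩ := Finset.mem_filter.1 hv
        have : cl (m + 1) v = C.filter (fun u => u.factorization p = i) := by
          show cell F t N S (m + 1) v = _
          rw [cell, ← hcl, hcell v hv, if_pos hs]
          simp only [← hpd, hvi]
        rw [this]
      rw [epot, enext]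
      rw [← hu] at h2
      refine le_add_of_le_of_nonneg (le_trans ?_ ((mul_le_mul_of_nonneg_left h2 hG).trans ?_))
        (by positivity)
      · convert h1
        all_goals rfl
      have hdef : 0 ≤ M ^ (1 + ξ) - ∑ i ∈ Finset.range (N + 1), mi i * mi i ^ ξ := by
        rw [Real.rpow_one_add' hM0 (by linarith), ← hsumfib, Finset.sum_mul, sub_nonneg]
        exact Finset.sum_le_sum fun i hi => mul_le_mul_of_nonneg_left
          (Real.rpow_le_rpow (fib_nonneg hF C p i)
            (Finset.single_le_sum (fun l _ => fib_nonneg hF C p l) hi) hξ.le) (fib_nonneg hF C p i)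
      rw [ha, ← mul_assoc, ← mul_assoc]
      gcongr
    · set k := ctr F N C p with hkd
      have eBad : ∀ v ∈ C, S.filter (fun w => Bad m v w) =
          if v.factorization p ≠ k then C.filter (fun w => w.factorization p ≠ k) else ∅ := by
        intro v hv
        ext w
        simp only [hBad, Finset.mem_filter, hcell v hv, ← hpd, if_neg hs, ← hkd]
        by_cases hvk : v.factorization p ≠ k
        · rw [if_pos hvk, Finset.mem_filter]
          exact ⟨fun h => ⟨h.2.1, h.2.2.2⟩, fun h => ⟨hCS h.1, h.1, hvk, h.2⟩⟩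
        · rw [if_neg hvk]
          simpa using fun _ _ h => absurd h hvk
      have esum : ∑ v ∈ C, ∑ w ∈ S.filter (fun w => Bad m v w), K v w * (F v * F w) =
          ∑ v ∈ C.filter (fun v => v.factorization p ≠ k),
            ∑ w ∈ C.filter (fun w => w.factorization p ≠ k), K v w * (F v * F w) := by
        rw [Finset.sum_filter]
        refine Finset.sum_congr rfl fun v hv => ?_
        rw [eBad v hv]
        split
        · rfl
        · exact Finset.sum_empty
      rw [esum]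
      have h1 := hpairs (fun i => i ≠ k) (fun _ j => j ≠ k)
      have hconc : (1 - t p) * M ≤ mi k := by
        rw [Splits] at hs
        push Not at hs
        exact hs hp
      have h2 := off_arith (t := t p) (A := A) hξ hξ1 hA hp.pos rfl mi (fib_nonneg hF C p) hk
        (by rw [hsumfib]; exact hconc) hu1 hA'
      rw [hsumfib] at h2
      have enext : ∑ v ∈ C, F v * (∑ u ∈ cl (m + 1) v, F u) ^ ξ = M ^ (1 + ξ) := by
        rw [← epot]
        refine Finset.sum_congr rfl fun v hv => ?_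
        have : cl (m + 1) v = cl m v := by
          show cell F t N S (m + 1) v = _
          rw [cell, ← hcl, hcell v hv, if_neg hs]
        rw [this]
      rw [epot, enext, sub_self, mul_zero, zero_add]
      rw [← hu] at h2
      refine le_trans ?_ ((mul_le_mul_of_nonneg_left h2 hG).trans ?_)
      · convert h1
        all_goals rfl
      rw [hb, ← mul_assoc, ← mul_assoc, ← mul_assoc]
      gcongr
  have hLsum : ∑ m ∈ L, (((N - m : ℕ) : ℝ) ^ (-(1 + ξ / 4))) ≤ Z := by
    rw [← Finset.sum_image (f := fun n : ℕ => (n : ℝ) ^ (-(1 + ξ / 4))) (g := fun m => N - m)]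
    · exact hsum.sum_le_tsum _ fun n _ => Real.rpow_nonneg (Nat.cast_nonneg n) _
    · intro m hm m' hm' e
      have h1 := Finset.mem_range.1 (Finset.mem_filter.1 hm).1
      have h2 := Finset.mem_range.1 (Finset.mem_filter.1 hm').1
      simp only at e
      omega
  have htel : ∑ m ∈ L, a * (Φ m - Φ (m + 1)) ≤ a * Φ 0 := by
    rw [← Finset.mul_sum]
    refine mul_le_mul_of_nonneg_left ?_ ha0
    calc ∑ m ∈ L, (Φ m - Φ (m + 1)) ≤ ∑ m ∈ Finset.range N, (Φ m - Φ (m + 1)) :=
          Finset.sum_le_sum_of_subset_of_nonneg (Finset.filter_subset _ _)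
            fun m _ _ => sub_nonneg.2 (hmono m)
      _ = Φ 0 - Φ N := Finset.sum_range_sub' Φ N
      _ ≤ Φ 0 := sub_le_self _ (hΦ0 N)
  have htail : ∑ m ∈ L, b * (((N - m : ℕ) : ℝ) ^ (-(1 + ξ / 4))) * Φ m ≤ b * Z * Φ 0 := by
    calc ∑ m ∈ L, b * (((N - m : ℕ) : ℝ) ^ (-(1 + ξ / 4))) * Φ m
        ≤ ∑ m ∈ L, b * (((N - m : ℕ) : ℝ) ^ (-(1 + ξ / 4))) * Φ 0 :=
          Finset.sum_le_sum fun m _ => mul_le_mul_of_nonneg_left (hΦm m)
            (mul_nonneg hb0 (Real.rpow_nonneg (Nat.cast_nonneg _) _))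
      _ = b * (∑ m ∈ L, ((N - m : ℕ) : ℝ) ^ (-(1 + ξ / 4))) * Φ 0 := by
          rw [← Finset.sum_mul, ← Finset.mul_sum]
      _ ≤ b * Z * Φ 0 :=
          mul_le_mul_of_nonneg_right (mul_le_mul_of_nonneg_left hLsum hb0) (hΦ0 0)
  have eΦ0 : Φ 0 = (∑ v ∈ S, F v) ^ (1 + ξ) := by
    rw [Real.rpow_one_add' (Finset.sum_nonneg fun v _ => hF v) (by linarith), Finset.sum_mul]
    rfl
  refine (hsplitL.trans ((Finset.sum_le_sum hstep).trans ?_))
  rw [Finset.sum_add_distrib]
  refine (add_le_add htel htail).trans ?_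
  rw [eΦ0, ha, hb]
  have : 0 ≤ G * (Y : ℝ) ^ (-(ξ / 20)) * (∑ v ∈ S, F v) ^ (1 + ξ) := by
    have : 0 ≤ ∑ v ∈ S, F v := Finset.sum_nonneg fun v _ => hF v
    positivity
  nlinarith

open Classical in
/-- One assignment of centres serves every threshold and every kernel. -/
theorem exists_tree (ξ : ℝ) (hξ : 0 < ξ) (hξ1 : ξ ≤ 1 / 100) :
    ∃ C : ℝ, 0 < C ∧ ∀ (S : Finset ℕ) (F : ℕ → ℝ), (∀ v ∈ S, 0 < v) → (∀ v, 0 ≤ F v) →
      ∃ k : ℕ → ℕ → ℕ, ∀ (Y : ℕ) (G : ℝ) (K : ℕ → ℕ → ℝ),
        4 ≤ Y → 0 ≤ G → (∀ v w, 0 ≤ K v w) → GainsAt ξ G S F K →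
        ∑ v ∈ S, ∑ w ∈ S.filter (fun w => ¬ SameCell k Y v w), K v w * (F v * F w) ≤
          C * G * (Y : ℝ) ^ (-(ξ / 20)) * (∑ v ∈ S, F v) ^ (1 + ξ) := by
  obtain ⟨C, hC, h⟩ := tree_centreAt_le ξ hξ hξ1
  exact ⟨C, hC, fun S F hpos hF => ⟨_, h S F hpos hF⟩⟩

end Vale.Agent.P028.Full
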