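import Vale.Agent.P028.NumberLemmas

/-!
Primes in a short logarithmic interval (note 728 B): a deficient prime at height `exp L` lies in a
prescribed window of logarithmic width `w` with probability `O((w + 1) / L)`.
-/

noncomputable section

namespace Vale.Agent.P028.Full

open Finset

/-- `∑ 1 / p` over primes `p` with `L < log p ≤ L + w` is `O((w + 1) / L)`. -/
theorem sum_inv_prime_window_le (S : Finset ℕ) {L w : ℝ} (hL : 2 ≤ L) (hw : 0 ≤ w)
    (hS : ∀ p ∈ S, p.Prime ∧ L < Real.log p ∧ Real.log p ≤ L + w) :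
    ∑ p ∈ S, 1 / (p : ℝ) ≤ 16 * (w + 1) / L := by
  have hl2 : 0 < Real.log 2 := Real.log_pos one_lt_two
  have hl2' : Real.log 2 ≤ 1 := by linarith [Real.log_two_lt_d9]
  have hl2'' : (1 : ℝ) / 2 ≤ Real.log 2 := by linarith [Real.log_two_gt_d9]
  set a := ⌊L / Real.log 2⌋₊ with ha
  set b := ⌈(L + w) / Real.log 2⌉₊ with hb
  have hLdiv : L ≤ L / Real.log 2 := le_div_self (by linarith) hl2 hl2'
  have ha2 : (L : ℝ) / 2 ≤ a := by
    have := Nat.lt_floor_add_one (L / Real.log 2)
    rw [← ha] at this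
    linarith
  have ha1 : 1 ≤ a := Nat.le_floor (by push_cast; linarith)
  have hab : a ≤ b :=
    (Nat.floor_le_floor (div_le_div_of_nonneg_right (by linarith) hl2.le)).trans
      (Nat.floor_le_ceil _)
  have hbw : (b : ℝ) ≤ a + 2 * w + 2 := by
    have h1 := Nat.ceil_lt_add_one (show (0 : ℝ) ≤ (L + w) / Real.log 2 by positivity)
    have h2 := Nat.lt_floor_add_one (L / Real.log 2)
    have h3 : w / Real.log 2 ≤ 2 * w := by
      rw [div_le_iff₀ hl2]
      nlinarith
    rw [← hb, add_div] at h1
    rw [← ha] at h2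
    linarith
  calc ∑ p ∈ S, 1 / (p : ℝ) ≤ ∑ p ∈ (Finset.Ioc (2 ^ a) (2 ^ b)).filter Nat.Prime, 1 / (p : ℝ) := by
        refine sum_le_sum_of_subset_of_nonneg (fun p hp => ?_) fun p _ _ => by positivity
        obtain ⟨hpp, h1, h2⟩ := hS p hp
        have hp0 : (0 : ℝ) < p := by exact_mod_cast hpp.pos
        refine mem_filter.2 ⟨mem_Ioc.2 ⟨?_, ?_⟩, hpp⟩
        · have : ((2 : ℝ) ^ a) < p := by
            rw [← Real.log_lt_log_iff (by positivity) hp0, Real.log_pow]
            have := Nat.floor_le (show (0 : ℝ) ≤ L / Real.log 2 by positivity)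
            rw [← ha, le_div_iff₀ hl2] at this
            linarith
          exact_mod_cast this
        · have : (p : ℝ) ≤ (2 : ℝ) ^ b := by
            rw [← Real.log_le_log_iff hp0 (by positivity), Real.log_pow]
            have := Nat.le_ceil ((L + w) / Real.log 2)
            rw [← hb, div_le_iff₀ hl2] at this
            linarith
          exact_mod_cast this
    _ ≤ ∑ j ∈ Finset.Ico a b, 4 / (j : ℝ) := sum_inv_prime_Ioc_pow_le a b ha1 hab
    _ ≤ ∑ _j ∈ Finset.Ico a b, 4 / (a : ℝ) := sum_le_sum fun j hj => by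
        have := (mem_Ico.1 hj).1
        exact div_le_div_of_nonneg_left (by norm_num) (by exact_mod_cast ha1) (by exact_mod_cast this)
    _ = ((b : ℝ) - a) * (4 / (a : ℝ)) := by
        rw [sum_const, Nat.card_Ico, nsmul_eq_mul, Nat.cast_sub hab]
    _ ≤ (2 * w + 2) * (4 / (L / 2)) := by
        refine mul_le_mul (by linarith) (div_le_div_of_nonneg_left (by norm_num) (by linarith) ha2)
          (by positivity) (by linarith)
    _ = _ := by field_simp; ring

end Vale.Agent.P028.Full
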